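import Vale.Agent.P277Z.Slc.Basic
import Vale.Agent.P277Z.Val.Sub

/-!
# P277, block CLS: adapted coordinates
-/

open scoped Manifold ContDiff Topology
open Vale.Agent.P272.K Set Filter
open Vale.Agent.P277Z.Slc (LEq Snc Ind dd)
open Vale.Agent.P277Z.Val (IsCo IsSnc)

noncomputable section

namespace Vale.Agent.P277Z.Cls

variable {n : ℕ} {W : Type} [TopologicalSpace W] [ChartedSpace (Cm n) W]
  [IsManifold 𝓘(ℂ, Cm n) ω W]

omit [IsManifold 𝓘(ℂ, Cm n) ω W] in
theorem ind_card {α : Type} [Fintype α] {h : α → W → ℂ} {x : W} (hi : Ind n h x) :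
    Fintype.card α ≤ n := by
  have h1 := (Slc.ind_iff_surj _).1 (hi.2 _ (Slc.at_chartAt x))
  simpa using LinearMap.finrank_le_finrank_of_surjective
    (f := (ContinuousLinearMap.pi fun a => dd (h a) (chartAt (Cm n) x) x).toLinearMap) h1

/-- independent functions are coordinates -/
theorem ind_co {α : Type} [Fintype α] {h : α → W → ℂ} {x : W} (hi : Ind n h x) :
    ∃ (t : W → Cm n) (j : α ↪ Fin n), IsCo n t x ∧ ∀ a y, t y (j a) = h a y := by
  obtain ⟨d, hd⟩ := Nat.exists_eq_add_of_le (ind_card hi)
  have he := Slc.at_chartAt (n := n) x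
  generalize chartAt (Cm n) x = e at he
  obtain ⟨Φ, P, h1, h2, h3, h4⟩ := hi.par hd.symm he
  let σ : α ⊕ Fin d ≃ Fin n := Fintype.equivFinOfCardEq (by simp [hd])
  refine ⟨fun y i => Sum.elim (fun a => h a y) (P (e y)) (σ.symm i),
    ⟨fun a => σ (.inl a), fun a b k => Sum.inl_injective (σ.injective k)⟩,
    Val.isCo_of he (Val.locIso_of_inv (θ := fun w => Φ.symm (fun a => w (σ (.inl a)),
      fun j => w (σ (.inr j)))) (analyticAt_pi_iff.2 fun i => ?_) ?_ ?_),
    fun a y => congrArg _ (σ.symm_apply_apply _)⟩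
  · rcases σ.symm i with a | j
    · exact hi.1 a e he
    · exact (analyticAt_pi_iff.1 (P.analyticAt _) j).congr
        ((e.eventually_right_inverse' he.2).mono fun z k => by simp [k])
  · refine AnalyticAt.fun_comp (g := Φ.symm) (h4 _ ?_) ((AnalyticAt.pi fun _ =>
      Val.an_coord _ _).prod (AnalyticAt.pi fun _ => Val.an_coord _ _))
    have := Φ.map_source h1
    rw [h2] at this
    simpa [e.left_inv he.2] using this
  · filter_upwards [e.eventually_right_inverse' he.2, Φ.eventually_left_inverse h1] with z a b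
    rw [h2] at b
    simpa [a] using b

/-- the two notions of simple normal crossings agree -/
theorem isSnc_of {κ : Type} [Finite κ] {G : κ → Set W} (h : Snc n G) : IsSnc n G := by
  classical
  intro x
  obtain ⟨ζ, h1, h2⟩ := h x
  have := Fintype.ofFinite {l // x ∈ G l}
  obtain ⟨t, j, h3, h4⟩ := ind_co h2
  refine ⟨t, fun l => if a : x ∈ G l then some (j ⟨l, a⟩) else none, h3, fun l l' i a b => ?_,
    eventually_all.2 fun l => ?_⟩
  · dsimp only at a b
    split_ifs at a b
    exact congrArg Subtype.val (j.injective (Option.some_injective _ (a.trans b.symm)))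
  · by_cases a : x ∈ G l
    · filter_upwards [(h1 l).1] with y b
      simp [a, h4, b]
    · filter_upwards [(h1 l).not_mem_near a] with y b
      simp [a, b]

end Vale.Agent.P277Z.Cls
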