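import Vale.Agent.P277Z.Cls.AlvA

/-!
# P277, block CLS: the alive divisor
-/

set_option maxSynthPendingDepth 3

open scoped Manifold ContDiff Topology
open Vale.Agent.P272.K Vale.Agent.P285.H281.FD Vale.Agent.P277 Set Filter MeasureTheory
open Vale.Agent.P277Z.Slc (LEq Ind Snc dd lin)

noncomputable section

namespace Vale.Agent.P277Z.Cls

namespace AlvH

theorem clo {W : Type} [TopologicalSpace W] {T : Set W} (hT : IsPreconnected T) {P : W → Prop}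
    {w : W} (hw : w ∈ T) (h0 : ∀ᶠ v in 𝓝[T] w, P v)
    (h : ∀ v ∈ T, (∃ᶠ x in 𝓝[T] v, ∀ᶠ x' in 𝓝[T] x, P x') → ∀ᶠ x in 𝓝[T] v, P x) :
    ∀ v ∈ T, P v := by
  have h1 : ∀ (Q : W → Prop) v, v ∈ interior {x | x ∈ T → Q x} ↔ ∀ᶠ x in 𝓝[T] v, Q x :=
    fun Q v => mem_interior_iff_mem_nhds.trans eventually_nhdsWithin_iff.symm
  intro v hv
  by_contra h2
  obtain ⟨z, a, b, c⟩ := hT (interior {x | x ∈ T → P x})
    (interior {x | x ∈ T → ¬ ∀ᶠ x' in 𝓝[T] x, P x'}) isOpen_interior isOpen_interior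
    (fun u hu => or_iff_not_imp_left.2 fun a => (h1 _ u).2
      (not_frequently.1 fun b => a ((h1 _ u).2 (h u hu b)))) ⟨w, hw, (h1 _ w).2 h0⟩
    ⟨v, hv, (h1 _ v).2 (not_frequently.1 fun b => h2 ((h v hv b).self_of_nhdsWithin hv))⟩
  exact interior_subset c a ((h1 _ z).1 b)

variable {X : Ctx} {L : Fin X.q → Bd X.V.W} {S : X.Sf L} (M : Md S)

theorem fr_pow {c : Fin S.b → ℤ} {s : Ix L → X.V.W → ℂ} {w : M.Z.W} (h : M.Fr c s w) (d : ℕ) :
    M.Fr (d • c) (fun i z => s i z ^ d) w := by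
  obtain ⟨m, j, v, h1, h2, h3, h4, h5⟩ := h
  refine ⟨m, j, fun z => v z ^ d, h1, h2, fun e he => (h3 e he).pow d, pow_ne_zero _ h4,
    h5.mono fun z a b => ?_⟩
  dsimp only
  rw [a b, mul_pow, ← Finset.prod_pow]
  refine congrArg _ (Finset.prod_congr rfl fun i _ => ?_)
  rw [Pi.smul_apply, nsmul_eq_mul, mul_comm, zpow_mul, zpow_natCast]

variable {M} {y : X.Y.pt} {x : Fin X.q → ℤ} (Ψ : M.Fre y x)

theorem fib (hy : y ∈ M.O) {v : M.Z.W} (hv : v ∈ M.F y) : v ∈ M.b ⁻¹' M.O ∩ M.t ⁻¹' Ψ.Ω := by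
  have h : M.b v = y := hv
  exact ⟨show M.b v ∈ M.O from h ▸ hy, show M.φ (M.b v) ∈ Ψ.Ω from h ▸ Ψ.mem⟩

/-- the components of the fibres of the model are contracted -/
theorem cmp (hGpl : StGpl) (h1 : StApi1) (h2 : StApi2) (hy : y ∈ M.O) {m : Fin (M.R + 1)}
    {w : M.Z.W} (hw : w ∈ M.F y) (hm : w ∈ M.D m) {j : Fin (Ψ.R + 1)} (hj : w ∈ Ψ.D j) :
    ∀ v ∈ connectedComponentIn {v ∈ M.D m | M.b v = y ∧ M.ν m v = M.ν m w} w,
      v ∈ Ψ.D j ∧ Ψ.ν j v = Ψ.ν j w := by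
  have hb : M.b w = y := hw
  have e : {v ∈ M.D m | M.b v = y ∧ M.ν m v = M.ν m w} =
      {v ∈ M.D m | M.φ (X.ψ (M.Z.π v)) = M.φ (X.ψ (M.Z.π w)) ∧ M.ν m v = M.ν m w} :=
    Set.ext fun v => and_congr_right fun a => and_congr_left fun _ =>
      ⟨fun b => congrArg M.φ (b.trans hb.symm), fun b =>
        (tinj M (memO M a) (memO M hm) b).trans hb⟩
  have g := (hGpl M.Z.W M.N _ _ M.Ω M.R M.D M.ν M.prp M.prj M.pm.pm m w hm _
    (congrArg (connectedComponentIn · w) e)).1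
  obtain ⟨h, hh⟩ := exh M h1 h2 hy (Ψ.dg j).mer m
  have k1 : ∀ v ∈ connectedComponentIn {v ∈ M.D m | M.b v = y ∧ M.ν m v = M.ν m w} w,
      v ∈ M.F y ∧ v ∈ M.D m := fun v hv =>
    ⟨(connectedComponentIn_subset _ _ hv).2.1, (connectedComponentIn_subset _ _ hv).1⟩
  have k2 := fun v (a : v ∈ M.F y) b => hh v a b (Ψ.hl j v (fib Ψ hy a))
  have k3 : ∀ v ∈ connectedComponentIn {v ∈ M.D m | M.b v = y ∧ M.ν m v = M.ν m w} w,
      v ∈ Ψ.D j := fun v hv =>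
    (Ψ.fr j v (fib Ψ hy (k1 v hv).1)).2 ((k2 v (k1 v hv).1 (k1 v hv).2).2.1 (by
      rw [g h (fun v a => (k2 v (k1 v a).1 (k1 v a).2).1) v hv]
      exact (k2 w hw hm).2.2 ((Ψ.fr j w (fib Ψ hy hw)).1 hj)))
  exact fun v hv => ⟨k3 v hv, funext fun a =>
    g (fun v => Ψ.ν j v a) (fun v b => Ψ.pm.hol j v (k3 v b) a) v hv⟩

variable {O : Set X.Y.pt} {τ : X.Y.pt → ℂ} {g : ℂ → X.Y.pt} {Δ : Set ℂ}

/-- the map is constant on a surface which lies in one chart -/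
theorem rig (hRig : StRig) (h3 : StApi3) (hG : M.Gen y O τ g Δ) {l} {w : M.Z.W} (hA : M.TyA y l w)
    {j : Fin (Ψ.R + 1)} (hT : M.T y l w ⊆ Ψ.D j) : ∀ v ∈ M.T y l w, Ψ.ν j v = Ψ.ν j w := by
  obtain ⟨t1, t2, t3⟩ := (h3 X L S M y O τ g Δ hG).2.2 l w hA
  have hw : w ∈ M.T y l w := mem_connectedComponentIn ⟨hA.mem, hA.fib⟩
  have k : ∀ v ∈ M.T y l w, ∀ᶠ u in 𝓝[M.T y l w] v, Ψ.ν j u = Ψ.ν j v := fun v hv => by
    have k1 := fun a => (hRig M.Z.W (M.Z.G l) (M.T y l w) (fun v => τ (M.b v))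
      (fun v => Ψ.ν j v a) (τ y) t1 fun u hu => ⟨Ψ.pm.hol j u (hT hu) a, (t3 u hu).2.2.1,
        (t3 u hu).2.2.2.1⟩).self_of_nhdsSet v hv (t3 v hv).1.mem
    refine eventually_nhdsWithin_iff.2 ?_
    filter_upwards [eventually_all.2 k1, (t3 v hv).2.2.2.1] with u a b c
    exact funext fun i => a i (b.1 c).1 ((b.1 c).2.trans (congrArg τ (t3 v hv).1.fib).symm)
  refine clo t2.isPreconnected hw (k w hw) fun v hv a => ?_
  obtain ⟨u, b, c, d⟩ := (a.and_eventually ((k v hv).and eventually_mem_nhdsWithin)).exists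
  exact (k v hv).mono fun _ e => e.trans (c.symm.trans (b.self_of_nhdsWithin d))

/-- the identity theorem on a surface -/
theorem idt (h3 : StApi3) (hG : M.Gen y O τ g Δ) {l} {w : M.Z.W} (hA : M.TyA y l w)
    {j : Fin (Ψ.R + 1)} {η : Cm (Ψ.R + 1)}
    (h : ∀ᶠ v in 𝓝[M.T y l w] w, v ∈ Ψ.D j ∧ Ψ.ν j v = η) : M.T y l w ⊆ Ψ.D j := by
  obtain ⟨t1, t2, t3⟩ := (h3 X L S M y O τ g Δ hG).2.2 l w hA
  have hw : w ∈ M.T y l w := mem_connectedComponentIn ⟨hA.mem, hA.fib⟩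
  refine fun v hv => (clo t2.isPreconnected hw h (fun v hv a => ?_) v hv).1
  obtain ⟨j', hj'⟩ := (Ψ.pm.cover v).1 (fib Ψ hG.mem (t3 v hv).1.fib)
  have k1 : v ∈ Ψ.D j := by
    refine (Ψ.pm.mem j' j v hj').2 fun e => ?_
    have k2 : ContinuousAt (fun u => η j' * Ψ.ν j' u j) v :=
      continuousAt_const.mul (Hol.continuousAt (n := 4) (Ψ.pm.hol j' v hj' j))
    refine one_ne_zero ((tendsto_nhds_unique_of_frequently_eq tendsto_const_nhds
      (k2.mono_left (nhdsWithin_le_nhds (s := M.T y l w))) ?_).trans (by simp only [e, mul_zero]))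
    refine (a.and_eventually (eventually_mem_nhdsWithin.and (mem_nhdsWithin_of_mem_nhds
      ((Ψ.pm.isOpen j').mem_nhds hj')))).mono fun u ⟨b, c, d⟩ => ?_
    obtain ⟨b1, b2⟩ := b.self_of_nhdsWithin c
    rw [← b2, ← Ψ.pm.one j u b1]
    exact congrFun (Ψ.pm.chg j j' u b1 d) j
  filter_upwards [mem_nhdsWithin_of_mem_nhds ((Ψ.pm.isOpen j).mem_nhds k1),
    eventually_all.2 fun i => (t3 v hv).2.2.2.2.2 (fun u => Ψ.ν j u i - η i)
      (fun e he => (Ψ.pm.hol j v k1 i e he).sub analyticAt_const)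
      (a.mono fun u b => b.mono fun u' c => by rw [c.2, sub_self])] with u b c
  exact ⟨b, funext fun i => sub_eq_zero.1 (c i)⟩

end AlvH

open AlvH

theorem stAlv (hSli : StSli) (hFre : StFre) (hGpl : StGpl) (hRig : StRig) (hLev : StLev)
    (hEcho : StEcho) (hOld : StOld) (h1 : StApi1) (h2 : StApi2) (h3 : StApi3) : StAlv := by
  intro X L S M y O τ g Δ hG l w m i hA ⟨hm, ζ, z1, z2⟩ x hx ⟨N, c, s, hd, hf⟩
  have hy := hG.mem
  obtain ⟨Ψ, d, -, e1, e2⟩ := hFre X L S M y hy hG.neg x hx N c s hd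
  obtain ⟨-, -, t3⟩ := (h3 X L S M y O τ g Δ hG).2.2 l w hA
  have hw : w ∈ M.T y l w := mem_connectedComponentIn ⟨hA.mem, hA.fib⟩
  have hT : M.T y l w ⊆ Ψ.D 0 := fun v hv => (Ψ.fr 0 v (fib Ψ hy (t3 v hv).1.fib)).2 (by
    rw [e1, e2]
    exact fr_pow M (hf v hv) d)
  have hc := rig Ψ hRig h3 hG hA hT
  have n1 : Tendsto (fun s : ℂ => ![0, τ y, s]) (𝓝 (M.ν m w i))
      (𝓝 fun a => ![ζ, fun v => τ (M.b v), fun v => M.ν m v i] a w) := by
    refine tendsto_pi_nhds.2 fun a => ?_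
    fin_cases a
    · simpa using (z1.mem.2 hA.mem).symm
    · simpa using congrArg τ hA.fib.symm
    · exact tendsto_id
  have n2 := n1.eventually (opn z2 (z1.1.and ((t3 w hw).2.2.2.1.and
    ((M.pm.pm.isOpen m).mem_nhds hm))))
  have n3 := fun l' => ((hLev M.Z.W 2 (M.Z.G l' ∩ {v | τ (M.b v) = τ y}) fun v => M.ν m v i).1
    (Fin M.N ⊕ Fin (Ψ.R + 1)) (Sum.elim (fun a v => M.t v a - M.φ y a)
      fun a v => Ψ.ν 0 v a - Ψ.ν 0 w a)).ae_notMem volume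
  obtain ⟨s₁, ⟨a5, a6⟩, w₁, ⟨a1, a2, a3⟩, a4⟩ := (Measure.dense_of_ae
    ((hG.reg₂ m i).and (eventually_all.2 n3))).inter_nhds_nonempty n2
  have b1 : w₁ ∈ M.T y l w := a2.2 ⟨a1.1 (congrFun a4 0), congrFun a4 1⟩
  obtain rfl : M.ν m w₁ i = s₁ := congrFun a4 2
  obtain ⟨l', c1, c2, w', c3, c4, c5⟩ :=
    hSli X L S M y O τ g Δ hG m i w₁ (t3 w₁ b1).1.fib a3 a5
  have c6 := cmp Ψ hGpl h1 h2 hy (t3 w₁ b1).1.fib a3 (hT b1)
  obtain ⟨d1, d2, d3⟩ := connectedComponentIn_subset _ _ c3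
  obtain ⟨ζ', f1, -⟩ := M.Z.snc w'
  have f2 := a5 w' d1 (by simp only [d2, d3]) ζ' f1
  have f3 : ∀ᶠ v in 𝓝 w', v ∈ M.Z.G l' → τ (M.b v) = τ y → M.b v = y ∧ Ψ.ν 0 v = Ψ.ν 0 w := by
    have f4 : ∀ᶠ v in 𝓝 w', v ∈ M.Z.G l' ∩ {v | τ (M.b v) = τ y} → ∀ a,
        Sum.elim (fun a v => M.t v a - M.φ y a) (fun a v => Ψ.ν 0 v a - Ψ.ν 0 w a) a v = 0 := by
      refine by_contra fun f4 => a6 l' ⟨w', ⟨c4, congrArg τ d2⟩, congrFun d3 i, ?_,
        ⟨![ζ' l', fun v => τ (M.b v) - τ y], ?_, ?_⟩, ?_, f4⟩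
      · rintro (a | a) e he
        · exact (M.prp.hol w' (memO M d1) a e he).sub analyticAt_const
        · exact (Ψ.pm.hol 0 w' (c6 w' c3).1 a e he).sub analyticAt_const
      · refine ind_tr f2 _ (fun o => o.elim (.inr 1) ![.inl ⟨l', c4⟩, .inr 0]) ?_ ?_
        · rintro (_ | a) (_ | b)
          · simp
          · fin_cases b <;> simp
          · fin_cases a <;> simp
          · fin_cases a <;> fin_cases b <;> simp
        · rintro (_ | a)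
          · exact ⟨_, fun _ => rfl⟩
          · fin_cases a
            · exact ⟨0, fun _ => (sub_zero _).symm⟩
            · exact ⟨0, fun _ => (sub_zero _).symm⟩
      · filter_upwards [(f1 l').1] with v a
        simp [a, sub_eq_zero]
      · filter_upwards [c5] with v a b e
        have k := a b.1 b.2 e
        rintro (r | r)
        · exact sub_eq_zero.2 (congrFun
            (congrArg M.φ (connectedComponentIn_subset _ _ k).2.1) r)
        · exact sub_eq_zero.2 (congrFun ((c6 v k).2.trans (hc w₁ b1)) r)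
    filter_upwards [f4, (M.pm.pm.isOpen m).mem_nhds d1] with v a b e e'
    exact ⟨(tinj M (memO M b) (memO M d1) ((funext fun r => sub_eq_zero.1 (a ⟨e, e'⟩ (.inl r))).trans
      (congrArg M.φ d2).symm)).trans d2, funext fun r => sub_eq_zero.1 (a ⟨e, e'⟩ (.inr r))⟩
  have g1 : M.TyA y l' w' := hG.typ l' w' c4 d2
    (eventually_nhdsWithin_iff.2 (f3.mono fun v a b e => (a b e).1))
  have g2 : M.T y l' w' ⊆ Ψ.D 0 := idt Ψ h3 hG g1 (η := Ψ.ν 0 w) (by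
    refine eventually_nhdsWithin_iff.2 ?_
    filter_upwards [f3, (Ψ.pm.isOpen 0).mem_nhds (c6 w' c3).1] with v a b e
    have k := connectedComponentIn_subset _ _ e
    exact ⟨b, (a k.1 (congrArg τ k.2)).2⟩)
  rcases l' with k | k
  · refine ⟨k, w', ⟨?_, c2, hOld X L S M y O τ g Δ hG k w' g1⟩, g1, ⟨d1, ζ' (.inl k), f1 _, ?_⟩,
      Ψ.N, Ψ.c, Ψ.s 0, Ψ.dg 0, fun v hv => (Ψ.fr 0 v (fib Ψ hy
        (connectedComponentIn_subset _ _ hv).2)).1 (g2 hv)⟩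
    · simpa [exU, Ctx.ex] using c1
    · refine ind_tr f2 _ ![.inl ⟨_, c4⟩, .inr 0, .inr 1] ?_ fun a => ?_
      · intro a b
        fin_cases a <;> fin_cases b <;> simp
      · fin_cases a
        · exact ⟨0, fun _ => (sub_zero _).symm⟩
        · exact ⟨_, fun _ => rfl⟩
        · exact ⟨_, fun _ => rfl⟩
  · exact absurd ((hEcho X L S M k w' c4 (memO M d1)).2 g1.near) (not_le.2 c2)

end Vale.Agent.P277Z.Cls
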