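import Vale.Agent.P277Z.Cls.Sk
import Vale.Agent.P277Z.Cls.Snc
import Vale.Agent.P277Z.Val.Fin
import Vale.Agent.P277Z.Hl.Desc
import Vale.Agent.P277Z.Pj.LocQA

/-!
# P277, block CLS: the modification of a local model (API1)
-/

set_option linter.all false

open scoped Manifold ContDiff Topology
open Vale.Agent.P272.K Vale.Agent.P285.H281.FD Vale.Agent.P277 Set Filter Asymptotics
open Vale.Agent.P277.HD (pull)
open Vale.Agent.P277Z.Val (Lg)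
open Vale.Agent.P277Z.Slc (LEq Snc lin dd)
open Vale.Agent.P277Z.Brg (LBN)
open Vale.Agent.P277Z.Pj (Prp PMap cyl)
open Vale.Agent.P277Z.Hir (Cpb)
open Vale.Agent.P277Z.Lo

noncomputable section

namespace Vale.Agent.P277Z.Cls

namespace A1

section gen

variable {W : Type} [TopologicalSpace W] {w : W}

theorem unif {K : Set W} (hK : IsCompact K) {R : ℕ → W → Prop}
    (mono : ∀ w ∈ K, ∀ n m, n ≤ m → R n w → R m w) (h : ∀ w ∈ K, ∃ n, ∀ᶠ v in 𝓝 w, R n v) :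
    ∃ n, ∀ w ∈ K, R n w := by
  obtain ⟨n, hn⟩ := hK.induction_on (p := fun s => ∃ n, ∀ w ∈ s, w ∈ K → R n w)
    ⟨0, fun _ h => h.elim⟩ (fun s t hst ⟨n, hn⟩ => ⟨n, fun w hw => hn w (hst hw)⟩)
    (fun s t ⟨n, hn⟩ ⟨m, hm⟩ => ⟨max n m, fun w hw hk => hw.elim
      (fun a => mono w hk _ _ (le_max_left _ _) (hn w a hk))
      fun a => mono w hk _ _ (le_max_right _ _) (hm w a hk)⟩)
    fun w hw => let ⟨n, hn⟩ := h w hw; ⟨_, nhdsWithin_le_nhds hn, n, fun _ a _ => a⟩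
  exact ⟨n, fun w hw => hn w hw hw⟩

theorem ole_iff {κ : Type} {E : Set W} {f : W → ℂ} {ζ : κ → W → ℂ} {ex : Finset κ} {K : ℕ} :
    OLe E (fun v => ‖f v‖ * ∏ l ∈ ex, ‖ζ l v‖ ^ K) (fun _ => 1) w ↔
      (fun v => f v * (∏ l ∈ ex, ζ l v) ^ K) =O[𝓝[Eᶜ] w] fun _ => (1 : ℂ) := by
  simp only [OLe, isBigO_iff, eventually_nhdsWithin_iff, norm_mul, norm_pow, norm_prod,
    Finset.prod_pow, norm_one, mem_compl_iff]

theorem bigO_of {a b c : W → ℂ} (hc : ContinuousAt c w) (h : ∀ᶠ v in 𝓝 w, a v = c v * b v) :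
    a =O[𝓝 w] b :=
  ((hc.tendsto.isBigO_one ℂ).mul (isBigO_refl b _)).congr' (h.mono fun _ => Eq.symm)
    (.of_forall fun _ => one_mul _)

theorem pow_bigO {a : W → ℂ} (ha : ContinuousAt a w) {m n : ℕ} (h : m ≤ n) :
    (fun v => a v ^ n) =O[𝓝 w] fun v => a v ^ m :=
  bigO_of (ha.pow (n - m)) (.of_forall fun _ => (pow_sub_mul_pow _ h).symm)

theorem freq_freq {D : Set W} {p : W → Prop} (h : ∃ᶠ v in 𝓝[D] w, ∃ᶠ v' in 𝓝[D] v, p v') :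
    ∃ᶠ v in 𝓝[D] w, p v := fun k =>
  h ((eventually_eventually_nhdsWithin.2 k).mono fun _ a b => b a)

variable [ChartedSpace (Cm 4) W] [IsManifold 𝓘(ℂ, Cm 4) ω W]

theorem leq_unit {G : Set W} {ζ u a : W → ℂ} (h : LEq 4 G w ζ) (hu : Hol 4 u w) (h0 : u w ≠ 0)
    (e : ∀ᶠ v in 𝓝 w, a v = u v * ζ v) : LEq 4 G w a := by
  have he := Slc.at_chartAt (n := 4) w
  refine .of_chart ?_ ((hol_mul hu h.hol).congr (e.mono fun _ => Eq.symm)) he fun k => ?_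
  · filter_upwards [h.1, e, hol_ne hu h0] with v k1 k2 k3
    rw [k2, mul_eq_zero, or_iff_right k3, k1]
  · have k1 : ζ w = 0 := (mul_eq_zero.1 (e.self_of_nhds ▸ k)).resolve_left h0
    rw [Slc.dd_congr e he, Slc.dd_mul hu h.hol k1 he]
    exact smul_ne_zero h0 ((h.2 _ he).2 k1)

theorem freq1 {κ : Type} [Finite κ] {G : κ → Set W} (h : Snc 4 G) {k : κ} (hw : w ∈ G k) :
    ∃ᶠ v in 𝓝[G k] w, ∀ l, l ≠ k → v ∉ G l :=
  frequently_nhdsWithin_iff.2 (((isSnc_of h).freq {k} (by simpa using hw)).mono fun v a =>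
    ⟨fun l b c => b ((a l).1 c), (a k).2 rfl⟩)

theorem closed {κ : Type} {G : κ → Set W} (h : Snc 4 G) (k : κ) : IsClosed (G k) :=
  Slc.isClosed_of_leq fun x => let ⟨ζ, a, _⟩ := h x; ⟨ζ k, a k⟩

theorem prp4 [T2Space W] {N R : ℕ} {O : Set W} {t : W → Cm N} {Ω : Set (Cm N)}
    {D : Fin (R + 1) → Set W} {ν : Fin (R + 1) → W → Cm (R + 1)} (h : Prp 4 O t Ω)
    (hD : PMap 4 O D ν) (m : Fin (R + 1)) :
    Prp 4 (D m) (fun w => (Fin.append (t w) (ν m w) : Cm (N + (R + 1)))) (cyl Ω (R + 1)) := by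
  have hO : ∀ w ∈ D m, w ∈ O := fun w hw => (hD.cover w).2 ⟨m, hw⟩
  have c1 : Continuous fun (z : Cm (N + (R + 1))) (i : Fin N) => z (Fin.castAdd (R + 1) i) := by
    fun_prop
  have c2 : Continuous fun (z : Cm (N + (R + 1))) (i : Fin (R + 1)) => z (Fin.natAdd N i) := by
    fun_prop
  have hh : ∀ w ∈ D m, ∀ i,
      PH.HolF 4 (fun w => (Fin.append (t w) (ν m w) : Cm (N + (R + 1))) i) w := fun w hw i => by
    refine Fin.addCases (fun i => ?_) (fun i => ?_) i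
    · simpa only [Fin.append_left] using h.hol w (hO w hw) i
    · simpa only [Fin.append_right] using hD.hol m w hw i
  refine ⟨hD.isOpen m, h.isOpen'.preimage c1, hh, fun w hw => ?_, fun K hK hc => ?_⟩
  · simpa [cyl] using h.maps (hO w hw)
  have k1 := Pj.LocQ.pmap_cpt hD (h.proper _ (image_subset_iff.2 hK) (hc.image c1))
    inter_subset_left (hc.image c2) m
  have k0 : ContinuousOn (fun w => (Fin.append (t w) (ν m w) : Cm (N + (R + 1)))) (D m) :=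
    fun w hw => (continuousAt_pi.2 fun i =>
      Hol.continuousAt (n := 4) (a := fun w => Fin.append (t w) (ν m w) i) (hh w hw i)).continuousWithinAt
  have k2 := (k0.mono fun w hw => hw.2.1).preimage_isClosed_of_isClosed k1.isClosed hc.isClosed
  refine Eq.subst (motive := IsCompact) (Subset.antisymm ?_ ?_)
    (k1.of_isClosed_subset k2 inter_subset_left)
  · exact fun w hw => ⟨hw.1.2.1, hw.2⟩
  · refine fun w hw => ⟨⟨⟨hO w hw.1, _, hw.2, ?_⟩, hw.1, _, hw.2, ?_⟩, hw.2⟩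
    · simp
    · simp

end gen

variable {X : Ctx} {L : Fin X.q → Bd X.V.W} {S : X.Sf L} (M : Md S)

theorem contψ (X : Ctx) : Continuous X.ψ := X.hyp.res.cont

theorem contb : Continuous M.b := (contψ X).comp M.Z.bl.cont

theorem memO (w : M.Z.W) : M.Z.π w ∈ M.Dt.O := M.Z.le (M.Z.bl.maps w)

theorem mem₁ {z : X.V.W} (h : X.ψ z ∈ M.O) : z ∈ M.Z.O₁ := M.Z.le₂ (M.sub h)

theorem notZ {z : X.V.W} (h : z ∈ M.Z.O₁) (k : z ∉ X.E) : z ∉ M.Dt.Z :=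
  fun a => k (M.mov.sub z (M.Z.le h) a)

theorem notZ_iff {w : M.Z.W} : M.Z.π w ∉ M.Dt.Z ↔ ∀ l, w ∉ M.Z.G (.inr l) := by
  rw [M.Z.new, not_exists]

/-- the exceptional set of the model -/
theorem memE (w : M.Z.W) : M.Z.π w ∈ X.E ↔ w ∈ Ex M.Z.G (exU X.ex) := by
  simp only [Ctx.E, Ex, mem_iUnion, exists_prop]
  constructor
  · rintro ⟨k, h1, h2⟩
    by_cases h : M.Z.π w ∈ M.Dt.Z
    · obtain ⟨l, hl⟩ := (M.Z.new w).1 h
      exact ⟨.inr l, by simp [exU], hl⟩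
    · exact ⟨.inl k, by simpa [exU] using h1, M.Z.off k w h h2⟩
  · rintro ⟨k | l, h1, h2⟩
    · exact ⟨k, by simpa [exU] using h1, M.Z.old k w h2⟩
    · simpa only [Ctx.E, Ex, mem_iUnion, exists_prop] using
        M.mov.sub _ (memO M w) ((M.Z.new w).2 ⟨l, h2⟩)

theorem preE : M.Z.π ⁻¹' X.E = Ex M.Z.G (exU X.ex) := Set.ext (memE M)

theorem onto {z : X.V.W} (h : z ∈ M.Z.O₁) : ∃ w, M.Z.π w = z :=
  Hl.Ds.onto M.Z.bl h (M.Dt.thin (M.Z.le h))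

theorem strict (k : Fin X.V.r) {z : X.V.W} (hz : z ∈ X.V.G k) (h : z ∈ M.Z.O₁) :
    ∃ w ∈ M.Z.G (.inl k), M.Z.π w = z := by
  by_contra hc
  have h1 := Hl.Ds.tube M.Z.bl h (p := fun w => w ∉ M.Z.G (.inl k)) fun w e =>
    (closed M.Z.snc _).isOpen_compl.mem_nhds fun a => hc ⟨w, a, e⟩
  obtain ⟨z', ⟨a, b⟩, c, d⟩ := ((frequently_nhdsWithin_iff.1
    (M.mov.thin k z (M.Z.le h) hz)).and_eventually (h1.and (M.Z.bl.isOpen.mem_nhds h))).exists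
  obtain ⟨w, rfl⟩ := M.Z.bl.surj z' d a
  exact c w rfl (M.Z.off k w a b)

/-- the multiplicities of the total transform of the exceptional set -/
def mu : Fin X.V.r ⊕ Fin M.Z.r → ℕ := Sum.elim (fun _ => 1) fun l => ∑ k ∈ X.ex, M.Z.mo k l

variable {M} {w : M.Z.W} {ζ : Fin X.V.r → X.V.W → ℂ} {ζ' : Fin X.V.r ⊕ Fin M.Z.r → M.Z.W → ℂ}

theorem totP (h : X.V.Eq (M.Z.π w) ζ) (h' : ∀ l, LEq 4 (M.Z.G l) w (ζ' l)) :
    ∃ U : M.Z.W → ℂ, ContinuousAt U w ∧ U w ≠ 0 ∧ ∀ᶠ v in 𝓝 w,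
      ∏ k ∈ X.ex, ζ k (M.Z.π v) = U v * ∏ l ∈ exU X.ex, ζ' l v ^ mu M l := by
  choose u h1 h2 h3 using M.Z.tot w ζ ζ' h h'
  refine ⟨fun v => ∏ k ∈ X.ex, u k v, hol_cont (hol_prod _ fun k _ => h1 k),
    Finset.prod_ne_zero_iff.2 fun k _ => h2 k, (eventually_all.2 h3).mono fun v a => ?_⟩
  simp only [a, exU, mu, Finset.prod_disjSum, Finset.prod_mul_distrib, Sum.elim_inl, Sum.elim_inr,
    pow_one, ← Finset.prod_pow_eq_pow_sum]
  rw [Finset.prod_comm]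

theorem up (h : X.V.Eq (M.Z.π w) ζ) (h' : ∀ l, LEq 4 (M.Z.G l) w (ζ' l)) : ∃ n : ℕ,
    (fun v => (∏ l ∈ exU X.ex, ζ' l v) ^ n) =O[𝓝 w] fun v => ∏ k ∈ X.ex, ζ k (M.Z.π v) := by
  obtain ⟨U, h1, h2, h3⟩ := totP h h'
  refine ⟨∑ l, mu M l, .trans (g := fun v => ∏ l ∈ exU X.ex, ζ' l v ^ mu M l) ?_
    (bigO_of (h1.inv₀ h2) ?_)⟩
  · simp only [← Finset.prod_pow]
    exact IsBigO.finsetProd fun l _ => pow_bigO (hol_cont (h' l).hol)
      (Finset.single_le_sum (fun _ _ => Nat.zero_le _) (Finset.mem_univ l))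
  · filter_upwards [h3, h1.eventually_ne h2] with v a b
    rw [a, Pi.inv_apply, inv_mul_cancel_left₀ b]

theorem mu_pos {l : Fin X.V.r ⊕ Fin M.Z.r} (hw : w ∈ M.Z.G l) : 1 ≤ mu M l := by
  rcases l with k | l
  · exact le_rfl
  refine Nat.one_le_iff_ne_zero.2 fun h0 => ?_
  obtain ⟨ζ, h⟩ := X.V.exEq (M.Z.π w)
  obtain ⟨ζ', h', -⟩ := M.Z.snc w
  obtain ⟨U, h1, h2, h3⟩ := totP h h'
  obtain ⟨v, ⟨a, b⟩, c, d, e, f⟩ := ((frequently_nhdsWithin_iff.1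
    (freq1 M.Z.snc hw)).and_eventually (h3.and ((h1.eventually_ne h2).and
      ((eventually_all.2 fun l => (h' l).1).and
        (M.Z.bl.cont.continuousAt.eventually h.iff))))).exists
  obtain ⟨k, k1, k2⟩ := mem_iUnion₂.1 (M.mov.sub _ (memO M v) ((M.Z.new v).2 ⟨l, b⟩))
  rw [Finset.prod_eq_zero k1 ((f k).2 k2)] at c
  refine mul_ne_zero d (Finset.prod_ne_zero_iff.2 fun l' _ => ?_) c.symm
  by_cases k3 : l' = .inr l
  · rw [k3, h0, pow_zero]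
    exact one_ne_zero
  · exact pow_ne_zero _ fun k4 => a l' k3 ((e l').1 k4)

theorem down (h : X.V.Eq (M.Z.π w) ζ) (h' : ∀ l, LEq 4 (M.Z.G l) w (ζ' l)) :
    (fun v => ∏ k ∈ X.ex, ζ k (M.Z.π v)) =O[𝓝 w] fun v => ∏ l ∈ exU X.ex, ζ' l v := by
  obtain ⟨U, h1, -, h3⟩ := totP h h'
  refine (bigO_of h1 h3).trans (IsBigO.finsetProd fun l _ => ?_)
  have hc := hol_cont (h' l).hol
  by_cases hw : w ∈ M.Z.G l
  · simpa only [pow_one] using pow_bigO hc (mu_pos hw)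
  · have h0 : ζ' l w ≠ 0 := mt (h' l).mem.1 hw
    refine bigO_of ((hc.pow (mu M l)).div hc h0) ((hc.eventually_ne h0).mono fun v a => ?_)
    exact (div_mul_cancel₀ _ a).symm

theorem tendE (w : M.Z.W) :
    Tendsto M.Z.π (𝓝[(Ex M.Z.G (exU X.ex))ᶜ] w) (𝓝[X.Eᶜ] (M.Z.π w)) :=
  M.Z.bl.cont.continuousWithinAt.tendsto_nhdsWithin fun v a b => a ((memE M v).1 b)

theorem pole {f : X.V.W → ℂ} (h : Pole X.V.G X.ex f (M.Z.π w)) :
    Pole M.Z.G (exU X.ex) (fun v => f (M.Z.π v)) w := by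
  obtain ⟨ζ, K, h1, h2⟩ := h
  obtain ⟨ζ', h', -⟩ := M.Z.snc w
  obtain ⟨n, h3⟩ := up (ζ := ζ) h1 h'
  refine ⟨ζ', n * K, h', ole_iff.2 (.trans ?_ ((ole_iff.1 h2).comp_tendsto (tendE w)))⟩
  simp only [pow_mul]
  exact (isBigO_refl _ _).mul ((h3.pow K).mono nhdsWithin_le_nhds)

theorem leq_up {k : Fin X.V.r} {a : X.V.W → ℂ} (hz : M.Z.π w ∉ M.Dt.Z)
    (h : LEq 4 (X.V.G k) (M.Z.π w) a) : LEq 4 (M.Z.G (.inl k)) w fun v => a (M.Z.π v) := by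
  classical
  obtain ⟨ζ, h1⟩ := X.V.exEq (M.Z.π w)
  obtain ⟨ζ', h', -⟩ := M.Z.snc w
  obtain ⟨u, h2, h3, h4⟩ := M.Z.tot w (Function.update ζ k a) ζ' (fun l => by
    by_cases e : l = k
    · subst e
      rw [Function.update_self]
      exact h
    · rw [Function.update_of_ne e]
      exact h1 l) h' k
  refine leq_unit (u := fun v => u v * ∏ l, ζ' (.inr l) v ^ M.Z.mo k l) (h' _)
    (hol_mul h2 (hol_prod _ fun l _ => hol_pow (h' _).hol _))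
    (mul_ne_zero h3 (Finset.prod_ne_zero_iff.2 fun l _ => pow_ne_zero _ fun e =>
      (notZ_iff M).1 hz l ((h' _).mem.1 e))) (h4.mono fun v e => ?_)
  rw [Function.update_self] at e
  rw [e]
  ring

theorem evZ (hz : M.Z.π w ∉ M.Dt.Z) : ∀ᶠ v in 𝓝 w, M.Z.π v ∉ M.Dt.Z :=
  M.Z.bl.cont.continuousAt.eventually (M.Dt.closed.isOpen_compl.mem_nhds hz)

theorem ord {k : Fin X.V.r} {f : X.V.W → ℝ} {o : ℤ} (h : Ord (X.V.G k) f (M.Z.π w) o) :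
    Ord (M.Z.G (.inl k)) (fun v => f (M.Z.π v)) w o := by
  have h1 : Tendsto M.Z.π (𝓝[M.Z.G (.inl k)] w) (𝓝[X.V.G k] (M.Z.π w)) :=
    M.Z.bl.cont.continuousWithinAt.tendsto_nhdsWithin (M.Z.old k)
  filter_upwards [eventually_eventually_nhdsWithin.2 (h1.eventually h), self_mem_nhdsWithin]
    with w₁ h2 h3
  refine freq_freq (((freq1 M.Z.snc h3).and_eventually h2).mono fun w₂ ⟨h4, h5⟩ => ?_)
  have h6 := (notZ_iff M).2 fun l => h4 (.inr l) (by simp)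
  obtain ⟨σ, s1, s2, s3, -⟩ := M.Z.bl.sec w₂ h6
  have h7 : ∀ᶠ z in 𝓝 (M.Z.π w₂), z ∉ M.Dt.Z := M.Dt.closed.isOpen_compl.mem_nhds h6
  have h8 : Tendsto σ (𝓝[X.V.G k] (M.Z.π w₂)) (𝓝[M.Z.G (.inl k)] w₂) := by
    refine tendsto_nhdsWithin_iff.2 ⟨(s2 ▸ s1.tendsto :).mono_left nhdsWithin_le_nhds, ?_⟩
    filter_upwards [nhdsWithin_le_nhds (s3.and h7), self_mem_nhdsWithin] with z a b
    exact M.Z.off k _ (a.1.symm ▸ a.2) (a.1.symm ▸ b)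
  refine h8.frequently ((h5.and_eventually (nhdsWithin_le_nhds (s3.and h7))).mono ?_)
  rintro z ⟨⟨a, a1, C, a2, a3⟩, a4, a5⟩
  rw [← a4] at a1 a3 a5
  refine ⟨_, leq_up a5 a1, C, a2, Tendsto.eventually (f := M.Z.π) ?_ a3⟩
  refine tendsto_nhdsWithin_iff.2 ⟨(M.Z.bl.cont.tendsto _).mono_left nhdsWithin_le_nhds, ?_⟩
  filter_upwards [nhdsWithin_le_nhds (evZ a5), self_mem_nhdsWithin] with v b c d
    using c (M.Z.off k v b d)

theorem ole_down {z : X.V.W} (hz : z ∈ M.Z.O₁) {f g : X.V.W → ℝ}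
    (h : ∀ w, M.Z.π w = z → OLe (M.Z.π ⁻¹' X.E) (fun v => f (M.Z.π v)) (fun v => g (M.Z.π v)) w)
    (hg : ∀ v, 0 ≤ g v) : OLe X.E f g z := by
  obtain ⟨n, hn⟩ := unif (M.Z.bl.proper {z} (singleton_subset_iff.2 hz) isCompact_singleton)
    (R := fun n w => ∀ᶠ v in 𝓝 w, M.Z.π v ∉ X.E → f (M.Z.π v) ≤ n * g (M.Z.π v))
    (fun w _ n m a b => b.mono fun v c d =>
      (c d).trans (mul_le_mul_of_nonneg_right (Nat.cast_le.2 a) (hg _)))
    fun w hw => let ⟨C, hC⟩ := h w hw; ⟨⌈C⌉₊, Eventually.eventually_nhds (hC.mono fun v c d =>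
      (c d).trans (mul_le_mul_of_nonneg_right (Nat.le_ceil C) (hg _)))⟩
  refine ⟨n, ?_⟩
  filter_upwards [Hl.Ds.tube M.Z.bl hz hn, M.Z.bl.isOpen.mem_nhds hz] with z' a b c
  obtain ⟨v, rfl⟩ := M.Z.bl.surj z' b (notZ M b c)
  exact a v rfl c

theorem pole_down {z : X.V.W} (hz : z ∈ M.Z.O₁) {f : X.V.W → ℂ} {s : M.Z.W → ℂ}
    (e : ∀ w, M.Z.π w ∉ X.E → f (M.Z.π w) = s w)
    (h : ∀ w, M.Z.π w = z → Pole M.Z.G (exU X.ex) s w) : Pole X.V.G X.ex f z := by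
  obtain ⟨ζ, h1⟩ := X.V.exEq z
  obtain ⟨n, hn⟩ := unif (M.Z.bl.proper {z} (singleton_subset_iff.2 hz) isCompact_singleton)
    (R := fun n w => OLe (Ex M.Z.G (exU X.ex))
      (fun v => ‖s v‖ * ∏ l ∈ X.ex, ‖ζ l (M.Z.π v)‖ ^ n) (fun _ => 1) w)
    (fun w hw n m a b => ole_iff.2 (.trans ((isBigO_refl _ _).mul ((pow_bigO
      (hol_cont (hol_prod _ fun l _ => M.Z.bl.hol w _ (Eq.symm hw ▸ h1.hol l))) a).mono
        nhdsWithin_le_nhds)) (ole_iff.1 b)))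
    fun w hw => by
      obtain ⟨ζ', K, k1, k2⟩ := h w hw
      obtain ⟨C, hC⟩ := (ole_iff (ζ := fun l v => ζ l (M.Z.π v))).2 (.trans ((isBigO_refl _ _).mul
        (((down (Eq.symm hw ▸ h1) k1).pow K).mono nhdsWithin_le_nhds)) (ole_iff.1 k2))
      exact ⟨K, hC.eventually_nhds.mono fun v a => ⟨C, a⟩⟩
  refine ⟨ζ, n, h1, ole_down hz (fun w hw => ?_) fun _ => zero_le_one⟩
  obtain ⟨C, hC⟩ := hn w hw
  refine ⟨C, hC.mono fun v a b => ?_⟩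
  beta_reduce
  rw [e v b]
  exact a (mt (memE M v).2 b)

theorem mer_down [Nonempty M.Z.W] {Λ : Bd X.V.W} {s : Λ.ι → M.Z.W → ℂ} {z : X.V.W}
    (hz : z ∈ M.Z.O₁) (h : ∀ w, M.Z.π w = z → MerAt M.Z.G (exU X.ex) (pull M.Z.π Λ) s w) :
    MerAt X.V.G X.ex Λ (fun i z => s i (Function.invFun M.Z.π z)) z := by
  have e : ∀ w, M.Z.π w ∉ M.Dt.Z → Function.invFun M.Z.π (M.Z.π w) = w := fun w hw =>
    M.Z.bl.one w _ hw (Function.invFun_eq ⟨w, rfl⟩)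
  refine fun i hi => ⟨pole_down hz (fun w hw => congrArg (s i) (e w (notZ M (M.Z.bl.maps w) hw)))
    fun w hw => (h w hw i (show M.Z.π w ∈ Λ.U i from hw ▸ hi)).1, fun hE => ?_⟩
  have h1 := notZ M hz hE
  obtain ⟨w, rfl⟩ := M.Z.bl.surj z hz h1
  obtain ⟨h2, h3⟩ := (h w rfl i hi).2 (mt (memE M w).2 hE)
  obtain ⟨σ, -, -, s3, s4⟩ := M.Z.bl.sec w h1
  refine ⟨(s4 _ h2).congr ?_, fun j hj => ?_⟩
  · filter_upwards [s3, M.Dt.closed.isOpen_compl.mem_nhds h1] with z a b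
    rw [← e (σ z) (a.symm ▸ b), a]
  · beta_reduce
    rw [e w h1]
    exact h3 j hj

variable {y : X.Y.pt}

theorem fib (hy : y ∈ M.O) : X.F y ⊆ M.Z.O₁ := fun z (hz : X.ψ z = y) => mem₁ M (hz.symm ▸ hy)

theorem nearO (hy : y ∈ M.O) : ∀ᶠ z in 𝓝ˢ (X.F y), z ∈ M.Dt.O :=
  M.Dt.isOpen.mem_nhdsSet.2 ((fib hy).trans M.Z.le)

theorem tube (hy : y ∈ M.O) {P : M.Z.W → Prop} (h : ∀ᶠ w in 𝓝ˢ (M.F y), P w) :
    ∀ᶠ z in 𝓝ˢ (X.F y), ∀ w, M.Z.π w = z → P w :=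
  eventually_nhdsSet_iff_forall.2 fun z hz => Hl.Ds.tube M.Z.bl (fib hy hz) fun w e =>
    h.filter_mono (nhds_le_nhdsSet (s := M.F y) (show M.Z.π w ∈ X.F y from e ▸ hz))

theorem nonempty (hy : y ∈ M.O) : (M.F y).Nonempty := by
  obtain ⟨z, hz⟩ := X.hyp.res.surj y
  obtain ⟨w, rfl⟩ := onto M (fib hy hz)
  exact ⟨w, hz⟩

end A1

open A1 in
theorem stApi1 : StApi1 := by
  intro X L S M
  refine ⟨contb M, fun w g h => M.Z.bl.hol w (fun z => g (X.ψ z)) (X.hyp.res.hol _ g h),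
    fun w _ => memE M w,
    prp4 M.prp M.pm.pm, fun w f _ => pole, fun k w _ _ f o => ord,
    fun k z hz h => strict M k hz (mem₁ M h), fun y hy => ⟨fun j => ?_,
    fun i m => (nearO hy).mono (M.mov.mer i m), M.Z.bl.proper _ (fib hy)
      (isClosed_singleton.preimage (contψ X)).isCompact, nonempty hy, fun P h => ?_,
    fun z hz f g => ole_down (fib hy hz), fun b s h => ?_⟩⟩
  · have h := M.mov.lb j
    exact ⟨h.isOpen, fun x hx => h.cover x (M.Z.le (fib hy hx)), (nearO hy).mono fun x a i j b c =>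
      ⟨h.holo i j x a b c, h.ne_zero i j x a b c, fun k => h.cocycle i j k x a b c⟩⟩
  · exact ((contψ X).isClosedMap.eventually_nhds_fiber y
      (eventually_nhdsSet_iff_forall.1 (tube hy h))).mono fun y' a w e => a _ e w rfl
  · have := (nonempty hy).to_type
    refine ⟨_, ((tube hy h).and (M.Z.bl.isOpen.mem_nhdsSet.2 (fib hy))).mono fun z a =>
      mer_down a.2 a.1, fun w i _ hw => ?_⟩
    rw [M.Z.bl.one w _ (notZ M (M.Z.bl.maps w) hw) (Function.invFun_eq ⟨w, rfl⟩)]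

end Vale.Agent.P277Z.Cls
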