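import Vale.Agent.P277Z.Cls.Sk
import Vale.Agent.P277Z.Luf.Hol
import Vale.Agent.P277Z.Slc.Basic
import Vale.Agent.P277Z.Lo.Base

/-!
# P277, block CLS: generators of the moving parts
-/

set_option linter.unusedSectionVars false

open scoped Manifold ContDiff Topology
open Vale.Agent.P272.K Vale.Agent.P285.H281.FD Vale.Agent.P277 Set Filter Function
open Vale.Agent.P277Z.Slc (LEq lin)

noncomputable section

namespace Vale.Agent.P277Z.Cls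

namespace A2

variable {X : Ctx} {L : Fin X.q → Bd X.V.W} {S : X.Sf L} {M : Md S} {y : X.Y.pt}
  {c c' : Fin S.b → ℤ} {s s' : Ix L → X.V.W → ℂ} {w : M.Z.W} {m m' : Fin (M.R + 1)} {j j' : Ix L}
  {v : M.Z.W → ℂ} {x x' : Fin X.q → ℤ}

variable (M) in
/-- the generator of degree `c` -/
def gn (c : Fin S.b → ℤ) (m : Fin (M.R + 1)) (j : Ix L) (w : M.Z.W) : ℂ :=
  ∏ i, S.u i (M.eqv m i) j (M.Z.π w) ^ c i

/-- `s = v • gn c m j` near `w` -/
def Loc (c : Fin S.b → ℤ) (s : Ix L → X.V.W → ℂ) (m : Fin (M.R + 1)) (j : Ix L) (v : M.Z.W → ℂ)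
    (w : M.Z.W) : Prop :=
  Hol 4 v w ∧ ∀ᶠ w' in 𝓝 w, M.Z.π w' ∉ X.E → s j (M.Z.π w') = v w' * gn M c m j w'

/-- `s` is a section of degree `∑ c i • a i` near `π w` -/
def MerN (c : Fin S.b → ℤ) (s : Ix L → X.V.W → ℂ) (w : M.Z.W) : Prop :=
  ∀ᶠ w' in 𝓝 w, MerAt X.V.G X.ex (lin L (∑ i, c i • S.a i)) s (M.Z.π w')

theorem mer_cast {b b' : Fin X.q → ℤ} (e : b = b') (h : X.Mer y (lin L b) s) :
    X.Mer y (lin L b') s := e ▸ h

theorem merN (h : X.Mer y (lin L (∑ i, c i • S.a i)) s) : ∀ᶠ w in 𝓝ˢ (M.F y), MerN c s w :=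
  ((M.Z.bl.cont.tendsto_nhdsSet (s := M.F y) (t := X.F y) fun _ k => k).eventually
    h).eventually_nhdsSet

theorem mem_O (w : M.Z.W) : M.Z.π w ∈ M.Dt.O := M.Z.le (M.Z.bl.maps w)

theorem b_mem (h : w ∈ M.D m) : M.b w ∈ M.O := (M.pm.pm.cover w).2 ⟨m, h⟩

theorem ex_D (h : M.b w ∈ M.O) : ∃ m j, w ∈ M.D m ∧ In L j (M.Z.π w) := by
  obtain ⟨m, hm⟩ := (M.pm.pm.cover w).1 h
  choose j hj using fun k => (M.mov.lb k).cover _ (mem_O w)
  exact ⟨m, j, hm, hj⟩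

theorem nearD (h : w ∈ M.D m) (hj : In L j (M.Z.π w)) :
    ∀ᶠ w' in 𝓝 w, w' ∈ M.D m ∧ In L j (M.Z.π w') :=
  ((M.pm.pm.isOpen m).eventually_mem h).and (eventually_all.2 fun k =>
    M.Z.bl.cont.continuousAt.eventually (((M.mov.lb k).isOpen _).eventually_mem (hj k)))

theorem nu_hol (h : w ∈ M.D m) (l : Fin (M.R + 1)) : Hol 4 (fun w => M.ν m w l) w :=
  M.pm.pm.hol m w h l

theorem Loc.near (h : Loc c s m j v w) : ∀ᶠ w' in 𝓝 w, Loc c s m j v w' :=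
  h.1.near.and h.2.eventually_nhds

theorem fr_near (h : M.Fr c s w) : ∀ᶠ w' in 𝓝 w, M.Fr c s w' := by
  obtain ⟨m, j, v, h1, h2, h3, h4, h5⟩ := h
  filter_upwards [nearD h1 h2, Loc.near ⟨h3, h5⟩, h3.ne_near h4] with w' k1 k2 k3
    using ⟨m, j, v, k1.1, k1.2, k2.1, k3, k2.2⟩

theorem gn_smul (N : ℕ) : gn M (N • c) m j w = gn M c m j w ^ N := by
  simp only [gn, ← Finset.prod_pow, Pi.smul_apply, nsmul_eq_mul, mul_comm (N : ℤ), zpow_mul,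
    zpow_natCast]

theorem Loc.pow (h : Loc c s m j v w) (N : ℕ) :
    Loc (N • c) (fun i z => s i z ^ N) m j (fun z => v z ^ N) w :=
  ⟨h.1.pow N, h.2.mono fun _ k k' => by simp only [gn_smul, k k', mul_pow]⟩

theorem fr_pow (h : M.Fr c s w) (N : ℕ) : M.Fr (N • c) (fun i z => s i z ^ N) w :=
  let ⟨m, j, _, h1, h2, h3, h4, h5⟩ := h
  let k := Loc.pow ⟨h3, h5⟩ N
  ⟨m, j, _, h1, h2, k.1, pow_ne_zero N h4, k.2⟩

theorem hl_pow (h : M.Hl c s w) (N : ℕ) : M.Hl (N • c) (fun i z => s i z ^ N) w :=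
  fun m j h1 h2 => let ⟨_, k⟩ := h m j h1 h2; ⟨_, Loc.pow k N⟩

theorem fr_zero (h : M.b w ∈ M.O) : M.Fr 0 (fun _ _ => 1) w :=
  let ⟨m, j, h1, h2⟩ := ex_D h
  ⟨m, j, _, h1, h2, hol_const 1 w, one_ne_zero, .of_forall fun _ _ => by simp⟩

theorem g_hol (b : Fin X.q → ℤ) (hj : In L j (M.Z.π w)) (hj' : In L j' (M.Z.π w)) :
    Hol 4 (fun z => (lin L b).g j j' (M.Z.π z)) w ∧ (lin L b).g j j' (M.Z.π w) ≠ 0 :=
  have h := fun k => (M.mov.lb k).ne_zero _ _ _ (mem_O w) (hj k) (hj' k)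
  ⟨M.Z.bl.hol w (fun z => ∏ k, (L k).g (j k) (j' k) z ^ b k) (Hol.prod _ fun k _ =>
    Hol.zpow ((M.mov.lb k).holo _ _ _ (mem_O w) (hj k) (hj' k)) (h k) _),
    (Finset.prod_ne_zero_iff (s := .univ)).2 fun k _ => zpow_ne_zero (b k) (h k)⟩

theorem gn_frame (hj : In L j (M.Z.π w)) (hj' : In L j' (M.Z.π w)) (hE : M.Z.π w ∉ X.E) :
    gn M c m j w = (lin L (∑ i, c i • S.a i)).g j j' (M.Z.π w) * gn M c m j' w := by
  have h := fun k => (M.mov.lb k).ne_zero _ _ _ (mem_O w) (hj k) (hj' k)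
  have h1 : ∀ i, S.u i (M.eqv m i) j (M.Z.π w) =
      (∏ k, (L k).g (j k) (j' k) (M.Z.π w) ^ S.a i k) * S.u i (M.eqv m i) j' (M.Z.π w) :=
    fun i => ((M.mov.mer i _ _ (mem_O w) j hj).2 hE).2 j' hj'
  have h2 : ∀ (a : ℂ), a ≠ 0 → ∀ (f : Fin S.b → ℤ) (T : Finset (Fin S.b)),
      a ^ ∑ i ∈ T, f i = ∏ i ∈ T, a ^ f i := fun a ha f T => by
    induction T using Finset.induction_on with
    | empty => simp
    | insert i T hi ih => rw [Finset.sum_insert hi, Finset.prod_insert hi, zpow_add₀ ha, ih]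
  simp only [gn, h1, mul_zpow, Finset.prod_mul_distrib, Slc.lin, Finset.sum_apply, h2 _ (h _),
    ← Finset.prod_zpow, ← zpow_mul, Pi.smul_apply, smul_eq_mul, mul_comm (c _)]
  rw [Finset.prod_comm]

section api

variable (h1 : StApi1)

include h1

theorem ex_iff (h : w ∈ M.D m) : M.Z.π w ∈ X.E ↔ w ∈ Ex M.Z.G (exU X.ex) :=
  (h1 X L S M).2.2.1 w (b_mem h)

theorem u_ne (h : w ∈ M.D m) (hj : In L j (M.Z.π w)) (hE : M.Z.π w ∉ X.E) (i : Fin S.b) :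
    S.u i (M.eqv m i) j (M.Z.π w) ≠ 0 := by
  obtain ⟨ζ, hζ, -⟩ := M.Z.snc w
  obtain ⟨o, v, k1, -, k3, k4⟩ := M.pm.mon m w h i j ζ hj hζ
  rw [k4.self_of_nhds hE]
  refine mul_ne_zero k3 (Finset.prod_ne_zero_iff.2 fun l _ => ?_)
  by_cases hl : l ∈ exU X.ex
  · exact zpow_ne_zero _ fun e => hE ((ex_iff h1 h).2 (mem_iUnion₂.2 ⟨l, hl, (hζ l).mem.1 e⟩))
  · rw [k1 l hl, zpow_zero]
    exact one_ne_zero

theorem gn_ne (h : w ∈ M.D m) (hj : In L j (M.Z.π w)) (hE : M.Z.π w ∉ X.E) : gn M c m j w ≠ 0 :=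
  Finset.prod_ne_zero_iff.2 fun i _ => zpow_ne_zero _ (u_ne h1 h hj hE i)

theorem gn_hol (h : w ∈ M.D m) (hj : In L j (M.Z.π w)) (hE : M.Z.π w ∉ X.E) :
    Hol 4 (gn M c m j) w :=
  Hol.prod _ fun i _ => Hol.zpow (M.Z.bl.hol w _ ((M.mov.mer i _ _ (mem_O w) j hj).2 hE).1)
    (u_ne h1 h hj hE i) _

theorem gn_add (h : w ∈ M.D m) (hj : In L j (M.Z.π w)) (hE : M.Z.π w ∉ X.E) :
    gn M (c + c') m j w = gn M c m j w * gn M c' m j w := by
  simp only [gn, ← Finset.prod_mul_distrib, Pi.add_apply, zpow_add₀ (u_ne h1 h hj hE _)]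

theorem u_rel (h : w ∈ M.D m) (hj : In L j (M.Z.π w)) (hE : M.Z.π w ∉ X.E) (i : Fin S.b)
    (a : Fin (S.r i + 1)) : S.u i a j (M.Z.π w) =
      M.ν m w (M.eqv.symm (update (M.eqv m) i a)) * S.u i (M.eqv m i) j (M.Z.π w) := by
  have k := M.pm.rel m w h hE (M.eqv.symm (update (M.eqv m) i a)) j hj
  rw [Equiv.apply_symm_apply, ← Finset.mul_prod_erase _ _ (Finset.mem_univ i),
    ← Finset.mul_prod_erase _ _ (Finset.mem_univ i), update_self, Finset.prod_congr rfl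
      fun i' hi => by rw [update_of_ne (Finset.ne_of_mem_erase hi)], ← mul_assoc] at k
  exact mul_right_cancel₀ (Finset.prod_ne_zero_iff.2 fun i' _ => u_ne h1 h hj hE i') k

theorem Loc.mul {v' : M.Z.W → ℂ} (h : w ∈ M.D m) (hj : In L j (M.Z.π w)) (k : Loc c s m j v w)
    (k' : Loc c' s' m j v' w) :
    Loc (c + c') (fun i z => s i z * s' i z) m j (fun z => v z * v' z) w :=
  ⟨k.1.mul k'.1, by
    filter_upwards [nearD h hj, k.2, k'.2] with z a b b' e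
    rw [gn_add h1 a.1 a.2 e, b e, b' e, mul_mul_mul_comm]⟩

theorem hl_mul (h : M.Hl c s w) (h' : M.Hl c' s' w) :
    M.Hl (c + c') (fun i z => s i z * s' i z) w := fun m j k k' =>
  let ⟨_, a⟩ := h m j k k'
  let ⟨_, a'⟩ := h' m j k k'
  ⟨_, Loc.mul h1 k k' a a'⟩

theorem nrm_le (h : w ∈ M.D m) (i : Fin S.b) (hj : In L j (M.Z.π w)) : OLe (M.Z.π ⁻¹' X.E)
    (fun v => nrm (S.u i) j (M.Z.π v)) (fun v => ‖S.u i (M.eqv m i) j (M.Z.π v)‖) w := by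
  have k : ContinuousAt (fun z => ∑ a, ‖M.ν m z (M.eqv.symm (update (M.eqv m) i a))‖) w :=
    tendsto_finsetSum _ fun a _ => (nu_hol h _).cont.norm
  refine ⟨∑ a, ‖M.ν m w (M.eqv.symm (update (M.eqv m) i a))‖ + 1, ?_⟩
  filter_upwards [nearD h hj, k.eventually (gt_mem_nhds (lt_add_one _))] with z a b e
  refine le_trans (le_of_eq ?_) (mul_le_mul_of_nonneg_right b.le (norm_nonneg _))
  rw [Finset.sum_mul]
  exact Finset.sum_congr rfl fun a' _ => by rw [u_rel h1 a.1 a.2 e i a', norm_mul]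

variable (hL : StLoc)

include hL

theorem freq (h : w ∈ M.D m) : ∃ᶠ z in 𝓝 w, M.Z.π z ∉ X.E :=
  ((Lo.gen_freq' ((hL M.Z.W _ M.Z.G (exU X.ex) M.Z.snc).1 w)).and_eventually
    ((M.pm.pm.isOpen m).eventually_mem h)).mono fun _ k e =>
      let ⟨l, _, a⟩ := mem_iUnion₂.1 ((ex_iff h1 k.2).1 e); k.1 l a

theorem eq_of {a b : M.Z.W → ℂ} (h : w ∈ M.D m) (ha : Hol 4 a w) (hb : Hol 4 b w)
    (e : ∀ᶠ z in 𝓝 w, M.Z.π z ∉ X.E → a z = b z) : a w = b w :=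
  tendsto_nhds_unique_of_frequently_eq ha.cont hb.cont
    (((freq h1 hL h).and_eventually e).mono fun _ k => k.2 k.1)

theorem Loc.unique {v' : M.Z.W → ℂ} (h : w ∈ M.D m) (hj : In L j (M.Z.π w)) (k : Loc c s m j v w)
    (k' : Loc c s m j v' w) : v w = v' w :=
  eq_of h1 hL h k.1 k'.1 (by
    filter_upwards [nearD h hj, k.2, k'.2] with z a b b' e
      using mul_right_cancel₀ (gn_ne h1 a.1 a.2 e) ((b e).symm.trans (b' e)))

theorem nu_ne (h : w ∈ M.D m) (h' : w ∈ M.D m') (i : Fin S.b) :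
    M.ν m w (M.eqv.symm (update (M.eqv m) i (M.eqv m' i))) ≠ 0 := by
  obtain ⟨-, j, -, hj⟩ := ex_D (b_mem h)
  refine left_ne_zero_of_mul_eq_one (eq_of h1 hL h ((nu_hol h _).mul
    (nu_hol h' (M.eqv.symm (update (M.eqv m') i (M.eqv m i))))) (hol_const 1 w) ?_)
  filter_upwards [nearD h hj, nearD h' hj] with z a a' e
  refine mul_right_cancel₀ (u_ne h1 a'.1 a.2 e i) ?_
  rw [mul_comm (M.ν m z _), mul_assoc, one_mul, mul_left_comm, ← u_rel h1 a'.1 a.2 e,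
    ← u_rel h1 a.1 a.2 e]

/-- change of the chart and of the frame -/
theorem Loc.chg (hs : MerN c s w) (h : w ∈ M.D m) (hj : In L j (M.Z.π w)) (h' : w ∈ M.D m')
    (hj' : In L j' (M.Z.π w)) (k : Loc c s m' j' v w) :
    ∃ e : M.Z.W → ℂ, e w ≠ 0 ∧ Loc c s m j (fun z => e z * v z) w := by
  refine ⟨fun z => ∏ i, M.ν m z (M.eqv.symm (update (M.eqv m) i (M.eqv m' i))) ^ c i,
    Finset.prod_ne_zero_iff.2 fun i _ => zpow_ne_zero _ (nu_ne h1 hL h h' i),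
    (Hol.prod _ fun i _ => (nu_hol h _).zpow (nu_ne h1 hL h h' i) _).mul k.1, ?_⟩
  filter_upwards [hs, nearD h hj, nearD h' hj', k.2] with z a b b' d e
  rw [((a j b.2).2 e).2 j' b'.2, d e, mul_left_comm, ← gn_frame b.2 b'.2 e, mul_comm _ (v z),
    mul_assoc, gn, gn, ← Finset.prod_mul_distrib]
  exact congrArg _ (Finset.prod_congr rfl fun i _ => by rw [u_rel h1 b.1 b.2 e, mul_zpow])

theorem fr_all (hs : MerN c s w) (k : M.Fr c s w) (h : w ∈ M.D m) (hj : In L j (M.Z.π w)) :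
    ∃ v, v w ≠ 0 ∧ Loc c s m j v w :=
  let ⟨_, _, _, k1, k2, k3, k4, k5⟩ := k
  let ⟨_, a, b⟩ := Loc.chg h1 hL hs h hj k1 k2 ⟨k3, k5⟩
  ⟨_, mul_ne_zero a k4, b⟩

theorem Loc.hl (hs : MerN c s w) (h : w ∈ M.D m) (hj : In L j (M.Z.π w)) (k : Loc c s m j v w) :
    M.Hl c s w := fun _ _ h' hj' =>
  let ⟨_, _, b⟩ := Loc.chg h1 hL hs h' hj' h hj k
  ⟨_, b⟩

theorem fr_hl (hs : MerN c s w) (k : M.Fr c s w) : M.Hl c s w :=
  let ⟨_, _, _, k1, k2, k3, _, k5⟩ := k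
  Loc.hl h1 hL hs k1 k2 ⟨k3, k5⟩

theorem Loc.fr_iff (hs : MerN c s w) (h : w ∈ M.D m) (hj : In L j (M.Z.π w))
    (k : Loc c s m j v w) : M.Fr c s w ↔ v w ≠ 0 :=
  ⟨fun a => let ⟨_, b, d⟩ := fr_all h1 hL hs a h hj; k.unique h1 hL h hj d ▸ b,
    fun a => ⟨m, j, v, h, hj, k.1, a, k.2⟩⟩

theorem fr_mul (hs : MerN c s w) (k : M.Fr c s w) (k' : M.Fr c' s' w) :
    M.Fr (c + c') (fun i z => s i z * s' i z) w :=
  let ⟨m, j, _, k1, k2, k3, k4, k5⟩ := k'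
  let ⟨_, a, b⟩ := fr_all h1 hL hs k k1 k2
  let d := Loc.mul h1 k1 k2 b ⟨k3, k5⟩
  ⟨m, j, _, k1, k2, d.1, mul_ne_zero a k4, d.2⟩

theorem hl_near (hs : MerN c s w) (hw : M.b w ∈ M.O) (k : M.Hl c s w) :
    ∀ᶠ w' in 𝓝 w, M.Hl c s w' := by
  obtain ⟨m, j, a, b⟩ := ex_D hw
  obtain ⟨v, d⟩ := k m j a b
  filter_upwards [nearD a b, Loc.near d, hs.eventually_nhds] with z k1 k2 k3
    using Loc.hl h1 hL k3 k1.1 k1.2 k2

theorem hl_of_le (hs : MerN c s w) (h : w ∈ M.D m) (hj : In L j (M.Z.π w))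
    (k : OLe (M.Z.π ⁻¹' X.E) (fun v => ‖s j (M.Z.π v)‖)
      (fun v => ∏ i, ‖S.u i (M.eqv m i) j (M.Z.π v)‖ ^ c i) w) : M.Hl c s w := by
  obtain ⟨C, hC⟩ := k
  obtain ⟨g, a, b⟩ := (hL M.Z.W _ M.Z.G (exU X.ex) M.Z.snc).2.2.1
    (fun z => s j (M.Z.π z) / gn M c m j z) w (by
      filter_upwards [hs, nearD h hj] with z a b e
      have e' := mt (ex_iff h1 b.1).1 e
      exact (M.Z.bl.hol z _ ((a j b.2).2 e').1).div (gn_hol h1 b.1 b.2 e') (gn_ne h1 b.1 b.2 e'))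
    ⟨C, by
      filter_upwards [hC, nearD h hj] with z a b e
      have e' := mt (ex_iff h1 b.1).1 e
      rw [norm_div, mul_one, div_le_iff₀ (norm_pos_iff.2 (gn_ne h1 b.1 b.2 e'))]
      simpa only [gn, norm_prod, norm_zpow] using a e'⟩
  refine Loc.hl h1 hL hs h hj ⟨a, ?_⟩
  filter_upwards [b, nearD h hj] with z d k e
  rw [← d (mt (ex_iff h1 k.1).2 e), div_mul_cancel₀ _ (gn_ne h1 k.1 k.2 e)]

variable (hM : StMer)

include hM

omit hL in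
theorem mer_one (hy : y ∈ M.O) (hc : ∑ i, c i • S.a i = 0) :
    X.Mer y (lin L (∑ i, c i • S.a i)) fun _ _ => 1 :=
  mer_cast hc.symm (hM X L y ((h1 X L S M).2.2.2.2.2.2.2 y hy).1).1

omit hL in
theorem mer_mul (hy : y ∈ M.O) (k : X.Mer y (lin L (∑ i, c i • S.a i)) s)
    (k' : X.Mer y (lin L (∑ i, c' i • S.a i)) s') :
    X.Mer y (lin L (∑ i, (c + c') i • S.a i)) fun i z => s i z * s' i z :=
  mer_cast (by simp only [Pi.add_apply, add_smul, Finset.sum_add_distrib])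
    ((hM X L y ((h1 X L S M).2.2.2.2.2.2.2 y hy).1).2.2.1 _ _ _ _ k k')

omit hL in
theorem mer_pow (hy : y ∈ M.O) (k : X.Mer y (lin L (∑ i, c i • S.a i)) s) (N : ℕ) :
    X.Mer y (lin L (∑ i, (N • c) i • S.a i)) fun i z => s i z ^ N := by
  have := (hM X L y ((h1 X L S M).2.2.2.2.2.2.2 y hy).1).2.2.2.1 Unit _ (fun _ => s)
    (fun _ => N) fun _ => k
  simp only [Fintype.prod_unique] at this
  exact mer_cast
    (by simp only [Fintype.sum_unique, Finset.smul_sum, Pi.smul_apply, smul_assoc]) this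

omit hL in
theorem dg_zero (hy : y ∈ M.O) : M.Dg y 0 1 0 fun _ _ => 1 :=
  ⟨le_rfl, by simp, mer_one h1 hM hy (by simp)⟩

omit hL in
theorem dg_add {N N' : ℕ} (hy : y ∈ M.O) (k : M.Dg y x N c s) (k' : M.Dg y x' N' c' s') :
    M.Dg y (x + x') (N' * N) (N' • c + N • c') fun i z => s i z ^ N' * s' i z ^ N :=
  ⟨Nat.mul_pos k'.pos k.pos, by
    rw [smul_add, mul_smul, k.eq, mul_comm, mul_smul, k'.eq]
    simp only [Pi.add_apply, add_smul, Finset.sum_add_distrib, Finset.smul_sum, Pi.smul_apply,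
      smul_assoc],
    mer_mul h1 hM hy (mer_pow h1 hM hy k.mer N') (mer_pow h1 hM hy k'.mer N)⟩

theorem fr_add {N N' : ℕ} (hy : y ∈ M.O) (k : M.Dg y x N c s) :
    ∀ᶠ w in 𝓝ˢ (M.F y), M.Fr c s w → M.Fr c' s' w →
      M.Fr (N' • c + N • c') (fun i z => s i z ^ N' * s' i z ^ N) w :=
  (merN (mer_pow h1 hM hy k.mer N')).mono fun _ a b b' =>
    fr_mul h1 hL a (fr_pow b N') (fr_pow b' N)

/-- the generators of degree zero are units -/
theorem fr_one (hy : y ∈ M.O) (hN : M.Neg y) (hc : ∑ i, c i • S.a i = 0) (hw : w ∈ M.F y) :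
    M.Fr c (fun _ _ => 1) w := by
  obtain ⟨m, j, a, b⟩ := ex_D (show M.b w ∈ M.O from hw ▸ hy)
  obtain ⟨v, k⟩ := hN c _ (mer_one h1 hM hy hc) w hw m j a b
  obtain ⟨v', k'⟩ := hN (-c) _ (mer_one h1 hM hy (by
    simp only [Pi.neg_apply, neg_smul, Finset.sum_neg_distrib, hc, neg_zero])) w hw m j a b
  have d := Loc.mul (s := fun _ _ => 1) (s' := fun _ _ => 1) h1 a b k k'
  rw [add_neg_cancel] at d
  exact ⟨m, j, v, a, b, k.1, left_ne_zero_of_mul_eq_one (d.unique h1 hL a b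
    ⟨hol_const 1 w, .of_forall fun _ _ => by simp [gn]⟩), k.2⟩

/-- freeness depends only on the degree -/
theorem fr_cast (hy : y ∈ M.O) (hN : M.Neg y) (hc : ∑ i, c i • S.a i = ∑ i, c' i • S.a i) :
    ∀ᶠ w in 𝓝ˢ (M.F y), M.Fr c s w → M.Fr c' s w := by
  have e : ∑ i, (c' - c) i • S.a i = 0 := by
    simp only [Pi.sub_apply, sub_smul, Finset.sum_sub_distrib, hc, sub_self]
  filter_upwards [merN (mer_one h1 hM hy e), eventually_nhdsSet_iff_forall.2 fun w hw =>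
    fr_near (fr_one h1 hL hM hy hN e hw)] with w a b d
  simpa only [sub_add_cancel, one_mul] using fr_mul h1 hL a b d

omit hM in
theorem gfr_of {l : Fin X.V.r ⊕ Fin M.Z.r} {w' : M.Z.W} (hy : y ∈ M.O) (hN : M.Neg y)
    (hs : X.Mer y (lin L (∑ i, c i • S.a i)) s) (hw : w ∈ M.F y) (hl : w ∈ M.Z.G l)
    (hw' : w' ∈ M.T y l w) (k : M.Fr c s w') : ∃ᶠ z in 𝓝[M.Z.G l] w, M.Fr c s z := by
  have e : ∀ z, (∃ᶠ z' in 𝓝[M.Z.G l] z, M.Fr c s z') ↔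
      z ∈ closure {z' | M.Fr c s z' ∧ z' ∈ M.Z.G l} := fun z => by
    rw [frequently_nhdsWithin_iff, mem_closure_iff_frequently]
    rfl
  have sub : M.T y l w ⊆ M.Z.G l ∩ M.F y := connectedComponentIn_subset _ _
  refine (isPreconnected_connectedComponentIn (x := w) (F := M.Z.G l ∩ M.F y)).induction₂'
    (fun a b => (∃ᶠ z in 𝓝[M.Z.G l] a, M.Fr c s z) → ∃ᶠ z in 𝓝[M.Z.G l] b, M.Fr c s z)
    (fun a ha => ?_) (fun _ _ _ _ _ _ p q r => q (p r)) hw' (mem_connectedComponentIn ⟨hl, hw⟩)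
    ((frequently_pure.2 k).filter_mono (pure_le_nhdsWithin (sub hw').1))
  by_cases p : ∃ᶠ z in 𝓝[M.Z.G l] a, M.Fr c s z
  · obtain ⟨m, j, a1, a2⟩ := ex_D (show M.b a ∈ M.O from (sub ha).2 ▸ hy)
    obtain ⟨v, a3⟩ := hN c s hs a (sub ha).2 m j a1 a2
    have a4 : ∀ᶠ z in 𝓝 a, M.Fr c s z ↔ v z ≠ 0 := by
      filter_upwards [nearD a1 a2, Loc.near a3,
        ((merN hs).filter_mono (nhds_le_nhdsSet (sub ha).2))] with z b1 b2 b3
        using Loc.fr_iff h1 hL b3 b1.1 b1.2 b2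
    have a5 := mt ((hL M.Z.W _ M.Z.G (exU X.ex) M.Z.snc).2.2.2.2 l v a (sub ha).1 a3.1)
      (not_eventually.2 ((p.and_eventually (a4.filter_mono nhdsWithin_le_nhds)).mono
        fun _ q => q.2.1 q.1))
    filter_upwards [(not_frequently.1 a5).filter_mono (nhdsWithin_mono a fun _ q => (sub q).1),
      a4.eventually_nhds.filter_mono nhdsWithin_le_nhds] with z b1 b2
    exact ⟨fun _ => ((not_eventually.1 b1).and_eventually
      (b2.filter_mono nhdsWithin_le_nhds)).mono fun _ q => q.2.2 q.1, fun _ => p⟩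
  · filter_upwards [(isClosed_closure.isOpen_compl.eventually_mem (mt (e a).2 p)).filter_mono
      nhdsWithin_le_nhds] with z b1
    exact ⟨fun q => (p q).elim, fun q => (b1 ((e z).1 q)).elim⟩

end api

end A2

open A2 in
/-- **API2** -/
theorem stApi2 (hL : StLoc) (hM : StMer) (h1 : StApi1) : StApi2 := fun X L S M y hy => by
  have hb : ∀ w ∈ M.F y, M.b w ∈ M.O := fun w hw => hw ▸ hy
  refine ⟨fun _ _ _ => fr_near, fun c s hs => ⟨(merN hs).mono fun w a b m j d e => ?_, fun h =>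
    eventually_nhdsSet_iff_forall.2 fun w hw =>
      hl_near h1 hL ((merN hs).self_of_nhdsSet w hw) (hb w hw) (h w hw),
    fun w hw ⟨m, j, a, b, d⟩ => hl_of_le h1 hL ((merN hs).self_of_nhdsSet w hw) a b d⟩,
    fun m w h i j hj => nrm_le h1 h i hj, fun A hA => ⟨⟨1, 0, _, dg_zero h1 hM hy,
      fun w hw => fr_zero (hb w (hA hw))⟩, ?_, ?_⟩, fun i w hw => ?_,
    fun l w hw hl => ⟨⟨1, 0, _, dg_zero h1 hM hy, (frequently_pure.2
      (fr_zero (hb w hw))).filter_mono (pure_le_nhdsWithin hl)⟩, ?_⟩, ?_⟩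
  · obtain ⟨v, k1, k2⟩ := fr_all h1 hL a b d e
    exact ⟨v, k2.1, k1, k2.2⟩
  · rintro x x' ⟨N, c, s, a, b⟩ ⟨N', c', s', a', b'⟩
    exact ⟨_, _, _, dg_add h1 hM hy a a', fun w hw =>
      (fr_add h1 hL hM hy a).self_of_nhdsSet w (hA hw) (b w hw) (b' w hw)⟩
  · rintro N x hN ⟨N', c, s, a, b⟩
    exact ⟨N' * N, c, s, ⟨Nat.mul_pos a.pos hN, by rw [mul_smul, a.eq], a.mer⟩, b⟩
  · obtain ⟨m, j, a, b⟩ := ex_D (hb w hw)
    have e : S.a i = ∑ i', (Pi.single i 1 : Fin S.b → ℤ) i' • S.a i' := by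
      simp [Pi.single_apply]
    refine ⟨1, Pi.single i 1, S.u i (M.eqv m i), ⟨le_rfl, by rw [one_smul, ← e],
      mer_cast e (((h1 X L S M).2.2.2.2.2.2.2 y hy).2.1 i _)⟩, ?_⟩
    rintro _ rfl
    exact ⟨m, j, _, a, b, hol_const 1 _, one_ne_zero, .of_forall fun _ _ => by
      simp [Pi.single_apply]⟩
  · rintro x x' ⟨N, c, s, a, b⟩ ⟨N', c', s', a', b'⟩
    exact ⟨_, _, _, dg_add h1 hM hy a a', (b.and_eventually ((((fr_add h1 hL hM hy a).filter_mono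
      (nhds_le_nhdsSet hw)).and (fr_near (b' w rfl))).filter_mono nhdsWithin_le_nhds)).mono
        fun _ q => q.2.1 q.1 q.2.2⟩
  · rintro hN l w hw hl w' hw' x ⟨N, c, s, a, b⟩
    exact ⟨N, c, s, a, gfr_of h1 hL hy hN a.mer hw hl hw' (b w' rfl)⟩

end Vale.Agent.P277Z.Cls
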