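import Vale.Agent.P277Z.Cls.Rig

/-!
# P277, block CLS: the surfaces in the fibre
-/

open scoped Manifold ContDiff Topology
open Vale.Agent.P272.K Vale.Agent.P285.H281.FD Vale.Agent.P277 Set Filter Metric
open Vale.Agent.P277Z.Slc (LEq Ind Snc dd)

noncomputable section

namespace Vale.Agent.P277Z.Cls

namespace A3H

section gen

variable {n : ℕ} {W : Type} [TopologicalSpace W] [ChartedSpace (Cm n) W]

theorem hcomp {W' : Type} [TopologicalSpace W'] [ChartedSpace (Cm n) W'] {μ : W' → W}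
    (h : Tr.HolM n n μ) {x : W'} {g : W → ℂ} (hg : Hol n g (μ x)) : Hol n (fun v => g (μ v)) x := by
  intro e he
  have he' := Slc.at_chartAt (n := n) (μ x)
  refine (AnalyticAt.comp (g := fun z => g ((chartAt (Cm n) (μ x)).symm z))
    (f := fun z => chartAt (Cm n) (μ x) (μ (e.symm z)))
    (by rw [e.left_inv he.2]; exact hg _ he') (h.2 x e _ he he')).congr ?_
  filter_upwards [(h.1.continuousAt.tendsto.comp (Slc.tendsto_symm he)).eventually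
    ((chartAt (Cm n) (μ x)).open_source.mem_nhds he'.2)] with z a
  exact congrArg g ((chartAt (Cm n) (μ x)).left_inv a)

theorem lim {κ : Type} [Fintype κ] {f g : W → ℂ} {ζ : κ → W → ℂ} {o : κ → ℤ} {x : W}
    (hf : ContinuousAt f x) (hg : ContinuousAt g x) (hζ : ∀ l, ContinuousAt (ζ l) x)
    (h : ∃ᶠ v in 𝓝 x, (∀ l, ζ l v ≠ 0) ∧ f v = g v * ∏ l, ζ l v ^ o l) :
    f x * ∏ l, ζ l x ^ (-o l).toNat = g x * ∏ l, ζ l x ^ (o l).toNat := by
  refine tendsto_nhds_unique_of_frequently_eq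
    (hf.mul (tendsto_finsetProd _ fun l _ => (hζ l).pow _))
    (hg.mul (tendsto_finsetProd _ fun l _ => (hζ l).pow _)) (h.mono fun v a => ?_)
  show f v * ∏ l, ζ l v ^ (-o l).toNat = g v * ∏ l, ζ l v ^ (o l).toNat
  rw [a.2, mul_assoc, ← Finset.prod_mul_distrib]
  refine congrArg _ (Finset.prod_congr rfl fun l _ => ?_)
  rw [← zpow_natCast, ← zpow_natCast, ← zpow_add₀ (a.1 l)]
  congr 1
  omega

variable [IsManifold 𝓘(ℂ, Cm n) ω W] {α : Type} [Fintype α] {β : α → W → ℂ} {x : W} {T : Set W}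

theorem idS (h : Ind n β x) (hT : ∀ᶠ y in 𝓝 x, y ∈ T ↔ ∀ a, β a y = β a x) {g : W → ℂ}
    (hg : Hol n g x) (H : ∃ᶠ v in 𝓝[T] x, ∀ᶠ v' in 𝓝[T] v, g v' = 0) :
    ∀ᶠ v in 𝓝[T] x, g v = 0 := by
  obtain ⟨d, γ, v₀, rfl, h1⟩ := RigH.slice h hT
  obtain ⟨h2, h3⟩ := h1.self_of_nhds
  rw [← h2] at H ⊢
  have h4 : ∃ᶠ v in 𝓝 v₀, ∀ᶠ w in 𝓝 v, g (γ w) = 0 :=
    ((frequently_map.1 H).and_eventually h1).mono fun v a => eventually_map.1 (a.2.1 ▸ a.1)
  have h5 := RigH.ident (h3 g hg) (h4.mono fun v a => a.mono fun w b => b.trans a.self_of_nhds.symm)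
  obtain ⟨v, a, b⟩ := (h4.and_eventually h5).exists
  exact eventually_map.2 (h5.mono fun w c => c.trans (b.symm.trans a.self_of_nhds))

theorem lconn (h : Ind n β x) (hT : ∀ᶠ y in 𝓝 x, y ∈ T ↔ ∀ a, β a y = β a x) {A : Set W}
    (hA : A ∈ 𝓝[T] x) : connectedComponentIn A x ∈ 𝓝[T] x := by
  obtain ⟨d, γ, v₀, rfl, h1⟩ := RigH.slice h hT
  have h2 := h1.self_of_nhds.1
  rw [← h2] at hA ⊢
  obtain ⟨r, hr, h3⟩ := Metric.eventually_nhds_iff_ball.1 (h1.and hA)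
  refine mem_of_superset (image_mem_map (ball_mem_nhds v₀ hr))
    (IsPreconnected.subset_connectedComponentIn ((convex_ball v₀ r).isPreconnected.image γ
      fun v a => ContinuousAt.continuousWithinAt ?_) ⟨v₀, mem_ball_self hr, rfl⟩
      (image_subset_iff.2 fun v a => (h3 v a).2))
  exact (h3 v a).1.1.le.trans nhdsWithin_le_nhds

end gen

theorem comp4 (hL : StLoc) {W : Type} [TopologicalSpace W] [T2Space W] [SecondCountableTopology W]
    [ChartedSpace (Cm 4) W] [IsManifold 𝓘(ℂ, Cm 4) ω W] {κ : Type} [Fintype κ] {G : κ → Set W}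
    {ex : Finset κ} (hG : Snc 4 G) {f : W → ℂ} {w : W} (hf : Hol 4 f w) (h0 : f w = 0)
    (h : ∀ᶠ v in 𝓝 w, v ∉ Ex G ex → f v ≠ 0) :
    ∃ l ∈ ex, w ∈ G l ∧ ∀ᶠ v in 𝓝[G l] w, f v = 0 := by
  obtain ⟨l1, l2, -, l4, -⟩ := hL W κ G ex hG
  obtain ⟨ζ, hζ, -⟩ := hG w
  have h1 : ∀ x, ∃ᶠ v in 𝓝 x, ∀ l, v ∉ G l := fun x =>
    let ⟨_, _, a, b⟩ := l1 x
    (mem_closure_iff_frequently.1 (b (a rfl))).mono fun _ c => interior_subset c
  have h2 : ∀ v, (∀ l, v ∉ G l) → v ∉ Ex G ex := fun v a b =>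
    let ⟨l, _, c⟩ := mem_iUnion₂.1 b
    a l c
  obtain ⟨o, g, g1, g2, g3, -, g4⟩ := l4 f w ζ ⟨⟨ζ, 0, hζ, ‖f w‖ + 1,
      (hf.continuousAt.norm.eventually (ge_mem_nhds (lt_add_one _))).mono fun v a _ => by simpa using a⟩,
      hf.near.mono fun v a _ => a⟩ hζ
    (((h1 w).and_eventually h).mono fun v a => ⟨h2 v a.1, a.2 (h2 v a.1)⟩)
  have h3 : ∀ᶠ x in 𝓝 w, f x * ∏ l, ζ l x ^ (-o l).toNat = g x * ∏ l, ζ l x ^ (o l).toNat := by
    filter_upwards [hf.near, g2.near, eventually_all.2 fun l => (hζ l).near, g3.eventually_nhds]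
      with x a b c d
    exact lim a.continuousAt b.continuousAt (fun l => (c l).hol.continuousAt)
      (((h1 x).and_eventually (d.and (eventually_all.2 fun l => (c l).1))).mono fun v k =>
        ⟨fun l m => k.1 l ((k.2.2 l).1 m), k.2.1 (h2 v k.1)⟩)
  have h4 := h3.self_of_nhds
  rw [h0, zero_mul, eq_comm, mul_eq_zero, or_iff_right (g4 h), Finset.prod_eq_zero_iff] at h4
  obtain ⟨l, -, h5⟩ := h4
  obtain ⟨h5, h6⟩ := pow_eq_zero_iff'.1 h5
  refine ⟨l, by_contra fun a => h6 (by simp [g1 l a]), (hζ l).mem.1 h5, ?_⟩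
  refine eventually_nhdsWithin_iff.2 ?_
  filter_upwards [hf.near, (h3.and (eventually_all.2 fun l => (hζ l).1)).eventually_nhds]
    with x a b c
  refine tendsto_nhds_unique_of_frequently_eq a.continuousAt tendsto_const_nhds
    (((((l2 l x c).and_eventually self_mem_nhdsWithin).filter_mono nhdsWithin_le_nhds).and_eventually
      b).mono fun v ⟨⟨d, e⟩, k, m⟩ => ?_)
  rw [Finset.prod_eq_zero (Finset.mem_univ l) (f := fun l => ζ l v ^ (o l).toNat)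
    (by rw [(m l).2 e, zero_pow h6]), mul_zero, mul_eq_zero, Finset.prod_eq_zero_iff] at k
  refine k.resolve_right fun ⟨l', _, k⟩ => ?_
  obtain ⟨k1, k2⟩ := pow_eq_zero_iff'.1 k
  obtain rfl : l' = l := by_contra fun j => d l' j ((m l').1 k1)
  omega

variable {X : Ctx} {L : Fin X.q → Bd X.V.W} {S : X.Sf L} {M : Md S} {y : X.Y.pt} {O τ g Δ}
  {l : Fin X.V.r ⊕ Fin M.Z.r} {w : M.Z.W}

theorem one (hL : StLoc) (h1 : StApi1) (hG : M.Gen y O τ g Δ) (hw : w ∈ M.F y) :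
    ∃ l ∈ exU X.ex, M.TyA y l w := by
  obtain ⟨a1, -, a3, -⟩ := h1 X L S M
  have e : M.b w = y := hw
  have h2 : ∀ v, X.p (X.μ (M.Z.π v)) = M.b v := fun v => X.hyp.fac _
  obtain ⟨k, hk⟩ : ∃ k, X.μ (M.Z.π w) ∈ X.U.G k := by
    by_contra! b
    obtain ⟨u, c, d⟩ := X.hσ ▸ hG.gp.mem
    exact b _ (X.hyp.resU.inj _ u (by simpa using b) (by rw [d, h2, e]) ▸ c)
  obtain ⟨ζ, hζ⟩ := X.U.exEq (X.μ (M.Z.π w))
  have h3 := (X.hyp.hol.1.comp M.Z.bl.cont).continuousAt.eventually (hζ k).1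
  obtain ⟨l, l1, l2, l3⟩ := comp4 hL (ex := exU X.ex) M.Z.snc
    (M.Z.bl.hol w _ (hcomp X.hyp.hol (LEq.hol (hζ k)))) (h3.self_of_nhds.2 hk) (by
      filter_upwards [h3, a1.continuousAt.eventually (M.model.isOpen.mem_nhds (e ▸ hG.mem))]
        with v b c d f
      obtain ⟨j, j1, j2⟩ := X.hyp.dom.pre _ (mem_iUnion.2 ⟨k, b.1 f⟩)
      exact d ((a3 v c).1 (mem_iUnion₂.2 ⟨j, j1, j2⟩)))
  refine ⟨l, l1, l2, e, ?_⟩
  filter_upwards [l3, nhdsWithin_le_nhds h3] with v b c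
  exact hG.gp.img k ⟨_, hk, (h2 w).trans e⟩ ▸ ⟨_, c.1 b, h2 v⟩

/-- the level set of `τ` in `G l` -/
def Sf (M : Md S) (y : X.Y.pt) (τ : X.Y.pt → ℂ) (l : Fin X.V.r ⊕ Fin M.Z.r) : Set M.Z.W :=
  {x | x ∈ M.Z.G l ∧ τ (M.b x) = τ y}

theorem reg (hG : M.Gen y O τ g Δ) (hl : w ∈ M.Z.G l) (e : M.b w = y) :
    ∃ ζ, LEq 4 (M.Z.G l) w ζ ∧ Ind 4 ![ζ, fun x => τ (M.b x)] w ∧
      ∀ᶠ x in 𝓝 w, x ∈ Sf M y τ l ↔
        ∀ a, ![ζ, fun x => τ (M.b x)] a x = ![ζ, fun x => τ (M.b x)] a w := by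
  obtain ⟨ζ, hζ, -⟩ := M.Z.snc w
  have h := (hG.reg w (show M.b w ∈ M.O from e ▸ hG.mem) (congrArg (fun z => ![τ z]) e) ζ hζ).comp
    ![.inl ⟨l, hl⟩, .inr 0] (by intro a b; fin_cases a <;> fin_cases b <;> simp)
  refine ⟨ζ l, hζ l, ⟨Fin.forall_fin_two.2 ⟨h.1 0, fun c hc => ?_⟩, fun c hc => ?_⟩,
    (hζ l).1.mono fun x a => by simp [Sf, a, (hζ l).mem.2 hl, e]⟩
  · exact ((h.1 1 c hc).add (analyticAt_const (v := τ y))).congr
      (Eventually.of_forall fun z => sub_add_cancel _ _)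
  · have k := h.2 c hc
    refine (congrArg (fun v : Fin 2 → Cm 4 →L[ℂ] ℂ => LinearIndependent ℂ v) ?_).mp k
    exact funext (Fin.forall_fin_two.2 ⟨rfl, Slc.dd_sub_const (fun x => τ (M.b x)) (τ y) c w⟩)

theorem inj (hG : M.Gen y O τ g Δ) {a b} (ha : a ∈ X.σ ∩ O) (hb : b ∈ X.σ ∩ O) (h : τ a = τ b) :
    a = b := by
  rw [hG.disc.img] at ha hb
  obtain ⟨s, a1, rfl⟩ := ha
  obtain ⟨s', b1, rfl⟩ := hb
  rw [(hG.disc.par s a1).2.1, (hG.disc.par s' b1).2.1] at h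
  rw [h]

theorem near (h1 : StApi1) (hG : M.Gen y O τ g Δ) (h : M.TyA y l w) :
    ∀ᶠ x in 𝓝 w, x ∈ M.Z.G l → M.b x ∈ X.σ ∩ O := by
  filter_upwards [eventually_nhdsWithin_iff.1 h.near, (h1 X L S M).1.continuousAt.eventually
    (M.model.isOpen.mem_nhds (h.fib ▸ hG.mem))] with x a b c using ⟨a c, hG.le b⟩

theorem same (h1 : StApi1) (hG : M.Gen y O τ g Δ) (h : M.TyA y l w) :
    ∀ᶠ x in 𝓝 w, x ∈ Sf M y τ l ↔ x ∈ M.Z.G l ∩ M.F y :=
  (near h1 hG h).mono fun _ a => ⟨fun b => ⟨b.1, inj hG (a b.1) ⟨hG.gp.mem, hG.le hG.mem⟩ b.2⟩,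
    fun b => ⟨b.1, congrArg τ b.2⟩⟩

theorem opn (h : M.TyA y l w) : ∀ᶠ x in 𝓝 w, x ∈ M.Z.G l ∩ M.F y → M.TyA y l x :=
  (eventually_nhdsWithin_iff.1 (eventually_eventually_nhdsWithin.2 h.near)).mono
    fun _ a b => ⟨b.1, b.2, a b.1⟩

theorem cls (h1 : StApi1) (hG : M.Gen y O τ g Δ) (hw : w ∈ M.Z.G l ∩ M.F y)
    (h : ∃ᶠ x in 𝓝 w, M.TyA y l x) : M.TyA y l w := by
  obtain ⟨a1, a2, -⟩ := h1 X L S M
  have e : M.b w = y := hw.2
  obtain ⟨ζ, -, b1, b2⟩ := reg hG hw.1 e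
  have h2 : ∀ i, ∀ᶠ x in 𝓝[Sf M y τ l] w, M.t x i - M.φ y i = 0 := fun i => by
    refine idS b1 b2 (fun c hc => (a2 w (fun z => M.φ z i) ((M.model.hol _ (e ▸ hG.mem) _).2
      ⟨fun z => z i, (ContinuousLinearMap.proj (R := ℂ) (φ := fun _ => ℂ) i).analyticAt _,
        EventuallyEq.rfl⟩) c hc).sub analyticAt_const) (frequently_nhdsWithin_iff.2 (h.mono
          fun x a => ⟨eventually_nhdsWithin_iff.2 ((same h1 hG a).mono fun v b c => ?_),
            a.mem, congrArg τ a.fib⟩))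
    rw [Md.t, show M.b v = y from (b.1 c).2, sub_self]
  refine hG.typ l w hw.1 e (eventually_nhdsWithin_iff.2 ?_)
  filter_upwards [eventually_nhdsWithin_iff.1 (eventually_all.2 h2),
    a1.continuousAt.eventually (M.model.isOpen.mem_nhds (e ▸ hG.mem))] with x a b c d
  exact congrArg Subtype.val (M.model.emb.injective (a₁ := ⟨_, b⟩) (a₂ := ⟨y, hG.mem⟩)
    (funext fun i => sub_eq_zero.1 (a ⟨c, d⟩ i)))

theorem tya (h1 : StApi1) (hG : M.Gen y O τ g Δ) (h : M.TyA y l w) {v} (hv : v ∈ M.T y l w) :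
    M.TyA y l v := by
  have s := connectedComponentIn_subset (M.Z.G l ∩ M.F y) w
  refine (isPreconnected_connectedComponentIn.induction₂ (fun a b => M.TyA y l a ↔ M.TyA y l b)
    (fun x a => eventually_nhdsWithin_iff.2 ?_) (fun _ _ _ _ _ _ => Iff.trans)
    (fun _ _ _ _ => Iff.symm) (mem_connectedComponentIn (F := M.Z.G l ∩ M.F y) ⟨h.mem, h.fib⟩) hv).1 h
  by_cases b : M.TyA y l x
  · exact (opn b).mono fun _ c d => iff_of_true b (c (s d))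
  · exact (not_frequently.1 (mt (cls h1 hG (s a)) b)).mono fun _ c _ => iff_of_false b c

theorem tnhd (h1 : StApi1) (hG : M.Gen y O τ g Δ) (h : M.TyA y l w) :
    M.T y l w ∈ 𝓝[Sf M y τ l] w := by
  obtain ⟨ζ, -, b1, b2⟩ := reg hG h.mem h.fib
  exact lconn b1 b2 (eventually_nhdsWithin_iff.2 ((same h1 hG h).mono fun _ a => a.1))

end A3H

open A3H

theorem stApi3 (hL : StLoc) (h1 : StApi1) : StApi3 := by
  intro X L S M y O τ g Δ hG
  refine ⟨fun w => one hL h1 hG, ?_, fun l w h => ⟨?_, isConnected_connectedComponentIn_iff.2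
    ⟨h.mem, h.fib⟩, fun v hv => ?_⟩⟩
  · have h2 : ∀ l, ∃ t ⊆ {w | M.TyA y l w}, t.Countable ∧ _ ⊆ ⋃ w ∈ t, M.T y l w := fun l =>
      TopologicalSpace.countable_cover_nhdsWithin fun w a =>
        nhdsWithin_mono w (fun x (b : M.TyA y l x) => And.intro b.mem (congrArg τ b.fib))
          (tnhd h1 hG a)
    choose t t1 t2 t3 using h2
    refine (countable_iUnion fun l => (t2 l).image (M.T y l)).mono ?_
    rintro _ ⟨l, w, a, rfl⟩
    obtain ⟨v, b, c⟩ := mem_iUnion₂.1 (t3 l a)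
    exact mem_iUnion.2 ⟨l, v, b, connectedComponentIn_eq c⟩
  · have := isCompact_iff_compactSpace.1
      (((h1 X L S M).2.2.2.2.2.2.2 y hG.mem).2.2.1.inter_left (M.div l).closed)
    rw [Md.T, connectedComponentIn_eq_image (F := M.Z.G l ∩ M.F y) ⟨h.mem, h.fib⟩]
    exact isClosed_connectedComponent.isCompact.image continuous_subtype_val
  have a := tya h1 hG h hv
  have e : M.T y l v = M.T y l w := (connectedComponentIn_eq hv).symm
  obtain ⟨ζ, b0, b1, b2⟩ := reg hG a.mem a.fib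
  have c : ∀ᶠ x in 𝓝 v, x ∈ M.T y l w ↔ x ∈ Sf M y τ l :=
    (eventually_nhdsWithin_iff.1 (e ▸ tnhd h1 hG a)).mono fun x d => ⟨fun f =>
      let k := connectedComponentIn_subset _ _ f
      ⟨k.1, congrArg τ k.2⟩, d⟩
  refine ⟨a, e, ⟨ζ, b0, b1⟩, c, (near h1 hG a).eventually_nhds.mono fun x d =>
    d.mono fun x' f j k m => inj hG (f k) (d.self_of_nhds j) m, fun f hf => idS b1 ?_ hf⟩
  filter_upwards [c, b2] with x j k using j.trans k

end Vale.Agent.P277Z.Cls
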