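import Vale.Agent.P277Z.Cls.Sk

/-!
# P277, block CLS: the boundary of the cone
-/

open scoped Topology
open Vale.Agent.P272.K Vale.Agent.P285.H281.FD Vale.Agent.P277 Set Filter

noncomputable section

namespace Vale.Agent.P277Z.Cls

namespace Bd3

/-- the projector of a line -/
def pj {ι : Type} [Fintype ι] (u : ι → ℂ) (a a' : ι) : ℂ :=
  u a * (starRingEnd ℂ) (u a') / ((‖u‖ ^ 2 : ℝ) : ℂ)

theorem pj_smul {ι : Type} [Fintype ι] (u : ι → ℂ) {c : ℂ} (hc : c ≠ 0) : pj (c • u) = pj u := by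
  funext a a'
  have h : ((‖c‖ ^ 2 : ℝ) : ℂ) ≠ 0 := by simpa using hc
  simp only [pj, Pi.smul_apply, smul_eq_mul, map_mul, norm_smul, mul_pow, Complex.ofReal_mul]
  rw [mul_mul_mul_comm, Complex.mul_conj, Complex.normSq_eq_norm_sq, mul_div_mul_left _ _ h]

theorem pj_ne {ι : Type} [Fintype ι] {u : ι → ℂ} {a : ι} : pj u a a ≠ 0 ↔ u a ≠ 0 := by
  refine ⟨fun h e => h (by simp [pj, e]), fun h => div_ne_zero (mul_ne_zero h (by simpa using h)) ?_⟩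
  have : u ≠ 0 := fun e => h (by simp [e])
  simpa using this

theorem pj_cont {ι : Type} [Fintype ι] {u : ι → ℂ} (hu : u ≠ 0) : ContinuousAt (pj (ι := ι)) u := by
  refine continuousAt_pi.2 fun a => continuousAt_pi.2 fun a' => ContinuousAt.div ?_ ?_ ?_
  · exact ((continuous_apply a).mul (Complex.continuous_conj.comp (continuous_apply a'))).continuousAt
  · exact (Complex.continuous_ofReal.comp (continuous_norm.pow 2)).continuousAt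
  · simpa using hu

theorem exists_pj {W ι : Type} [TopologicalSpace W] [Fintype ι] {O : Set W} {D : ι → Set W}
    {ν : ι → W → ι → ℂ} (h0 : ∀ m, IsOpen (D m)) (h1 : ∀ w, w ∈ O ↔ ∃ m, w ∈ D m)
    (h2 : ∀ m, ∀ w ∈ D m, ∀ l, ContinuousAt (fun w => ν m w l) w) (h3 : ∀ m, ∀ w ∈ D m, ν m w m = 1)
    (h4 : ∀ m l, ∀ w ∈ D m, w ∈ D l ↔ ν m w l ≠ 0)
    (h5 : ∀ m l, ∀ w ∈ D m, w ∈ D l → ν m w = ν m w l • ν l w) :
    ∃ P : W → ι → ι → ℂ, ContinuousOn P O ∧ (∀ j, ∀ v ∈ D j, P v = pj (ν j v)) ∧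
      ∀ j, ∀ v ∈ D j, ∀ v' ∈ O, P v' = P v → v' ∈ D j := by
  classical
  have e : ∀ j, ∀ v ∈ D j, (if h : ∃ m, v ∈ D m then pj (ν h.choose v) else 0) = pj (ν j v) :=
    fun j v hv => by
      have h : ∃ m, v ∈ D m := ⟨j, hv⟩
      rw [dif_pos h, h5 _ j v h.choose_spec hv, pj_smul _ ((h4 _ j v h.choose_spec).1 hv)]
  refine ⟨fun v => if h : ∃ m, v ∈ D m then pj (ν h.choose v) else 0, fun v hv => ?_, e,
    fun j v hv v' hv' k => ?_⟩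
  · obtain ⟨j, hj⟩ := (h1 v).1 hv
    have c : ContinuousAt (fun v => pj (ν j v)) v := (pj_cont fun k => one_ne_zero
      ((h3 j v hj).symm.trans (congrFun k j))).comp (continuousAt_pi.2 (h2 j v hj))
    exact (c.congr (((h0 j).eventually_mem hj).mono fun v' k => (e j v' k).symm)).continuousWithinAt
  · obtain ⟨m, hm⟩ := (h1 v').1 hv'
    refine (h4 m j v' hm).2 (pj_ne.1 ?_)
    rw [(e m v' hm).symm.trans (k.trans (e j v hv))]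
    exact pj_ne.2 (h3 j v hv ▸ one_ne_zero)

theorem exists_out {W E : Type} [TopologicalSpace W] [MetricSpace E] {T : Set W} {P : W → E}
    (hT : IsPreconnected T) (hP : ContinuousOn P T) (h : ¬ (P '' T).Subsingleton) {B : Set E}
    (hB : B.Countable) : ∃ v ∈ T, P v ∉ B := by
  by_contra k
  push Not at k
  exact h (((hB.mono (image_subset_iff.2 k)).isTotallyDisconnected) _ subset_rfl (hT.image P hP))

variable {X : Ctx} {L : Fin X.q → Bd X.V.W} {S : X.Sf L} {M : Md S} {y : X.Y.pt}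
  {x : Fin X.q → ℤ}

theorem fre (hF : StFre) (h1 : StApi1) (hy : y ∈ M.O) (hN : M.Neg y) (hx : x ∈ M.Cn y) :
    Nonempty (M.Fre y x) := by
  obtain ⟨w, hw⟩ := ((h1 X L S M).2.2.2.2.2.2.2 y hy).2.2.2.1
  obtain ⟨N, c, s, h, -⟩ := hx w hw
  obtain ⟨Ψ, -⟩ := hF X L S M y hy hN x hx N c s h
  exact ⟨Ψ⟩

theorem mem_dom (Ψ : M.Fre y x) (hy : y ∈ M.O) {w : M.Z.W} (hw : w ∈ M.F y) :
    w ∈ M.b ⁻¹' M.O ∩ M.t ⁻¹' Ψ.Ω := by
  have e : M.b w = y := hw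
  exact ⟨by rwa [mem_preimage, e], by rw [mem_preimage, Md.t, e]; exact Ψ.mem⟩

theorem tr_of (Ψ : M.Fre y x) {j : Fin (Ψ.R + 1)} {A : Set M.Z.W} (h : A ⊆ Ψ.D j) : M.Tr y x A :=
  ⟨Ψ.N, Ψ.c, Ψ.s j, Ψ.dg j, fun w hw =>
    (Ψ.fr j w ((Ψ.pm.cover w).2 ⟨j, h hw⟩)).1 (h hw)⟩

end Bd3

open Bd3

theorem stBd (hF : StFre) (hZ : StZc) (h1 : StApi1) (h2 : StApi2) : StBd := by
  intro X L S M y O τ g Δ hG x hx hp
  by_contra hn
  obtain ⟨Ψ⟩ := fre hF h1 hG.mem hG.neg hx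
  obtain ⟨a1, -, -, a4, -⟩ := h2 X L S M y hG.mem
  have k : ∀ w ∈ M.F y, ∃ p : ℕ, ∀ᶠ w' in 𝓝 w, M.Tr y (p • x - ∑ i, S.a i) {w'} := fun w hw => by
    obtain ⟨j, hj⟩ := (Ψ.pm.cover w).1 (mem_dom Ψ hG.mem hw)
    obtain ⟨p, N, c, s, hs, hf⟩ := hZ X L S M y O τ g Δ hG x Ψ j w hw hj
      fun l hl v m i t1 t2 t3 => hn ⟨l, hl, v, m, i, t1, t2, tr_of Ψ fun z hz => (t3 hz).1⟩
    exact ⟨p, (a1 c s w (hf w rfl)).mono fun w' k => ⟨N, c, s, hs, fun _ e => e ▸ k⟩⟩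
  choose! p hp' using k
  obtain ⟨T, -, hT⟩ := ((h1 X L S M).2.2.2.2.2.2.2 y hG.mem).2.2.1.elim_nhds_subcover _ hp'
  refine hp (∑ w ∈ T, p w) fun w hw => ?_
  obtain ⟨v, hv, k⟩ := mem_iUnion₂.1 (hT hw)
  obtain ⟨b1, b2, -⟩ := a4 {w} (singleton_subset_iff.2 hw)
  have b3 : ∀ n : ℕ, M.Tr y (n • x) {w} := fun n => by
    induction n with
    | zero => rwa [zero_smul]
    | succ n ih => exact succ_nsmul x n ▸ b2 _ _ ih (hx w hw)
  obtain ⟨n, e⟩ := Nat.exists_eq_add_of_le (Finset.single_le_sum (f := p) (fun _ _ => Nat.zero_le _) hv)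
  rw [e, add_smul, add_sub_right_comm]
  exact b2 _ _ k (b3 n)

theorem stThree (hF : StFre) (hZ : StZc) (h1 : StApi1) (h2 : StApi2) (h3 : StApi3) : StThree := by
  intro X L S M y O τ g Δ hG l w hw x hx hn
  obtain ⟨Ψ⟩ := fre hF h1 hG.mem hG.neg hx
  obtain ⟨-, c2, c3⟩ := h3 X L S M y O τ g Δ hG
  obtain ⟨P, p1, p2, p3⟩ := exists_pj Ψ.pm.isOpen Ψ.pm.cover
    (fun m v hv a => Pj.holF_cont (Ψ.pm.hol m v hv a)) Ψ.pm.one Ψ.pm.mem Ψ.pm.chg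
  have s1 : M.T y l w ⊆ M.F y := fun v hv => (connectedComponentIn_subset _ _ hv).2
  have s2 := fun v hv => mem_dom Ψ hG.mem (s1 (a := v) hv)
  have s3 : w ∈ M.T y l w := mem_connectedComponentIn ⟨hw.mem, hw.fib⟩
  obtain ⟨v, hv, k⟩ := exists_out (c3 l w hw).2.1.isPreconnected (p1.mono s2) (fun k => by
      obtain ⟨j, hj⟩ := (Ψ.pm.cover w).1 (s2 w s3)
      exact hn (tr_of Ψ fun v hv => p3 j w hj v (s2 v hv) (k ⟨v, hv, rfl⟩ ⟨w, s3, rfl⟩)))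
    ((c2.mono fun T (h : _ ∧ (P '' T).Subsingleton) => h.1).biUnion fun T h => h.2.countable)
  obtain ⟨j, hj⟩ := (Ψ.pm.cover v).1 (s2 v hv)
  obtain ⟨p, hp⟩ := hZ X L S M y O τ g Δ hG x Ψ j v (s1 hv) hj fun l' _ u m i t1 _ t3 => by
    have e : ∀ z ∈ M.T y l' u, P z = P v := fun z hz => by
      rw [p2 j z (t3 hz).1, p2 j v hj, (t3 hz).2]
    refine k (mem_iUnion₂.2 ⟨M.T y l' u, ⟨⟨l', u, t1, rfl⟩, ?_⟩, u, mem_connectedComponentIn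
      ⟨t1.mem, t1.fib⟩, e u (mem_connectedComponentIn ⟨t1.mem, t1.fib⟩)⟩)
    rintro _ ⟨z, hz, rfl⟩ _ ⟨z', hz', rfl⟩
    rw [e z hz, e z' hz']
  exact ⟨p, (h2 X L S M y hG.mem).2.2.2.2.2.2 hG.neg l w hw.fib hw.mem v hv _ hp⟩

end Vale.Agent.P277Z.Cls
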