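import Vale.Agent.P277Z.Cls.Sk
import Vale.Agent.P277Z.Slc.Bridge
import Vale.Agent.P277Z.Luf.Hol

/-!
# P277, block CLS: sections without zeros outside the exceptional set
-/

open scoped Manifold ContDiff Topology
open Vale.Agent.P272.K Vale.Agent.P285.H281.FD Vale.Agent.P277 Set Filter
open Vale.Agent.P277Z.Slc (LEq Snc lin snc_lg)
open Vale.Agent.P277Z.Brg (PosR LBN SecN RAMP RPO)

noncomputable section

namespace Vale.Agent.P277Z.Cls

namespace BigH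

variable {n N : ℕ}

/-- a positive bundle near the fibre, with the same transition functions -/
theorem posB {G : Geo n N} {P : Bd G.W} (hP : IsLB n P)
    (h : PosR n G.F (fun _ : Unit => P) fun _ => 1) :
    ∃ U : P.ι → Set G.W, (∀ i, U i ⊆ P.U i) ∧ G.PosB ⟨P.ι, U, P.g⟩ := by
  obtain ⟨Λ, hΛ⟩ := h
  obtain ⟨O, hO, hF, k⟩ := eventually_nhdsSet_iff_exists.1
    (eventually_nhdsSet_iff_forall.2 fun x hx => (hΛ x hx).chg)
  refine ⟨fun i => interior {y | y ∈ P.U i ∧ y ∈ O ∧ Spsh n (Λ fun _ => i) y},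
    fun i y hy => (interior_subset hy).1, fun i => Λ fun _ => i,
    ⟨fun _ => isOpen_interior, fun x hx => ?_, fun i j x a b => ?_,
      fun i j x a b => ?_, fun i j l x a b c => ?_⟩, fun i x a => (interior_subset a).2.2,
    fun i j x a b => ?_⟩
  · obtain ⟨i, h1, h2⟩ := (hΛ x hx).pos
    exact ⟨i (), mem_interior_iff_mem_nhds.2 (((hP.isOpen _).eventually_mem (h1 ())).and
      ((hO.eventually_mem (hF hx)).and h2))⟩
  all_goals have a' := interior_subset a; have b' := interior_subset b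
  · exact fun e he => (hP.holo i j e x he a'.1 b'.1).analyticAt
  · exact hP.ne_zero i j x a'.1 b'.1
  · exact hP.cocycle i j l x a'.1 b'.1 (interior_subset c).1
  · simpa using k x a'.2.1 (fun _ => i) (fun _ => j) (fun _ => a'.1) fun _ => b'.1

theorem lbn_lin {W α : Type} [TopologicalSpace W] [ChartedSpace (Cm n) W] [Fintype α] {F : Set W}
    {L : α → Bd W} (h : ∀ a, LBN n F (L a)) (b : α → ℤ) : LBN n F (lin L b) := by
  refine ⟨fun i => ?_, fun x hx => ?_, ?_⟩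
  · have := isOpen_iInter_of_finite fun a => (h a).isOpen (i a)
    rwa [show (⋂ a, (L a).U (i a)) = (lin L b).U i from Set.ext fun _ => mem_iInter] at this
  · choose i hi using fun a => (h a).cover x hx
    exact ⟨i, hi⟩
  · filter_upwards [eventually_all.2 fun a => (h a).near] with y hy i j hi hj
    refine ⟨Hol.prod _ fun a _ => (hy a _ _ (hi a) (hj a)).1.zpow (hy a _ _ (hi a) (hj a)).2.1 _,
      Finset.prod_ne_zero_iff.2 fun a _ => zpow_ne_zero _ (hy a _ _ (hi a) (hj a)).2.1,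
      fun k hk => ?_⟩
    simp only [Slc.lin, ← Finset.prod_mul_distrib, ← mul_zpow]
    exact Finset.prod_congr rfl fun a _ => by rw [(hy a _ _ (hi a) (hj a)).2.2 _ (hk a)]

/-- a section which is a unit times a power of `τ` at a given point -/
theorem sec (hG : GGF) {G : Geo n N} {P L : Bd G.W} (hP : IsLB n P)
    (h : PosR n G.F (fun _ : Unit => P) fun _ => 1) (hL : LBN n G.F L)
    {τ : P.ι → G.W → ℂ} (hτ : IsSec n (P277.Bd.inv P) τ) {w : G.W} (hw : w ∈ G.F) {i : L.ι}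
    (hi : w ∈ L.U i) : ∃ (s : L.ι → G.W → ℂ) (m : ℕ) (k : P.ι) (u : G.W → ℂ), SecN n G.F L s ∧
      w ∈ P.U k ∧ Hol n u w ∧ u w ≠ 0 ∧ ∀ᶠ v in 𝓝 w, s i v = u v * τ k v ^ m := by
  classical
  obtain ⟨U, hU, hA⟩ := posB hP h
  obtain ⟨O, hO, hF, hn⟩ := eventually_nhdsSet_iff_exists.1 hL.near
  have lb : G.LB ⟨L.ι, fun i => L.U i ∩ O, L.g⟩ :=
    ⟨fun i => (hL.isOpen i).inter hO, fun x hx => (hL.cover x hx).imp fun _ k => ⟨k, hF hx⟩,
      fun i j x a b => (hn x a.2 i j a.1 b.1).1, fun i j x a b => (hn x a.2 i j a.1 b.1).2.1,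
      fun i j k x a b c => (hn x a.2 i j a.1 b.1).2.2 k c.1⟩
  obtain ⟨m, hm⟩ := hG n N G _ _ hA lb
  obtain ⟨s, hs, h0⟩ := hm m le_rfl w hw
  obtain ⟨_, lA, -⟩ := hA
  let σ : L.ι → G.W → ℂ := fun i v =>
    if a : ∃ k, v ∈ U k then s (i, a.choose) v * τ a.choose v ^ m else 0
  have key : ∀ᶠ v in 𝓝ˢ G.F, ∀ i k, v ∈ L.U i → v ∈ U k → σ i v = s (i, k) v * τ k v ^ m := by
    filter_upwards [hs, hO.mem_nhdsSet.2 hF] with v h1 h2 i k a b
    have c : ∃ k, v ∈ U k := ⟨k, b⟩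
    have d := c.choose_spec
    have e1 : s (i, c.choose) v = L.g i i v * P.g c.choose k v ^ m * s (i, k) v :=
      (h1 (i, c.choose) ⟨⟨a, h2⟩, d⟩).2 (i, k) ⟨⟨a, h2⟩, b⟩
    have e2 : τ c.choose v = (P.g c.choose k v)⁻¹ * τ k v := hτ.change _ _ v (hU _ d) (hU _ b)
    have e3 : L.g i i v = 1 := mul_left_cancel₀ (hn v h2 i i a a).2.1
      (((hn v h2 i i a a).2.2 i a).trans (mul_one _).symm)
    have e4 := hP.ne_zero _ _ v (hU _ d) (hU _ b)
    simp only [σ, dif_pos c]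
    rw [e1, e2, e3, mul_pow, inv_pow]
    field_simp
  have cov : ∀ᶠ v in 𝓝ˢ G.F, ∃ k, v ∈ U k := eventually_nhdsSet_iff_forall.2 fun x hx =>
    let ⟨k, hk⟩ := lA.cover x hx
    ((lA.isOpen k).eventually_mem hk).mono fun _ a => ⟨k, a⟩
  have loc : ∀ v i k, (∀ᶠ v' in 𝓝 v, ∀ i k, v' ∈ L.U i → v' ∈ U k →
      σ i v' = s (i, k) v' * τ k v' ^ m) → v ∈ L.U i → v ∈ U k →
      ∀ᶠ v' in 𝓝 v, σ i v' = s (i, k) v' * τ k v' ^ m := fun v i k a b c => by
    filter_upwards [a, (hL.isOpen i).eventually_mem b, (lA.isOpen k).eventually_mem c]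
      with v' a' b' c' using a' i k b' c'
  obtain ⟨k, hk⟩ := lA.cover w hw
  refine ⟨σ, m, k, s (i, k), ?_, hU k hk,
    ((hs.filter_mono (nhds_le_nhdsSet hw)).self_of_nhds (i, k) ⟨⟨hi, hF hw⟩, hk⟩).1,
    h0 (i, k) ⟨⟨hi, hF hw⟩, hk⟩, loc w i k (key.filter_mono (nhds_le_nhdsSet hw)) hi hk⟩
  filter_upwards [hs, hO.mem_nhdsSet.2 hF, cov, key.eventually_nhdsSet] with v h1 h2 ⟨k, b⟩ h3 i a
  have ht : Hol n (τ k) v := fun e he => (hτ.holo k e v he (hU k b)).analyticAt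
  refine ⟨((h1 (i, k) ⟨⟨a, h2⟩, b⟩).1.mul (ht.pow m)).congr
    ((loc v i k h3 a b).mono fun _ e => e.symm), fun j c => ?_⟩
  have e1 : s (i, k) v = L.g i j v * P.g k k v ^ m * s (j, k) v :=
    (h1 (i, k) ⟨⟨a, h2⟩, b⟩).2 (j, k) ⟨⟨c, h2⟩, b⟩
  have e3 : P.g k k v = 1 := mul_left_cancel₀ (hP.ne_zero k k v (hU k b) (hU k b))
    ((hP.cocycle k k k v (hU k b) (hU k b) (hU k b)).trans (mul_one _).symm)
  rw [h3.self_of_nhds i k a b, h3.self_of_nhds j k c b, e1, e3]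
  ring

theorem bd {W : Type} [TopologicalSpace W] {h : W → ℂ} {w : W} (hc : ContinuousAt h w) :
    ∀ᶠ v in 𝓝 w, ‖h v‖ ≤ ‖h w‖ + 1 :=
  (hc.norm.eventually (gt_mem_nhds (lt_add_one _))).mono fun _ => le_of_lt

theorem mer (X : Ctx) {y : X.Y.pt} {L : Bd X.V.W} {s : L.ι → X.V.W → ℂ}
    (h : SecN 4 (X.F y) L s) : X.Mer y L s := h.mono fun v hv i hi => by
  obtain ⟨ζ, hζ, -⟩ := snc_lg X.V v
  exact ⟨⟨ζ, 0, hζ, ‖s i v‖ + 1, (bd (hv i hi).1.cont).mono fun _ a _ => by simpa using a⟩,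
    fun _ => hv i hi⟩

end BigH

open BigH

theorem stBig (hZ : StZero) (hA : RAMP) (hR : RPO) (hG : GGF) : StBig := by
  classical
  intro X L y hL b w hw i hi
  have : SecondCountableTopology X.V.W := ChartedSpace.secondCountable_of_sigmaCompact (Cm 4) _
  have hp := X.hyp.res
  have conn := (hZ X L y hL).1
  obtain ⟨P, c, τ, lb, am, hc, hτ⟩ := hp.amp
  have hol : Pj.HolTo 4 X.Y X.ψ := ⟨hp.cont, hp.hol⟩
  obtain ⟨N, k', V, Ω, h, φ, hy, hφ⟩ := X.Y.model y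
  have fb := (hR 4 X.V.W X.Y X.ψ hol).2 N k' V Ω h φ hφ y hy
    ((finite_singleton (X.F y)).subset (by
      rintro _ ⟨v, hv, rfl⟩
      exact conn.isPreconnected.connectedComponentIn hv))
  obtain ⟨s, m, k, u, h1, h2, h3, h4, h5⟩ := sec hG
    (G := ⟨X.V.W, X.F y, fb.cpt, conn, fun v => φ (X.ψ v) - φ y, fun x hx i e he =>
      (fb.hol x hx i e he).sub analyticAt_const, fb.fib.mono fun v a => sub_eq_zero.trans a⟩)
    lb (hA 4 X.V.W X.Y X.ψ P hol lb am y) (lbn_lin hL b) hτ.sec hw (i := i) hi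
  obtain ⟨ζ, hζ, -⟩ := snc_lg X.V w
  obtain ⟨u', h6, h7, h8⟩ := hτ.div w k ζ h2 hζ
  have h6' : Hol 4 u' w := h6
  have hex : ∀ l ∉ X.ex, c l = 0 := fun l hl => by
    by_contra a
    exact hl (by simpa [Ctx.ex] using (hc l).1 (Nat.pos_of_ne_zero a))
  have hH : Hol 4 (fun v => (∏ l ∈ X.ex, ζ l v ^ ((∑ l', c l') * m - c l * m)) /
      (u v * u' v ^ m)) w :=
    (Hol.prod _ fun l _ => (hζ l).hol.pow _).div (h3.mul (h6'.pow m))
      (mul_ne_zero h4 (pow_ne_zero _ h7))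
  refine ⟨s, ζ, (∑ l', c l') * m, mer X h1, hζ, ‖(∏ l ∈ X.ex,
    ζ l w ^ ((∑ l', c l') * m - c l * m)) / (u w * u' w ^ m)‖ + 1, ?_⟩
  filter_upwards [bd hH.cont, h5, h8, h3.ne_near h4, h6'.ne_near h7] with v a1 a2 a3 a4 a5 _
  refine le_trans (le_of_eq ?_) (mul_le_mul_of_nonneg_right a1 (norm_nonneg _))
  have e : ∏ l, ζ l v ^ c l = ∏ l ∈ X.ex, ζ l v ^ c l :=
    (Finset.prod_subset (Finset.subset_univ _) fun l _ hl => by rw [hex l hl, pow_zero]).symm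
  have e2 : (∏ l ∈ X.ex, ζ l v ^ ((∑ l', c l') * m - c l * m)) / (u v * u' v ^ m) * s i v =
      ∏ l ∈ X.ex, ζ l v ^ ((∑ l', c l') * m) := by
    rw [a2, a3, e, mul_pow, ← mul_assoc (u v), ← mul_assoc, div_mul_cancel₀ _
      (mul_ne_zero a4 (pow_ne_zero _ a5)), ← Finset.prod_pow, ← Finset.prod_mul_distrib]
    refine Finset.prod_congr rfl fun l _ => ?_
    rw [← pow_mul, ← pow_add, Nat.sub_add_cancel (Nat.mul_le_mul_right _
      (Finset.single_le_sum (fun _ _ => Nat.zero_le _) (Finset.mem_univ l)))]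
  rw [← norm_mul, e2, norm_prod]
  simp only [norm_pow]

end Vale.Agent.P277Z.Cls
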