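import Vale.Agent.P277Z.Cls.Sk
import Vale.Agent.P277Z.Slc.Cmp
import Vale.Agent.P277Z.Luf.Hol
import Vale.Agent.P277.A.Basic

/-!
# P277, block CLS: the boundary meets every component of a fibre
-/

set_option linter.all false
set_option maxSynthPendingDepth 3

open scoped Manifold ContDiff Topology
open Vale.Agent.P272.K Vale.Agent.P285.H281.FD Vale.Agent.P277 Set Filter
open Vale.Agent.P277.HD (pull)
open Vale.Agent.P277Z.Slc
open Vale.Agent.P277Z.Pj (SecD)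
open Vale.Agent.P277Z.Coh (LBOn ScAt)

noncomputable section

namespace Vale.Agent.P277Z.Cls.Cb

section loc

variable {W : Type} [TopologicalSpace W] [ChartedSpace (Cm 4) W] [IsManifold 𝓘(ℂ, Cm 4) ω W]
  {κ : Type} [Fintype κ] {G : κ → Set W} {ex : Finset κ} {v : W} {ζ : κ → W → ℂ}

theorem ne_of (hζ : ∀ l, LEq 4 (G l) v (ζ l)) :
    ∀ᶠ x in 𝓝 v, ∀ l, x ∉ G l → ζ l x ≠ 0 :=
  eventually_all.2 fun l => (hζ l).1.mono fun _ h h1 h2 => h1 (h.1 h2)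

theorem not_mem {x : W} (h : x ∉ Ex G ex) {l : κ} (hl : l ∈ ex) : x ∉ G l := fun h1 =>
  h (mem_iUnion₂.2 ⟨l, hl, h1⟩)

theorem prod_ex {z : κ → ℂ} {o : κ → ℤ} (ho : ∀ l ∉ ex, o l = 0) :
    ∏ l, z l ^ o l = ∏ l ∈ ex, z l ^ o l :=
  (Finset.prod_subset (Finset.subset_univ _) fun l _ hl => by rw [ho l hl, zpow_zero]).symm

theorem bound (o : κ → ℤ) : ∃ N : ℕ, ∀ N', N ≤ N' → ∀ l, o l ≤ (N' : ℕ) :=
  ⟨∑ l, (o l).natAbs, fun N' h l => Int.le_natAbs.trans (by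
    exact_mod_cast (Finset.single_le_sum (f := fun l => (o l).natAbs) (fun _ _ => Nat.zero_le _)
      (Finset.mem_univ l)).trans h)⟩

theorem mon_eq {z : κ → ℂ} (hz : ∀ l ∈ ex, z l ≠ 0) {o : κ → ℤ} {N : ℕ} (h : ∀ l, o l ≤ N) :
    ∏ l ∈ ex, z l ^ N = (∏ l ∈ ex, z l ^ ((N : ℤ) - o l).toNat) * ∏ l ∈ ex, z l ^ o l := by
  rw [← Finset.prod_mul_distrib]
  refine Finset.prod_congr rfl fun l hl => ?_
  rw [← zpow_natCast (z l) (_ : ℤ).toNat, Int.toNat_of_nonneg (sub_nonneg.2 (h l)),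
    ← zpow_add₀ (hz l hl), sub_add_cancel, zpow_natCast]

theorem pole_of {f h : W → ℂ} {o : κ → ℤ} (hζ : ∀ l, LEq 4 (G l) v (ζ l)) (hh : Hol 4 h v)
    (hf : ∀ᶠ x in 𝓝 v, x ∉ Ex G ex → f x = h x * ∏ l ∈ ex, ζ l x ^ o l) :
    Pole G ex f v ∧ (v ∉ Ex G ex → Hol 4 f v) := by
  refine ⟨?_, fun hv => ?_⟩
  · obtain ⟨N, hN⟩ := bound fun l => -o l
    have h1 : Hol 4 (fun x => h x * ∏ l ∈ ex, ζ l x ^ ((N : ℤ) - -o l).toNat) v :=
      hh.mul (Hol.prod _ fun l _ => (hζ l).hol.pow _)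
    refine ⟨ζ, N, hζ, ‖h v * ∏ l ∈ ex, ζ l v ^ ((N : ℤ) - -o l).toNat‖ + 1, ?_⟩
    filter_upwards [hf, ne_of hζ, h1.cont.norm.eventually (gt_mem_nhds (lt_add_one _))]
      with x a1 a2 a3 a4
    have a5 : ∀ l ∈ ex, ζ l x ≠ 0 := fun l hl => a2 l (not_mem a4 hl)
    simp only [← norm_pow, ← norm_prod, ← norm_mul, mul_one]
    rw [a1 a4, mon_eq a5 (hN N le_rfl), mul_comm (∏ l ∈ ex, ζ l x ^ (_ : ℕ)), mul_assoc,
      ← mul_assoc (∏ l ∈ ex, ζ l x ^ o l), ← Finset.prod_mul_distrib,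
      Finset.prod_eq_one fun l hl => by rw [← zpow_add₀ (a5 l hl), add_neg_cancel, zpow_zero],
      one_mul]
    exact a3.le
  · have h1 : Hol 4 (fun x => h x * ∏ l ∈ ex, ζ l x ^ o l) v := hh.mul (Hol.prod _ fun l hl =>
      (hζ l).hol.zpow (mt (hζ l).mem.1 (not_mem hv hl)) _)
    refine h1.congr ?_
    filter_upwards [hf, ex.eventually_all.2 fun l hl => (hζ l).not_mem_near (not_mem hv hl)]
      with x a1 a2
    exact (a1 fun a3 => let ⟨l, hl, a4⟩ := mem_iUnion₂.1 a3; a2 l hl a4).symm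

/-- `F` divides a monomial -/
def Dm (G : κ → Set W) (ex : Finset κ) (F : W → ℂ) (N : ℕ) (v : W) : Prop :=
  ∃ (ζ : κ → W → ℂ) (q : W → ℂ), (∀ l, LEq 4 (G l) v (ζ l)) ∧ Hol 4 q v ∧
    ∀ᶠ x in 𝓝 v, (∀ l, x ∉ G l) → ∏ l ∈ ex, ζ l x ^ N = q x * F x

theorem Dm.near {F : W → ℂ} {N : ℕ} (h : Dm G ex F N v) : ∀ᶠ x in 𝓝 v, Dm G ex F N x := by
  obtain ⟨ζ, q, h1, h2, h3⟩ := h
  filter_upwards [eventually_all.2 fun l => (h1 l).near, h2.near, h3.eventually_nhds]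
    with x a1 a2 a3 using ⟨ζ, q, a1, a2, a3⟩

theorem Dm.mono {F : W → ℂ} {N N' : ℕ} (h : Dm G ex F N v) (hN : N ≤ N') : Dm G ex F N' v := by
  obtain ⟨ζ, q, h1, h2, h3⟩ := h
  refine ⟨ζ, fun x => (∏ l ∈ ex, ζ l x ^ (N' - N)) * q x, h1,
    (Hol.prod _ fun l _ => (h1 l).hol.pow _).mul h2, h3.mono fun x a1 a2 => ?_⟩
  rw [mul_assoc, ← a1 a2, ← Finset.prod_mul_distrib]
  exact Finset.prod_congr rfl fun l _ => by rw [← pow_add, Nat.sub_add_cancel hN]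

theorem dm_unif {F : W → ℂ} {K : Set W} (hK : IsCompact K) (h : ∀ v ∈ K, ∃ N, Dm G ex F N v) :
    ∃ N, ∀ᶠ v in 𝓝ˢ K, Dm G ex F N v := by
  refine hK.induction_on (p := fun s => ∃ N, ∀ v ∈ s, Dm G ex F N v) ⟨0, fun _ h => h.elim⟩
    (fun s t hst ⟨N, hN⟩ => ⟨N, fun v hv => hN v (hst hv)⟩)
    (fun s t ⟨N, hN⟩ ⟨N', hN'⟩ => ⟨max N N', fun v hv => hv.elim
      (fun a => (hN v a).mono (le_max_left _ _)) fun a => (hN' v a).mono (le_max_right _ _)⟩)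
    (fun v hv => ?_) |>.imp fun N hN => eventually_nhdsSet_iff_forall.2 fun v hv => (hN v hv).near
  obtain ⟨N, hN⟩ := h v hv
  exact ⟨_, mem_nhdsWithin_of_mem_nhds hN.near, N, fun _ h => h⟩

theorem ex_dm [T2Space W] [SecondCountableTopology W] (hL : StLoc) (hG : Snc 4 G) {F : W → ℂ}
    (hF : Hol 4 F v) (h : ∀ᶠ x in 𝓝 v, x ∉ Ex G ex → F x ≠ 0) : ∃ N, Dm G ex F N v := by
  obtain ⟨ζ, hζ, -⟩ := hG v
  have hD := Cp.dense_iUnion fun l x => (hG x).imp' (fun ζ => ζ l) fun _ h => h.1 l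
  have h0 : ∀ x, (∀ l, x ∉ G l) → x ∉ Ex G ex := fun x a b =>
    let ⟨l, _, c⟩ := mem_iUnion₂.1 b; a l c
  obtain ⟨o, g, h1, h2, h3, -, h4⟩ := (hL W κ G ex hG).2.2.2.1 F v ζ
    ⟨(pole_of (o := 0) hζ hF (by simp)).1, hF.near.mono fun _ a _ => a⟩ hζ
    (((mem_closure_iff_frequently.1 (hD v)).and_eventually h).mono fun x a =>
      have b := h0 x fun l c => a.1 (mem_iUnion.2 ⟨l, c⟩); ⟨b, a.2 b⟩)
  obtain ⟨N, hN⟩ := bound o
  refine ⟨N, ζ, fun x => (∏ l ∈ ex, ζ l x ^ ((N : ℤ) - o l).toNat) * (g x)⁻¹, hζ,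
    (Hol.prod _ fun l _ => (hζ l).hol.pow _).mul (h2.inv (h4 h)), ?_⟩
  filter_upwards [h3, ne_of hζ, h2.ne_near (h4 h)] with x a1 a2 a3 a4
  rw [a1 (h0 x a4), prod_ex h1, mon_eq (fun l _ => a2 l (a4 l)) (hN N le_rfl), mul_assoc,
    inv_mul_cancel_left₀ a3]

end loc

theorem zpow_sum {ι : Type} (s : Finset ι) {z : ℂ} (hz : z ≠ 0) (n : ι → ℤ) :
    z ^ ∑ i ∈ s, n i = ∏ i ∈ s, z ^ n i := by
  classical
  induction s using Finset.induction_on with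
  | empty => simp
  | insert a s ha ih => rw [Finset.sum_insert ha, Finset.prod_insert ha, zpow_add₀ hz, ih]

variable {X : Ctx} {L : Fin X.q → Bd X.V.W} {S : X.Sf L} (M : Md S)

theorem mem_O (w : M.Z.W) : M.Z.π w ∈ M.Dt.O := M.Z.le (M.Z.bl.maps w)

theorem mem_ex {k : Fin X.V.r} : (Sum.inl k : _ ⊕ Fin M.Z.r) ∈ exU X.ex ↔ 0 < X.a k := by
  simp [exU, Ctx.ex]

theorem inj {z z' : X.V.W} (h : z ∉ X.E) (h' : X.ψ z' = X.ψ z) : z' = z :=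
  X.hyp.res.inj z z' (fun a => h (by simpa [Ctx.E, Ctx.ex, Ex] using a)) h'

/-- the products of the sections -/
def U (d : ℕ) (m : Fin (M.R + 1)) (j : Ix L) (v : M.Z.W) : ℂ :=
  ∏ i, S.u i (M.eqv m i) j (M.Z.π v) ^ (d : ℤ)

theorem U_chg (d : ℕ) (m : Fin (M.R + 1)) {j j' : Ix L} {v : M.Z.W} (hv : M.Z.π v ∉ X.E)
    (hj : In L j (M.Z.π v)) (hj' : In L j' (M.Z.π v)) :
    U M d m j v = (Slc.lin L (∑ i, (d : ℤ) • S.a i)).g j j' (M.Z.π v) * U M d m j' v := by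
  have h0 := fun a => (M.mov.lb a).ne_zero _ _ _ (mem_O M v) (hj a) (hj' a)
  simp only [U, fun i => ((M.mov.mer i (M.eqv m i) _ (mem_O M v) j hj).2 hv).2 j' hj', mul_zpow,
    Finset.prod_mul_distrib]
  congr 1
  simp only [Slc.lin, Finset.sum_apply, Pi.smul_apply, smul_eq_mul, ← Finset.prod_zpow]
  rw [Finset.prod_comm]
  refine Finset.prod_congr rfl fun a _ => ?_
  rw [zpow_sum _ (h0 a)]
  simp only [mul_comm (d : ℤ), zpow_mul]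

theorem U_mon (d : ℕ) {m : Fin (M.R + 1)} {j : Ix L} {v : M.Z.W} (hm : v ∈ M.D m)
    (hj : In L j (M.Z.π v)) {ζ : _ → M.Z.W → ℂ} (hζ : ∀ l, LEq 4 (M.Z.G l) v (ζ l)) :
    ∃ (o : _ → ℤ) (u : M.Z.W → ℂ), Hol 4 u v ∧ u v ≠ 0 ∧ ∀ᶠ x in 𝓝 v, M.Z.π x ∉ X.E →
      x ∉ Ex M.Z.G (exU X.ex) → U M d m j x = u x * ∏ l ∈ exU X.ex, ζ l x ^ o l := by
  choose o u h1 h2 h3 h4 using fun i => M.pm.mon m v hm i j ζ hj hζ
  refine ⟨fun l => ∑ i, o i l * d, fun x => ∏ i, u i x ^ (d : ℤ), Cp.hol_prod h2 h3 _,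
    Finset.prod_ne_zero_iff.2 fun i _ => zpow_ne_zero _ (h3 i), ?_⟩
  filter_upwards [eventually_all.2 h4, ne_of hζ] with x a1 a2 a3 a4
  simp only [U, fun i => a1 i a3, mul_zpow, Finset.prod_mul_distrib]
  rw [Finset.prod_congr rfl fun l hl => zpow_sum Finset.univ (a2 l (not_mem a4 hl)) _,
    Finset.prod_comm]
  refine congrArg _ (Finset.prod_congr rfl fun i _ => ?_)
  rw [prod_ex (h1 i), ← Finset.prod_zpow]
  simp only [zpow_mul]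

end Vale.Agent.P277Z.Cls.Cb

namespace Vale.Agent.P277Z.Cls

open Cb Classical in
/-- **CARB** -/
theorem stCarb (hL : StLoc) (hP : StGpl) (hA : StApi1) : StCarb := by
  intro X L S M y O τ g Δ hG m w hw hm
  obtain ⟨a1, a2, a3, -, -, -, -, a4⟩ := hA X L S M
  obtain ⟨-, -, a5, -, a6, -, a7⟩ := a4 y hG.mem
  have hw : M.b w = y := hw
  by_contra hZ
  set l₀ : Fin X.V.r ⊕ Fin M.Z.r := .inl X.l
  have hl₀ : l₀ ∉ exU X.ex := fun h => by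
    have := (mem_ex M).1 h
    linarith [X.hl, X.hyp.αle]
  have hO : ∀ {m} {v}, v ∈ M.D m → M.b v ∈ M.O := fun {m v} h => (M.pm.pm.cover v).2 ⟨m, h⟩
  have hD := Cp.dense_iUnion fun l => (M.div l).ex
  obtain ⟨f, hf, hf'⟩ := X.hyp.car X.l X.hl y
  have hb : ∀ {P : X.Y.pt → Prop}, (∀ᶠ y' in 𝓝 y, P y') → ∀ v ∈ M.F y, ∀ᶠ x in 𝓝 v, P (M.b x) :=
    fun h v hv => a1.continuousAt.eventually (by rwa [show M.b v = y from hv])
  have hMO := M.model.isOpen.eventually_mem hG.mem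
  have hF : ∀ v ∈ M.F y, ∀ᶠ x in 𝓝 v, x ∉ Ex M.Z.G (insert l₀ (exU X.ex)) → f (M.b x) ≠ 0 := by
    intro v hv
    filter_upwards [hb (hf'.and hMO) v hv] with x b1 b2 b3
    obtain ⟨z, b4, b5⟩ := b1.1.1 b3
    have b6 : M.Z.π x ∉ X.E := fun h => by
      obtain ⟨l, hl, b7⟩ := mem_iUnion₂.1 ((a3 x b1.2).1 h)
      exact not_mem b2 (Finset.mem_insert_of_mem hl) b7
    rw [inj b6 b5] at b4
    exact not_mem b2 (Finset.mem_insert_self _ _)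
      (M.Z.off _ x (fun h => b6 (M.mov.sub _ (mem_O M x) h)) b4)
  have hH : ∀ v ∈ M.F y, Hol 4 (fun x => f (M.b x)) v := fun v hv =>
    a2 v f (by rwa [show M.b v = y from hv])
  obtain ⟨N, hN⟩ := dm_unif a5 fun v hv => ex_dm hL M.Z.snc (hH v hv) (hF v hv)
  have hB := M.div l₀
  have hZ' : ∀ v ∈ connectedComponentIn {v ∈ M.D m | M.φ (M.b v) = M.φ (M.b w) ∧
      M.ν m v = M.ν m w} w, v ∉ M.Z.G l₀ := fun v hv h => by
    refine hZ ⟨v, connectedComponentIn_mono _ (fun x hx => ?_) hv, h⟩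
    exact ⟨hx.1, hw ▸ M.model.injOn (hO hx.1) (hO hm) hx.2.1, hx.2.2⟩
  have hσ : ∀ i v, v ∈ (M.B l₀).U i → v ∉ M.Z.G l₀ → M.τ l₀ i v ≠ 0 := fun i v h1 h2 =>
    mt (hB.leq i v h1).mem.1 h2
  obtain ⟨d, g, g0, g1⟩ := (hP M.Z.W M.N _ _ M.Ω M.R M.D M.ν M.prp M.prj M.pm.pm m w hm _ rfl).2
    (Bd.inv ((M.B l₀).pow N)) (fun i v => (M.τ l₀ i v ^ N)⁻¹)
    ⟨hB.lb.isOpen, fun x _ => hB.lb.cover x, fun i j x _ hi hj => Hol.inv (Hol.pow
      (fun e he => (hB.lb.holo i j e x he hi hj).analyticAt) N)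
        (pow_ne_zero _ (hB.lb.ne_zero i j x hi hj)),
      fun i j x _ hi hj => inv_ne_zero (pow_ne_zero _ (hB.lb.ne_zero i j x hi hj)),
      fun i j k x _ hi hj hk => by
        change (_ ^ N)⁻¹ * (_ ^ N)⁻¹ = (_ ^ N)⁻¹
        rw [← mul_inv, ← mul_pow, hB.lb.cocycle i j k x hi hj hk]⟩
    (fun i hi => inv_ne_zero (pow_ne_zero _
      (hσ i w hi (hZ' w (mem_connectedComponentIn ⟨hm, rfl, rfl⟩)))))
    fun v hv => by
      filter_upwards [hB.closed.isOpen_compl.eventually_mem (hZ' v hv)] with x hx i hi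
      refine ⟨((hB.leq i x hi).hol.pow N).inv (pow_ne_zero _ (hσ i x hi hx)), fun j hj => ?_⟩
      change _ = (_ ^ N)⁻¹ * _
      rw [← mul_inv, ← mul_pow, ← hB.sec.change i j x hi hj]
  have g2 : ∀ v ∈ M.F y, ∀ᶠ x in 𝓝 v, SecD 4 (Bd.inv ((M.B l₀).pow N)) M.D M.ν d g x := by
    intro v hv
    have : ∀ᶠ y' in 𝓝 y, ∀ x, M.b x ∈ M.O → M.φ (M.b x) = M.φ y' →
        SecD 4 (Bd.inv ((M.B l₀).pow N)) M.D M.ν d g x :=
      (M.model.continuousAt hG.mem).eventually (by rw [← hw]; exact g1)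
    filter_upwards [hb (this.and hMO) v hv] with x b1 using b1.1 x b1.2 rfl
  choose iv hiv using hB.lb.cover
  choose! mv hmv using fun v => (M.pm.pm.cover v).1
  let raw : Ix L → M.Z.W → ℂ := fun j v =>
    g (mv v) (iv v) v * M.τ l₀ (iv v) v ^ N * U M d (mv v) j v / f (M.b v)
  have key : ∀ᶠ v in 𝓝ˢ (M.F y), M.b v ∈ M.O ∧ ∀ m', v ∈ M.D m' → ∃ (ζ : _ → M.Z.W → ℂ) (h : _),
      (∀ l, LEq 4 (M.Z.G l) v (ζ l)) ∧ Hol 4 h v ∧ (∀ᶠ x in 𝓝 v, x ∉ ⋃ l, M.Z.G l →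
        h x * f (M.b x) = g m' (iv v) x * M.τ l₀ (iv v) x ^ N * ∏ l ∈ exU X.ex, ζ l x ^ N) ∧
      ∀ j, In L j (M.Z.π v) → ∀ᶠ x in 𝓝 v, x ∉ Ex M.Z.G (exU X.ex) →
        Dv.ext (⋃ l, M.Z.G l)ᶜ (raw j) x =
          h x * (∏ l ∈ exU X.ex, ζ l x ^ N)⁻¹ * U M d m' j x := by
    filter_upwards [hN, eventually_nhdsSet_iff_forall.2 fun v hv =>
      ((g2 v hv).and ((hF v hv).and (hb hMO v hv))).eventually_nhds] with v ⟨ζ, q, b1, b2, b3⟩ b4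
    refine ⟨b4.self_of_nhds.2.2, fun m' hm' => ?_⟩
    obtain ⟨u, b5, -, b6⟩ := stUnit 4 M.Z.W _ v _ _ (b1 l₀) (hB.leq _ v (hiv v))
    have b7 : Hol 4 (g m' (iv v)) v := ((b4.self_of_nhds.1 m' hm').1 (iv v) (hiv v)).1
    have b8 : ∀ᶠ x in 𝓝 v, x ∉ ⋃ l, M.Z.G l → g m' (iv v) x * u x ^ N * q x * f (M.b x) =
        g m' (iv v) x * M.τ l₀ (iv v) x ^ N * (∏ l ∈ exU X.ex, ζ l x ^ N) := by
      filter_upwards [b3, b6] with x c1 c2 c3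
      rw [mul_assoc _ (q x), ← c1 fun l h => c3 (mem_iUnion.2 ⟨l, h⟩), Finset.prod_insert hl₀, c2]
      ring
    have b9 := (b7.mul (b5.pow N)).mul b2
    refine ⟨ζ, _, b1, b9, b8, fun j hj => ?_⟩
    obtain ⟨o, u', c1, -, c2⟩ := U_mon M d hm' hj b1
    have c3 : ∀ᶠ x in 𝓝 v, x ∈ (⋃ l, M.Z.G l)ᶜ → raw j x = g m' (iv v) x * u x ^ N * q x *
        (∏ l ∈ exU X.ex, ζ l x ^ N)⁻¹ * U M d m' j x := by
      filter_upwards [b8, b4, ne_of b1, (M.pm.pm.isOpen m').eventually_mem hm',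
        (hB.lb.isOpen _).eventually_mem (hiv v), M.Z.bl.cont.continuousAt.eventually
          (eventually_all.2 fun a => ((M.mov.lb a).isOpen _).eventually_mem (hj a))]
        with x d1 d2 d3 d4 d5 d6 d7
      have d8 : ∀ l, x ∉ M.Z.G l := fun l h => d7 (mem_iUnion.2 ⟨l, h⟩)
      have d9 : ∀ s, x ∉ Ex M.Z.G s := fun s h => let ⟨l, _, h⟩ := mem_iUnion₂.1 h; d8 l h
      have e1 : (∏ l ∈ exU X.ex, ζ l x ^ N) ≠ 0 :=
        Finset.prod_ne_zero_iff.2 fun l _ => pow_ne_zero _ (d3 l (d8 l))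
      have e2 := hmv x d2.2.2
      have e3 := ((d2.1 _ e2).1 (iv x) (hiv x)).2 (iv v) d5
      have e4 := (d2.1 m' d4).2 _ e2 (iv v) d5
      have e5 := M.pm.rel _ x e2 (mt (a3 x d2.2.2).1 (d9 _)) m' j d6
      have e6 : U M d m' j x = M.ν (mv x) x m' ^ d * U M d (mv x) j x := by
        simp only [U, Finset.prod_pow, e5, zpow_natCast, mul_pow]
      have e7 := hB.lb.ne_zero _ _ x (hiv x) d5
      simp only [raw]
      rw [div_eq_iff (d2.2.1 (d9 _)), mul_right_comm _ _ (f _), mul_right_comm _ _ (f _), d1 d7,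
        mul_inv_cancel_right₀ e1, e3, e4, e6, hB.sec.change _ _ x (hiv x) d5]
      change (_ ^ N)⁻¹ * _ * _ * _ = _
      field_simp
      ring
    filter_upwards [c3.eventually_nhds, c2.eventually_nhds, b9.near, c1.near, b4.eventually_nhds,
      eventually_all.2 fun l => (b1 l).near] with x d1 d2 d3 d4 d5 d6 d7
    refine Dv.ext_at hD (Hol.cont (n := 4) ?_) d1
    refine (d3.mul (Hol.inv (Hol.prod _ fun l _ => (d6 l).hol.pow N) (Finset.prod_ne_zero_iff.2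
      fun l hl => pow_ne_zero _ (mt (d6 l).mem.1 (not_mem d7 hl))))).mul
        ((pole_of (o := o) d6 d4 ?_).2 d7)
    filter_upwards [d2, d5] with x' e1 e2 e3 using e1 (mt (a3 x' e2.2.2).1 e3) e3
  obtain ⟨s', s1, s2⟩ := a7 (∑ i, (d : ℤ) • S.a i) (fun j => Dv.ext (⋃ l, M.Z.G l)ᶜ (raw j)) (by
    filter_upwards [key] with v ⟨b0, b1⟩ j hj
    obtain ⟨ζ, h, b2, b3, -, b4⟩ := b1 _ (hmv v b0)
    obtain ⟨o, u, c1, -, c2⟩ := U_mon M d (hmv v b0) hj b2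
    have c3 := pole_of (ex := exU X.ex) (o := fun l => o l - N)
      (f := Dv.ext (⋃ l, M.Z.G l)ᶜ (raw j)) b2 (b3.mul c1) (by
        filter_upwards [b4 j hj, c2, ne_of b2, a1.continuousAt.eventually
          (M.model.isOpen.eventually_mem b0)] with x d1 d2 d3 d4 d5
        rw [d1 d5, d2 (mt (a3 x d4).1 d5) d5, Finset.prod_congr rfl fun l hl =>
          zpow_sub₀ (d3 l (not_mem d5 hl)) (o l) N, Finset.prod_div_distrib]
        simp only [zpow_natCast]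
        ring)
    refine ⟨c3.1, fun hv => ⟨c3.2 hv, fun j' hj' => ?_⟩⟩
    refine ((b4 j hj).self_of_nhds hv).trans (Eq.trans ?_
      (congrArg _ ((b4 j' hj').self_of_nhds hv).symm))
    rw [U_chg M d _ (mt (a3 v b0).1 hv) hj hj']
    exact mul_left_comm _ _ _)
  choose j hj using fun a => (M.mov.lb a).cover _ (mem_O M w)
  obtain ⟨v₁, c1, c2⟩ := hG.neg (fun _ => d) s' s1 w hw m j hm hj
  obtain ⟨ζ, h, b2, b3, b4, b5⟩ := (key.self_of_nhdsSet w hw).2 m hm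
  obtain ⟨o, u, c3, c4, c5⟩ := U_mon M d hm hj b2
  have c6 : Hol 4 (g m (iv w)) w := (((g2 w hw).self_of_nhds m hm).1 (iv w) (hiv w)).1
  have c7 := Dv.eq_of_dense hD (c6.mul ((hB.leq _ w (hiv w)).hol.pow N)).cont
    (c1.mul (hH w hw)).cont (by
      filter_upwards [c2, b4, b5 j hj, c5, ne_of b2, hb hMO w hw, c3.ne_near c4]
        with x d1 d2 d3 d4 d5 d6 d7 d8
      have d9 : ∀ l, x ∉ M.Z.G l := fun l h => d8 (mem_iUnion.2 ⟨l, h⟩)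
      have e0 : x ∉ Ex M.Z.G (exU X.ex) := fun h => let ⟨l, _, h⟩ := mem_iUnion₂.1 h; d9 l h
      have e1 := mt (a3 x d6).1 e0
      have e2 : (∏ l ∈ exU X.ex, ζ l x ^ N) ≠ 0 :=
        Finset.prod_ne_zero_iff.2 fun l _ => pow_ne_zero _ (d5 l (d9 l))
      have e3 : U M d m j x ≠ 0 := by
        rw [d4 e1 e0]
        exact mul_ne_zero d7 (Finset.prod_ne_zero_iff.2 fun l _ => zpow_ne_zero _ (d5 l (d9 l)))
      have e4 := mul_right_cancel₀ e3 (((d3 e0).symm.trans (s2 x j d6 e1).symm).trans (d1 e1))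
      rw [← e4, mul_right_comm, d2 d8, mul_inv_cancel_right₀ e2])
  rw [hw, hf'.self_of_nhds.2 (X.sub hG.gp.mem), mul_zero] at c7
  exact mul_ne_zero (g0 _ (hiv w)) (pow_ne_zero _
    (hσ _ w (hiv w) (hZ' w (mem_connectedComponentIn ⟨hm, rfl, rfl⟩)))) c7

end Vale.Agent.P277Z.Cls
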