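import Vale.Agent.P277Z.Cls.Sk

/-!
# P277, block CLS, row CH: chambers
-/

set_option linter.all false

open Finset

namespace Vale.Agent.P277Z.Cls

namespace Ch

theorem clear {ι : Type} [Fintype ι] (f : ι → ℚ) :
    ∃ n : ℕ, 1 ≤ n ∧ ∃ F : ι → ℤ, ∀ i, (F i : ℚ) = n * f i := by
  classical
  refine ⟨∏ i, (f i).den, Finset.prod_pos fun i _ => (f i).den_pos,
    fun i => (∏ j ∈ Finset.univ.erase i, (f j).den : ℕ) * (f i).num, fun i => ?_⟩
  rw [← Finset.prod_erase_mul _ _ (Finset.mem_univ i), Int.cast_mul, Int.cast_natCast, Nat.cast_mul,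
    mul_assoc, mul_comm ((f i).den : ℚ), Rat.mul_den_eq_num]

variable {q g : ℕ} (d : Fin g → Fin q → ℤ)

/-- there is a relation with support in `B` -/
def Dep (B : Finset (Fin g)) : Prop :=
  ∃ z : Fin g → ℤ, z ≠ 0 ∧ (∀ a ∉ B, z a = 0) ∧ ∀ j, ∑ a, z a * d a j = 0

theorem exists_inv : ∃ n : ℕ, 1 ≤ n ∧ ∃ N : Finset (Fin g) → Fin g → Fin q → ℤ, ∀ B, ¬ Dep d B →
    ∀ m : Fin g → ℚ, (∀ a ∉ B, m a = 0) → ∀ a,
      ∑ j, (N B a j : ℚ) * ∑ b, m b * d b j = n * m a := by
  classical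
  have h : ∀ B : Finset (Fin g), ∃ M : Fin g → Fin q → ℚ, ¬ Dep d B →
      ∀ m : Fin g → ℚ, (∀ a ∉ B, m a = 0) → ∀ a, ∑ j, M a j * ∑ b, m b * d b j = m a := by
    intro B
    by_cases hB : Dep d B
    · exact ⟨0, fun h => absurd hB h⟩
    let S : Submodule ℚ (Fin g → ℚ) := Submodule.pi {a | a ∉ B} fun _ => ⊥
    let D : (Fin g → ℚ) →ₗ[ℚ] (Fin q → ℚ) :=
      Matrix.vecMulLinear (Matrix.of fun b j => (d b j : ℚ))
    have hD : ∀ m j, D m j = ∑ b, m b * d b j := fun m j => rfl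
    obtain ⟨P, hP⟩ := (D.comp S.subtype).exists_leftInverse_of_injective (by
      refine LinearMap.ker_eq_bot'.2 fun m hm => ?_
      obtain ⟨n, hn, F, hF⟩ := clear m.1
      have hn' : (n : ℚ) ≠ 0 := Nat.cast_ne_zero.2 (by omega)
      by_contra h0
      refine hB ⟨F, fun e => h0 (Subtype.ext (funext fun a => ?_)), fun a ha => ?_, fun j => ?_⟩
      · have := hF a
        rw [e] at this
        simpa [hn'] using this.symm
      · have := hF a
        rw [show m.1 a = 0 from m.2 a ha, mul_zero] at this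
        exact_mod_cast this
      · have h1 : ∑ b, m.1 b * d b j = 0 := congrFun hm j
        have h2 : ((∑ a, F a * d a j : ℤ) : ℚ) = 0 := by
          push_cast
          simp only [hF, mul_assoc, ← Finset.mul_sum, h1, mul_zero]
        exact_mod_cast h2)
    refine ⟨fun a j => (P (Pi.single j 1)).1 a, fun _ m hm a => ?_⟩
    have h1 : P (D m) = ⟨m, hm⟩ := LinearMap.congr_fun hP ⟨m, hm⟩
    have h2 : D m = ∑ j, D m j • (Pi.single j 1 : Fin q → ℚ) := by
      ext k
      simp [Pi.single_apply]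
    rw [h2, map_sum] at h1
    have h3 := congrFun (congrArg Subtype.val h1) a
    simp only [map_smul, Submodule.coe_sum, Finset.sum_apply, Submodule.coe_smul, Pi.smul_apply,
      smul_eq_mul, hD] at h3
    rw [← h3]
    exact Finset.sum_congr rfl fun j _ => mul_comm _ _
  choose M hM using h
  obtain ⟨n, hn, F, hF⟩ := clear fun x : Finset (Fin g) × Fin g × Fin q => M x.1 x.2.1 x.2.2
  refine ⟨n, hn, fun B a j => F (B, a, j), fun B hB m hm a => ?_⟩
  simp only [hF, mul_assoc, ← Finset.mul_sum, hM B hB m hm a]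

open Classical in
/-- the support -/
noncomputable def sp (m : Fin g → ℚ) : Finset (Fin g) := Finset.univ.filter fun a => m a ≠ 0

theorem mem_sp {m : Fin g → ℚ} {a : Fin g} : a ∈ sp m ↔ m a ≠ 0 := by simp [sp]

theorem step (w : Fin g → ℝ) {m : Fin g → ℚ} (hm : ∀ a, 0 ≤ m a) {y : Fin g → ℤ}
    (h1 : ∀ a ∉ sp m, y a = 0) (h2 : ∀ j, ∑ a, y a * d a j = 0) (h3 : 0 ≤ ∑ a, y a * w a)
    (h4 : ∃ a, y a < 0) : ∃ m' : Fin g → ℚ, (∀ a, 0 ≤ m' a) ∧ sp m' ⊂ sp m ∧
      (∀ j, ∑ a, m' a * d a j = ∑ a, m a * d a j) ∧ ∑ a, m a * w a ≤ ∑ a, m' a * w a := by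
  obtain ⟨a₀, k1, k2⟩ := Finset.exists_min_image (Finset.univ.filter fun a => y a < 0)
    (fun a => m a / (-y a : ℚ)) (by obtain ⟨a, h⟩ := h4; exact ⟨a, by simpa using h⟩)
  have k3 : y a₀ < 0 := (Finset.mem_filter.1 k1).2
  have k4 : (0 : ℚ) < -y a₀ := by exact_mod_cast neg_pos.2 k3
  set t : ℚ := m a₀ / (-y a₀ : ℚ) with ht
  have t0 : 0 ≤ t := div_nonneg (hm _) k4.le
  refine ⟨fun a => m a + t * y a, fun a => ?_, Finset.ssubset_iff_subset_ne.2 ⟨fun a ha => ?_,
    fun e => ?_⟩, fun j => ?_, ?_⟩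
  · by_cases h : y a < 0
    · have h5 : (0 : ℚ) < -y a := by exact_mod_cast neg_pos.2 h
      have h6 := (le_div_iff₀ h5).1 (k2 a (by simpa using h))
      linarith
    · exact add_nonneg (hm a) (mul_nonneg t0 (by exact_mod_cast not_lt.1 h))
  · by_contra h
    refine mem_sp.1 ha ?_
    rw [h1 a h, not_not.1 (mt mem_sp.2 h)]
    simp
  · have h5 : a₀ ∈ sp m := by_contra fun h => k3.ne (h1 _ h)
    rw [← e] at h5
    refine mem_sp.1 h5 ?_
    have h6 : t * (-y a₀ : ℚ) = m a₀ := div_mul_cancel₀ _ k4.ne'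
    linear_combination -h6
  · have h5 : ((∑ a, y a * d a j : ℤ) : ℚ) = 0 := by rw [h2 j, Int.cast_zero]
    push_cast at h5
    simp only [add_mul, Finset.sum_add_distrib, mul_assoc, ← Finset.mul_sum, h5, mul_zero, add_zero]
  · push_cast
    simp only [add_mul, Finset.sum_add_distrib, mul_assoc, ← Finset.mul_sum]
    exact le_add_of_nonneg_right (mul_nonneg (by exact_mod_cast t0) h3)

theorem vertex (w : Fin g → ℝ) (A : Finset (Fin g))
    (h : ∀ B ⊆ A, Dep d B → ∃ y : Fin g → ℤ, (∀ a ∉ B, y a = 0) ∧ (∀ j, ∑ a, y a * d a j = 0) ∧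
      0 ≤ ∑ a, y a * w a ∧ ∃ a, y a < 0) (m : Fin g → ℚ) (hm : ∀ a, 0 ≤ m a) (hA : sp m ⊆ A) :
    ∃ m' : Fin g → ℚ, (∀ a, 0 ≤ m' a) ∧ sp m' ⊆ A ∧ ¬ Dep d (sp m') ∧
      (∀ j, ∑ a, m' a * d a j = ∑ a, m a * d a j) ∧ ∑ a, m a * w a ≤ ∑ a, m' a * w a := by
  induction hk : (sp m).card using Nat.strong_induction_on generalizing m with
  | _ k ih =>
    by_cases hD : Dep d (sp m)
    · obtain ⟨y, h1, h2, h3, h4⟩ := h _ hA hD
      obtain ⟨m₁, k1, k2, k3, k4⟩ := step d w hm h1 h2 h3 h4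
      obtain ⟨m', l1, l2, l3, l4, l5⟩ :=
        ih _ (hk ▸ Finset.card_lt_card k2) m₁ k1 (k2.subset.trans hA) rfl
      exact ⟨m', l1, l2, l3, fun j => (l4 j).trans (k3 j), k4.trans l5⟩
    · exact ⟨m, hm, hA, hD, fun _ => rfl, le_rfl⟩

theorem prod_exp {ρ : Fin g → ℝ} {k : Fin g → ℕ} (h : ∀ a, k a ≠ 0 → 0 < ρ a) :
    ∏ a, ρ a ^ k a = Real.exp (∑ a, k a * Real.log (ρ a)) := by
  rw [Real.exp_sum]
  refine Finset.prod_congr rfl fun a _ => ?_
  by_cases e : k a = 0
  · simp [e]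
  · rw [Real.exp_nat_mul, Real.exp_log (h a e)]

theorem app (k : Fin g → ℕ) (j : Fin q) : (∑ a, k a • d a) j = ∑ a, (k a : ℤ) * d a j := by
  rw [Finset.sum_apply]
  exact Finset.sum_congr rfl fun a _ => nsmul_eq_mul _ _

theorem sign {ι : Type} [Fintype ι] {u : ι → ℤ} {c : ι → ℕ} (h : ∀ a b, 0 ≤ u a * u b) {i : ι}
    (hi : c i ≠ 0) : (0 ≤ ∑ a, c a * u a → 0 ≤ u i) ∧ (∑ a, c a * u a = 0 → u i = 0) := by
  have h1 : u i * u i ≤ u i * ∑ a, c a * u a := by
    rw [Finset.mul_sum]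
    refine le_trans ?_ (Finset.single_le_sum (f := fun a => u i * (c a * u a))
      (fun a _ => ?_) (Finset.mem_univ i))
    · have : (1 : ℤ) ≤ c i := by omega
      nlinarith [h i i]
    · rw [mul_left_comm]
      exact mul_nonneg (Nat.cast_nonneg _) (h i a)
  exact ⟨fun e => by nlinarith, fun e => by rw [e] at h1; nlinarith⟩

theorem main : StCh := by
  classical
  intro q g d
  obtain ⟨n, hn, N, hN⟩ := exists_inv d
  have hz : ∀ B, ∃ z : Fin g → ℤ, Dep d B → z ≠ 0 ∧ (∀ a ∉ B, z a = 0) ∧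
      ∀ j, ∑ a, z a * d a j = 0 := fun B => by
    by_cases h : Dep d B
    · exact h.imp fun z hz _ => hz
    · exact ⟨0, fun e => absurd e h⟩
  choose z hz using hz
  let K : Finset (Fin g) → Fin q → Fin q → ℤ := fun B k j =>
    ∑ a, N B a j * d a k - if j = k then (n : ℤ) else 0
  have hK : ∀ B k x, K B k ⬝ᵥ x = ∑ a, (N B a ⬝ᵥ x) * d a k - n * x k := fun B k x => by
    simp only [K, dotProduct, sub_mul, Finset.sum_sub_distrib, Finset.sum_mul, ite_mul, zero_mul,
      Finset.sum_ite_eq', Finset.mem_univ, if_true]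
    rw [Finset.sum_comm]
    simp only [mul_right_comm]
  refine ⟨n, (Finset.univ.image fun x : Finset (Fin g) × Fin g => N x.1 x.2) ∪
      Finset.univ.image fun x : Finset (Fin g) × Fin q => K x.1 x.2,
    (Finset.univ.image fun B a => (z B a).natAbs).filter fun m => m ≠ 0 ∧ ∑ a, m a • d a = 0,
    fun e => (Finset.univ.image fun B a => (N B a ⬝ᵥ e).toNat).filter
      fun m => ∑ a, m a • d a = n • e, hn, fun m hm => (Finset.mem_filter.1 hm).2,
    fun e m hm => (Finset.mem_filter.1 hm).2, fun ι _ e c hH m hm ρ h0 hZ => ?_⟩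
  have hp : ∀ k : Fin g → ℕ, 0 ≤ ∏ a, ρ a ^ k a := fun k =>
    Finset.prod_nonneg fun a _ => pow_nonneg (h0 a) _
  by_cases hρ : ∀ a, m a ≠ 0 → 0 < ρ a
  swap
  · push Not at hρ
    obtain ⟨a, h1, h2⟩ := hρ
    rw [Finset.prod_eq_zero (Finset.mem_univ a) (by rw [h2.antisymm (h0 a), zero_pow h1])]
    exact Finset.prod_nonneg fun i _ => pow_nonneg (Finset.sum_nonneg fun k _ => hp k) _
  obtain ⟨m', k1, k2, k3, k4, k5⟩ := vertex d (fun a => Real.log (ρ a))
    (Finset.univ.filter fun a => 0 < ρ a) (fun B hB hD => by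
      obtain ⟨z1, z2, z3⟩ := hz B hD
      have key : ∀ y : Fin g → ℤ, y = z B ∨ y = -z B → (∀ a, 0 ≤ y a) →
          ∑ a, y a * Real.log (ρ a) ≤ 0 := fun y hy h => by
        have e1 : ∀ a, ((z B a).natAbs : ℤ) = y a := fun a => by
          have := h a
          rcases hy with rfl | rfl
          · omega
          · simp only [Pi.neg_apply] at this ⊢
            omega
        have e2 := hZ (fun a => (z B a).natAbs) (Finset.mem_filter.2 ⟨Finset.mem_image_of_mem _
          (Finset.mem_univ B), fun e => z1 (funext fun a => Int.natAbs_eq_zero.1 (congrFun e a)),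
          funext fun j => by
            simp only [app, e1, Pi.zero_apply]
            rcases hy with rfl | rfl
            · exact z3 j
            · simp only [Pi.neg_apply, neg_mul, Finset.sum_neg_distrib, z3 j, neg_zero]⟩)
        rw [prod_exp fun a ha => (Finset.mem_filter.1 (hB (by_contra fun e =>
          ha (by rw [z2 a e]; rfl)))).2, Real.exp_le_one_iff] at e2
        simpa only [← e1, Int.cast_natCast] using e2
      have n2 : ∀ a ∉ B, (-z B) a = 0 := fun a ha => by simp [z2 a ha]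
      have n3 : ∀ j, ∑ a, (-z B) a * d a j = 0 := fun j => by
        simp only [Pi.neg_apply, neg_mul, Finset.sum_neg_distrib, z3 j, neg_zero]
      have n4 : ∑ a, ((-z B) a : ℝ) * Real.log (ρ a) = -∑ a, z B a * Real.log (ρ a) := by
        simp only [Pi.neg_apply, Int.cast_neg, neg_mul, Finset.sum_neg_distrib]
      by_cases e1 : ∀ a, 0 ≤ z B a
      · refine ⟨-z B, n2, n3, n4 ▸ neg_nonneg.2 (key _ (Or.inl rfl) e1), ?_⟩
        obtain ⟨a, ha⟩ := Function.ne_iff.1 z1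
        exact ⟨a, neg_neg_of_pos ((e1 a).lt_of_ne' ha)⟩
      by_cases e2 : ∀ a, 0 ≤ (-z B) a
      · exact ⟨z B, z2, z3, neg_nonpos.1 (n4 ▸ key _ (Or.inr rfl) e2), by simpa using e1⟩
      rcases le_total 0 (∑ a, z B a * Real.log (ρ a)) with e3 | e3
      · exact ⟨z B, z2, z3, e3, by simpa using e1⟩
      · exact ⟨-z B, n2, n3, n4 ▸ neg_nonneg.2 e3, by simpa only [not_forall, not_le] using e2⟩)
    (fun a => (m a : ℚ)) (fun a => Nat.cast_nonneg _) fun a ha => Finset.mem_filter.2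
      ⟨Finset.mem_univ _, hρ a fun e => mem_sp.1 ha (by simp [e])⟩
  set B := sp m' with hB
  set x : Fin q → ℤ := ∑ i, c i • e i with hx
  have hn' : (n : ℚ) ≠ 0 := Nat.cast_ne_zero.2 (by omega)
  have l1 : ∀ j, ∑ a, m' a * d a j = n * x j := fun j => by
    have := congrFun hm j
    simp only [Finset.sum_apply, Pi.smul_apply, nsmul_eq_mul] at this
    rw [k4]
    exact_mod_cast this
  have l2 : ∀ a, ((N B a ⬝ᵥ x : ℤ) : ℚ) = m' a := fun a => by
    refine mul_left_cancel₀ hn' ?_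
    rw [← hN B k3 m' (fun b hb => not_not.1 (mt mem_sp.2 hb)) a, dotProduct]
    push_cast
    simp only [l1, Finset.mul_sum, mul_left_comm]
  have l3 : ∀ h : Fin q → ℤ, h ⬝ᵥ x = ∑ i, c i * (h ⬝ᵥ e i) := fun h => by
    simp only [hx, dotProduct_sum, dotProduct_smul]
    simp only [nsmul_eq_mul]
  have l4 : ∀ i, c i ≠ 0 → ∀ a, (((N B a ⬝ᵥ e i).toNat : ℕ) : ℤ) = N B a ⬝ᵥ e i := fun i hi a =>
    Int.toNat_of_nonneg ((sign (hH _ (Finset.mem_union_left _ (Finset.mem_image_of_mem _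
      (Finset.mem_univ (B, a))))) hi).1 (by
        rw [← l3]
        exact_mod_cast (l2 a ▸ k1 a : (0 : ℚ) ≤ (N B a ⬝ᵥ x : ℤ))))
  have l5 : ∀ i, c i ≠ 0 → ∑ a, (N B a ⬝ᵥ e i).toNat • d a = n • e i := fun i hi =>
    funext fun k => by
      have e1 := (sign (hH _ (Finset.mem_union_right _ (Finset.mem_image_of_mem _
        (Finset.mem_univ (B, k))))) hi).2 (by
          rw [← l3, hK]
          have : ((∑ a, (N B a ⬝ᵥ x) * d a k - n * x k : ℤ) : ℚ) = 0 := by
            push_cast [l2]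
            rw [l1, sub_self]
          exact_mod_cast this)
      rw [hK, sub_eq_zero] at e1
      rw [app, Pi.smul_apply, nsmul_eq_mul, ← e1]
      simp only [l4 i hi]
  have l6 : ∀ a, ((∑ i, (N B a ⬝ᵥ e i).toNat * c i : ℕ) : ℚ) = m' a := fun a => by
    rw [← l2, l3, ← Int.cast_natCast]
    refine congrArg _ ?_
    push_cast
    refine Finset.sum_congr rfl fun i _ => ?_
    by_cases hi : c i = 0
    · simp [hi]
    · rw [l4 i hi, mul_comm]
  calc ∏ a, ρ a ^ m a ≤ ∏ a, ρ a ^ ∑ i, (N B a ⬝ᵥ e i).toNat * c i := by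
        rw [prod_exp hρ, prod_exp fun a ha => (Finset.mem_filter.1 (k2 (mem_sp.2 fun e' =>
          ha (by exact_mod_cast (l6 a).trans e')))).2, Real.exp_le_exp]
        simpa only [← l6, Rat.cast_natCast] using k5
    _ = ∏ i, (∏ a, ρ a ^ (N B a ⬝ᵥ e i).toNat) ^ c i := by
        simp only [← Finset.prod_pow_eq_pow_sum, ← Finset.prod_pow, pow_mul]
        exact Finset.prod_comm
    _ ≤ _ := Finset.prod_le_prod (fun i _ => pow_nonneg (hp _) _) fun i _ => by
        by_cases hi : c i = 0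
        · simp [hi]
        · exact pow_le_pow_left₀ (hp _) (Finset.single_le_sum (fun k _ => hp k)
            (Finset.mem_filter.2 ⟨Finset.mem_image_of_mem (fun B a => (N B a ⬝ᵥ e i).toNat)
              (Finset.mem_univ B), l5 i hi⟩)) _

end Ch

/-- **CH** -/
theorem stCh : StCh := Ch.main

end Vale.Agent.P277Z.Cls
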