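import Vale.Agent.P277Z.Cls.Sk
import Vale.Agent.P277Z.Slc.Basic

/-!
# P277, block CLS: the cone of free degrees is a union of faces
-/

open scoped Manifold ContDiff Topology Matrix
open Vale.Agent.P272.K Vale.Agent.P277 Set Filter
open Vale.Agent.P277Z.Slc (LEq lin)

noncomputable section

namespace Vale.Agent.P277Z.Cls

namespace ClH

theorem solve {b q : ℕ} {a : Fin b → Fin q → ℤ} (h : LinearIndependent ℤ a) (e : b = q)
    (z : Fin q → ℤ) : ∃ (N : ℕ) (c : Fin b → ℤ), (N + 1) • z = ∑ i, c i • a i := by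
  obtain ⟨g, h1, o, h2⟩ := Fintype.not_linearIndependent_iff.1 fun
    (k : LinearIndependent ℤ fun o : Option (Fin b) => o.elim z a) => by
      simpa [e] using k.fintype_card_le_finrank
  rw [Fintype.sum_option] at h1
  have h3 : g none ≠ 0 := fun k => h2 (by
    cases o
    exacts [k, Fintype.linearIndependent_iff.1 h (fun i => g (some i)) (by simpa [k] using h1) _])
  obtain ⟨N, hN⟩ := Nat.exists_eq_add_one_of_ne_zero (Int.natAbs_ne_zero.2 h3)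
  refine ⟨N, fun i => -(g none).sign * g (some i), ?_⟩
  rw [← hN, ← natCast_zsmul, ← Int.sign_mul_self_eq_natAbs, mul_smul]
  simp only [mul_smul, ← Finset.smul_sum]
  rw [neg_smul, ← smul_neg]
  exact congrArg _ (eq_neg_of_add_eq_zero_left h1)

end ClH

theorem stCl (h1 : StApi1) (hM : StMer) (hL : StLoc) : StCl := by
  intro X L S M hli hb y hy hN c x hx x' hH w hw
  obtain ⟨-, -, a1, -, -, -, -, a2⟩ := h1 X L S M
  obtain ⟨-, -, -, m1, -⟩ := hM X L y (a2 y hy).1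
  have hp : ∀ b s (k : ℕ) b', X.Mer y (lin L b) s → k • b = b' →
      X.Mer y (lin L b') fun i w => s i w ^ k := fun b s k b' h e => by
    have := m1 Unit (fun _ => b) (fun _ => s) (fun _ => k) fun _ => h
    simp only [Finset.univ_unique, Finset.prod_singleton] at this
    rw [← e]
    exact cast (congrArg (fun d => X.Mer y (lin L d) fun i w => s i w ^ k)
      (Finset.sum_singleton _ _)) this
  obtain ⟨N, c₀, s, d, h0⟩ := hx w hw
  obtain ⟨m, j, v₀, f1, f2, f3, f4, f5⟩ := h0 w rfl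
  let P : (Fin S.b → ℤ) → M.Z.W → ℂ := fun c w => ∏ i, S.u i (M.eqv m i) j (M.Z.π w) ^ c i
  have key : ∀ e, ∃ (K : ℕ) (g : Fin S.b → ℤ) (v : Fin (c.r e + 1) → M.Z.W → ℂ) (B : ℝ),
      (K + 1) • e = ∑ i, g i • S.a i ∧ (∀ l, ContinuousAt (v l) w ∧ (v l w ≠ 0 → M.Tr y e {w})) ∧
      ∀ᶠ z in 𝓝 w, M.Z.π z ∉ X.E →
        nrm (c.u e) j (M.Z.π z) ^ (K + 1) ≤ B * (∑ l, ‖v l z‖) * ‖P (c.n • g) z‖ := by
    intro e
    obtain ⟨K, g, hg⟩ := ClH.solve hli hb e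
    have b1 : ((K + 1) * c.n) • e = ∑ i, (c.n • g) i • S.a i := by
      rw [mul_comm, mul_smul, hg, Finset.smul_sum]
      exact Finset.sum_congr rfl fun i _ => (smul_assoc _ _ _).symm
    have b2 := fun l => hp _ _ (K + 1) _ (c.mer e l) ((mul_smul _ _ _).symm.trans b1)
    choose v v1 v2 using fun l => hN _ _ (b2 l) w hw m j f1 f2
    refine ⟨K, g, v, (c.r e + 1 : ℕ) ^ K, hg, fun l => ⟨(v1 l).continuousAt, fun a =>
      ⟨_, _, _, ⟨Nat.mul_pos K.succ_pos c.npos, b1, b2 l⟩, fun _ b => b ▸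
        ⟨m, j, v l, f1, f2, v1 l, a, v2 l⟩⟩⟩, (eventually_all.2 v2).mono fun z a b => ?_⟩
    refine (pow_sum_le_card_mul_sum_pow (fun _ _ => norm_nonneg _) K).trans_eq ?_
    rw [Finset.card_univ, Fintype.card_fin, mul_assoc, Finset.sum_mul]
    exact congrArg _ (Finset.sum_congr rfl fun l _ =>
      (norm_pow _ _).symm.trans ((congrArg _ (a l b)).trans (norm_mul _ _)))
  obtain ⟨p, hp'⟩ : ∃ p : ℕ, ∀ h ∈ c.H, 0 ≤ (h ⬝ᵥ x') * (h ⬝ᵥ (p • x - x')) := by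
    refine ⟨c.H.sup fun h => ((h ⬝ᵥ x') ^ 2).toNat, fun h a => ?_⟩
    have b1 := Finset.le_sup (f := fun h => ((h ⬝ᵥ x') ^ 2).toNat) a
    generalize c.H.sup (fun h => ((h ⬝ᵥ x') ^ 2).toNat) = p at b1
    rw [dotProduct_sub, dotProduct_smul, nsmul_eq_mul]
    by_cases b : h ⬝ᵥ x' = 0
    · simp [b]
    · have b2 : 0 < (h ⬝ᵥ x) * (h ⬝ᵥ x') :=
        (hH h a).1.lt_of_ne' (mul_ne_zero (fun d => b ((hH h a).2 d)) b)
      have b3 : (h ⬝ᵥ x') ^ 2 ≤ p := by omega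
      nlinarith [Int.natCast_nonneg p]
  obtain ⟨K₁, g₁, v₁, B₁, e1, k1, l1⟩ := key x'
  obtain ⟨K₂, g₂, v₂, B₂, e2, k2, l2⟩ := key (p • x - x')
  set k := c.n * p * (K₁ + 1) * (K₂ + 1) with hk
  obtain ⟨C, hC⟩ := c.mul (Fin 2) ![x', p • x - x'] (fun _ => N * (K₁ + 1) * (K₂ + 1))
    (fun h a => Fin.forall_fin_two.2 ⟨Fin.forall_fin_two.2 ⟨mul_self_nonneg _, hp' h a⟩,
      Fin.forall_fin_two.2 ⟨(hp' h a).trans_eq (mul_comm _ _), mul_self_nonneg _⟩⟩) _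
    (hp _ _ k _ d.mer (by
      rw [← d.eq, Fin.sum_univ_two, hk]
      simp only [Matrix.cons_val_zero, Matrix.cons_val_one]
      module)) (M.Z.π w) hw j f2
  have e3 : k • c₀ = (N * (K₂ + 1)) • c.n • g₁ + (N * (K₁ + 1)) • c.n • g₂ :=
    linearIndependent_iff_injective_fintypeLinearCombination.1 hli (by
      simp only [map_add, map_nsmul, Fintype.linearCombination_apply, ← e1, ← e2, ← d.eq, hk]
      module)
  have hb0 : ∀ᶠ z in 𝓝 w, M.b z ∈ M.O :=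
    (h1 X L S M).1.continuousAt.eventually (M.model.isOpen.mem_nhds (hw ▸ hy : M.b w ∈ M.O))
  obtain ⟨ζ, z1, -⟩ := M.Z.snc w
  have g0 : ∀ᶠ z in 𝓝 w, (∀ l, z ∉ M.Z.G l) → ∀ i, S.u i (M.eqv m i) j (M.Z.π z) ≠ 0 := by
    choose o t _ t1 t2 t3 using fun i => M.pm.mon m w f1 i j ζ f2 z1
    filter_upwards [eventually_all.2 t3, eventually_all.2 fun l => (z1 l).1, hb0,
      eventually_all.2 fun i => (t1 i).continuousAt.eventually_ne (t2 i)] with z b1 b2 b3 b4 b5 i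
    rw [b1 i fun e => let ⟨l, _, f⟩ := mem_iUnion₂.1 ((a1 z b3).1 e); b5 l f]
    exact mul_ne_zero (b4 i) (Finset.prod_ne_zero_iff.2 fun l _ =>
      zpow_ne_zero _ fun e => b5 l ((b2 l).1 e))
  have fin : ‖v₀ w‖ ^ k ≤ |C| * ((B₁ * ∑ l, ‖v₁ l w‖) ^ (N * (K₂ + 1)) *
      (B₂ * ∑ l, ‖v₂ l w‖) ^ (N * (K₁ + 1))) := by
    refine sub_nonneg.1 (ge_of_tendsto_of_frequently (f := fun z => |C| *
      ((B₁ * ∑ l, ‖v₁ l z‖) ^ (N * (K₂ + 1)) * (B₂ * ∑ l, ‖v₂ l z‖) ^ (N * (K₁ + 1))) - ‖v₀ z‖ ^ k)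
      ((continuousAt_const.mul (((continuousAt_const.mul (tendsto_finsetSum _ fun l _ =>
        (k1 l).1.norm)).pow _).mul ((continuousAt_const.mul (tendsto_finsetSum _ fun l _ =>
        (k2 l).1.norm)).pow _))).sub (f3.continuousAt.norm.pow k)) ?_)
    refine ((Lo.gen_freq' ((hL M.Z.W _ M.Z.G ∅ M.Z.snc).1 w)).and_eventually (f5.and (l1.and (l2.and
      (g0.and (hb0.and (M.Z.bl.cont.continuousAt.eventually hC))))))).mono
        fun z ⟨b0, b1, b2, b3, b4, b5, b6⟩ => sub_nonneg.2 ?_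
    have b7 : M.Z.π z ∉ X.E := fun e => let ⟨l, _, f⟩ := mem_iUnion₂.1 ((a1 z b5).1 e); b0 l f
    have p1 : ∀ g (r : ℕ), ‖P g z‖ ^ r = ‖P (r • g) z‖ := fun g r => by
      rw [← norm_pow, ← Finset.prod_pow]
      refine congrArg _ (Finset.prod_congr rfl fun i _ => ?_)
      rw [← zpow_natCast, ← zpow_mul, Pi.smul_apply, nsmul_eq_mul, mul_comm]
    have p2 : ∀ g g', ‖P (g + g') z‖ = ‖P g z‖ * ‖P g' z‖ := fun g g' => by
      simp only [P, ← norm_mul, ← Finset.prod_mul_distrib, Pi.add_apply, zpow_add₀ (b4 b0 _)]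
    have n0 : ∀ e, 0 ≤ nrm (c.u e) j (M.Z.π z) := fun e =>
      Finset.sum_nonneg fun _ _ => norm_nonneg _
    have q1 := pow_le_pow_left₀ (pow_nonneg (n0 _) _) (b2 b7) (N * (K₂ + 1))
    have q2 := pow_le_pow_left₀ (pow_nonneg (n0 _) _) (b3 b7) (N * (K₁ + 1))
    have q3 := b6 b7
    simp only [Fin.prod_univ_two, Matrix.cons_val_zero, Matrix.cons_val_one, b1 b7, norm_pow,
      norm_mul, mul_pow (‖v₀ z‖)] at q3
    rw [← pow_mul, mul_pow, p1] at q1 q2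
    refine le_of_mul_le_mul_right (a := ‖P (k • c₀) z‖) ((congrArg _ (p1 c₀ k)).symm.trans_le
      (q3.trans ?_)) (norm_pos_iff.2 (Finset.prod_ne_zero_iff.2 fun i _ =>
        zpow_ne_zero _ (b4 b0 i)))
    rw [e3, p2, mul_assoc |C|, mul_mul_mul_comm]
    refine (mul_le_mul_of_nonneg_right (le_abs_self C) (mul_nonneg (pow_nonneg (n0 _) _)
      (pow_nonneg (n0 _) _))).trans (mul_le_mul_of_nonneg_left (mul_le_mul ?_ ?_
        (pow_nonneg (n0 _) _) ((pow_nonneg (n0 _) _).trans q1)) (abs_nonneg C))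
    · exact le_of_eq_of_le (congrArg _ (by ring)) q1
    · exact le_of_eq_of_le (congrArg _ (by ring)) q2
  by_contra e
  rw [Finset.sum_eq_zero fun l _ => norm_eq_zero.2 (by_contra fun a => e ((k1 l).2 a)), mul_zero,
    zero_pow (Nat.mul_pos d.pos K₂.succ_pos).ne', zero_mul, mul_zero] at fin
  exact fin.not_gt (pow_pos (norm_pos_iff.2 f4) k)

end Vale.Agent.P277Z.Cls
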