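import Vale.Agent.P277Z.Cls.Sk

/-!
# P277, block CLS: the chamber structure of the ring of sections
-/

set_option linter.all false
set_option maxSynthPendingDepth 3

open scoped Manifold ContDiff Topology
open Vale.Agent.P272.K Vale.Agent.P285.H281.FD Vale.Agent.P277 Set Filter Module
open Vale.Agent.P277Z.Slc (lin)
open Vale.Agent.P277Z.Brg (LBN)

noncomputable section

namespace Vale.Agent.P277Z.Cls

namespace CoxA

theorem ole_trans {W : Type} [TopologicalSpace W] {E : Set W} {f g h : W → ℝ} {w : W}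
    (h1 : OLe E f g w) (h2 : OLe E g h w) (hg : ∀ v, 0 ≤ g v) : OLe E f h w := by
  obtain ⟨C, hC⟩ := h1
  obtain ⟨D, hD⟩ := h2
  refine ⟨|C| * D, ?_⟩
  filter_upwards [hC, hD] with v a b hv
  calc f v ≤ C * g v := a hv
    _ ≤ |C| * g v := mul_le_mul_of_nonneg_right (le_abs_self C) (hg v)
    _ ≤ |C| * (D * h v) := mul_le_mul_of_nonneg_left (b hv) (abs_nonneg C)
    _ = |C| * D * h v := (mul_assoc _ _ _).symm

variable {X : Ctx} {L : Fin X.q → Bd X.V.W} {y : X.Y.pt}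

theorem mer_cast {b b' : Fin X.q → ℤ} (h : b = b') {s : Ix L → X.V.W → ℂ}
    (hs : X.Mer y (lin L b) s) : X.Mer y (lin L b') s := by
  subst h
  exact hs

theorem ev_in (hL : ∀ j, LBN 4 (X.F y) (L j)) {i : Ix L} {w : X.V.W} (hi : In L i w) :
    ∀ᶠ v in 𝓝 w, In L i v :=
  eventually_all.2 fun j => ((hL j).isOpen (i j)).mem_nhds (hi j)

theorem ev_at {P : X.V.W → Prop} (h : ∀ᶠ w in 𝓝ˢ (X.F y), P w) {w : X.V.W} (hw : w ∈ X.F y) :
    ∀ᶠ v in 𝓝 w, P v := h.filter_mono (nhds_le_nhdsSet hw)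

/-- sections of degree zero are uniformly bounded -/
theorem bdd (hZ : StZero) (hL : ∀ j, LBN 4 (X.F y) (L j)) {s : Ix L → X.V.W → ℂ}
    (hs : X.Mer y (lin L 0) s) : ∃ C : ℝ, ∀ w ∈ X.F y,
      ∀ᶠ v in 𝓝 w, v ∉ X.E → ∀ i, In L i v → ‖s i v‖ ≤ C := by
  obtain ⟨g, hg, h⟩ := (hZ X L y hL).2 s hs
  refine ⟨‖g y‖ + 1, fun w hw => ?_⟩
  have e : X.ψ w = y := hw
  have hc : ContinuousAt (fun v => g (X.ψ v)) w :=
    Pj.holF_cont (X.hyp.res.hol w g (e ▸ hg))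
  have hb : ∀ᶠ v in 𝓝 w, ‖g (X.ψ v)‖ < ‖g y‖ + 1 :=
    hc.norm.eventually_lt continuousAt_const (by rw [e]; exact lt_add_one _)
  filter_upwards [ev_at h hw, hb] with v a b hv i hi
  rw [a hv i hi]
  exact b.le

theorem prod_scale {g : ℕ} (ε : ℝ) (ρ : Fin g → ℝ) (m : Fin g → ℕ) :
    ∏ a, (ε * ρ a) ^ m a = ε ^ (∑ a, m a) * ∏ a, ρ a ^ m a := by
  simp only [mul_pow, Finset.prod_mul_distrib, Finset.prod_pow_eq_pow_sum]

/-- a scale for finitely many bounds -/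
theorem scale {g : ℕ} (Z : Finset (Fin g → ℕ)) (hZ : ∀ z ∈ Z, z ≠ 0) (C : (Fin g → ℕ) → ℝ) :
    ∃ ε : ℝ, 0 < ε ∧ ε ≤ 1 ∧ ∀ ρ : Fin g → ℝ, (∀ a, 0 ≤ ρ a) →
      ∀ z ∈ Z, ∏ a, ρ a ^ z a ≤ C z → ∏ a, (ε * ρ a) ^ z a ≤ 1 := by
  have hS : 0 ≤ ∑ z ∈ Z, |C z| := Finset.sum_nonneg fun z _ => abs_nonneg _
  have h1 : 0 < 1 + ∑ z ∈ Z, |C z| := by linarith
  have hle : (1 + ∑ z ∈ Z, |C z|)⁻¹ ≤ 1 := inv_le_one_of_one_le₀ (by linarith)
  refine ⟨(1 + ∑ z ∈ Z, |C z|)⁻¹, inv_pos.2 h1, hle, fun ρ hρ z hz h => ?_⟩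
  have hne : ∑ a, z a ≠ 0 := fun h0 => hZ z hz (funext fun a =>
    Finset.sum_eq_zero_iff.1 h0 a (Finset.mem_univ a))
  have h2 : C z ≤ 1 + ∑ z ∈ Z, |C z| :=
    (le_abs_self _).trans ((Finset.single_le_sum (f := fun z => |C z|)
      (fun z _ => abs_nonneg _) hz).trans (by linarith))
  rw [prod_scale]
  calc _ ≤ (1 + ∑ z ∈ Z, |C z|)⁻¹ * (1 + ∑ z ∈ Z, |C z|) :=
        mul_le_mul (pow_le_of_le_one (inv_pos.2 h1).le hle hne) (h.trans h2)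
          (Finset.prod_nonneg fun a _ => pow_nonneg (hρ a) _) (inv_pos.2 h1).le
    _ = 1 := inv_mul_cancel₀ h1.ne'

/-- the zero section and the monomials with exponents in `T` -/
def fam {g : ℕ} (u : Fin g → Ix L → X.V.W → ℂ) (T : Finset (Fin g → ℕ)) :
    Fin (T.card + 1) → Ix L → X.V.W → ℂ :=
  Fin.cons (α := fun _ => Ix L → X.V.W → ℂ) (fun _ _ => 0)
    fun j i w => ∏ a, u a i w ^ (T.equivFin.symm j : Fin g → ℕ) a

theorem nrm_fam {g : ℕ} (u : Fin g → Ix L → X.V.W → ℂ) (T : Finset (Fin g → ℕ)) (i : Ix L)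
    (w : X.V.W) : nrm (fam u T) i w = ∑ m ∈ T, ∏ a, ‖u a i w‖ ^ m a := by
  rw [nrm, Fin.sum_univ_succ, ← Finset.sum_coe_sort T, ← T.equivFin.symm.sum_comp]
  simp only [fam, Fin.cons_zero, Fin.cons_succ, norm_zero, zero_add, norm_prod, norm_pow]

end CoxA

open CoxA

/-- **COX** -/
theorem stCox (hCh : StCh) (hF : StFgr) (hB : StBig) (hZ : StZero) (hM : StMer) : StCox := by
  intro X L y hL
  obtain ⟨G⟩ := hF X L y hL
  obtain ⟨n, H, Z, T, hn, hZ0, hT, hch⟩ := hCh X.q G.g G.d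
  obtain ⟨-, m0, -, mp, -, -⟩ := hM X L y hL
  have mono : ∀ (m : Fin G.g → ℕ) {b}, ∑ a, m a • G.d a = b →
      X.Mer y (lin L b) fun i w => ∏ a, G.u a i w ^ m a :=
    fun m b h => mer_cast h (mp (Fin G.g) G.d G.u m G.mer)
  have hC : ∀ z : Fin G.g → ℕ, ∃ C : ℝ, z ∈ Z → ∀ w ∈ X.F y,
      ∀ᶠ v in 𝓝 w, v ∉ X.E → ∀ i, In L i v → ‖∏ a, G.u a i v ^ z a‖ ≤ C := by
    intro z
    by_cases hz : z ∈ Z
    · obtain ⟨C, h⟩ := bdd hZ hL (mono z (hZ0 z hz).2)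
      exact ⟨C, fun _ => h⟩
    · exact ⟨0, fun h => absurd h hz⟩
  choose C hC using hC
  obtain ⟨ε, ε0, ε1, hε⟩ := scale Z (fun z hz => (hZ0 z hz).1) C
  have mul : ∀ (ι : Type) [Fintype ι] (e : ι → Fin X.q → ℤ) (c : ι → ℕ),
      (∀ h ∈ H, ∀ a b, 0 ≤ (h ⬝ᵥ e a) * (h ⬝ᵥ e b)) →
      ∀ s, X.Mer y (lin L (n • ∑ a, c a • e a)) s → ∀ w ∈ X.F y, ∀ i, In L i w →
        OLe X.E (fun v => ‖s i v‖) (fun v => ∏ a, nrm (fam G.u (T (e a))) i v ^ c a) w := by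
    intro ι _ e c hH s hs w hw i hi
    obtain ⟨T', cf, h1, h2⟩ := G.gen _ s hs
    refine ⟨∑ m ∈ T', (‖cf m w‖ + 1) * (ε ^ (∑ a, m a))⁻¹, ?_⟩
    have h3 : ∀ᶠ v in 𝓝 w, ∀ m ∈ T', ‖cf m v‖ < ‖cf m w‖ + 1 :=
      (eventually_all_finset T').2 fun m hm =>
        ((h1 m hm).2 w hw).norm.eventually_lt continuousAt_const (lt_add_one _)
    have h4 : ∀ᶠ v in 𝓝 w, ∀ z ∈ Z, v ∉ X.E → ∀ i, In L i v → ‖∏ a, G.u a i v ^ z a‖ ≤ C z :=
      (eventually_all_finset Z).2 fun z hz => hC z hz w hw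
    filter_upwards [ev_at h2 hw, h3, h4, ev_in hL hi] with v a2 a3 a4 a5 hv
    rw [a2 hv i a5, Finset.sum_mul]
    refine (norm_sum_le _ _).trans (Finset.sum_le_sum fun m hm => ?_)
    have k1 := hch ι e c hH m (h1 m hm).1 (fun a => ε * ‖G.u a i v‖)
      (fun a => mul_nonneg ε0.le (norm_nonneg _))
      (fun z hz => hε _ (fun a => norm_nonneg _) z hz (by
        simpa only [norm_prod, norm_pow] using a4 z hz hv i a5))
    have k2 : ∏ b, (∑ m' ∈ T (e b), ∏ a, (ε * ‖G.u a i v‖) ^ m' a) ^ c b ≤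
        ∏ b, nrm (fam G.u (T (e b))) i v ^ c b := by
      have p0 : ∀ m' : Fin G.g → ℕ, 0 ≤ ∏ a, (ε * ‖G.u a i v‖) ^ m' a := fun m' =>
        Finset.prod_nonneg fun a _ => pow_nonneg (mul_nonneg ε0.le (norm_nonneg _)) _
      refine Finset.prod_le_prod (fun b _ => pow_nonneg (Finset.sum_nonneg fun m' _ => p0 m') _)
        fun b _ => pow_le_pow_left₀ (Finset.sum_nonneg fun m' _ => p0 m') ?_ _
      rw [nrm_fam]
      refine Finset.sum_le_sum fun m' _ => ?_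
      rw [prod_scale]
      exact mul_le_of_le_one_left (Finset.prod_nonneg fun a _ => pow_nonneg (norm_nonneg _) _)
        (pow_le_one₀ ε0.le ε1)
    rw [prod_scale] at k1
    have k3 := (le_inv_mul_iff₀ (pow_pos ε0 (∑ a, m a))).2 (k1.trans k2)
    rw [norm_mul, norm_prod, mul_assoc]
    simp only [norm_pow]
    exact mul_le_mul (a3 m hm).le k3
      (Finset.prod_nonneg fun a _ => pow_nonneg (norm_nonneg _) _) (by positivity)
  refine ⟨{ n := n, npos := hn, H := H, r := fun e => (T e).card, u := fun e => fam G.u (T e)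
            mer := fun e m => ?_, big := fun e w hw i hi => ?_, mul := mul }⟩
  · refine Fin.cases (m0 _) (fun j => ?_) m
    exact mono _ (hT e _ ((T e).equivFin.symm j).2)
  · obtain ⟨s, ζ, K, hs, hζ, h⟩ := hB X L y hL (n • e) w hw i hi
    have h1 := mul Unit (fun _ => e) (fun _ => 1) (fun h _ _ _ => mul_self_nonneg _) s
      (mer_cast (by simp) hs) w hw i hi
    refine ⟨ζ, K, hζ, ole_trans h ?_ fun v => norm_nonneg _⟩
    simpa using h1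

end Vale.Agent.P277Z.Cls
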