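import Vale.Agent.P277Z.Cls.Sk
import Vale.Agent.P277Z.Slc.Unit
import Vale.Agent.P277Z.Slc.Basic
import Vale.Agent.P277Z.Luf.Hol

/-!
# P277, block CLS: the exceptional components are contracted (CTR)
-/

set_option linter.all false

open scoped Manifold ContDiff Topology
open Vale.Agent.P272.K Vale.Agent.P285.H281.FD Vale.Agent.P277 Set Filter
open Vale.Agent.P277.HD (pull)
open Vale.Agent.P277Z.Slc (LEq lin dd)
open Vale.Agent.P277Z.Pj (SecD)
open Vale.Agent.P277Z.Coh (ScAt)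

noncomputable section

namespace Vale.Agent.P277Z.Cls

namespace Ctr

section gen

variable {W κ : Type} [TopologicalSpace W] [T2Space W] [SecondCountableTopology W]
  [ChartedSpace (Cm 4) W] [IsManifold 𝓘(ℂ, Cm 4) ω W] {w : W}

theorem pole_div {G : κ → Set W} {ex : Finset κ} {f f' g τ : W → ℂ} {l : κ} (h : Pole G ex f w)
    (hl : l ∈ ex) (hτ : LEq 4 (G l) w τ) (hg : ContinuousAt g w)
    (e : ∀ᶠ v in 𝓝 w, v ∉ Ex G ex → f' v = g v / τ v * f v) : Pole G ex f' w := by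
  classical
  obtain ⟨ζ, K, h1, C, h2⟩ := h
  obtain ⟨u, u1, -, u2⟩ := Slc.stUnit 4 W _ w τ (ζ l) hτ (h1 l)
  have h3 : ContinuousAt (fun v => ‖g v‖ * ‖u v‖ * ∏ l' ∈ ex.erase l, ‖ζ l' v‖) w :=
    (hg.norm.mul u1.cont.norm).mul (tendsto_finsetProd _ fun l' _ => (h1 l').hol.cont.norm)
  refine ⟨ζ, K + 1, h1, (‖g w‖ * ‖u w‖ * ∏ l' ∈ ex.erase l, ‖ζ l' w‖ + 1) * C, ?_⟩
  filter_upwards [h2, u2, e, hτ.1, h3.eventually_lt continuousAt_const (lt_add_one _)]
    with v a b c d f₁ hv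
  have t : ‖τ v‖ ≠ 0 := norm_ne_zero_iff.2 fun k => hv (mem_biUnion hl (d.1 k))
  calc _ = (‖g v‖ * ‖u v‖ * ∏ l' ∈ ex.erase l, ‖ζ l' v‖) * (‖f v‖ * ∏ l ∈ ex, ‖ζ l v‖ ^ K) := by
        simp only [c hv, pow_succ, Finset.prod_mul_distrib, norm_mul, norm_div]
        rw [← Finset.mul_prod_erase ex (fun l => ‖ζ l v‖) hl, b, norm_mul]
        field_simp
    _ ≤ _ := by
        rw [mul_assoc _ C]
        exact mul_le_mul f₁.le (a hv) (by positivity) (by positivity)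

/-- points are isolated in the fibres of an immersion -/
theorem isol {α : Type} [Fintype α] {h : α → W → ℂ} (hh : ∀ a, Hol 4 (h a) w) {e : Chart 4 W}
    (he : At e w) (hi : ∀ v, (∀ a, dd (h a) e w v = 0) → v = 0) :
    ∀ᶠ w' in 𝓝 w, ∀ᶠ v in 𝓝 w', (∀ a, h a v = h a w') → v = w' := by
  have h1 : AnalyticAt ℂ (fun z a => h a (e.symm z)) (e w) := .pi fun a => hh a e he
  have h2 : Function.Injective (fderiv ℂ (fun z a => h a (e.symm z)) (e w)) :=
    (injective_iff_map_eq_zero _).2 fun v hv => hi v fun a => by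
      rw [fderiv_pi fun a => (hh a e he).differentiableAt] at hv
      exact congrFun hv a
  filter_upwards [(e.continuousAt he.2).eventually (h1.eventually_analyticAt.and
    (h1.fderiv.continuousAt.eventually (ContinuousLinearMap.isOpen_injective.mem_nhds h2))),
    Slc.At.near he] with w' a b
  obtain ⟨K, -, c⟩ := (LinearMap.injective_iff_antilipschitz (fderiv ℂ _ _).toLinearMap).1 a.2
  filter_upwards [(e.continuousAt b.2).eventually (eventually_nhdsWithin_iff.1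
    (a.1.differentiableAt.hasFDerivAt.eventually_ne (c := fun a => h a w') ⟨K, c⟩)),
    Slc.At.near b] with v d f k
  exact by_contra fun n => d (fun m => n (e.injOn f.2 b.2 m))
    (funext fun a => by rw [e.left_inv f.2, k])

end gen

variable {X : Ctx} {L : Fin X.q → Bd X.V.W} {S : X.Sf L} {M : Md S} {y : X.Y.pt}
  {l : Fin X.V.r ⊕ Fin M.Z.r}

theorem memO {w : M.Z.W} {m} (h : w ∈ M.D m) : M.b w ∈ M.O := (M.pm.pm.cover w).2 ⟨m, h⟩

/-- the sections of `𝒪(G l) ⊗ 𝒪(d)` vanish on `G l` -/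
theorem van (h1 : StApi1) (h2 : StApi2) (hL : StLoc) (hM : StMer) (hy : y ∈ M.O) (hS : S.Gen y)
    (hl : l ∈ exU X.ex) {d : ℕ} {g : Fin (M.R + 1) → (M.B l).ι → M.Z.W → ℂ}
    (hg : ∀ᶠ w in 𝓝ˢ (M.F y), SecD 4 (M.B l) M.D M.ν d g w) : ∀ᶠ w in 𝓝ˢ (M.F y),
      w ∈ M.Z.G l → ∀ m k, w ∈ M.D m → w ∈ (M.B l).U k → g m k w = 0 := by
  obtain ⟨a1, -, a2, -, a3, -, -, a4⟩ := h1 X L S M
  obtain ⟨b1, b2, -, -, -, -, b3⟩ := a4 y hy
  have hπ := M.Z.bl.cont
  have hO : ∀ᶠ w in 𝓝ˢ (M.F y), M.b w ∈ M.O := (M.model.isOpen.preimage a1).mem_nhdsSet.2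
    fun w (hw : M.b w = y) => show M.b w ∈ M.O from hw ▸ hy
  have hE : IsClosed (Ex M.Z.G (exU X.ex)) := isClosed_biUnion_finset fun l _ => (M.div l).closed
  choose κ hκ using (M.div l).lb.cover
  have hμ : ∀ w, M.b w ∈ M.O → w ∈ M.D (Classical.epsilon fun m => w ∈ M.D m) := fun w h =>
    Classical.epsilon_spec ((M.pm.pm.cover w).1 h)
  set μ := fun w => Classical.epsilon fun m => w ∈ M.D m
  replace hμ : ∀ w, M.b w ∈ M.O → w ∈ M.D (μ w) := hμ
  set P : Fin (M.R + 1) → Ix L → X.V.W → ℂ := fun m j v => ∏ i, S.u i (M.eqv m i) j v ^ d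
  have hP : ∀ᶠ w in 𝓝ˢ (M.F y), ∀ m, MerAt X.V.G X.ex (lin L (d • ∑ i, S.a i)) (P m) (M.Z.π w) :=
    (hπ.tendsto_nhdsSet (t := X.F y) fun _ h => h).eventually (eventually_all.2 fun m => by
      rw [Finset.smul_sum]
      exact (hM X L y b1).2.2.2.1 _ _ _ (fun _ => d) fun i => b2 i _)
  set s : Ix L → M.Z.W → ℂ := fun j w => g (μ w) (κ w) w / M.τ l (κ w) w * P (μ w) j (M.Z.π w)
  have k1 : ∀ᶠ w in 𝓝ˢ (M.F y), ∀ m k j, w ∈ M.D m → w ∈ (M.B l).U k → In L j (M.Z.π w) →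
      ∀ᶠ v in 𝓝 w, M.b v ∈ M.O ∧ In L j (M.Z.π v) ∧
        (M.Z.π v ∉ X.E → s j v = g m k v / M.τ l k v * P m j (M.Z.π v)) := by
    filter_upwards [hg.eventually_nhdsSet] with w c m k j e f n
    filter_upwards [c, (M.pm.pm.isOpen m).mem_nhds e, ((M.div l).lb.isOpen k).mem_nhds f,
      eventually_all.2 fun a => hπ.continuousAt.eventually (((b1 a).isOpen _).mem_nhds (n a))]
      with v c e f n
    refine ⟨memO e, n, fun o => ?_⟩
    have e' := hμ v (memO e)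
    simp only [s, P, Finset.prod_pow]
    rw [(c m e).2 _ e' _ (hκ v), M.pm.rel _ v e' o m j n, (((c m e).1 k f).2 _ (hκ v)),
      (M.div l).sec.change k _ v f (hκ v), mul_div_mul_left _ _ ((M.div l).lb.ne_zero _ _ v f (hκ v))]
    ring
  obtain ⟨s', c1, c2⟩ := b3 (d • ∑ i, S.a i) s (by
    filter_upwards [hO, hg, hP, k1] with w o c e f j hj
    have e' := hμ w o
    have f' := f _ _ j e' (hκ w) hj
    have g1 := ((c _ e').1 _ (hκ w)).1
    have g2 := (M.div l).leq _ w (hκ w)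
    refine ⟨pole_div (a3 w _ o (e _ j hj).1) hl g2 (Hol.cont g1)
      (f'.mono fun v a b => a.2.2 (mt (a2 v a.1).1 b)), fun n => ?_⟩
    obtain ⟨n1, n2⟩ := (e (μ w) j hj).2 (mt (a2 w o).1 n)
    refine ⟨((Hol.div g1 g2.hol fun t => n (mem_biUnion hl (g2.mem.1 t))).mul
      (M.Z.bl.hol w _ n1)).congr ?_, fun j' hj' => ?_⟩
    · filter_upwards [f', hE.isOpen_compl.mem_nhds n] with v a b
        using (a.2.2 (mt (a2 v a.1).1 b)).symm
    · simp only [s]
      rw [n2 j' hj', mul_left_comm]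
      rfl)
  refine eventually_nhdsSet_iff_forall.2 fun w hw => ?_
  have e := hμ w (hO.self_of_nhdsSet w hw)
  have n := nhds_le_nhdsSet hw
  choose j hj using fun a => (b1 a).cover (M.Z.π w) hw
  obtain ⟨C, c3⟩ := hS d s' c1 _ hw j hj
  choose C' c4 using fun i => (h2 X L S M y hy).2.2.1 _ w e i j hj
  obtain ⟨ζ, c5, -⟩ := M.Z.snc w
  choose o u c6 c7 c8 c9 using fun i => M.pm.mon _ w e i j ζ hj c5
  have g1 := (((hg.self_of_nhdsSet w hw) _ e).1 _ (hκ w)).1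
  have g2 := (M.div l).leq _ w (hκ w)
  have k2 : ∀ᶠ v in 𝓝 w, (∀ l, v ∉ M.Z.G l) →
      ‖g (μ w) (κ w) v‖ ≤ |C| * (∏ i, C' i ^ d) * ‖M.τ l (κ w) v‖ := by
    filter_upwards [k1.self_of_nhdsSet w hw _ _ j e (hκ w) hj, hπ.continuousAt.eventually c3,
      eventually_all.2 c4, eventually_all.2 c9, eventually_all.2 fun i => (c7 i).ne_near (c8 i),
      eventually_all.2 fun l => (c5 l).1, g2.1] with v m1 m2 m3 m4 m5 m6 m7 m8
    have m9 : M.Z.π v ∉ X.E := fun t =>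
      (mem_iUnion₂.1 ((a2 v m1.1).1 t)).elim fun l t => m8 l t.2
    have t1 : 0 < ‖P (μ w) j (M.Z.π v)‖ := norm_pos_iff.2 (Finset.prod_ne_zero_iff.2 fun i _ =>
      pow_ne_zero _ (m4 i m9 ▸ mul_ne_zero (m5 i) (Finset.prod_ne_zero_iff.2 fun l _ =>
        zpow_ne_zero _ (mt (m6 l).1 (m8 l)))))
    have t2 := (m2 m9).trans (mul_le_mul (le_abs_self C) (Finset.prod_le_prod (fun i _ => pow_nonneg
      (Finset.sum_nonneg fun _ _ => norm_nonneg _) d) fun i _ => pow_le_pow_left₀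
      (Finset.sum_nonneg fun _ _ => norm_nonneg _) (m3 i m9) d) (Finset.prod_nonneg fun i _ =>
      pow_nonneg (Finset.sum_nonneg fun _ _ => norm_nonneg _) d) (abs_nonneg C))
    rw [c2 v j m1.1 m9, m1.2.2 m9, norm_mul, norm_div] at t2
    rw [← div_le_iff₀ (norm_pos_iff.2 (mt m7.1 (m8 l)))]
    refine le_of_mul_le_mul_right (t2.trans_eq ?_) t1
    simp only [P, mul_pow, Finset.prod_mul_distrib, norm_prod, norm_pow, mul_assoc]
  filter_upwards [k2.eventually_nhds, Hol.near g1, g2.near, hg.filter_mono n,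
    (M.pm.pm.isOpen _).mem_nhds e, ((M.div l).lb.isOpen _).mem_nhds (hκ w)]
    with v m1 m2 m3 m4 m5 m6 m7 m k m8 m9
  have t : g (μ w) (κ w) v = 0 := by_contra fun t => by
    obtain ⟨x, t1, t2, t3⟩ := ((gen_frequently ((hL _ _ _ ∅ M.Z.snc).1 v)).and_eventually (m1.and
      ((continuousAt_const.mul m3.hol.cont.norm).eventually_lt m2.cont.norm
        (by simpa [m3.mem.2 m7] using t)))).exists
    exact (t2 t1.self_of_nhds).not_gt t3
  rw [((m4 m m8).1 k m9).2 _ m6, (m4 _ m5).2 m m8 _ m6, t, mul_zero, mul_zero]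

theorem one (hG : Pj.GEN) (h1 : StApi1) (h2 : StApi2) (hL : StLoc) (hM : StMer) (hy : y ∈ M.O)
    (hS : S.Gen y) (hl : l ∈ exU X.ex) : ∀ᶠ w in 𝓝ˢ (M.F y), ∀ m, w ∈ M.D m → w ∈ M.Z.G l →
      ∀ ζ (e : Chart 4 M.Z.W), LEq 4 (M.Z.G l) w ζ → At e w → ∃ v, v ≠ 0 ∧ dd ζ e w v = 0 ∧
        (∀ i, dd (fun w => M.t w i) e w v = 0) ∧ ∀ i, dd (fun w => M.ν m w i) e w v = 0 := by
  classical
  have hB := (M.div l).lb
  have hh : ∀ i j x, x ∈ (M.B l).U i → x ∈ (M.B l).U j → Hol 4 ((M.B l).g i j) x :=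
    fun i j x a b e he => (hB.holo i j e x he a b).analyticAt
  obtain ⟨U, q, d, g, u1, u2, -, u3, u4⟩ := @hG 3 M.Z.W _ _ _ M.Z.cs M.Z.mf _ _ _ _ M.prp M.prj _ _ _ M.pm.pm (M.B l)
    (⟨hB.isOpen, fun x _ => hB.cover x, fun i j x _ => hh i j x, fun i j x _ => hB.ne_zero i j x,
      fun i j k x _ => hB.cocycle i j k x⟩ : Coh.LBOn 4 _ _) (M.φ y) (M.model.image.le ⟨y, hy, rfl⟩).1
  obtain ⟨-, -, a2, -⟩ := h1 X L S M
  have k1 : ∀ᶠ w in 𝓝ˢ (M.F y), M.b w ∈ M.O ∧ M.t w ∈ U :=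
    eventually_nhdsSet_iff_forall.2 fun w (hw : M.b w = y) => by
      have o : M.b w ∈ M.O := hw ▸ hy
      exact (M.prp.isOpen.eventually_mem o).and ((continuousAt_pi.2 fun i =>
        Hol.cont (a := fun w => M.t w i) (M.prp.hol w o i)).eventually (u1.mem_nhds (show M.φ (M.b w) ∈ U from hw ▸ u2)))
  filter_upwards [(k1.and (eventually_all.2 fun a => van h1 h2 hL hM hy hS hl
    (k1.mono fun w k => u3 a w k.1 k.2))).eventually_nhdsSet] with w k2 m e1 e2 ζ e e3 e4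
  by_contra! k
  obtain ⟨w', ⟨⟨f1, f2, f3, f4, f5⟩, f6⟩⟩ := (frequently_nhdsWithin_iff.1
    (((hL _ _ _ ∅ M.Z.snc).2.1 l w e2).and_eventually (nhdsWithin_le_nhds (k2.and
      ((isol (h := Sum.elim (fun _ : Unit => ζ) (Sum.elim (fun i w => M.t w i) fun i w => M.ν m w i))
      (Sum.rec (fun _ => e3.hol) (Sum.rec (M.prp.hol w (memO e1)) (M.pm.pm.hol m w e1))) e4
      fun v hv => by_contra fun n => (k v n (hv (.inl ())) fun i => hv (.inr (.inl i))).elim
        fun i => absurd (hv (.inr (.inr i)))).and (e3.near.and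
        ((M.pm.pm.isOpen m).eventually_mem e1))))))).exists
  obtain ⟨k, hk⟩ := hB.cover w'
  have k3 : ∀ᶠ v in 𝓝 w', v ∈ (M.B l).U k ∧
      (v ∈ M.D m → M.t v = M.t w' → M.ν m v = M.ν m w' → v = w') := by
    filter_upwards [(hB.isOpen k).mem_nhds hk, f3, f4.1, eventually_all.2 fun l' =>
      eventually_imp_distrib_left.2 fun n => (M.div l').closed.isOpen_compl.eventually_mem (f1 l' n)]
      with v g1 g2 g3 g4
    refine ⟨g1, fun g5 g6 g7 => g2 (Sum.rec (fun _ => ?_) (Sum.rec (congrFun g6) (congrFun g7)))⟩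
    have g8 : M.b v = M.b w' := congrArg Subtype.val
      (M.model.emb.injective (a₁ := ⟨_, memO g5⟩) (a₂ := ⟨_, f2.1.1⟩) g6)
    obtain ⟨l', -, g9⟩ := mem_iUnion₂.1 ((a2 v (memO g5)).1 (by_contra fun n => n
      (X.hyp.res.inj _ _ n g8.symm ▸ (a2 w' f2.1.1).2 (mem_biUnion hl f6))))
    exact (g3.2 (by_contra fun n => g4 l' (fun t => n (t ▸ g9)) g9)).trans (f4.mem.2 f6).symm
  have := ChartedSpace.locallyCompactSpace (Cm 4) M.Z.W
  obtain ⟨N, n1, n2, n3⟩ := exists_mem_nhds_isClosed_subset k3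
  obtain ⟨c, -, hc⟩ := u4 m _ f2.1.2 (M.ν m w') (fun i v => if v ∈ N then (M.B l).g i k v else 0)
    fun v g1 g2 g3 => by
      by_cases n : v ∈ N
      · obtain rfl := (n3 n).2 g1 g2 g3
        filter_upwards [eventually_mem_nhds_iff.2 n1] with x t i hi
        have t' := mem_of_mem_nhds t
        exact ⟨Hol.congr (hh i k x hi (n3 t').1) (mem_of_superset t fun _ a => (if_pos a).symm),
          fun j hj => by simp only [if_pos t', hB.cocycle i j k x hi hj (n3 t').1]⟩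
      · filter_upwards [eventually_mem_nhds_iff.2 (n2.isOpen_compl.mem_nhds n)] with x t i hi
        have t' := mem_of_mem_nhds t
        exact ⟨(hol_const (n := 4) 0 x).congr (mem_of_superset t fun _ a => (if_neg a).symm),
          fun j hj => by simp only [if_neg t', mul_zero]⟩
  have k4 := (hc w' f5 rfl rfl).self_of_nhds k hk
  simp only [if_pos (mem_of_mem_nhds n1), fun a => f2.2 a f6 m k f5 hk, mul_zero,
    Finset.sum_const_zero] at k4
  exact hB.ne_zero k k w' hk hk k4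

end Ctr

/-- **CTR** -/
theorem stCtr (hG : Pj.GEN) (h1 : StApi1) (h2 : StApi2) (hL : StLoc) (hM : StMer) : StCtr :=
  fun X L S M y hy hS => ⟨_, ((h1 X L S M).2.2.2.2.2.2.2 y hy).2.2.2.2.1 _
    ((eventually_all_finset _).2 fun _ hl => Ctr.one hG h1 h2 hL hM hy hS hl),
    fun l hl m w a b c => c w rfl l hl m a b⟩

end Vale.Agent.P277Z.Cls
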