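import Vale.Agent.P277Z.Cls.Six
import Vale.Agent.P277Z.Top.Em
import Vale.Agent.P277Z.Slc.Div
import Vale.Agent.P277Z.Val.Snc

/-!
# P277, block CLS: the calculus of classes, and the last step
-/

set_option linter.all false
set_option maxSynthPendingDepth 3

open scoped Manifold ContDiff Topology
open Vale.Agent.P272.K Vale.Agent.P285.H281.FD Vale.Agent.P277 Set Filter Module
open Vale.Agent.P267.H175 (dF)
open Vale.Agent.P277.PH (HolF SmR)
open Vale.Agent.P277.HD (pull)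
open Vale.Agent.P277Z.Tr (pb HolM)
open Vale.Agent.P277Z.Val (Sb Lg)
open Vale.Agent.P277Z.Slc (lin LEq)
open Vale.Agent.P277Z.Coh (LBOn)
open Vale.Agent.P277Z.Top Vale.Agent.P277Z.Top.H98 Vale.Agent.P277Z.Gd

noncomputable section

namespace Vale.Agent.P277Z.Cls

section lb

variable {n : ℕ} {W : Type} [TopologicalSpace W] [ChartedSpace (Cm n) W] {O : Set W}

theorem lbOn_lin {ι : Type} [Fintype ι] {L : ι → Bd W} (h : ∀ a, LBOn n O (L a)) (b : ι → ℤ) :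
    LBOn n O (lin L b) := by
  refine ⟨fun i => ?_, fun x hx => ?_, fun i j x hx hi hj e he => ?_, fun i j x hx hi hj =>
    Finset.prod_ne_zero_iff.2 fun a _ => zpow_ne_zero _ ((h a).ne_zero _ _ x hx (hi a) (hj a)),
    fun i j k x hx hi hj hk => ?_⟩
  · change IsOpen {x | ∀ e, x ∈ (L e).U (i e)}
    rw [setOf_forall]
    exact isOpen_iInter_of_finite fun a => (h a).isOpen _
  · choose j hj using fun a => (h a).cover x hx
    exact ⟨j, hj⟩
  · exact Finset.analyticAt_fun_prod _ fun a _ => ((h a).holo _ _ x hx (hi a) (hj a) e he).fun_zpow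
      (by rw [he.left_inv]; exact (h a).ne_zero _ _ x hx (hi a) (hj a))
  · show (∏ _, _) * ∏ _, _ = ∏ _, _
    rw [← Finset.prod_mul_distrib]
    exact Finset.prod_congr rfl fun a _ => by
      rw [← mul_zpow, (h a).cocycle _ _ _ x hx (hi a) (hj a) (hk a)]

theorem lbOn_pull [IsManifold 𝓘(ℂ, Cm n) ω W] {d : ℕ} {S : Type} [TopologicalSpace S]
    [ChartedSpace (Cm d) S] [IsManifold 𝓘(ℂ, Cm d) ω S] {f : S → W} (hf : HolM d n f) {L : Bd W}
    (h : LBOn n O L) : LBOn d (f ⁻¹' O) (pull f L) :=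
  ⟨fun i => (h.isOpen i).preimage hf.1, fun z => h.cover (f z), fun i j z a b c =>
    holF_comp hf (h.holo i j _ a b c), fun i j z => h.ne_zero i j (f z),
    fun i j k z => h.cocycle i j k (f z)⟩

theorem lb_of_on {L : Bd W} (h : LBOn n O L) (hO : ∀ x, x ∈ O) : IsLB n L :=
  ⟨h.isOpen, fun x => h.cover x (hO x), fun i j e x a b c => (h.holo i j x (hO x) b c e a).contDiffAt,
    fun i j x => h.ne_zero i j x (hO x), fun i j k x => h.cocycle i j k x (hO x)⟩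

theorem lbn_of_on {L : Bd W} (h : LBOn n O L) {F : Set W} (hF : O ∈ 𝓝ˢ F) : Brg.LBN n F L :=
  ⟨h.isOpen, fun x hx => h.cover x (subset_of_mem_nhdsSet hF hx), mem_of_superset hF
    fun y hy i j a b => ⟨h.holo i j y hy a b, h.ne_zero i j y hy a b, fun k =>
      h.cocycle i j k y hy a b⟩⟩

end lb

variable {X : Ctx} {O : Set X.Y.pt}

theorem clsOn_iff {L : Bd X.U.W} {z : ∀ k, C11 (X.Q.H k)} : X.ClsOn O L (fun k => (z k).1) ↔
    LBOn 4 (X.p ⁻¹' O) L ∧ HasCl X.Q (X.p ⁻¹' O) L z :=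
  and_congr_right fun h => ⟨fun a k d N j hj hO => ⟨lb_of_on
    (lbOn_pull (holM_comp (par_hol X.Q k) hj) h) hO, a k d N j hj hO⟩,
    fun a k d N j hj hO => (a k d N j hj hO).2⟩

theorem xi_eq (b : Fin X.q → ℤ) : X.ξ b = fun k => ((∑ j, (b j : ℝ) • X.x j) k).1 :=
  funext fun k => by
    simp only [Ctx.ξ, Finset.sum_apply, Pi.smul_apply, Submodule.coe_sum, Submodule.coe_smul]

theorem xi_mem (b : Fin X.q → ℤ) (k) : X.ξ b k ∈ C11 (X.Q.H k) := by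
  rw [xi_eq]; exact Subtype.property _

theorem clsOn_lin {ι : Type} [Fintype ι] {L : ι → Bd X.U.W} {ξ : ι → ∀ k, Fr 3 2 (X.Q.H k).M}
    (h : ∀ a, X.ClsOn O (L a) (ξ a)) (hξ : ∀ a k, ξ a k ∈ C11 (X.Q.H k)) (b : ι → ℤ) :
    X.ClsOn O (lin L b) fun k => ∑ a, (b a : ℝ) • ξ a k := by
  have h1 := fun a => (clsOn_iff (z := fun k => ⟨_, hξ a k⟩)).1 (h a)
  have h2 := clsOn_iff.2 ⟨lbOn_lin (fun a => (h1 a).1) b, HasCl.lin (fun a => (h1 a).2) b⟩
  simpa only [Finset.sum_apply, Pi.smul_apply, Submodule.coe_sum, Submodule.coe_smul] using h2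

/-- **LBV** -/
theorem lbv : StLbv := fun X Φ => by
  have e : X.ψ ⁻¹' Φ.O = X.μ ⁻¹' (X.p ⁻¹' Φ.O) := by
    ext w
    simp only [mem_preimage, X.hyp.fac]
  have h1 : ∀ j, LBOn 4 (X.ψ ⁻¹' Φ.O) (Φ.Lv j) := fun j =>
    e ▸ lbOn_pull X.hyp.hol (Φ.cls j).1
  refine ⟨h1, fun y hy j => lbn_of_on (h1 j) ((Φ.isOpen.preimage X.hyp.res.cont).mem_nhdsSet.2
    fun w hw => show X.ψ w ∈ Φ.O from hw ▸ hy), fun b => ?_⟩
  have h2 := clsOn_lin Φ.cls (fun _ => xi_mem _) b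
  have h3 : (fun k => ∑ a, (b a : ℝ) • X.ξ (Pi.single a (Φ.n : ℤ)) k) = X.ξ (Φ.n • b) :=
    funext fun k => Finset.sum_congr rfl fun a _ => by
      rw [Ctx.ξ, Finset.sum_eq_single a (fun j' _ h => by simp [h]) (by simp), smul_smul]
      simp [mul_comm]
  exact h3 ▸ h2

theorem vert_reg {y O t g Δ} (hD : X.Dsc y O t g Δ) (hy : y ∈ X.σ) {k : Fin X.U.r}
    (hk : X.p '' X.U.G k = X.σ) (z : C11 (X.Q.H k))
    (hz : ∀ (N : Mf 2) (j : N.M → (X.Q.H k).M), HolM 2 3 j → (∀ w, X.p (X.Q.ι k (j w)) = y) →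
      ∃ θ : Fr 2 1 N.M, Sm θ ∧ pb (Cm 2) j z.1 = dF θ) (x : C11 (X.Q.H k)) :
    T3 (X.Q.H k) x.1 (X.R.B.form 3 fun x => X.p (X.Q.ι k x)) z.1 = 0 := by
  have hr := (rng3 X.Q k).trans hk
  obtain ⟨a1, a2⟩ := Fb.disc_eq hD.disc hy hD.mem
  obtain ⟨κ, -, h1⟩ := fib X.Y X.R.B 2 (X.Q.H k) _ (X.Q.conn k) (holY_comp X.hp (par_hol X.Q k))
    (dim3 X.Q X.hyp.dimU k) (hr ▸ X.nsub)
  obtain ⟨⟨J, _, N, j, h2⟩, h3⟩ := h1 O t g Δ (hr ▸ hD.disc) _ a1 fun x e => hD.reg k x (e.trans a2)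
  rw [T3_12, T3_23]
  refine (h3 J N j h2 _ (cl_wd (c_cl z) (c_cl x))).trans (mul_eq_zero_of_right _
    (Finset.sum_eq_zero fun i _ => ?_))
  have h4 := sb_holM (h2.emb i)
  obtain ⟨θ, h5, h6⟩ := hz (N i) (j i) h4 fun w =>
    (h2.rng.le (mem_iUnion.2 ⟨i, w, rfl⟩)).trans a2
  refine (congrArg (N i).int (pb_wd (j i) z.1 x.1)).trans ?_
  rw [h6]
  exact int_dF_wd (d := 1) (N i) h5 (cl_pb h4 (c_cl x))

theorem lim_ev {U : Lg} {f v : U.W → ℂ} {z : U.W} (hv : Hol 4 v z)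
    (h : ∀ᶠ w in 𝓝 z, w ∉ U.E → f w = v w) :
    ∀ᶠ w in 𝓝 z, limUnder (𝓝[U.Eᶜ] w) f = v w := by
  filter_upwards [hv.near, h.eventually_nhds] with w a b
  have : (𝓝[U.Eᶜ] w).NeBot := frequently_mem_iff_neBot.1 (Val.U.freq_notE U w)
  exact Tendsto.limUnder_eq (((Pj.holF_cont a).tendsto.mono_left nhdsWithin_le_nhds).congr'
    (eventually_nhdsWithin_iff.2 (b.mono fun _ c d => (c d).symm)))

/-- **DOWN2** -/
theorem down2 : StDown2 := by
  intro X Λ O b y s m hO hy hc hs k hk x _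
  obtain ⟨O', t, g, Δ, hD⟩ := hy.dsc
  have := ChartedSpace.secondCountable_of_sigmaCompact (Cm 4) X.U.W
  choose D η hη using fun i => Slc.stDiv 4 X.U.W (X.U.G i) fun w => by
    obtain ⟨Φ, ρ, lab, h, -⟩ := X.U.snc.nch w (Eventually.of_forall fun _ => trivial)
    exact ⟨_, h.eq h.src i⟩
  choose ψ α hα using fun i => (stLam 4 (lgM X.U)).2.1 _ (hη i).lb
  let τ : Fin X.U.r → C11 (lgM X.U) := fun i => ⟨α i, (stLam 4 (lgM X.U)).1 _ _ _ (hα i)⟩
  rw [xi_eq] at hc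
  obtain ⟨c1, c2⟩ := clsOn_iff.1 hc
  have hF : ∀ w, X.p w = y → X.p w ∈ O := fun w e => e ▸ mem_of_mem_nhds hO
  let L : Option (Fin X.U.r) → Bd X.U.W := fun o => Option.casesOn o Λ D
  have h1 := HasCl.lin (Q := X.Q) (F := X.p ⁻¹' {y}) (L := L)
    (z := fun o => Option.casesOn o (∑ j, (b j : ℝ) • X.x j)
      fun i k => res (X := lgM X.U) (par_hol X.Q k) (τ i))
    (fun a => Option.casesOn a (fun k d N j hj a => c2 k d N j hj fun w => hF _ (a w))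
      fun i => hasCl_cv (τ := τ i) (hα i)) fun o => Option.casesOn o 1 fun i => -m i
  let f : (∀ o, (L o).ι) → X.U.W → ℂ := fun i w => s (i none) w * ∏ l, η l (i (some l)) w ^ (-m l)
  have key : ∀ w, X.p w = y → ∀ i : ∀ o, (L o).ι, (∀ o, w ∈ (L o).U (i o)) → ∃ v, Hol 4 v w ∧
      v w ≠ 0 ∧ (∀ᶠ w' in 𝓝 w, w' ∉ X.U.E → f i w' = v w') ∧
      ∀ᶠ w' in 𝓝 w, w' ∉ X.U.E → ∀ j, w' ∈ Λ.U j → s (i none) w' = Λ.g (i none) j w' * s j w' := by
    intro w hw i hi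
    obtain ⟨v, a1, a2, a3⟩ := hs w hw (i none) (fun l => η l (i (some l))) (hi none)
      fun l => (hη l).leq _ w (hi (some l))
    refine ⟨v, a1, a2, ?_, a3.mono fun _ a b => (a b).2⟩
    filter_upwards [a3, eventually_all.2 fun l => ((hη l).leq _ w (hi (some l))).1] with w' a4 a5 a6
    show s (i none) w' * _ = _
    rw [(a4 a6).1, mul_assoc, ← Finset.prod_mul_distrib, Finset.prod_eq_one, mul_one]
    intro l _
    rw [← zpow_add₀ fun e => a6 (mem_iUnion.2 ⟨l, (a5 l).1 e⟩), add_neg_cancel, zpow_zero]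
  have h2 := vert_reg hD hy.mem hk _ (fun N j a b => h1.triv
    (s := fun i w => limUnder (𝓝[X.U.Eᶜ] w) (f i)) (fun w hw i hi => ?_) k N a b) x
  · rw [← X.cfg.o, ← X.cfg.T] at h2
    rw [← h2, Fintype.sum_option]
    simp only [Int.cast_one, one_smul, Int.cast_neg, Pi.sub_apply, Pi.add_apply, Finset.sum_apply,
      Pi.smul_apply, map_sub, map_add, map_sum, map_smul, neg_smul, Finset.sum_neg_distrib,
      Pi.neg_apply, map_neg, sub_eq_add_neg]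
    refine congrArg _ (congrArg _ (Finset.sum_congr rfl fun i _ => congrArg _ ?_))
    obtain ⟨g', hg'⟩ := gr_div (hη i) (hα i)
    rw [X.cfg.T, X.cfg.T, T3_23, T3_12, T3_23 _ x.1, T3_12 _ x.1]
    exact (em_eq X.cfg i k hg' (cl_wd (c_cl x) (c_cl _))).symm
  obtain ⟨v, a1, a2, a3, a4⟩ := key w hw i hi
  have a5 := lim_ev a1 a3
  refine ⟨(Pj.holF_cont a1).congr (a5.mono fun _ => Eq.symm), a5.self_of_nhds ▸ a2,
    fun i' hi' => ?_⟩
  obtain ⟨v', b1, -, b3, -⟩ := key w hw i' hi'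
  have hL : ∀ o, LBOn 4 (X.p ⁻¹' O) (L o) := fun o => Option.casesOn o c1 fun l =>
    ⟨(hη l).lb.isOpen, fun w _ => (hη l).lb.cover w, fun i j w _ a b e he =>
      ((hη l).lb.holo i j e w he a b).analyticAt, fun i j w _ => (hη l).lb.ne_zero i j w,
      fun i j k w _ => (hη l).lb.cocycle i j k w⟩
  have b4 := (lbOn_lin hL fun o => Option.casesOn o 1 fun i => -m i).holo i i' w (hF w hw) hi hi'
  rw [a5.self_of_nhds, (lim_ev b1 b3).self_of_nhds]
  refine tendsto_nhds_unique_of_frequently_eq (Pj.holF_cont a1).tendsto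
    ((Pj.holF_cont b4).mul (Pj.holF_cont b1)).tendsto
    (((Val.U.freq_notE X.U w).and_eventually (a3.and (a4.and (b3.and ((eventually_all.2 fun o =>
      ((hL o).isOpen _).mem_nhds (hi o)).and (eventually_all.2 fun o =>
        ((hL o).isOpen _).mem_nhds (hi' o))))))).mono fun z ⟨e0, e1, e2, e3, e4, e5⟩ => ?_)
  show v z = (∏ o : Option (Fin X.U.r), _) * v' z
  rw [← e1 e0, ← e3 e0, Fintype.prod_option]
  show s (i none) z * _ = Λ.g _ _ z ^ (1 : ℤ) * (∏ l, (D l).g _ _ z ^ (-m l)) * (s (i' none) z * _)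
  rw [e2 e0 _ (e5 none), zpow_one, mul_mul_mul_comm, ← Finset.prod_mul_distrib]
  refine congrArg _ (Finset.prod_congr rfl fun l _ => ?_)
  rw [← mul_zpow, ← (hη l).sec.change _ _ z (e4 (some l)) (e5 (some l))]

end Vale.Agent.P277Z.Cls
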