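import Vale.Agent.P277Z.Cls.Down1B
import Vale.Agent.P277Z.Cls.Down2

/-!
# P277, block CLS: descent of sections without zeros
-/

set_option linter.all false
set_option maxSynthPendingDepth 3

open scoped Manifold ContDiff Topology
open Vale.Agent.P272.K Vale.Agent.P285.H281.FD Vale.Agent.P277 Set Filter
open Vale.Agent.P277Z.Slc (lin)

noncomputable section

namespace Vale.Agent.P277Z.Cls

/-- **DOWN1** -/
theorem stDown1c : StDown1 := by
  intro X Φ y hy hG b s m hU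
  have hΛ := lbOn_lin (fun j => (Φ.cls j).1) b
  have hD := X.hyp.dom
  refine ⟨fun i => Dn.dn hD (s i), fun z hz i ζ hi hζ => ?_⟩
  refine (Dn.down hD (O := (lin Φ.L b).U) (g := (lin Φ.L b).g i) (f := s i)
    (f' := s) (m := fun k => m (X.s k)) hζ hΛ.isOpen ?_ ?_).imp
    fun v a => ⟨fun e he => a.1 e he, a.2⟩
  · filter_upwards [(hΛ.isOpen i).mem_nhds hi, X.hyp.resU.cont.continuousAt.eventually
      (Φ.isOpen.mem_nhds (hz.symm ▸ hy))] with x p q j hj
      using ⟨Pj.holF_cont (hΛ.holo i j x q p hj), hΛ.ne_zero i j x q p hj⟩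
  intro w hw
  have hF : w ∈ X.F y := (X.hyp.fac w).symm.trans (hw.symm ▸ hz)
  have h3 : ∀ k, ∀ᶠ v in 𝓝 w, v ∈ X.V.G (X.s k) → _ := fun k => by
    by_cases e : w ∈ X.V.G (X.s k)
    · have e1 : X.ψ '' X.V.G (X.s k) = X.p '' X.U.G k := by
        rw [← hD.img k, image_image]
        exact image_congr fun x _ => (X.hyp.fac x).symm
      exact eventually_nhdsWithin_iff.1 (hU.ord (X.s k) (hD.mem k)
        (e1.trans (hG.img k (e1 ▸ ⟨w, e, hF⟩))) w ⟨e, hF⟩ i fun j => (hw.symm ▸ hi j :))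
    · exact mem_of_superset ((X.V.closed _).isOpen_compl.mem_nhds e) fun _ a c => (a c).elim
  filter_upwards [eventually_nhdsSet_iff_forall.1 hU.mer w hF,
    eventually_nhdsSet_iff_forall.1 hU.nz w hF, eventually_all.2 h3,
    hD.hol.1.continuousAt.eventually ((hΛ.isOpen i).mem_nhds (hw.symm ▸ hi))] with v p q r t
  obtain ⟨⟨ξ, K, c1, C, c2⟩, c3⟩ := p i t
  exact ⟨⟨ξ, K, C, c1, c2.mono fun x a e => (a e).trans_eq (mul_one C)⟩,
    fun e => ⟨⟨fun e' he => (c3 e).1 e' he, q e i t⟩, (c3 e).2⟩, r⟩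

end Vale.Agent.P277Z.Cls
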