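import Vale.Agent.P277Z.Cls.Sk
import Vale.Agent.P277Z.Cls.Snc
import Vale.Agent.P277Z.Val.Up
import Vale.Agent.P277Z.Val.Big
import Vale.Agent.P277Z.Val.Slc

/-!
# P277, block CLS: the discrepancies of the new divisors
-/

open scoped Manifold ContDiff Topology
open Vale.Agent.P272.K Vale.Agent.P285.H281.FD Vale.Agent.P277 Set Filter
open Vale.Agent.P277.PH (HolF at_chartAt)
open Vale.Agent.P277Z.Slc (LEq Ind)
open Vale.Agent.P277Z.Val Vale.Agent.P277Z.Val.U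

noncomputable section

namespace Vale.Agent.P277Z.Cls

namespace Ech

/-- a map of maximal rank to a coordinate subspace is open -/
theorem open_sub {m n : ℕ} {Φ : Cm m → Cm n} {z : Cm m} (hΦ : AnalyticAt ℂ Φ z)
    (I : Finset (Fin n)) (h0 : ∀ᶠ x in 𝓝 z, ∀ i ∈ I, Φ x i = 0)
    (hr : n ≤ (Jm Φ z).rank + I.card) {Q : Cm n → Prop} (hQ : ∀ᶠ x in 𝓝 z, Q (Φ x)) :
    ∀ᶠ u in 𝓝 (Φ z), (∀ i ∈ I, u i = 0) → Q u := by
  let P : Cm n →L[ℂ] ({i // i ∉ I} → ℂ) :=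
    ContinuousLinearMap.pi fun i => ContinuousLinearMap.proj i.1
  let E : ({i // i ∉ I} → ℂ) →L[ℂ] Cm n :=
    ContinuousLinearMap.pi fun i => if h : i ∈ I then 0 else ContinuousLinearMap.proj ⟨i, h⟩
  have hE : ∀ u : Cm n, (∀ i ∈ I, u i = 0) → E (P u) = u := fun u hu => funext fun i => by
    by_cases h : i ∈ I <;> simp [E, P, h, hu]
  have h1 : HasStrictFDerivAt (fun x => P (Φ x)) (P.comp (fderiv ℂ Φ z)) z :=
    P.hasStrictFDerivAt.comp z hΦ.hasStrictFDerivAt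
  have h2 : E.comp (P.comp (fderiv ℂ Φ z)) = fderiv ℂ Φ z :=
    (E.hasFDerivAt.comp z h1.hasFDerivAt).fderiv.symm.trans
      (EventuallyEq.fderiv_eq (h0.mono fun x hx => hE _ hx))
  have h3 : LinearMap.range (P.comp (fderiv ℂ Φ z)).toLinearMap = ⊤ := by
    refine Submodule.eq_top_of_finrank_eq (le_antisymm (Submodule.finrank_le _) ?_)
    rw [rank_Jm, ← h2] at hr
    erw [LinearMap.range_comp (P.comp (fderiv ℂ Φ z)).toLinearMap E.toLinearMap] at hr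
    have := Submodule.finrank_map_le E.toLinearMap
      (LinearMap.range (P.comp (fderiv ℂ Φ z)).toLinearMap)
    simp only [Module.finrank_fintype_fun_eq_card, Fintype.card_subtype_compl, Fintype.card_fin,
      Fintype.card_coe]
    omega
  have h4 := image_mem_map (m := fun x => P (Φ x)) (h0.and hQ)
  rw [h1.map_nhds_eq_of_surj h3] at h4
  filter_upwards [P.continuous.continuousAt.eventually h4] with u ⟨x, a, b⟩ hu
  rw [← hE u hu, ← b, hE _ a.1]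
  exact a.2

variable {V : Lg} {F : Cm 4 → V.W} {w₁ : Cm 4} {c : V.W → Cm 4} {ξ : Cm 4 → V.W}
  {lab : Fin V.r → Option (Fin 4)} {a : Fin V.r → ℝ} {g : Fin V.r → ℕ}

/-- the image of a hyperplane fills an open part of a stratum -/
theorem fill (hF : AnM 4 F w₁) (h0 : w₁ 0 = 0) (hc : Ch V (F w₁) c ξ lab)
    (hg : ∀ l, OrdEq (fun w => eqs c lab l (F w)) w₁ (g l)) (T : Finset (Fin V.r))
    (hT : ∀ k ∈ T, 1 ≤ g k) {r : ℕ} (hr : 3 ≤ r + T.card)
    (h : ¬ ∀ᶠ w in 𝓝 w₁, w 0 = 0 → (Tm (fun w => c (F w)) w).rank ≤ r) {Q : V.W → Prop}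
    (hQ : ∀ᶠ w in 𝓝 w₁, w 0 = 0 → Q (F w)) :
    ∃ᶠ y in 𝓝 (F w₁), (∀ k ∈ T, y ∈ V.G k) ∧ ∀ᶠ x in 𝓝 y, (∀ k ∈ T, x ∈ V.G k) → Q x := by
  classical
  have h1 : ∀ᶠ w in 𝓝 w₁, w 0 = 0 → ∀ k ∈ T, F w ∈ V.G k := by
    filter_upwards [(eventually_all_finset T).2 fun k hk => (hg k).ge.zero_on (hT k hk),
      hF.1.eventually hc.eqs_zero] with w a b d k hk using (b k).1 (a k hk d)
  choose! j hj using fun k hk => (hc.mem.self_of_nhds k).1 (h1.self_of_nhds h0 k hk)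
  have h2 : (T.image j).card = T.card := Finset.card_image_of_injOn fun k hk k' hk' e =>
    hc.inj _ _ _ (hj k hk).1 (e ▸ (hj k' hk').1)
  refine hF.1.frequently (((not_eventually.1 h).and_eventually (hF.eventually.and
    ((hF.1.eventually hc.eventually).and (h1.eventually_nhds.and hQ.eventually_nhds)))).mono ?_)
  rintro w ⟨a, b1, b2, b3, b4⟩
  obtain ⟨a1, a2⟩ := Classical.not_imp.1 a
  have h3 := b2.crd.an_comp b1
  have h4 : ∀ᶠ x in 𝓝 (F w), (∀ k ∈ T, x ∈ V.G k) ↔ ∀ i ∈ T.image j, c x i = 0 := by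
    filter_upwards [(eventually_all_finset T).2 fun k hk => b2.mem_iff (hj k hk).1] with x e
    rw [Finset.forall_mem_image]
    exact ⟨fun d k hk => (e k hk).1 (d k hk), fun d k hk => (e k hk).2 (d hk)⟩
  have t := tendsto_inc a1
  have h5 := open_sub (Φ := fun z => c (F (inc 3 z))) (z := tl 3 w) (Q := fun u => Q (ξ u))
    (AnalyticAt.comp (g := fun w => c (F w)) (by rwa [inc_tl a1]) ((inc 3).analyticAt _))
    (T.image j) (by
      filter_upwards [t.eventually b3, t.eventually (b1.1.eventually h4)] with z e1 e2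
        using e2.1 (e1 rfl))
    (by rw [← Tm_eq h3.differentiableAt a1]; omega) (by
      filter_upwards [t.eventually b4, t.eventually (b1.1.eventually b2.crd.left)] with z e1 e2
      rw [e2]
      exact e1 rfl)
  simp only [inc_tl a1] at h5
  refine ⟨b3.self_of_nhds a1, ?_⟩
  filter_upwards [b2.crd.cont.eventually h5, h4, b2.crd.left] with x e1 e2 e3 e4
  exact e3 ▸ e1 (e2.1 e4)

/-- the estimate for the discrepancy -/
theorem num (ha : Good V a) (hF : AnM 4 F w₁) (h0 : w₁ 0 = 0) (hc : Ch V (F w₁) c ξ lab)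
    (hl : ∀ l, a l < 0 → F w₁ ∈ V.G l → lab l = some 1)
    (hg : ∀ l, OrdEq (fun w => eqs c lab l (F w)) w₁ (g l)) {J : ℕ}
    (hJ : OrdEq (U.jd fun w => c (F w)) w₁ J) {k₁ : Fin V.r} (h1 : 0 < a k₁) (h2 : 1 ≤ g k₁) {r : ℕ}
    (hr : ∀ᶠ w in 𝓝 w₁, w 0 = 0 → (Tm (fun w => c (F w)) w).rank ≤ r) :
    3 - r ≤ J + ∑ l, a l * g l ∨
      ∃ k₀, a k₀ < 0 ∧ 1 ≤ g k₀ ∧ 3 - r + a k₀ + a k₁ ≤ J + ∑ l, a l * g l := by
  obtain ⟨γ, b, k1, k2, k3, k4⟩ := coords hF h0 hc hg a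
  have j1 := cast_jac (jac_le h0 k1 hr hJ)
  have hb : ∀ i, i ≠ 1 → b i ≤ 0 := fun i hi => by
    rcases k4 i with e | ⟨l, e1, -, e2, e3⟩
    · exact e.1.le
    · exact not_lt.1 fun e => hi (Option.some_injective _ (e1.symm.trans (hl l (by linarith) e3)))
  have j2 : ∑ i, ((if 1 ≤ γ i then 1 else 0) - b i) ≤ ∑ i, ((γ i : ℝ) - b i * γ i) := by
    refine Finset.sum_le_sum fun i _ => ?_
    rcases k4 i with e | ⟨l, e1, e2, e3, -⟩
    · simp [e.1, e.2]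
    · rw [← k3 l i e1] at e2
      have e4 : (1 : ℝ) ≤ γ i := by exact_mod_cast e2
      rw [if_pos e2]
      nlinarith [ha.klt l]
  simp only [Finset.sum_sub_distrib, Finset.sum_boole] at j2
  by_cases e : b 1 ≤ 0
  · have : ∑ i, b i ≤ 0 := Finset.sum_nonpos fun i _ => by
      by_cases hi : i = 1
      exacts [hi ▸ e, hb i hi]
    exact .inl (by linarith)
  rcases k4 1 with f | ⟨l, f1, f2, f3, -⟩
  · exact absurd f.1.le e
  obtain ⟨i, hi⟩ : ∃ i, lab k₁ = some i := Option.ne_none_iff_exists'.1 fun d => by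
    have := ord_none h0 (hg k₁) d
    omega
  have h3 : b i = -a k₁ := by
    rcases k4 i with d | ⟨l', d1, -, d2, -⟩
    · have := k3 _ _ hi
      omega
    · rwa [hc.inj _ _ _ d1 hi] at d2
  have h4 : 1 ≠ i := fun d => e (by rw [d]; linarith)
  have h5 : ∑ x ∈ Finset.univ \ {1, i}, b x ≤ 0 := Finset.sum_nonpos fun x hx =>
    hb x fun d => (Finset.mem_sdiff.1 hx).2 (by simp [d])
  have h6 := Finset.sum_sdiff (f := b) (Finset.subset_univ {1, i})
  rw [Finset.sum_pair h4] at h6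
  exact .inr ⟨l, by linarith [not_le.1 e], f2, by linarith⟩

/-- a surface with an open part over a curve lies over a curve -/
theorem surf {Y : CSp} {ψ : V.W → Y.pt} (hp : HolTo V Y ψ) {l k : Fin V.r} {S : Set V.W}
    (h : IsCC V l k S) {σ : Set Y.pt} (hσ : DimLe Y 1 σ) {y : V.W} (hy : y ∈ S)
    (h1 : ∀ᶠ x in 𝓝 y, x ∈ S → ψ x ∈ σ) : DimLe Y 1 (ψ '' S) := by
  by_contra hd
  obtain ⟨_, _, H, _, _, _, _, _, _, ι, k1, k2, -, rfl⟩ := Big.tower h
  have : Nonempty Y.pt := ⟨ψ y⟩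
  have hφ := Big.holTo_sb k2 (Big.holTo_sb k1 ⟨hp.cont, hp.hol⟩)
  rw [← range_comp] at hd
  obtain ⟨w₀, hw₀⟩ := Big.exists_imm hφ hd
  obtain ⟨v, rfl⟩ := hy
  obtain ⟨w, hw, h2⟩ := ((mem_closure_iff_frequently.1 (Big.dense_imm hφ hw₀ v)).and_eventually
    ((k1.cont.comp k2.cont).continuousAt.eventually h1).eventually_nhds).exists
  obtain ⟨N, k, U, Ω, h, φ, hU, hM⟩ := Y.model (ψ (ι w))
  have he := at_chartAt (n := 2) w
  obtain ⟨r, hr, hb⟩ := Big.loc hφ hM hU he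
  obtain ⟨a1, a2, -, a4⟩ := hb _ (Metric.mem_ball_self hr)
  obtain ⟨x, b1, b2, -⟩ := L44.pick hp (Big.bigX_of hM ⟨hφ.cont.continuousAt.comp
    ((chartAt _ w).continuousAt_symm a1), fun f hf =>
      hφ.hol w f (by simpa only [Function.comp, he.left_inv] using hf) _ he⟩ a2
    ((PH.ev_symm he.2 h2).mono fun _ d => d (mem_range_self _)) (a4.1 (by rwa [he.left_inv]))) hσ
  exact b2 b1

variable {W : Type} [TopologicalSpace W] [ChartedSpace (Cm 4) W] [IsManifold 𝓘(ℂ, Cm 4) ω W]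
  {π : W → V.W} {y : W} {c' : W → Cm 4} {ξ' : Cm 4 → W}

theorem jac_eq (h : ∀ y, HolM 4 4 π y) (h' : Crd c' ξ' y) (hc : Crd c ξ (π y)) {e' : Chart 4 W}
    {e : Chart 4 V.W} (he' : At e' y) (he : At e (π y)) : ∀ᶠ y' in 𝓝 y, jac π e' e y' =
      U.jd (fun w => e (ξ w)) (c (π y')) * U.jd (fun w => c' (e'.symm w)) (e' y') *
        U.jd (fun w => c (π (ξ' w))) (c' y') := by
  filter_upwards [h'.eventually, (h y).1.eventually hc.eventually,
    (crd_chart he').eventually, (h y).1.eventually (crd_chart he).eventually] with y' e1 e2 e3 e4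
  have f1 := (e3.chg e1).1
  have f2 := an_loc (h y') e1 e2
  have f3 := (e2.chg e4).1
  have f4 : (fun z => e (π (e'.symm z))) =ᶠ[𝓝 (e' y')]
      fun z => e (ξ (c (π (ξ' (c' (e'.symm z)))))) := by
    filter_upwards [e3.tend.eventually e1.left,
      ((h y').1.tendsto.comp e3.tend).eventually e2.left] with z g1 g2
    rw [g1]
    exact (congrArg e g2).symm
  have f5 : AnalyticAt ℂ (fun z => c (π (ξ' (c' (e'.symm z))))) (e' y') :=
    AnalyticAt.comp (g := fun w => c (π (ξ' w))) (by rwa [e3.inv]) f1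
  rw [jac, f4.fderiv_eq, det_comp (φ := fun w => e (ξ w))
    (by rw [e3.inv, e1.inv]; exact f3.differentiableAt) f5.differentiableAt,
    det_comp (φ := fun w => c (π (ξ' w))) (by rw [e3.inv]; exact f2.differentiableAt)
      f1.differentiableAt, e3.inv, e1.inv, mul_right_comm, mul_assoc]

omit [IsManifold 𝓘(ℂ, Cm 4) ω W] in
theorem ord0 (h' : Crd c' ξ' y) {v : W → ℂ} (h1 : HolF 4 v y) (h2 : v y ≠ 0) :
    OrdEq (fun w => v (ξ' w)) (c' y) 0 :=
  ordEq_zero (h'.an.hol (by rwa [h'.inv])) (by rwa [h'.inv])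

omit [IsManifold 𝓘(ℂ, Cm 4) ω W] in
theorem ord_mon (h' : Crd c' ξ' y) {r : ℕ} {ζ : Fin r → W → ℂ} {l : Fin r}
    (h1 : ∀ x, c' x 0 = ζ l x) (h2 : ∀ k, HolF 4 (ζ k) y) (h3 : ∀ k, k ≠ l → ζ k y ≠ 0)
    (n : Fin r → ℕ) : OrdEq (fun w => ∏ k, ζ k (ξ' w) ^ n k) (c' y) (n l) := by
  have h4 := ordEq_prod (w₁ := c' y) Finset.univ (F := fun k w => ζ k (ξ' w) ^ n k)
    (k := fun k => (if k = l then 1 else 0) * n k) fun k _ => OrdEq.pow (by
      split_ifs with e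
      · exact (ordEq_coord _).congr (h'.right.mono fun w d => by simp only [e, ← h1, d])
      · exact ord0 h' (h2 k) (h3 k e)) _
  simpa using h4

theorem crd0 {ζ : W → ℂ} (h : Ind 4 (fun _ : Unit => ζ) y) :
    ∃ c' ξ', Crd c' ξ' y ∧ ∀ x, c' x (0 : Fin 4) = ζ x := by
  obtain ⟨t, j, h1, h2⟩ := ind_co h
  obtain ⟨θ, h3⟩ := h1.crd
  let σ := Equiv.swap 0 (j ())
  exact ⟨_, _, h3.comp (Ψ := prm σ) (θ := prm σ.symm) (an_prm _ _) (an_prm _ _)
    (.of_forall fun _ => funext fun _ => congrArg _ (σ.apply_symm_apply _))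
    (.of_forall fun _ => funext fun _ => congrArg _ (σ.symm_apply_apply _)),
    fun x => (congrArg _ (Equiv.swap_apply_left _ _)).trans (h2 () x)⟩

end Ech

open Ech in
/-- **ECHO** -/
theorem stEcho : StEcho := by
  classical
  intro X L S M l w hw hb
  have hπ : ∀ y, HolM 4 4 M.Z.π y := fun y => ⟨M.Z.bl.cont.continuousAt, M.Z.bl.hol y⟩
  have hψ : HolTo X.V X.Y X.ψ := ⟨X.hyp.res.cont, X.hyp.res.hol⟩
  suffices key : ∀ y, (∀ k, y ∈ M.Z.G k ↔ k ∈ ({.inr l} : Set _)) → M.b y ∈ M.O →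
      0 < M.disc (.inr l) ∧ ((∀ᶠ x in 𝓝 y, x ∈ M.Z.G (.inr l) → M.b x ∈ X.σ) →
        X.α ≤ M.disc (.inr l)) by
    have h1 := ((isSnc_of M.Z.snc).freq {.inr l} (by simpa using hw)).and_eventually
      ((hψ.cont.comp M.Z.bl.cont).continuousAt.eventually (M.model.isOpen.mem_nhds hb))
    refine ⟨h1.exists.elim fun y a => (key y a.1 a.2).1, fun h => ?_⟩
    obtain ⟨y, a, b⟩ := (h1.and_eventually (eventually_nhdsWithin_iff.1 h).eventually_nhds).exists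
    exact (key y a.1 a.2).2 b
  intro y hy hO
  have hy0 := (hy _).2 rfl
  have hO₂ : M.Z.π y ∈ M.Z.O₂ := M.sub hO
  have hD := M.Z.le (M.Z.le₂ hO₂)
  obtain ⟨ζ, z1, z2⟩ := M.Z.snc y
  obtain ⟨c', ξ', h', h1⟩ := crd0 (z2.comp (fun _ : Unit => ⟨.inr l, hy0⟩)
    fun _ _ _ => rfl)
  have z3 : ∀ k, k ≠ .inr l → ζ k y ≠ 0 := fun k a b => a ((hy k).1 ((z1 k).mem.1 b))
  have z4 := ord_mon h' (ζ := fun k => ζ (.inr k)) h1 (fun k => (z1 _).hol)
    fun k a => z3 _ fun b => a (Sum.inr_injective b)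
  have h0 : c' y 0 = 0 := (h1 y).trans ((z1 _).mem.2 hy0)
  have z5 : ∀ {P : M.Z.W → Prop}, (∀ᶠ x in 𝓝 y, x ∈ M.Z.G (.inr l) → P x) →
      ∀ᶠ u in 𝓝 (c' y), u 0 = 0 → P (ξ' u) := fun h => by
    filter_upwards [h'.tend.eventually h, h'.tend.eventually (z1 (.inr l)).1, h'.right]
      with u a b d e using a (b.1 (by rw [← h1, d, e]))
  obtain ⟨c, ξ, lab, hc, hl⟩ := exists_ch_good X.hyp.good (M.Z.π y)
  have hF : AnM 4 (fun w => M.Z.π (ξ' w)) (c' y) := h'.an.map (hπ _)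
  have hg : ∀ k, OrdEq (fun w => eqs c lab k (M.Z.π (ξ' w))) (c' y) (M.Z.mo k l) := fun k => by
    obtain ⟨v, a, b, d⟩ := M.Z.tot y _ ζ hc.eq z1 k
    have := (ord0 h' a b).mul ((ord0 h' (z1 (.inl k)).hol (z3 _ Sum.inl_ne_inr)).mul
      (z4 (M.Z.mo k)))
    rw [zero_add, zero_add] at this
    exact this.congr (h'.tend.eventually (d.mono fun _ => Eq.symm))
  have hJ : OrdEq (U.jd fun w => c (M.Z.π (ξ' w))) (c' y) (M.Z.J l) := by
    have he' := at_chartAt (n := 4) y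
    have he := at_chartAt (n := 4) (M.Z.π y)
    obtain ⟨v, a, b, d⟩ := M.Z.jac y _ _ _ hO₂ (fun k => z1 (.inr k)) he' he
    have e1 := hc.crd.chg (crd_chart he)
    have e2 := (crd_chart he').chg h'
    refine OrdEq.of_mul (((ord0 h' a b).mul (z4 _)).congr ?_)
      (ord0 h' (v := fun x => U.jd (fun w => chartAt (Cm 4) (M.Z.π y) (ξ w)) (c (M.Z.π x)) *
        U.jd (fun w => c' ((chartAt (Cm 4) y).symm w)) (chartAt (Cm 4) y x))
        (fun e k => ((hπ y).2 _ (hc.crd.holF (an_jac e1.1)) e k).mul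
          ((crd_chart he').holF (an_jac e2.1) e k)) (mul_ne_zero e1.2 e2.2))
      (an_jac (an_loc (hπ y) h' hc.crd))
    filter_upwards [h'.tend.eventually d, h'.tend.eventually (jac_eq hπ h' hc.crd he' he),
      h'.right] with u f1 f2 f3
    rw [← f1, f2, f3]
  obtain ⟨k₁, a1, a2⟩ := mem_iUnion₂.1 (M.mov.sub _ hD ((M.Z.new y).2 ⟨l, hy0⟩))
  have a3 : 0 < X.a k₁ := (Finset.mem_filter.1 a1).2
  have a4 : 1 ≤ M.Z.mo k₁ l := Nat.one_le_iff_ne_zero.2 fun e => (e ▸ hg k₁).ne_zero (by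
    rw [h'.inv]
    exact (hc.eqs_zero.self_of_nhds _).2 a2)
  rw [← h'.inv] at hc hl hD
  have hr : ∀ᶠ w in 𝓝 (c' y), w 0 = 0 → (Tm (fun w => c (M.Z.π (ξ' w))) w).rank ≤ 2 := by
    by_contra h
    obtain ⟨z, ⟨b1, b2⟩, b3⟩ := ((fill hF h0 hc hg {k₁} (by simpa using a4) (by simp) h
      (Q := (· ∈ M.Dt.Z)) (z5 (.of_forall fun x b => (M.Z.new x).2 ⟨l, b⟩))).and_eventually
      (M.Dt.isOpen.mem_nhds hD)).exists
    exact M.mov.thin k₁ z b3 (by simpa using b1) (eventually_nhdsWithin_iff.2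
      (b2.mono fun x d e => not_not.2 (d (by simpa using e))))
  have hα := X.hyp.αle
  have hk := X.hyp.good.klt
  show 0 < M.Z.J l + ∑ k, X.a k * M.Z.mo k l ∧ (_ → X.α ≤ M.Z.J l + ∑ k, X.a k * M.Z.mo k l)
  obtain b | ⟨k₀, b1, b2, b3⟩ := num X.hyp.good hF h0 hc hl hg hJ a3 a4 hr
  · push_cast at b
    exact ⟨by linarith, fun _ => by linarith⟩
  push_cast at b3
  refine ⟨by linarith [hk k₀], fun h => ?_⟩
  by_cases hr₁ : ∀ᶠ w in 𝓝 (c' y), w 0 = 0 → (Tm (fun w => c (M.Z.π (ξ' w))) w).rank ≤ 1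
  · obtain b | ⟨k, -, -, b⟩ := num X.hyp.good hF h0 hc hl hg hJ a3 a4 hr₁ <;> push_cast at b
    · linarith
    · linarith [hk k]
  have b4 : k₁ ≠ k₀ := fun e => by rw [e] at a3; linarith
  obtain ⟨z, d1, d2⟩ := (fill hF h0 hc hg {k₀, k₁} (by simp [a4, b2])
    (by rw [Finset.card_pair b4.symm]) hr₁ (Q := fun x => X.ψ x ∈ X.σ) (z5 h)).exists
  have d3 : z ∈ X.V.G k₀ ∩ X.V.G k₁ := by simpa using d1
  have d4 := isCC_cc b4 d3
  have d6 := mem_connectedComponentIn d3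
  generalize connectedComponentIn (X.V.G k₀ ∩ X.V.G k₁) z = T at d4 d6
  have d5 := X.hyp.echo (k₀, T) (Lg.cmp_iff.2 ⟨k₁, d4⟩) b1 (surf hψ d4
    (X.hσ ▸ X.hyp.dimU.mono (image_mono (subset_iUnion _ _))) d6
    (d2.mono fun x e1 e2 => e1 (by simpa using d4.sub e2)))
  rw [d4.eC] at d5
  linarith

end Vale.Agent.P277Z.Cls
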