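import Vale.Agent.P277Z.Cls.FgrA
import Vale.Agent.P277Z.Slc.Bridge
import Vale.Agent.P277Z.Slc.Div
import Vale.Agent.P277Z.Luf.Hol

/-!
# P277, block CLS: finite generation, sections with poles
-/

set_option linter.all false
set_option maxSynthPendingDepth 3

open scoped Manifold ContDiff Topology
open Vale.Agent.P272.K Vale.Agent.P285.H281.FD Vale.Agent.P277 Set Filter
open Vale.Agent.P277Z.Slc (IsDiv lin LEq)
open Vale.Agent.P277Z.Brg
open Vale.Agent.P277Z.Top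

noncomputable section

namespace Vale.Agent.P277Z.Cls

namespace Fgr

/-- the class `n • A + ∑ b j • L j` -/
def dv (X : Ctx) (k n : ℕ) (b : Fin X.q → ℤ) : Option (Fin k ⊕ Fin X.V.r) ⊕ Fin X.q → ℤ :=
  n • cA X k + Sum.elim (fun _ => 0) b

variable {X : Ctx} {k : ℕ}

theorem dv_add (n n' : ℕ) (b b' : Fin X.q → ℤ) :
    dv X k (n + n') (b + b') = dv X k n b + dv X k n' b' := by
  funext i
  rcases i with i | j <;> simp [dv, cA] <;> ring

theorem dv_zero : dv X k 0 0 = 0 := by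
  funext i
  rcases i with i | j <;> simp [dv]

theorem dv_of_mem {d : ℕ} {a} (h : a ∈ AddSubmonoid.closure (gs X k d)) :
    ∃ n b, a = dv X k n b := by
  induction h using AddSubmonoid.closure_induction with
  | mem a ha =>
    rcases ha with rfl | ⟨j, rfl⟩ | ⟨j, rfl⟩
    · exact ⟨1, 0, funext fun i => by rcases i with i | j <;> simp [dv]⟩
    · exact ⟨d, Pi.single j 1, rfl⟩
    · exact ⟨d, -Pi.single j 1, funext fun i => by
        rcases i with i | j <;> simp [dv, cE, cA, Pi.single_apply]⟩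
  | zero => exact ⟨0, 0, dv_zero.symm⟩
  | add a a' _ _ h h' =>
    obtain ⟨n, b, rfl⟩ := h
    obtain ⟨n', b', rfl⟩ := h'
    exact ⟨_, _, (dv_add ..).symm⟩

theorem mem_dv (d : ℕ) (b : Fin X.q → ℤ) :
    ∃ n₀, ∀ n, n₀ ≤ n → dv X k n b ∈ AddSubmonoid.closure (gs X k d) := by
  let T : AddSubmonoid (Fin X.q → ℤ) :=
    { carrier := {b | ∃ n, dv X k n b ∈ AddSubmonoid.closure (gs X k d)}
      zero_mem' := ⟨0, dv_zero ▸ zero_mem _⟩
      add_mem' := fun ⟨n, h⟩ ⟨n', h'⟩ => ⟨n + n', dv_add n n' _ _ ▸ add_mem h h'⟩ }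
  have e : b = ∑ j, ((b j).toNat • Pi.single j (1 : ℤ) + (-b j).toNat • -Pi.single j (1 : ℤ)) := by
    funext i
    simp only [Finset.sum_apply, Pi.add_apply, Pi.smul_apply, Pi.neg_apply, Pi.single_apply]
    rw [Finset.sum_eq_single i (fun j _ h => by simp [h.symm]) (by simp)]
    simp only [if_true, nsmul_eq_mul]
    omega
  obtain ⟨n₀, h⟩ : b ∈ T := by
    rw [e]
    refine sum_mem fun j _ => add_mem (nsmul_mem (?_ : _ ∈ T) _) (nsmul_mem (?_ : _ ∈ T) _)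
    · exact ⟨d, AddSubmonoid.subset_closure (.inr (.inl ⟨j, rfl⟩))⟩
    refine ⟨d, AddSubmonoid.subset_closure (.inr (.inr ⟨j, ?_⟩))⟩
    funext i
    rcases i with i | j <;> simp [dv, cE, cA, Pi.single_apply]
  refine ⟨n₀, fun n hn => ?_⟩
  obtain ⟨n', rfl⟩ := Nat.exists_eq_add_of_le hn
  have : dv X k (n₀ + n') b = dv X k n₀ b + n' • cA X k := by
    simp only [dv, add_smul]
    abel
  exact this ▸ add_mem h (nsmul_mem (AddSubmonoid.subset_closure (.inl rfl)) _)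

theorem ole_mul {W : Type} [TopologicalSpace W] {E : Set W} {f g h : W → ℝ} {w : W}
    (hf : OLe E f (fun _ => 1) w) (f0 : ∀ v, 0 ≤ f v) (hh : ContinuousAt h w)
    (e : ∀ᶠ v in 𝓝 w, v ∉ E → g v = f v * h v) : OLe E g (fun _ => 1) w := by
  obtain ⟨C, hC⟩ := hf
  refine ⟨C * (|h w| + 1), ?_⟩
  filter_upwards [hC, e, hh.abs.eventually_lt continuousAt_const (lt_add_one |h w|)]
    with v a b c hv
  have a := a hv
  rw [mul_one] at a ⊢
  rw [b hv]
  exact (mul_le_mul_of_nonneg_left ((le_abs_self _).trans c.le) (f0 v)).trans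
    (mul_le_mul_of_nonneg_right a (by positivity))

variable {L : Fin X.q → Bd X.V.W} {M : Fin k → Bd X.V.W} {O : Fin X.V.r → Bd X.V.W}
  {σ : ∀ l, (O l).ι → X.V.W → ℂ} {y : X.Y.pt}

variable (L M O) in
/-- the family of all bundles -/
abbrev bb : Option (Fin k ⊕ Fin X.V.r) ⊕ Fin X.q → Bd X.V.W := Sum.elim (fam X.V M O) L

/-- the frame of the `L j` -/
abbrev lp (κ : ∀ a, (bb L M O a).ι) : Ix L := fun j => κ (.inr j)

variable (σ) in
/-- the canonical section of `n • A` -/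
def sg (n : ℕ) (κ : ∀ a, (bb L M O a).ι) (w : X.V.W) : ℂ :=
  ∏ l ∈ X.ex, σ l (κ (.inl (some (.inr l)))) w ^ (n * (al X l).toNat)

section
variable (hO : ∀ l, IsDiv 4 (X.V.G l) (O l) (σ l))
include hO

theorem sg_hol (n : ℕ) {κ : ∀ a, (bb L M O a).ι} {w : X.V.W} (h : ∀ a, w ∈ (bb L M O a).U (κ a)) :
    Hol 4 (sg σ n κ) w :=
  Hol.prod _ fun l _ => ((hO l).leq _ w (h (.inl (some (.inr l))))).hol.pow _

theorem sg_ne (n : ℕ) {κ : ∀ a, (bb L M O a).ι} {w : X.V.W} (h : ∀ a, w ∈ (bb L M O a).U (κ a))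
    (hw : w ∉ X.E) : sg σ n κ w ≠ 0 :=
  Finset.prod_ne_zero_iff.2 fun l hl => pow_ne_zero _ fun e =>
    hw (mem_biUnion hl (((hO l).leq _ w (h (.inl (some (.inr l))))).mem.1 e))

theorem sg_chg (n : ℕ) (b : Fin X.q → ℤ) {κ κ' : ∀ a, (bb L M O a).ι} {w : X.V.W}
    (h : ∀ a, w ∈ (bb L M O a).U (κ a)) (h' : ∀ a, w ∈ (bb L M O a).U (κ' a)) :
    (lin (bb L M O) (dv X k n b)).g κ κ' w * sg σ n κ' w =
      (lin L b).g (lp κ) (lp κ') w * sg σ n κ w := by
  have e : (lin (bb L M O) (dv X k n b)).g κ κ' w = (lin L b).g (lp κ) (lp κ') w *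
      ∏ l ∈ X.ex, (O l).g (κ (.inl (some (.inr l)))) (κ' (.inl (some (.inr l)))) w ^
        (n * (al X l).toNat) := by
    show ∏ a, (bb L M O a).g (κ a) (κ' a) w ^ dv X k n b a =
      (∏ j, (L j).g (lp κ j) (lp κ' j) w ^ b j) * _
    rw [Fintype.prod_sum_type, Fintype.prod_option, Fintype.prod_sum_type, mul_comm]
    refine congrArg₂ (· * ·) (Finset.prod_congr rfl fun j _ => by simp [dv, cA]) ?_
    simp only [dv, cA, vec, Pi.add_apply, Pi.smul_apply, Sum.elim_inl, Pi.zero_apply, smul_zero,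
      add_zero, zpow_zero, Finset.prod_const_one, one_mul]
    rw [← Finset.prod_subset (Finset.subset_univ X.ex) fun l _ hl => by simp [al_zero hl]]
    refine Finset.prod_congr rfl fun l hl => ?_
    rw [← zpow_natCast, Nat.cast_mul, Int.toNat_of_nonneg (by linarith [al_pos hl]), nsmul_eq_mul]
    rfl
  rw [e, mul_assoc, sg, sg, ← Finset.prod_mul_distrib]
  refine congrArg _ (Finset.prod_congr rfl fun l _ => ?_)
  rw [← mul_pow, ← (hO l).sec.change _ _ w (h (.inl (some (.inr l)))) (h' (.inl (some (.inr l))))]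

theorem notE_near {w : X.V.W} (hw : w ∉ X.E) : ∀ᶠ v in 𝓝 w, v ∉ X.E :=
  (X.ex.finite_toSet.isClosed_biUnion fun l _ => (hO l).closed).isOpen_compl.mem_nhds hw

theorem dense_E : Dense X.Eᶜ := by
  have : ∀ T : Finset (Fin X.V.r), Dense (Ex X.V.G T)ᶜ := fun T => by
    classical
    induction T using Finset.induction_on with
    | empty => simp [Ex]
    | insert l T _ ih =>
      rw [Ex, Finset.set_biUnion_insert, compl_union]
      exact (Slc.Dv.dense_compl (hO l).ex).inter_of_isOpen_left ih (hO l).closed.isOpen_compl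
  exact this _

variable (hM : ∀ e, IsLB 4 (M e)) (hL : ∀ j, LBN 4 (X.F y) (L j))
include hM

theorem exists_fr : ∃ fr : Ix L → X.V.W → ∀ a, (bb L M O a).ι,
    ∀ i w, lp (fr i w) = i ∧ (In L i w → ∀ a, w ∈ (bb L M O a).U (fr i w a)) := by
  choose κ hκ using fun w a => (lb_fam hM (fun l => (hO l).lb) a).cover w
  refine ⟨fun i w a => Sum.rec (motive := fun a => (bb L M O a).ι) (κ w) i a,
    fun i w => ⟨rfl, fun h a => ?_⟩⟩
  rcases a with a | j
  exacts [hκ w a, h j]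

include hL

theorem lbb : ∀ a, LBN 4 (X.F y) (bb L M O a) := by
  rintro (a | j)
  · exact lbn_of (lb_fam hM (fun l => (hO l).lb) a) _
  · exact hL j

theorem fr_near {κ : ∀ a, (bb L M O a).ι} {w : X.V.W} (h : ∀ a, w ∈ (bb L M O a).U (κ a)) :
    ∀ᶠ v in 𝓝 w, ∀ a, v ∈ (bb L M O a).U (κ a) :=
  eventually_all.2 fun a => ((lbb hO hM hL a).isOpen _).mem_nhds (h a)

theorem down {n : ℕ} {b : Fin X.q → ℤ} {u} (hu : SecN 4 (X.F y) (lin (bb L M O) (dv X k n b)) u) :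
    ∃ u', X.Mer y (lin L b) u' ∧ ∀ᶠ w in 𝓝ˢ (X.F y), w ∉ X.E → ∀ κ,
      (∀ a, w ∈ (bb L M O a).U (κ a)) → u κ w = u' (lp κ) w * sg σ n κ w := by
  obtain ⟨fr, hfr⟩ := exists_fr (L := L) hO hM
  let u' : Ix L → X.V.W → ℂ := fun i w => u (fr i w) w / sg σ n (fr i w) w
  have h1 : ∀ᶠ w in 𝓝ˢ (X.F y), w ∉ X.E → ∀ κ i, (∀ a, w ∈ (bb L M O a).U (κ a)) → In L i w →
      u κ w = (lin L b).g (lp κ) i w * u' i w * sg σ n κ w := by
    filter_upwards [hu] with w a hw κ i hκ hi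
    have := sg_chg hO n b hκ ((hfr i w).2 hi)
    rw [(hfr i w).1] at this
    rw [(a κ hκ).2 _ ((hfr i w).2 hi), mul_right_comm, ← this, mul_assoc,
      mul_div_cancel₀ _ (sg_ne hO n ((hfr i w).2 hi) hw)]
  have h2 : ∀ᶠ w in 𝓝ˢ (X.F y), w ∉ X.E → ∀ κ, (∀ a, w ∈ (bb L M O a).U (κ a)) →
      u κ w = u' (lp κ) w * sg σ n κ w := by
    filter_upwards [h1, (lbn_lin hL b).near] with w a c hw κ hκ
    have hi : In L (lp κ) w := fun j => hκ (.inr j)
    obtain ⟨-, c1, c2⟩ := c _ _ hi hi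
    rw [a hw κ _ hκ hi, mul_left_cancel₀ c1 ((c2 _ hi).trans (mul_one _).symm), one_mul]
  refine ⟨u', ?_, h2⟩
  filter_upwards [hu, h1, h2, h2.eventually_nhdsSet] with w a c1 c2 c3 i hi
  obtain ⟨e, hκ⟩ := hfr i w
  replace hκ := hκ hi
  have c4 : ∀ᶠ v in 𝓝 w, v ∉ X.E → u (fr i w) v / sg σ n (fr i w) v = u' i v := by
    filter_upwards [c3, fr_near hO hM hL hκ] with v p q hv
    rw [p hv _ q, e, mul_div_cancel_right₀ _ (sg_ne hO n q hv)]
  refine ⟨⟨fun l => σ l (fr i w (.inl (some (.inr l)))), n * ∑ l, (al X l).toNat,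
    fun l => (hO l).leq _ w (hκ (.inl (some (.inr l)))), ?_⟩, fun hw => ⟨?_, fun j hj => ?_⟩⟩
  · refine ole_mul (f := fun _ => 1) (h := fun v => ‖u (fr i w) v‖ *
      ∏ l ∈ X.ex, ‖σ l (fr i w (.inl (some (.inr l)))) v‖ ^
        (n * ∑ l, (al X l).toNat - n * (al X l).toNat)) ⟨1, .of_forall fun _ _ => by simp⟩
      (fun _ => zero_le_one) ((a _ hκ).1.cont.norm.mul (tendsto_finsetProd _ fun l _ =>
        (((hO l).leq _ w (hκ (.inl (some (.inr l))))).hol.cont.norm.pow _))) ?_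
    filter_upwards [c3, fr_near hO hM hL hκ] with v p q hv
    rw [p hv _ q, e, one_mul, norm_mul, mul_assoc, sg, norm_prod, ← Finset.prod_mul_distrib]
    refine congrArg _ (Finset.prod_congr rfl fun l _ => ?_)
    rw [norm_pow, ← pow_add, Nat.add_sub_cancel' (Nat.mul_le_mul_left n
      (Finset.single_le_sum (f := fun l => (al X l).toNat) (fun _ _ => Nat.zero_le _)
        (Finset.mem_univ l)))]
  · refine ((a _ hκ).1.div (sg_hol hO n hκ) (sg_ne hO n hκ hw)).congr ?_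
    filter_upwards [c4, notE_near hO hw] with v p q using p q
  · refine mul_right_cancel₀ (sg_ne hO n hκ hw) ?_
    have p := (c2 hw _ hκ).symm.trans (c1 hw _ j hκ hj)
    rwa [e] at p

theorem up (hLoc : StLoc) {b : Fin X.q → ℤ} {s} (hs : X.Mer y (lin L b) s) :
    ∃ n₀, ∀ n, n₀ ≤ n → ∃ s', SecN 4 (X.F y) (lin (bb L M O) (dv X k n b)) s' ∧
      ∀ᶠ w in 𝓝ˢ (X.F y), w ∉ X.E → ∀ κ, (∀ a, w ∈ (bb L M O a).U (κ a)) →
        s' κ w = s (lp κ) w * sg σ n κ w := by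
  have := sct X.V
  have chg : ∀ n, ∀ᶠ w in 𝓝ˢ (X.F y), w ∉ X.E → ∀ κ κ', (∀ a, w ∈ (bb L M O a).U (κ a)) →
      (∀ a, w ∈ (bb L M O a).U (κ' a)) → s (lp κ) w * sg σ n κ w =
        (lin (bb L M O) (dv X k n b)).g κ κ' w * (s (lp κ') w * sg σ n κ' w) := fun n => by
    filter_upwards [hs] with w a hw κ κ' h h'
    rw [mul_left_comm, sg_chg hO n b h h', ((a (lp κ) fun j => h (.inr j)).2 hw).2 (lp κ')
      fun j => h' (.inr j)]
    ring
  let Q : ℕ → X.V.W → Prop := fun n w => ∀ κ, (∀ a, w ∈ (bb L M O a).U (κ a)) →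
    OLe X.E (fun v => ‖s (lp κ) v * sg σ n κ v‖) (fun _ => 1) w
  have mono : ∀ n n' w, n ≤ n' → Q n w → Q n' w := fun n n' w hn h κ hκ => by
    obtain ⟨n'', rfl⟩ := Nat.exists_eq_add_of_le hn
    refine ole_mul (h κ hκ) (fun _ => norm_nonneg _) (sg_hol hO n'' hκ).cont.norm
      (.of_forall fun v _ => ?_)
    simp only [sg, add_mul, pow_add, Finset.prod_mul_distrib, norm_mul, mul_assoc]
  have loc : ∀ w ∈ X.F y, ∃ n, ∀ᶠ v in 𝓝 w, Q n v := fun w hw => by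
    choose κ hκ using fun a => (lbb hO hM hL a).cover w hw
    obtain ⟨⟨ζ, K, h1, h2⟩, -⟩ := hs.self_of_nhdsSet w hw (lp κ) fun j => hκ (.inr j)
    choose r r1 r2 r3 using fun l => Slc.stUnit 4 X.V.W _ w _ _ (h1 l)
      ((hO l).leq _ w (hκ (.inl (some (.inr l)))))
    obtain ⟨C, hC⟩ : OLe X.E (fun v => ‖s (lp κ) v * sg σ K κ v‖) (fun _ => 1) w := by
      refine ole_mul (h := fun v => ∏ l ∈ X.ex, ‖r l v‖ ^ (K * (al X l).toNat) *
        ‖ζ l v‖ ^ (K * (al X l).toNat - K)) h2 (fun _ => by positivity)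
        (tendsto_finsetProd _ fun l _ =>
          ((r1 l).cont.norm.pow _).mul ((h1 l).hol.cont.norm.pow _)) ?_
      filter_upwards [eventually_all.2 r3] with v p _
      rw [norm_mul, mul_assoc, sg, norm_prod, ← Finset.prod_mul_distrib]
      refine congrArg _ (Finset.prod_congr rfl fun l hl => ?_)
      rw [p l, norm_pow, norm_mul, mul_pow, mul_left_comm, ← pow_add, Nat.add_sub_cancel'
        (Nat.le_mul_of_pos_right K (by have := al_pos hl; omega))]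
    refine ⟨K, ?_⟩
    filter_upwards [hC.eventually_nhds, fr_near hO hM hL hκ,
      eventually_nhdsSet_iff_forall.1 (lbn_lin (lbb hO hM hL) (dv X k K b)).near w hw,
      eventually_nhdsSet_iff_forall.1 (chg K).eventually_nhdsSet w hw]
      with v p1 p2 p3 p4 κ' hκ'
    refine ole_mul ⟨C, p1⟩ (fun _ => norm_nonneg _) (p3 κ' κ hκ' p2).1.cont.norm ?_
    filter_upwards [p4, fr_near hO hM hL p2, fr_near hO hM hL hκ'] with x q1 q2 q3 hx
    rw [q1 hx κ' κ q3 q2, norm_mul, mul_comm]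
  obtain ⟨n₀, h₀⟩ : ∃ n, ∀ w ∈ X.F y, ∀ᶠ v in 𝓝 w, Q n v := by
    refine IsCompact.induction_on (p := fun T => ∃ n, ∀ w ∈ T, ∀ᶠ v in 𝓝 w, Q n v)
      (isClosed_singleton.preimage X.hyp.res.cont).isCompact ⟨0, fun _ h => h.elim⟩
      (fun _ _ h ⟨n, a⟩ => ⟨n, fun w hw => a w (h hw)⟩) (fun _ _ ⟨n, a⟩ ⟨n', a'⟩ =>
        ⟨max n n', fun w hw => hw.elim (fun h => (a w h).mono fun v => mono _ _ v (le_max_left _ _))
          fun h => (a' w h).mono fun v => mono _ _ v (le_max_right _ _)⟩) fun w hw => ?_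
    obtain ⟨n, a⟩ := loc w hw
    exact ⟨_, mem_nhdsWithin_of_mem_nhds a.eventually_nhds, n, fun _ h => h⟩
  refine ⟨n₀, fun n hn => ⟨fun κ => Slc.Dv.ext X.Eᶜ fun v => s (lp κ) v * sg σ n κ v, ?_, ?_⟩⟩
  · have key : ∀ᶠ w in 𝓝ˢ (X.F y), ∀ κ, (∀ a, w ∈ (bb L M O a).U (κ a)) → ∃ g, Hol 4 g w ∧
        ∀ᶠ v in 𝓝 w, v ∈ X.Eᶜ → s (lp κ) v * sg σ n κ v = g v := by
      filter_upwards [eventually_nhdsSet_iff_forall.2 h₀, hs.eventually_nhdsSet] with w a c κ hκ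
      refine (hLoc X.V.W _ X.V.G X.ex (Slc.snc_lg X.V)).2.2.1 _ w ?_ (mono _ _ w hn a κ hκ)
      filter_upwards [c, fr_near hO hM hL hκ] with v p q hv
        using ((p (lp κ) fun j => q (.inr j)).2 hv).1.mul (sg_hol hO n q)
    filter_upwards [key, (chg n).eventually_nhdsSet, (lbn_lin (lbb hO hM hL) (dv X k n b)).near]
      with w a c d κ hκ
    obtain ⟨g, g1, g2⟩ := a κ hκ
    refine ⟨g1.congr (Slc.Dv.ext_eq (dense_E hO) g1 g2), fun κ' hκ' => ?_⟩
    obtain ⟨g', k1, k2⟩ := a κ' hκ'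
    rw [Slc.Dv.ext_at (dense_E hO) k1.cont k2]
    refine Slc.Dv.ext_at (dense_E hO) ((d κ κ' hκ hκ').1.cont.mul k1.cont) ?_
    filter_upwards [k2, c, fr_near hO hM hL hκ, fr_near hO hM hL hκ'] with v p1 p2 p3 p4 hv
    rw [Pi.mul_apply, ← p1 hv, p2 hv κ κ' p3 p4]
  · filter_upwards [hs] with w a hw κ hκ
    exact Slc.Dv.ext_at (dense_E hO) (((a (lp κ) fun j => hκ (.inr j)).2 hw).1.mul
      (sg_hol hO n hκ)).cont (.of_forall fun _ _ => rfl)

end

end Fgr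

open Fgr in
/-- **FGR** -/
theorem stFgr (hB : FGB 4) (hZ : StZero) (hLoc : StLoc) : StFgr := by
  intro X L y hL
  obtain ⟨O, σ, hO⟩ := Slc.exists_div X.V
  obtain ⟨k, M, d, N, t, z, hM, ht, q, dg, u, h1, h2⟩ := adj hB hZ X L y hL O σ hO
  choose n b hd using fun j => dv_of_mem (h1 j).1
  choose u' m1 m2 using fun j => down hO hM hL (n := n j) (b := b j) (u := u j) (hd j ▸ (h1 j).2)
  obtain ⟨fr, hfr⟩ := exists_fr (L := L) hO hM
  refine ⟨⟨q, b, u', m1, fun b₀ s hs => ?_⟩⟩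
  obtain ⟨n₀, a0⟩ := up hO hM hL hLoc hs
  obtain ⟨n₁, a1⟩ := mem_dv (k := k) d b₀
  obtain ⟨s', s1, s2⟩ := a0 _ (le_max_left n₀ n₁)
  obtain ⟨T, c, c1, c2⟩ := h2 _ (a1 _ (le_max_right n₀ n₁)) s' s1
  refine ⟨T, fun m w => c m (t w), fun m hm => ⟨funext fun j => ?_, fun w hw =>
    ContinuousAt.comp_of_eq (c1 m hm).2.continuousAt (ht w hw).1 (ht w hw).2⟩, ?_⟩
  · simpa [hd, dv, cA, Finset.sum_apply] using congrFun (c1 m hm).1 (.inr j)
  filter_upwards [s2, c2, eventually_all.2 m2] with w p1 p2 p3 hw i hi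
  obtain ⟨e, hκ⟩ := hfr i w
  replace hκ := hκ hi
  refine mul_right_cancel₀ (sg_ne hO (max n₀ n₁) hκ hw) ?_
  have p4 := p1 hw _ hκ
  rw [e] at p4
  rw [← p4, p2 _ hκ, Finset.sum_mul]
  refine Finset.sum_congr rfl fun m hm => ?_
  rw [mul_assoc]
  refine congrArg _ ?_
  simp only [fun j => p3 j hw _ hκ, e, mul_pow, Finset.prod_mul_distrib]
  refine congrArg _ ?_
  simp only [sg, ← Finset.prod_pow, ← pow_mul]
  rw [Finset.prod_comm]
  refine Finset.prod_congr rfl fun l hl => ?_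
  rw [Finset.prod_pow_eq_pow_sum]
  refine congrArg _ (Nat.cast_injective (R := ℤ) ?_)
  have : ∑ j, (m j : ℤ) * (n j * al X l) = (max n₀ n₁ : ℕ) * al X l := by
    simpa [hd, dv, cA, vec, Finset.sum_apply] using congrFun (c1 m hm).1 (.inl (some (.inr l)))
  push_cast
  rw [Int.toNat_of_nonneg (by linarith [al_pos hl]), ← Nat.cast_max, ← this]
  exact Finset.sum_congr rfl fun j _ => by ring

end Vale.Agent.P277Z.Cls
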