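import Vale.Agent.P277Z.Cls.Api2
import Vale.Agent.P277.A.Basic

/-!
# P277, block CLS: free families of sections
-/

set_option linter.all false
set_option maxSynthPendingDepth 3

open scoped Manifold ContDiff Topology
open Vale.Agent.P272.K Vale.Agent.P285.H281.FD Vale.Agent.P277 Set Filter
open Vale.Agent.P277Z.Slc (lin)

noncomputable section

namespace Vale.Agent.P277Z.Cls

open A2

theorem A2.cross (h1 : StApi1) (hL : StLoc) {X : Ctx} {L : Fin X.q → Bd X.V.W} {S : X.Sf L}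
    {M : Md S} {c : Fin S.b → ℤ} {s s' : Ix L → X.V.W → ℂ} {w : M.Z.W} {m m' : Fin (M.R + 1)}
    {j j' : Ix L} {v v' u u' : M.Z.W → ℂ} (hs : MerN c s w) (hs' : MerN c s' w) (h : w ∈ M.D m)
    (hj : In L j (M.Z.π w)) (h' : w ∈ M.D m') (hj' : In L j' (M.Z.π w)) (a : A2.Loc c s m j v w)
    (a' : A2.Loc c s' m j v' w) (b : A2.Loc c s m' j' u w) (b' : A2.Loc c s' m' j' u' w) :
    u w * v' w = u' w * v w := by
  refine eq_of h1 hL h (b.1.mul a'.1) (b'.1.mul a.1) ?_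
  filter_upwards [hs, hs', nearD h hj, nearD h' hj', a.2, a'.2, b.2, b'.2]
    with z k1 k2 k3 k4 k5 k6 k7 k8 e
  have e1 := ((k1 j' k4.2).2 e).2 j k3.2
  have e2 := ((k2 j' k4.2).2 e).2 j k3.2
  rw [k5 e, k7 e] at e1
  rw [k6 e, k8 e] at e2
  refine mul_right_cancel₀ (gn_ne h1 (c := c) k4.1 k4.2 e) ?_
  rw [mul_right_comm, e1, mul_right_comm (u' z), e2]
  ring

/-- **FRE** -/
theorem stFre2 (h1 : StApi1) (hL : StLoc) (hM : StMer) : StFre := by
  intro X L S M y hy hN x hx N c s hs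
  obtain ⟨a1, -, -, -, -, -, -, a4⟩ := h1 X L S M
  obtain ⟨-, -, a5, -, a6, -⟩ := a4 y hy
  choose! N₁ c₁ s₁ k1 k2 using hx
  obtain ⟨t, ht, ht'⟩ := a5.elim_nhds_subcover (fun w => {v | M.Fr (c₁ w) (s₁ w) v})
    fun w hw => fr_near (k2 w hw w rfl)
  let p : Fin t.card → M.Z.W := fun a => (t.equivFin.symm a).1
  have hp : ∀ a, p a ∈ M.F y := fun a => ht _ (t.equivFin.symm a).2
  let N' : Fin (t.card + 1) → ℕ := Fin.cons N fun a => N₁ (p a)
  let c' : Fin (t.card + 1) → Fin S.b → ℤ := Fin.cons c fun a => c₁ (p a)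
  let s' : Fin (t.card + 1) → Ix L → X.V.W → ℂ := Fin.cons s fun a => s₁ (p a)
  have hd : ∀ a, M.Dg y x (N' a) (c' a) (s' a) := Fin.cases hs fun a => k1 _ (hp a)
  let e : Fin (t.card + 1) → ℕ := fun a => ∏ b ∈ Finset.univ.erase a, N' b
  have he : ∀ a, e a * N' a = ∏ b, N' b := fun a =>
    Finset.prod_erase_mul _ _ (Finset.mem_univ a)
  have hc : ∀ a, ∑ i, (e a • c' a) i • S.a i = (∏ b, N' b) • x := fun a => by
    rw [← he a, mul_smul, (hd a).eq, Finset.smul_sum]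
    exact Finset.sum_congr rfl fun i _ => smul_assoc (e a) (c' a i) (S.a i)
  let u : Fin (t.card + 1) → Ix L → X.V.W → ℂ := fun a i z => s' a i z ^ e a
  let C := e 0 • c' 0
  have hu : ∀ a, X.Mer y (lin L (∑ i, C i • S.a i)) (u a) := fun a =>
    mer_cast ((hc a).trans (hc 0).symm) (mer_pow h1 hM hy (hd a).mer (e a))
  have hG : ∀ᶠ w in 𝓝ˢ (M.F y), (∀ a, MerN C (u a) w ∧ M.Hl C (u a) w) ∧ ∃ a, M.Fr C (u a) w := by
    refine eventually_nhdsSet_iff_forall.2 fun w hw => (eventually_all.2 fun a => ?_).and ?_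
    · exact (eventually_nhdsSet_iff_forall.1 (merN (hu a)) w hw).and (hl_near h1 hL
        ((merN (hu a)).self_of_nhdsSet w hw) (hw ▸ hy) (hN C _ (hu a) w hw))
    · obtain ⟨v, hv, h⟩ := mem_iUnion₂.1 (ht' hw)
      have h2 : M.Fr (c' (t.equivFin ⟨v, hv⟩).succ) (s' (t.equivFin ⟨v, hv⟩).succ) w := by
        simpa [c', s', p] using h
      exact (fr_near ((fr_cast h1 hL hM hy hN ((hc _).trans (hc 0).symm)).self_of_nhdsSet w hw
        (fr_pow h2 _))).mono fun _ h => ⟨_, h⟩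
  have h2 := (continuous_subtype_val.tendsto (⟨y, hy⟩ : M.O)).eventually (a6 _ hG)
  rw [M.model.emb.isInducing.nhds_eq_comap, eventually_comap] at h2
  have h3 : M.φ y ∈ M.Ω := (M.model.image.subset ⟨y, hy, rfl⟩).1
  obtain ⟨Ω, b1, b2, b3⟩ := eventually_nhds_iff.1 (h2.and (M.model.isOpen'.eventually_mem h3))
  set O := M.b ⁻¹' M.O ∩ M.t ⁻¹' Ω with hO
  have hOo : IsOpen O := (M.model.continuousOn.comp a1.continuousOn fun _ h => h).isOpen_inter_preimage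
    (M.model.isOpen.preimage a1) b2
  have hg := fun w (hw : w ∈ O) => (b1 _ hw.2).1 ⟨_, hw.1⟩ rfl w rfl
  have h4 : ∀ w ∈ O, ∃ (m : _) (j : Ix L) (v : _ → M.Z.W → ℂ), w ∈ M.D m ∧ In L j (M.Z.π w) ∧
      ∀ a, A2.Loc C (u a) m j (v a) w := fun w hw => by
    obtain ⟨m, j, h5, h6⟩ := ex_D hw.1
    choose v hv using fun a => ((hg w hw).1 a).2 m j h5 h6
    exact ⟨m, j, v, h5, h6, hv⟩
  obtain ⟨-, j₀, -⟩ := ex_D (show M.b _ ∈ M.O from (a4 y hy).2.2.2.1.choose_spec ▸ hy)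
  have : Nonempty (Ix L) := ⟨j₀⟩
  choose! m j v d1 d2 d3 using h4
  have hf : ∀ w ∈ O, ∀ a, M.Fr C (u a) w ↔ v w a w ≠ 0 := fun w hw a =>
    (d3 w hw a).fr_iff h1 hL ((hg w hw).1 a).1 (d1 w hw) (d2 w hw)
  refine ⟨⟨∏ b, N' b, C, t.card, u, fun a => ⟨Nat.succ_le_of_lt (Finset.prod_pos fun b _ =>
    (hd b).pos), (hc 0).symm, hu a⟩, Ω, b2, b3, fun z hz => (b1 z hz).2, fun a => {w ∈ O | M.Fr C (u a) w},
    fun a w l => v w l w / v w a w, ⟨fun a => isOpen_iff_eventually.2 fun w hw =>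
      (hOo.eventually_mem hw.1).and (fr_near hw.2), fun w => ⟨fun hw => (hg w hw).2.imp
        fun _ h => ⟨hw, h⟩, fun ⟨_, h⟩ => h.1⟩, fun a w hw l => ?_,
      fun a w hw => div_self ((hf w hw.1 a).1 hw.2), fun a l w hw => ?_, fun a l w hw hl => ?_⟩,
    fun a w hw => ((hg w hw).1 a).2, fun a w hw => and_iff_right hw, fun a w hw hE l i hi => ?_⟩,
    e 0, Nat.succ_le_of_lt (Finset.prod_pos fun b _ => (hd b).pos), rfl, by simp [u, s']⟩
  · have h5 := (hf w hw.1 a).1 hw.2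
    refine Hol.congr (b := fun w => v w l w / v w a w) ((d3 w hw.1 l).1.div (d3 w hw.1 a).1 h5) ?_
    filter_upwards [hOo.eventually_mem hw.1, fr_near hw.2, nearD (d1 w hw.1) (d2 w hw.1),
      (d3 w hw.1 l).near, (d3 w hw.1 a).near, (d3 w hw.1 a).1.ne_near h5] with z q1 q2 q3 q4 q5 q6
    rw [div_eq_div_iff q6 ((hf z q1 a).1 q2)]
    exact A2.cross h1 hL ((hg z q1).1 l).1 ((hg z q1).1 a).1 (d1 z q1) (d2 z q1) q3.1 q3.2
      (d3 z q1 l) (d3 z q1 a) q4 q5 |>.trans (mul_comm _ _)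
  · rw [mem_sep_iff, and_iff_right hw.1, hf w hw.1, div_ne_zero_iff,
      and_iff_left ((hf w hw.1 a).1 hw.2)]
  · funext i
    have := (hf w hw.1 l).1 hl.2
    simp only [Pi.smul_apply, smul_eq_mul]
    field_simp
  · have h5 := fun a => ((((hg w hw.1).1 a).1.self_of_nhds i hi).2 hE).2 _ (d2 w hw.1)
    have h6 := (hf w hw.1 a).1 hw.2
    rw [h5 l, h5 a, (d3 w hw.1 l).2.self_of_nhds hE, (d3 w hw.1 a).2.self_of_nhds hE]
    field_simp

end Vale.Agent.P277Z.Cls
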