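import Vale.Agent.P277Z.Cls.Rig
import Vale.Agent.P277Z.Slc.Disc

/-!
# P277, block CLS: general points of a local model
-/

set_option linter.all false
set_option maxSynthPendingDepth 3

open scoped Manifold ContDiff Topology
open Vale.Agent.P272.K Vale.Agent.P277 Set Filter MeasureTheory
open Vale.Agent.P277Z.Slc (LEq Ind Reg dd)
open Vale.Agent.P277Z.Top

noncomputable section

namespace Vale.Agent.P277Z.Cls

namespace GenyH

theorem ae_one {P : Cm 1 → Prop} (h : ∀ᵐ s : Cm 1, P s) : ∀ᵐ s : ℂ, P ![s] := by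
  have := ((volume_preserving_funUnique (Fin 1) ℂ).symm _).quasiMeasurePreserving.ae h
  refine this.mono fun s hs => ?_
  have e : (MeasurableEquiv.funUnique (Fin 1) ℂ).symm s = ![s] := by
    funext i; fin_cases i; rfl
  rwa [e] at hs

theorem ae_two {P : Cm 2 → Prop} (h : ∀ᵐ s : Cm 2, P s) : ∀ᵐ s : ℂ, ∀ᵐ s' : ℂ, P ![s, s'] := by
  have := ((volume_preserving_finTwoArrow ℂ).symm _).quasiMeasurePreserving.ae h
  exact Measure.ae_ae_of_ae_prod (p := fun p : ℂ × ℂ => P ![p.1, p.2]) this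

/-- a regular value gives a level set -/
theorem lev {W : Type} [TopologicalSpace W] [ChartedSpace (Cm 4) W] {κ : Type} {G : κ → Set W}
    (hG : Slc.Snc 4 G) {V : Set W} {f : W → ℂ} {s : ℂ} (hR : Reg 4 G V (fun w => ![f w]) ![s])
    {w : W} (hw : w ∈ V) (hf : Hol 4 f w) (hs : f w = s) {l : κ} (hl : w ∈ G l) :
    ∃ β : Fin 1 → W → ℂ, Lev (G l) β f w := by
  obtain ⟨ζ, h1, -⟩ := hG w
  have h2 := hR w hw (by rw [← hs]) ζ h1
  refine ⟨fun _ => ζ l, ⟨fun o => ?_, fun e he => ?_⟩, (h1 l).1.mono fun y hy => ?_⟩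
  · cases o
    exacts [hf, fun e he => ((h1 l).2 e he).1]
  · have h3 := (h2.2 e he).comp
      (fun o : Option (Fin 1) => (o.elim (.inr 0) fun _ => .inl ⟨l, hl⟩ : {l // w ∈ G l} ⊕ Fin 1))
      (by
        rintro (_ | a) (_ | b) h
        · rfl
        · cases h
        · cases h
        · rw [Subsingleton.elim a b])
    have e1 : (fun o : Option (Fin 1) => dd (o.elim f fun _ => ζ l) e w) = (fun a => dd (Sum.elim
        (fun l : {l // w ∈ G l} => ζ l) (fun (i : Fin 1) y => ![f y] i - ![s] i) a) e w) ∘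
        (fun o : Option (Fin 1) => (o.elim (.inr 0) fun _ => .inl ⟨l, hl⟩ :
          {l // w ∈ G l} ⊕ Fin 1)) := by
      funext o
      cases o
      · exact (fderiv_sub_const (𝕜 := ℂ) (f := fun z => f (e.symm z)) s).symm
      · rfl
    rw [e1]
    exact h3
  · exact ⟨fun a _ => hy.2 a, fun a => hy.1 (a 0)⟩

end GenyH

open GenyH

/-- **GENY**: general points -/
theorem stGeny (hA : StApi1) : StGeny := by
  intro X L S M O τ g Δ hd hle y₀ hy₀ hσ B hB O' hO' H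
  obtain ⟨hb, hh, -⟩ := hA X L S M
  have hO := M.model.isOpen
  have hτ : ∀ w, M.b w ∈ M.O → Hol 4 (fun v => τ (M.b v)) w := fun w hw =>
    hh w τ (hd.hol _ (hle hw))
  have hφ : ∀ y ∈ M.O, ∀ i, X.Y.Hol (fun y => M.φ y i) y := fun y hy i =>
    (M.model.hol y hy _).2 ⟨fun z => z i,
      (ContinuousLinearMap.proj (R := ℂ) (φ := fun _ => ℂ) i).analyticAt _, EventuallyEq.rfl⟩
  obtain ⟨s₀, hs₀, rfl⟩ : y₀ ∈ g '' Δ := hd.img ▸ ⟨hσ, hle hy₀⟩
  have near : ∀ s ∈ Δ, g s ∈ M.O → ∀ᶠ s' in 𝓝 s, s' ∈ Δ ∧ g s' ∈ M.O := fun s a b =>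
    Eventually.and (hd.isOpen'.mem_nhds a) ((hd.par s a).1.eventually (hO.mem_nhds b))
  have a1 := ae_one (Slc.stSard 4 M.Z.W _ M.Z.G (M.b ⁻¹' M.O) 1 (fun w => ![τ (M.b w)]) M.Z.snc
    (hO.preimage hb) fun x hx i => by fin_cases i; exact hτ x hx)
  have a2 : ∀ᵐ s : ℂ, ∀ m i, ∀ᵐ s' : ℂ,
      Reg 4 M.Z.G (M.D m) (fun w => ![τ (M.b w), M.ν m w i]) ![s, s'] :=
    ae_all_iff.2 fun m => ae_all_iff.2 fun i => ae_two (Slc.stSard 4 M.Z.W _ M.Z.G (M.D m) 2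
      (fun w => ![τ (M.b w), M.ν m w i]) M.Z.snc (M.pm.pm.isOpen m) fun x hx j => by
        fin_cases j
        · exact hτ x ((M.pm.pm.cover x).2 ⟨m, hx⟩)
        · exact M.pm.pm.hol m x hx i)
  have a3 := ae_all_iff.2 fun l => ((stLev M.Z.W 1 (M.Z.G l) (fun v => τ (M.b v))).1 (Fin M.N)
    fun i w => M.t w i - M.φ (g (τ (M.b w))) i).ae_notMem (volume : Measure ℂ)
  have a4 := ((hB.union (countable_iUnion fun k => Set.Subsingleton.countable
    (s := {y | X.ψ '' X.V.G k = {y}}) fun y a y' b =>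
      singleton_injective (a.symm.trans b))).image τ).ae_notMem (volume : Measure ℂ)
  obtain ⟨s, ⟨r1, r2, r3, r4⟩, ⟨u1, u2⟩, u3⟩ :=
    (Measure.dense_of_ae (a1.and (a2.and (a3.and a4)))).inter_nhds_nonempty
      ((near s₀ hs₀ hy₀).and ((hd.par s₀ hs₀).1.eventually hO'))
  have hs := (hd.par s u1).2.1
  have hB' : g s ∉ B := fun a => r4 ⟨g s, Or.inl a, hs⟩
  obtain ⟨k1, k2, k3⟩ := H (g s) u3 (hd.img.symm ▸ ⟨s, u1, rfl⟩ : g s ∈ X.σ ∩ O).1 hB'
  refine ⟨g s, u3, hB', k1, u2, hd, hle, k2, k3, hs.symm ▸ r1, hs.symm ▸ r2, fun l w hw e1 e2 => ?_,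
    fun k a => r4 ⟨g s, Or.inr (mem_iUnion.2 ⟨k, a⟩), hs⟩⟩
  have w1 : M.b w ∈ M.O := e1 ▸ u2
  have w2 : τ (M.b w) = s := e1 ▸ hs
  have c1 : ∀ᶠ y in 𝓝 w, y ∈ M.Z.G l → ∀ i, M.t y i - M.φ (g (τ (M.b y))) i = 0 := by
    by_contra c
    refine r3 l ⟨w, hw, w2, fun i e he => ?_, lev M.Z.snc r1 w1 (hτ w w1) w2 hw, ?_, c⟩
    · refine (hh w _ (hφ _ w1 i) e he).sub (AnalyticAt.comp (g := fun s => M.φ (g s) i)
        (f := fun z => τ (M.b (e.symm z))) ?_ (hτ w w1 e he))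
      rw [e.left_inv he.2, w2]
      exact (hd.par s u1).2.2 _ (hφ _ u2 i)
    · filter_upwards [eventually_nhdsWithin_iff.1 e2] with y a b c i
      have : M.b y = g s := a b (c.trans hs.symm)
      rw [c, Md.t, this, sub_self]
  refine ⟨hw, e1, eventually_nhdsWithin_iff.2 ?_⟩
  filter_upwards [c1, hb.continuousAt.eventually (hO.mem_nhds w1),
    (hτ w w1).continuousAt.eventually (w2.symm ▸ near s u1 u2)] with y a b c d
  have e3 : M.b y = g (τ (M.b y)) := congrArg Subtype.val (M.model.emb.injective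
    (a₁ := ⟨_, b⟩) (a₂ := ⟨_, c.2⟩) (funext fun i => sub_eq_zero.1 (a d i)))
  exact (hd.img.symm ▸ ⟨_, c.1, e3.symm⟩ : M.b y ∈ X.σ ∩ O).1

end Vale.Agent.P277Z.Cls
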