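import Vale.Agent.P277Z.Pj.LocQA
import Vale.Agent.P277Z.Pj.Emb

/-!
# P277, block CLS: generation along a component of a fibre
-/

open scoped Manifold ContDiff Topology
open Vale.Agent.P272.K Vale.Agent.P285.H281.FD Set Filter
open Vale.Agent.P277 Vale.Agent.P277.PH
open Vale.Agent.P277Z.Coh (ScAt LBOn holSys)
open Vale.Agent.P277Z.Pj Vale.Agent.P277Z.Pj.LocQ

noncomputable section

namespace Vale.Agent.P277Z.Cls.Gpl

variable {n : ℕ} {W : Type} [TopologicalSpace W] [T2Space W] [SecondCountableTopology W]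
  [ChartedSpace (Cm (n + 1)) W] [IsManifold 𝓘(ℂ, Cm (n + 1)) ω W] {N : ℕ} {O : Set W}
  {t : W → Cm N} {Ω : Set (Cm N)} {r : ℕ} {D : Fin (r + 1) → Set W}
  {ν : Fin (r + 1) → W → Cm (r + 1)} {m : Fin (r + 1)} {w : W} {Z : Set W}

theorem core (hG : GEN) (hp : Prp (n + 1) O t Ω) (hj : Prj (n + 1) O t) (hD : PMap (n + 1) O D ν)
    (hw : w ∈ D m) (hZ : Z = connectedComponentIn {v ∈ D m | t v = t w ∧ ν m v = ν m w} w)
    {L : Bd W} (hL : LBOn (n + 1) O L) : ∃ (q : ℕ) (d : Fin q → ℕ)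
      (g : Fin q → Fin (r + 1) → L.ι → W → ℂ),
      (∀ a, ∀ᶠ z in 𝓝 (t w), ∀ v ∈ O, t v = z → SecD (n + 1) L D ν (d a) (g a) v) ∧
      ∀ s : L.ι → W → ℂ, (∀ v ∈ Z, ∀ᶠ v' in 𝓝 v, ScAt (HolF (n + 1)) L s v') →
        ∃ c : Fin q → ℂ, ∀ v ∈ Z, ∀ i, v ∈ L.U i → s i v = ∑ a, c a * g a m i v := by
  have hDO : ∀ v ∈ D m, v ∈ O := fun v hv => (hD.cover v).2 ⟨m, hv⟩
  have hz := hp.maps (hDO w hw)
  obtain ⟨U, q, d, g, hU, hzU, -, hg, H⟩ := hG n W N O t Ω hp hj r D ν hD L hL (t w) hz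
  refine ⟨q, d, g, fun a => mem_of_superset (hU.mem_nhds hzU) fun z hz v a1 a2 =>
    hg a v a1 (a2 ▸ hz), fun s hs => ?_⟩
  set Φ := {v ∈ D m | t v = t w ∧ ν m v = ν m w}
  have hΦ : IsCompact Φ := by
    have e : Φ = {x | x ∈ O ∩ t ⁻¹' {t w} ∧ x ∈ D m ∧ ν m x ∈ ({ν m w} : Set _)} :=
      Set.ext fun x => ⟨fun k => ⟨⟨hDO x k.1, k.2.1⟩, k.1, k.2.2⟩, fun k => ⟨k.2.1, k.1.2, k.2.2⟩⟩
    exact e ▸ pmap_cpt hD (hp.proper _ (singleton_subset_iff.2 hz) isCompact_singleton)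
      inter_subset_left isCompact_singleton m
  obtain ⟨A, B, hA, hB, hAB, h1, h2, h3⟩ := Emb.exists_part hΦ (w := w) ⟨hw, rfl, rfl⟩
    (isOpen_setOfPred_eventually_nhds (p := fun v => ScAt (HolF (n + 1)) L s v)) (hZ ▸ hs)
  obtain ⟨c, -, h5⟩ := H m (t w) hzU (ν m w) (fun i => A.indicator (s i)) fun v k1 k2 k3 => by
    rcases h1 (⟨k1, k2, k3⟩ : v ∈ Φ) with h | h
    · filter_upwards [hA.mem_nhds h] with v' hv' i hi
      have k := (h2 hv').self_of_nhds i hi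
      refine ⟨k.1.congr ?_, fun j hj => ?_⟩
      · filter_upwards [hA.mem_nhds hv'] with y hy using (indicator_of_mem hy _).symm
      · simp only [indicator_of_mem hv', k.2 j hj]
    · filter_upwards [hB.mem_nhds h] with v' hv' i _
      refine ⟨(HolF.const 0).congr ?_, fun j _ => ?_⟩
      · filter_upwards [hB.mem_nhds hv'] with y hy
          using (indicator_of_notMem (disjoint_right.1 hAB hy) _).symm
      · simp only [indicator_of_notMem (disjoint_right.1 hAB hv'), mul_zero]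
  refine ⟨fun a => c a (t w, ν m w), fun v hv i hi => ?_⟩
  rw [hZ] at hv
  have k1 := connectedComponentIn_subset _ _ hv
  have k := (h5 v k1.1 k1.2.1 k1.2.2).self_of_nhds i hi
  rwa [indicator_of_mem (h3 hv), k1.2.1, k1.2.2] at k

theorem gpl (hG : GEN) (hp : Prp (n + 1) O t Ω) (hj : Prj (n + 1) O t) (hD : PMap (n + 1) O D ν)
    (hw : w ∈ D m) (hZ : Z = connectedComponentIn {v ∈ D m | t v = t w ∧ ν m v = ν m w} w) :
    (∀ h : W → ℂ, (∀ v ∈ Z, HolF (n + 1) h v) → ∀ v ∈ Z, h v = h w) ∧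
    ∀ (L : Bd W) (s : L.ι → W → ℂ), LBOn (n + 1) O L → NZ L s w →
      (∀ v ∈ Z, ∀ᶠ v' in 𝓝 v, ScAt (HolF (n + 1)) L s v') →
      ∃ (d : ℕ) (g : Fin (r + 1) → L.ι → W → ℂ), NZ L (g m) w ∧
        ∀ᶠ z in 𝓝 (t w), ∀ v ∈ O, t v = z → SecD (n + 1) L D ν d g v := by
  have hwZ : w ∈ Z := hZ ▸ mem_connectedComponentIn ⟨hw, rfl, rfl⟩
  refine ⟨fun h hh v hv => ?_, fun L s hL h0 hs => ?_⟩
  · obtain ⟨q, d, g, -, H⟩ := core hG hp hj hD hw hZ (L := Coh.triv W) ⟨fun _ => isOpen_univ,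
      fun _ _ => ⟨(), trivial⟩, fun _ _ _ _ _ _ => HolF.const 1, fun _ _ _ _ _ _ => one_ne_zero,
      fun _ _ _ _ _ _ _ _ => mul_one _⟩
    have h1 : (h '' Z).Finite := finite_vals (G := fun v a => g a m () v) fun k =>
      (H (fun _ v => h v ^ k) fun v hv => (hol_near (hh v hv)).mono fun _ a _ _ =>
        ⟨hol_pow (holSys _) a k, fun _ _ => (one_mul _).symm⟩).imp fun c hc v hv =>
          hc v hv () trivial
    have h2 : IsPreconnected (h '' Z) := (hZ ▸ isPreconnected_connectedComponentIn).image h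
      fun v hv => (holF_cont (hh v hv)).continuousWithinAt
    exact by_contra fun e => h2.infinite_of_nontrivial ⟨_, ⟨v, hv, rfl⟩, _, ⟨w, hwZ, rfl⟩, e⟩ h1
  · obtain ⟨q, d, g, hg, H⟩ := core hG hp hj hD hw hZ hL
    have hO := (hD.cover w).2 ⟨m, hw⟩
    obtain ⟨c, hc⟩ := H s hs
    obtain ⟨i₀, hi₀⟩ := hL.cover w hO
    obtain ⟨a, ha⟩ : ∃ a, g a m i₀ w ≠ 0 := by
      by_contra! h
      exact h0 i₀ hi₀ (by simpa [h] using hc w hwZ i₀ hi₀)
    refine ⟨d a, g a, fun i hi => ?_, hg a⟩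
    rw [(((hg a).self_of_nhds w hO rfl m hw).1 i hi).2 _ hi₀]
    exact mul_ne_zero (hL.ne_zero _ _ w hO hi hi₀) ha

end Vale.Agent.P277Z.Cls.Gpl
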