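import Vale.Agent.P277Z.Cls.Sk
import Vale.Agent.P277Z.Cls.GplA

/-!
# P277, block CLS: row GPL
-/

namespace Vale.Agent.P277Z.Cls

theorem stGpl (h : Pj.GEN) : StGpl := fun _ _ _ _ _ _ _ _ _ _ _ _ _ hp hj hD _ _ hw _ hZ =>
  Gpl.gpl (n := 3) h hp hj hD hw hZ

end Vale.Agent.P277Z.Cls
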