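import Vale.Agent.P277Z.Cls.Sk
import Vale.Agent.P277Z.Top.Irr
import Vale.Agent.P277Z.Top.Par
import Vale.Agent.P277Z.Slc.Bridge

/-!
# P277, block CLS: the orders do not depend on the component of the fibre
-/

set_option linter.all false

open scoped Manifold ContDiff Topology
open Vale.Agent.P272.K Vale.Agent.P285.H281.FD Vale.Agent.P277 Set Filter
open Vale.Agent.P277Z.Slc (lin snc_lg)
open Vale.Agent.P277Z.Top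

noncomputable section

namespace Vale.Agent.P277Z.Cls

namespace InvH

theorem ole_right {W : Type} [TopologicalSpace W] {E : Set W} {f g g' : W → ℝ} {w : W}
    (h : OLe E f g w) (h0 : ∀ v, 0 ≤ g v) (h1 : ∀ v, g v ≤ g' v) : OLe E f g' w :=
  let ⟨C, hC⟩ := h
  ⟨max C 0, hC.mono fun v a b => (a b).trans ((mul_le_mul_of_nonneg_right (le_max_left _ _)
    (h0 v)).trans (mul_le_mul_of_nonneg_left (h1 v) (le_max_right _ _)))⟩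

theorem sct (X : Ctx) : SecondCountableTopology X.V.W :=
  ChartedSpace.secondCountable_of_sigmaCompact (Cm 4) X.V.W

theorem mem_ex (hL : StLoc) (X : Ctx) {k : Fin X.V.r} (hk : X.ψ '' X.V.G k = X.σ) : k ∈ X.ex := by
  have := sct X
  obtain ⟨w, hw⟩ := (X.V.conn k).nonempty
  obtain ⟨v, h1, h2⟩ := (((hL X.V.W _ X.V.G X.ex (snc_lg X.V)).2.1 k w hw).and_eventually
    self_mem_nhdsWithin).exists
  obtain ⟨u, h3, h4⟩ : X.ψ v ∈ X.p '' X.U.G X.k₀ := X.hσ ▸ hk ▸ mem_image_of_mem _ h2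
  have h5 : X.μ v ∈ X.U.E := by
    by_contra h6
    have h7 := X.hyp.resU.inj (X.μ v) u (by simpa [Val.Lg.E] using h6) (h4.trans (X.hyp.fac v).symm)
    exact h6 (mem_iUnion.2 ⟨_, h7 ▸ h3⟩)
  obtain ⟨k', h6, h7⟩ := X.hyp.dom.pre v h5
  obtain rfl : k' = k := by_contra fun h8 => h1 k' h8 h7
  exact h6

/-- the statements which are used -/
structure In0 : Prop where
  model : StModel
  ctr : StCtr
  negs : StNegs
  api : StApi1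
  ord : StOrd
  mer : StMer
  lbv : StLbv

variable {X : Ctx} {e : Fin X.q → ℤ}

theorem nrm_nonneg {W I : Type} {r : ℕ} (u : Fin (r + 1) → I → W → ℂ) (i : I) (w : W) :
    0 ≤ nrm u i w := Finset.sum_nonneg fun _ _ => norm_nonneg _

theorem key (H : In0) (Φ : X.Fam) {y : X.Y.pt} (hy : y ∈ Φ.O) (c : X.Cox Φ.Lv y)
    (e : Fin X.q → ℤ) :
    ∀ᶠ y' in 𝓝 y, X.Gp y' → ∀ Φ' : X.Fam, y' ∈ Φ'.O → ∀ (n : ℕ) s,
      X.Mer y' (lin Φ'.Lv (n • e)) s → ∀ z ∈ X.F y', ∀ j j', In Φ.Lv j z → In Φ'.Lv j' z →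
        OLe X.E (fun v => ‖s j' v‖ ^ ((Φ.n * c.n : ℕ) : ℤ))
          (fun v => nrm (c.u e) j v ^ ((Φ'.n * n : ℕ) : ℤ)) z := by
  let S : X.Sf Φ.Lv := ⟨1, fun _ => c.n • e, fun _ => c.r e, fun _ => c.u e⟩
  obtain ⟨M, m1, m2⟩ := H.model X Φ.Lv y ((H.lbv X Φ).2.1 y hy) S
    ⟨fun _ => c.mer e, fun _ => c.big e⟩ Φ.O (Φ.isOpen.mem_nhds hy)
  obtain ⟨O', o1, o2⟩ := H.ctr X _ S M y m1 fun d s hs => c.mul (Fin 1) (fun _ => e) (fun _ => d)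
    (fun _ _ _ _ => mul_self_nonneg _) s (by
      have e1 : c.n • ∑ _ : Fin 1, d • e = d • ∑ i, S.a i := by
        simp only [S, Fin.sum_univ_one]
        exact smul_comm c.n d e
      exact e1 ▸ hs)
  filter_upwards [M.model.isOpen.mem_nhds m1, eventually_eventually_nhds.2 o1]
    with y' h1 h2 h3 Φ' h4 n s hs z hz j j' hj hj'
  refine ((H.api X _ S M).2.2.2.2.2.2.2 y' h1).2.2.2.2.2.1 z hz _ _ (fun w hw => ?_)
    fun v => zpow_nonneg (nrm_nonneg _ _ _) _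
  subst hw
  obtain ⟨m, hm⟩ := (M.pm.pm.cover w).1 (show X.ψ (M.Z.π w) ∈ M.O from hz ▸ h1)
  have h5 := H.negs X Φ S M y' h1 (m2 h1) h3 ⟨O', h2, o2⟩ Φ' (n • e) (Φ.n * c.n)
    (fun _ => ((Φ'.n * n : ℕ) : ℤ)) s h4 (by
      simp only [S, Fin.sum_univ_one]
      ext a
      simp only [Pi.smul_apply]
      simp only [nsmul_eq_mul, smul_eq_mul, Nat.cast_mul]
      ring) hs w hz m j j' hm hj hj'
  simp only [zpow_natCast] at h5 ⊢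
  refine ole_right h5 (fun v => Finset.prod_nonneg fun _ _ => pow_nonneg (norm_nonneg _) _)
    fun v => ?_
  refine (Fin.prod_univ_one _).trans_le (pow_le_pow_left₀ (norm_nonneg _) ?_ _)
  exact Finset.single_le_sum (f := fun a => ‖c.u e a j (M.Z.π v)‖) (fun _ _ => norm_nonneg _)
    (Finset.mem_univ _)

variable {k : Fin X.V.r}

theorem ex_ord (H : In0) (hk : k ∈ X.ex) (Φ : X.Fam) {y : X.Y.pt} (hy : y ∈ Φ.O) {r : ℕ}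
    {u : Fin (r + 1) → Ix Φ.Lv → X.V.W → ℂ} {b : Fin X.q → ℤ}
    (h1 : ∀ m, X.Mer y (lin Φ.Lv b) (u m)) (h2 : X.Big Φ.Lv y u) {z : X.V.W} (hz : z ∈ X.V.G k)
    (hF : z ∈ X.F y) {j : Ix Φ.Lv} (hj : In Φ.Lv j z) :
    ∃ o, Ord (X.V.G k) (nrm u j) z o ∧ ∃ m, Ord (X.V.G k) (fun v => ‖u m j v‖) z o := by
  have := sct X
  obtain ⟨-, -, -, -, m5, m6⟩ := H.mer X Φ.Lv y ((H.lbv X Φ).2.1 y hy)
  exact (H.ord X.V.W _ X.V.G X.ex k (snc_lg X.V) hk z hz).2.2.2.2.2.2 (r + 1) (fun m => u m j)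
    (fun m => ((m5 b _ (h1 m)).2 z hF j hj).1) ((m6 r u b h1 h2).2 z hF j hj)

theorem cmp (H : In0) (hk : k ∈ X.ex) (Φ : X.Fam) {y : X.Y.pt} (hy : y ∈ Φ.O)
    (c : X.Cox Φ.Lv y) (e : Fin X.q → ℤ) :
    ∀ᶠ y' in 𝓝 y, X.Gp y' → ∀ Φ' : X.Fam, y' ∈ Φ'.O → ∀ c' : X.Cox Φ'.Lv y', ∀ z ∈ X.V.G k,
      z ∈ X.F y' → ∀ j j' o o', In Φ.Lv j z → In Φ'.Lv j' z →
        Ord (X.V.G k) (nrm (c.u e) j) z o → Ord (X.V.G k) (nrm (c'.u e) j') z o' →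
        ((Φ'.n * c'.n : ℕ) : ℤ) * o = ((Φ.n * c.n : ℕ) : ℤ) * o' := by
  have := sct X
  obtain ⟨-, -, -, -, m5, m6⟩ := H.mer X Φ.Lv y ((H.lbv X Φ).2.1 y hy)
  filter_upwards [key H Φ hy c e, Φ.isOpen.mem_nhds hy,
    eventually_all.2 fun m => (m5 _ _ (c.mer e m)).1, (m6 _ _ _ (c.mer e) (c.big e)).1]
    with y' h1 h2 h3 h4 h5 Φ' h6 c' z hz hF j j' o o' hj hj' h7 h8
  obtain ⟨a1, -, -, -, a5, -⟩ := H.ord X.V.W _ X.V.G X.ex k (snc_lg X.V) hk z hz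
  have uq : ∀ f o o', Ord (X.V.G k) f z o → Ord (X.V.G k) f z o' → o = o' := fun f o o' a b =>
    le_antisymm (a1 f f _ _ b a ⟨1, .of_forall fun _ _ => (one_mul _).ge⟩)
      (a1 f f _ _ a b ⟨1, .of_forall fun _ _ => (one_mul _).ge⟩)
  obtain ⟨o₁, b1, m, b2⟩ := ex_ord H hk Φ h2 h3 h4 hz hF hj
  obtain ⟨o₂, b3, m', b4⟩ := ex_ord H hk Φ' h6 (c'.mer e) (c'.big e) hz hF hj'
  obtain rfl := uq _ _ _ b1 h7
  obtain rfl := uq _ _ _ b3 h8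
  exact le_antisymm (a1 _ _ _ _ (a5 _ _ _ b4) (a5 _ _ _ b1)
      (h1 h5 Φ' h6 c'.n _ (c'.mer e m') z hF j j' hj hj'))
    (a1 _ _ _ _ (a5 _ _ _ b2) (a5 _ _ _ b3)
      ((key H Φ' h6 c' e).self_of_nhds h5 Φ h2 c.n _ (h3 m) z hF j' j hj' hj))

/-- the normalized order -/
def Rel (X : Ctx) (k : Fin X.V.r) (e : Fin X.q → ℤ) (z : X.V.W) (ρ : ℚ) : Prop :=
  ∃ (y : X.Y.pt) (Φ : X.Fam) (c : X.Cox Φ.Lv y) (j : Ix Φ.Lv) (o : ℤ), z ∈ X.F y ∧ y ∈ Φ.O ∧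
    In Φ.Lv j z ∧ Ord (X.V.G k) (nrm (c.u e) j) z o ∧ ρ = o / ((Φ.n * c.n : ℕ) : ℤ)

theorem npos (Φ : X.Fam) {y : X.Y.pt} (c : X.Cox Φ.Lv y) : (((Φ.n * c.n : ℕ) : ℤ) : ℚ) ≠ 0 :=
  Int.cast_ne_zero.2 (Int.natCast_ne_zero.2 (Nat.mul_pos Φ.npos c.npos).ne')

theorem rel_near (H : In0) (hk : k ∈ X.ex) {z : X.V.W} (hz : z ∈ X.V.G k) {ρ : ℚ}
    (h : Rel X k e z ρ) : ∀ᶠ z' in 𝓝[X.V.G k] z, X.Gp (X.ψ z') → ∀ ρ', Rel X k e z' ρ' → ρ' = ρ := by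
  have := sct X
  obtain ⟨y, Φ, c, j, o, h1, h2, h3, h4, rfl⟩ := h
  obtain rfl : X.ψ z = y := h1
  filter_upwards [(H.ord X.V.W _ X.V.G X.ex k (snc_lg X.V) hk z hz).2.1 _ _ h4,
    self_mem_nhdsWithin,
    mem_nhdsWithin_of_mem_nhds (X.hyp.res.cont.continuousAt.eventually (cmp H hk Φ h2 c e)),
    mem_nhdsWithin_of_mem_nhds (eventually_all.2 fun a =>
      (((H.lbv X Φ).2.1 _ h2 a).isOpen (j a)).mem_nhds (h3 a))] with z' a1 a2 a3 a4 a5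
  rintro _ ⟨y', Φ', c', j', o', b1, b2, b3, b4, rfl⟩
  obtain rfl : X.ψ z' = y' := b1
  have h5 := a3 a5 Φ' b2 c' z' a2 rfl j j' o o' a4 b3 a1 b4
  rw [div_eq_div_iff (npos Φ' c') (npos Φ c), ← Int.cast_mul, ← Int.cast_mul, mul_comm o',
    mul_comm o, h5]

end InvH

open InvH in
theorem stInv (h1 : StModel) (h2 : StCtr) (h3 : StNegs) (h4 : StApi1) (h5 : StOrd) (h6 : StMer)
    (h7 : StCox) (h8 : StLbv) (h9 : StSix) (hG : StGp) (hL : StLoc) : StInv := by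
  intro X Φ y hy hg c k hk z hz z' hz' e i i' o hi hi' ho
  have H : In0 := ⟨h1, h2, h3, h4, h5, h6, h8⟩
  have hx := mem_ex hL X hk
  obtain ⟨P⟩ := stPar X.V
  have := P.conn k
  have hm : ∀ x, P.ι k x ∈ X.V.G k := fun x => (P.rng k).le ⟨x, rfl⟩
  have hf : HolY 3 X.Y fun x => X.ψ (P.ι k x) := by
    refine ⟨X.hyp.res.cont.comp (P.emb k).cont, fun x g hg c hc => ?_⟩
    have h0 := PH.at_chartAt (n := 4) (P.ι k x)
    have a1 := X.hyp.res.hol _ g hg _ h0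
    have a2 := ((P.emb k).holo x c _ hc h0).1
    refine (AnalyticAt.comp (f := fun z => chartAt (Cm 4) (P.ι k x) (P.ι k (c.symm z)))
      (by rw [c.left_inv hc.2]; exact a1) a2).congr ?_
    filter_upwards [PH.ev_symm hc.2 ((P.emb k).cont.continuousAt.eventually
      ((chartAt (Cm 4) (P.ι k x)).open_source.mem_nhds h0.2))] with w hw
    simp only [Function.comp_apply, (chartAt (Cm 4) (P.ι k x)).left_inv hw]
  have hr : range (fun x => X.ψ (P.ι k x)) = X.σ := by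
    rw [← hk, ← P.rng, ← range_comp]; rfl
  have hT := (Ir.conn_compl hf (hr ▸ X.nsub) ((hG X).2.union (h9 X))).1
  have good : ∀ x, x ∈ ((fun x => X.ψ (P.ι k x)) ⁻¹' ({y ∈ X.σ | ¬ X.Gp y} ∪
      {y ∈ X.σ | ¬ ∃ Φ : X.Fam, y ∈ Φ.O}))ᶜ ↔
      X.Gp (X.ψ (P.ι k x)) ∧ ∃ Φ : X.Fam, X.ψ (P.ι k x) ∈ Φ.O := fun x => by
    have : X.ψ (P.ι k x) ∈ X.σ := hr.le ⟨x, rfl⟩
    simp [this]
  have ex : ∀ w ∈ X.V.G k, ∀ Φ : X.Fam, X.ψ w ∈ Φ.O → ∃ ρ, Rel X k e w ρ := fun w hw Φ a => by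
    have lb := (h8 X Φ).2.1 _ a
    obtain ⟨c⟩ := h7 X Φ.Lv _ lb
    choose j hj using fun b => (lb b).cover w rfl
    obtain ⟨o, b, -⟩ := ex_ord H hx Φ a (c.mer e) (c.big e) hw rfl hj
    exact ⟨_, _, Φ, c, j, o, rfl, a, hj, b, rfl⟩
  have uq : ∀ w ∈ X.V.G k, X.Gp (X.ψ w) → ∀ ρ ρ', Rel X k e w ρ → Rel X k e w ρ' → ρ' = ρ :=
    fun w hw a ρ ρ' b => (rel_near H hx hw b).self_of_nhdsWithin hw a ρ'
  obtain ⟨x, rfl⟩ := (P.rng k).ge hz.1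
  obtain ⟨x', rfl⟩ := (P.rng k).ge hz'.1
  have e1 : X.ψ (P.ι k x) = y := hz.2
  have e2 : X.ψ (P.ι k x') = y := hz'.2
  have h := hT.induction₂' (fun x x' => ∀ ρ, Rel X k e (P.ι k x) ρ → Rel X k e (P.ι k x') ρ)
    (fun v hv => ?_) (fun _ _ _ _ _ _ a b ρ c => b ρ (a ρ c))
    ((good x).2 ⟨e1 ▸ hg, Φ, e1 ▸ hy⟩) ((good x').2 ⟨e2 ▸ hg, Φ, e2 ▸ hy⟩)
    _ ⟨y, Φ, c, i, o, hz.2, hy, hi, ho, rfl⟩
  · obtain ⟨o', b, -⟩ := ex_ord H hx Φ hy (c.mer e) (c.big e) hz'.1 hz'.2 hi'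
    have h0 := uq _ hz'.1 (e2 ▸ hg) _ _ h ⟨y, Φ, c, i', o', hz'.2, hy, hi', b, rfl⟩
    rwa [← Int.cast_injective (α := ℚ) ((div_left_inj' (npos Φ c)).1 h0)]
  · obtain ⟨a1, Φ₁, a2⟩ := (good v).1 hv
    obtain ⟨ρ, a3⟩ := ex _ (hm v) Φ₁ a2
    have a4 : Tendsto (P.ι k) (𝓝 v) (𝓝[X.V.G k] P.ι k v) :=
      tendsto_nhdsWithin_iff.2 ⟨(P.emb k).cont.continuousAt, .of_forall hm⟩
    filter_upwards [mem_nhdsWithin_of_mem_nhds (a4.eventually (rel_near H hx (hm v) a3)),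
      self_mem_nhdsWithin] with v' b1 b2
    obtain ⟨b3, Φ₂, b4⟩ := (good v').1 b2
    obtain ⟨ρ', b5⟩ := ex _ (hm v') Φ₂ b4
    obtain rfl := b1 b3 ρ' b5
    exact ⟨fun ρ₁ b6 => uq _ (hm v) a1 _ _ a3 b6 ▸ b5, fun ρ₁ b6 => b1 b3 ρ₁ b6 ▸ a3⟩

end Vale.Agent.P277Z.Cls
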