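import Vale.Agent.P277Z.Cls.Sk
import Vale.Agent.P277Z.Hl.Desc
import Vale.Agent.P277Z.Val.Mon
import Vale.Agent.P277Z.Slc.Unit
import Vale.Agent.P277Z.Slc.Basic

/-!
# P277, block CLS: local algebra (LOC)
-/

set_option linter.unusedSectionVars false

open scoped Manifold ContDiff Topology
open Set Filter
open Vale.Agent.P272.K (Cm Chart At)
open Vale.Agent.P277Z.Slc (LEq Snc Ind dd)
open Vale.Agent.P277Z.Lo

noncomputable section

namespace Vale.Agent.P277Z.Cls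

namespace Lc

section gen

variable {n : ℕ} {W : Type} [TopologicalSpace W] [ChartedSpace (Cm n) W]
  [IsManifold 𝓘(ℂ, Cm n) ω W] {x : W} {D : Set W} {ζ b : W → ℂ}

variable (n) in
/-- holomorphic coordinates centred at `x` -/
structure Co (Θ : Chart n W) (x : W) : Prop where
  src : x ∈ Θ.source
  zero : Θ x = 0
  hol : ∀ u : Cm n → ℂ, AnalyticAt ℂ u 0 → Hol n (fun y => u (Θ y)) x
  an : ∀ b : W → ℂ, Hol n b x → AnalyticAt ℂ (fun v => b (Θ.symm v)) 0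

theorem ev_iff {Θ : Chart n W} (hx : x ∈ Θ.source) {P : W → Prop} :
    (∀ᶠ w in 𝓝 (Θ x), P (Θ.symm w)) ↔ ∀ᶠ y in 𝓝 x, P y :=
  ⟨fun h => by
    filter_upwards [(Θ.continuousAt hx).eventually h, Θ.eventually_left_inverse hx] with y a c
      using c ▸ a, fun h => (Θ.tendsto_symm hx).eventually h⟩

theorem fr_iff {Θ : Chart n W} (hx : x ∈ Θ.source) {P : W → Prop} :
    (∃ᶠ w in 𝓝 (Θ x), P (Θ.symm w)) ↔ ∃ᶠ y in 𝓝 x, P y :=
  not_congr (ev_iff hx (P := fun y => ¬ P y))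

theorem Co.ev {Θ : Chart n W} (h : Co n Θ x) {P : W → Prop} :
    (∀ᶠ w in 𝓝 0, P (Θ.symm w)) ↔ ∀ᶠ y in 𝓝 x, P y := h.zero ▸ ev_iff h.src

theorem Co.fr {Θ : Chart n W} (h : Co n Θ x) {P : W → Prop} :
    (∃ᶠ w in 𝓝 0, P (Θ.symm w)) ↔ ∃ᶠ y in 𝓝 x, P y := h.zero ▸ fr_iff h.src

theorem Co.tgt {Θ : Chart n W} (h : Co n Θ x) : ∀ᶠ w in 𝓝 0, w ∈ Θ.target :=
  Θ.open_target.mem_nhds (h.zero ▸ Θ.map_source h.src)

/-- coordinates centred at `x`, some of which are given -/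
theorem exists_crd {α : Type} [Fintype α] {h : α → W → ℂ} (hi : Ind n h x) (h0 : ∀ a, h a x = 0)
    {P : W → Prop} (hP : ∀ᶠ y in 𝓝 x, P y) : ∃ (Θ : Chart n W) (ι : α ↪ Fin n), Co n Θ x ∧
      ∀ w ∈ Θ.target, P (Θ.symm w) ∧ ∀ a, h a (Θ.symm w) = w (ι a) := by
  have he := at_chartAt (n := n) x
  set e := chartAt (Cm n) x
  have hc := (hi.2 _ he).fintype_card_le_finrank
  rw [← LinearMap.toContinuousLinearMap.finrank_eq, Module.finrank_linearMap,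
    Module.finrank_fin_fun, Module.finrank_self, mul_one] at hc
  have hd := Nat.add_sub_cancel' hc
  obtain ⟨Φ, T, h1, h2, h3, h4⟩ := hi.par hd he
  let σ : α ⊕ Fin (n - Fintype.card α) ≃ Fin n := Fintype.equivFinOfCardEq (by simpa using hd)
  let L : ((α → ℂ) × Cm (n - Fintype.card α)) ≃L[ℂ] Cm n :=
    ((LinearEquiv.sumArrowLequivProdArrow _ _ ℂ ℂ).symm.trans
      (LinearEquiv.funCongrLeft ℂ ℂ σ.symm)).toContinuousLinearEquiv
  have hL : ∀ v a, L v (σ (.inl a)) = v.1 a := fun v a => by simp [L]; rfl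
  let Θ := ((e ≫ₕ Φ).restrOpen (interior {y | P y}) isOpen_interior).transHomeomorph
    (L.toHomeomorph.trans (Homeomorph.subRight (L (Φ (e x)))))
  have k : ∀ y ∈ Θ.source, P y ∧ ∀ a, h a y = Θ y (σ (.inl a)) := fun y hy =>
    ⟨interior_subset hy.2, fun a => by
      change _ = L (Φ (e y)) (σ (.inl a)) - L (Φ (e x)) (σ (.inl a))
      rw [hL, hL, h2, h2, e.left_inv hy.1.1, e.left_inv he.2]
      simp [h0]⟩
  refine ⟨Θ, ⟨fun a => σ (.inl a), fun a a' e => Sum.inl_injective (σ.injective e)⟩,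
    ⟨⟨⟨he.2, h1⟩, mem_interior_iff_mem_nhds.2 hP⟩, sub_self _, fun u hu => Hol.of_chart he ?_,
      fun b hb => ?_⟩, fun w hw => ?_⟩
  · have k1 : AnalyticAt ℂ Φ (e x) := by
      rw [show (Φ : Cm n → _) = _ from funext h2]
      exact (h3 _ h1).prod (T.analyticAt _)
    refine (AnalyticAt.fun_comp (g := u) (f := fun z => L (Φ z) - L (Φ (e x))) (by rwa [sub_self])
      (((L.toContinuousLinearMap.analyticAt _).fun_comp k1).sub analyticAt_const)).congr ?_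
    filter_upwards [e.open_target.mem_nhds (e.map_source he.2)] with z hz
    change _ = u (L (Φ (e (e.symm z))) - L (Φ (e x)))
    rw [e.right_inv hz]
  · have k1 : L.symm (0 + L (Φ (e x))) = Φ (e x) := by rw [zero_add, L.symm_apply_apply]
    refine AnalyticAt.fun_comp (g := fun z => b (e.symm z))
      (f := fun v => Φ.symm (L.symm (v + L (Φ (e x))))) (by rw [k1, Φ.left_inv h1]; exact hb e he) ?_
    exact AnalyticAt.fun_comp (g := Φ.symm) (f := fun v => L.symm (v + L (Φ (e x))))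
      (k1.symm ▸ h4 _ (Φ.map_source h1))
      ((L.symm.toContinuousLinearMap.analyticAt _).fun_comp (analyticAt_id.add analyticAt_const))
  · have := k _ (Θ.map_target hw)
    rwa [Θ.right_inv hw] at this

/-- coordinates for a hypersurface -/
theorem crd_one (h : LEq n D x ζ) (hx : x ∈ D) : ∃ (Θ : Chart n W) (i : Fin n), Co n Θ x ∧
    ∀ w ∈ Θ.target, ζ (Θ.symm w) = w i ∧ (Θ.symm w ∈ D ↔ w i = 0) := by
  obtain ⟨Θ, ι, h1, h2⟩ := exists_crd (h := fun _ : Unit => ζ) ⟨fun _ => h.hol, fun e he =>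
    linearIndependent_unique_iff.2 ((h.2 e he).2 (h.mem.2 hx))⟩ (fun _ => h.mem.2 hx) h.1
  exact ⟨Θ, ι (), h1, fun w hw => ⟨(h2 w hw).2 (), (h2 w hw).2 () ▸ (h2 w hw).1.symm⟩⟩

theorem leq_nz (h : LEq n D x ζ) : ¬ ∀ᶠ y in 𝓝 x, ζ y = 0 := fun k =>
  (h.2 _ (at_chartAt x)).2 k.self_of_nhds
    ((Slc.dd_congr k (at_chartAt x)).trans (fderiv_const_apply (0 : ℂ)))

theorem leq_gen (h : LEq n D x ζ) : ∀ᶠ y in gen {x}, y ∉ D :=
  ((hol_gen_ne h.hol (leq_nz h)).and (gen_of_nhds h.1)).mono fun _ k => mt k.2.2 k.1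

theorem plane {u : Cm n → ℂ} {i : Fin n} (hu : AnalyticAt ℂ u 0)
    (h : ∃ᶠ w in 𝓝 (0 : Cm n), w i = 0 ∧ u w ≠ 0) :
    ∀ᶠ w in 𝓝 (0 : Cm n), w i = 0 → ∃ᶠ z in 𝓝 w, z i = 0 ∧ u z ≠ 0 := by
  classical
  have hP : ∀ w : Cm n, AnalyticAt ℂ (fun z : Cm n => Function.update z i 0) w := fun w =>
    analyticAt_pi_iff.2 fun j => by
      by_cases hj : j = i
      · subst hj
        simpa using analyticAt_const
      · simpa [hj] using Val.an_coord j w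
  have h1 : AnalyticAt ℂ (fun z => u (Function.update z i 0)) 0 :=
    AnalyticAt.fun_comp (g := u) (by simpa using hu) (hP 0)
  obtain ⟨r, hr, hb⟩ := Metric.eventually_nhds_iff_ball.1 h1.eventually_analyticAt
  filter_upwards [Metric.ball_mem_nhds 0 hr] with w hw h0
  have h2 : ∃ᶠ z in 𝓝 w, u (Function.update z i 0) ≠ 0 := fun c => by
    have h3 := AnalyticOnNhd.eqOn_zero_of_preconnected_of_eventuallyEq_zero (𝕜 := ℂ) hb
      (convex_ball _ _).isPreconnected hw (c.mono fun _ => not_not.1)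
    obtain ⟨z, z1, z2⟩ := (h.and_eventually (Metric.ball_mem_nhds 0 hr)).exists
    have h4 := h3 z2
    simp only [← z1.1, Function.update_eq_self] at h4
    exact z1.2 h4
  have h3 : Tendsto (fun z : Cm n => Function.update z i 0) (𝓝 w) (𝓝 w) := by
    have := (hP w).continuousAt.tendsto
    rwa [← h0, Function.update_eq_self, h0] at this
  exact h3.frequently (h2.mono fun z hz => ⟨Function.update_self .., hz⟩)

/-- the identity theorem on a hypersurface -/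
theorem loc_id (h : LEq n D x ζ) (hb : Hol n b x) (hf : x ∈ D → ∃ᶠ y in 𝓝[D] x, b y ≠ 0) :
    ∀ᶠ y in 𝓝[D] x, ∃ᶠ z in 𝓝[D] y, b z ≠ 0 := by
  rw [eventually_nhdsWithin_iff]
  by_cases hx : x ∈ D
  swap
  · exact (h.not_mem_near hx).mono fun _ a c => absurd c a
  obtain ⟨Θ, i, h1, h4⟩ := crd_one h hx
  have k := plane (i := i) (h1.an b hb) (((h1.fr.2 (frequently_nhdsWithin_iff.1
    (hf hx))).and_eventually h1.tgt).mono fun w hw => ⟨(h4 w hw.2).2.1 hw.1.2, hw.1.1⟩)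
  refine h1.ev.1 ?_
  filter_upwards [k, h1.tgt] with w a c d
  refine frequently_nhdsWithin_iff.2 ((fr_iff (Θ.map_target c)).1 ?_)
  rw [Θ.right_inv c]
  exact ((a ((h4 w c).2.1 d)).and_eventually (Θ.open_target.mem_nhds c)).mono fun z hz =>
    ⟨hz.1.2, (h4 z hz.2).2.2 hz.1.1⟩

theorem ident (h : LEq n D x ζ) (hb : Hol n b x)
    (hf : ∃ᶠ v in 𝓝[D] x, ∀ᶠ v' in 𝓝[D] v, b v' = 0) : ∀ᶠ v in 𝓝[D] x, b v = 0 := by
  by_contra k
  obtain ⟨v, a, c⟩ := (hf.and_eventually (loc_id h hb fun _ => not_eventually.1 k)).exists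
  exact (c.and_eventually a).exists.elim fun _ d => d.1 d.2

variable [T2Space W] [SecondCountableTopology W] {κ : Type} [Fintype κ] {G : κ → Set W}

theorem ind_of (hG : Snc n G) {ζ : κ → W → ℂ} (hζ : ∀ l, LEq n (G l) x (ζ l)) :
    Ind n (fun l : {l // x ∈ G l} => ζ l) x := by
  obtain ⟨ξ, h1, h2⟩ := hG x
  choose u a1 a2 a3 using fun l => Slc.stUnit n W (G l) x _ _ (h1 l) (hζ l)
  refine ⟨fun l => (hζ l).hol, fun e he => ?_⟩
  rw [show (fun l : {l // x ∈ G l} => dd (ζ l) e x) =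
    (fun l : {l // x ∈ G l} => Units.mk0 _ (a2 l)) • fun l : {l // x ∈ G l} => dd (ξ l) e x from
      funext fun l => (Slc.dd_congr (a3 l) he).trans
        (Slc.dd_mul (a1 l) (h1 l).hol ((h1 l).mem.2 l.2) he)]
  exact (h2.2 e he).units_smul _

/-- adapted coordinates -/
theorem crd (hG : Snc n G) {ζ : κ → W → ℂ} (hζ : ∀ l, LEq n (G l) x (ζ l)) :
    ∃ (Θ : Chart n W) (ι : {l // x ∈ G l} ↪ Fin n), Co n Θ x ∧ ∀ w ∈ Θ.target,
      (∀ l : {l // x ∈ G l}, ζ l (Θ.symm w) = w (ι l)) ∧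
      ∀ l, Θ.symm w ∈ G l ↔ ∃ h : x ∈ G l, w (ι ⟨l, h⟩) = 0 := by
  classical
  have h3 : ∀ᶠ y in 𝓝 x, ∀ k, (ζ k y = 0 ↔ y ∈ G k) ∧ (x ∉ G k → y ∉ G k) :=
    eventually_all.2 fun k => (hζ k).1.and (by
      by_cases hk : x ∈ G k
      · exact .of_forall fun _ h => absurd hk h
      · exact ((hζ k).not_mem_near hk).mono fun _ h _ => h)
  obtain ⟨Θ, ι, k1, k2⟩ := exists_crd (ind_of hG hζ) (fun k => (hζ k).mem.2 k.2) h3
  refine ⟨Θ, ι, k1, fun w hw => ⟨(k2 w hw).2, fun l => ⟨fun c => ?_, fun ⟨c, d⟩ => ?_⟩⟩⟩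
  · have hk : x ∈ G l := not_not.1 fun d => ((k2 w hw).1 l).2 d c
    exact ⟨hk, ((k2 w hw).2 ⟨l, hk⟩).symm.trans (((k2 w hw).1 l).1.2 c)⟩
  · exact ((k2 w hw).1 l).1.1 (((k2 w hw).2 ⟨l, c⟩).trans d)

theorem gen_off (hG : Snc n G) (x : W) : ∀ᶠ v in gen {x}, ∀ l, v ∉ G l :=
  eventually_all.2 fun l => leq_gen ((hG x).choose_spec.1 l)

theorem genp (hG : Snc n G) {k : κ} (hx : x ∈ G k) : ∃ᶠ v in 𝓝[G k] x, ∀ l, l ≠ k → v ∉ G l := by
  obtain ⟨Θ, ι, h1, h2⟩ := crd hG (hG x).choose_spec.1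
  refine frequently_nhdsWithin_iff.2 (h1.fr.1 (((Val.freq_strat {ι ⟨k, hx⟩}
    (by simp)).and_eventually h1.tgt).mono fun w hw =>
      ⟨fun l hl c => ?_, ((h2 w hw.2).2 k).2 ⟨hx, (hw.1 _).2 rfl⟩⟩))
  obtain ⟨a, d⟩ := ((h2 w hw.2).2 l).1 c
  exact hl (congrArg Subtype.val (ι.injective ((hw.1 _).1 d)))

/-- a function without zeros outside the components, and not zero on them, is a unit -/
theorem unit (hG : Snc n G) (s : Finset κ) (hb : Hol n b x)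
    (h0 : ∀ᶠ v in 𝓝 x, (∀ l ∈ s, v ∉ G l) → b v ≠ 0)
    (h1 : ∀ l ∈ s, x ∈ G l → ∃ᶠ v in 𝓝[G l] x, b v ≠ 0) : b x ≠ 0 := by
  classical
  obtain ⟨Θ, ι, k1, k2⟩ := crd hG (hG x).choose_spec.1
  have := Val.unit_of ((Finset.univ.filter fun l : {l // x ∈ G l} => l.1 ∈ s).map ι) (k1.an b hb)
    (by
      filter_upwards [k1.ev.2 h0, k1.tgt] with w a c d
      refine a fun l hl e => ?_
      obtain ⟨e1, e2⟩ := ((k2 w c).2 l).1 e
      exact d _ (Finset.mem_map_of_mem _ (by simpa using hl)) e2)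
    fun i hi => by
      obtain ⟨l, hl, rfl⟩ := Finset.mem_map.1 hi
      exact ((k1.fr.2 (frequently_nhdsWithin_iff.1 (h1 l (by simpa using hl) l.2))).and_eventually
        k1.tgt).mono fun w hw => ⟨(((k2 w hw.2).2 l).1 hw.1.2).2, hw.1.1⟩
  rwa [← k1.zero, Θ.left_inv k1.src] at this

end gen

section suc

variable {n : ℕ} {W : Type} [TopologicalSpace W] [ChartedSpace (Cm (n + 1)) W]
  [IsManifold 𝓘(ℂ, Cm (n + 1)) ω W] {x : W} {D : Set W} {ζ b : W → ℂ}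

/-- division by an equation as long as possible -/
theorem div_one (h : LEq (n + 1) D x ζ) (hb : Hol (n + 1) b x) (h0 : ∃ᶠ y in 𝓝 x, b y ≠ 0) :
    ∃ (a : ℕ) (u : W → ℂ), Hol (n + 1) u x ∧ (∀ᶠ y in 𝓝 x, b y = u y * ζ y ^ a) ∧
      (x ∈ D → ∃ᶠ y in 𝓝[D] x, u y ≠ 0) := by
  by_cases hx : x ∈ D
  swap
  · exact ⟨0, b, hb, by simp, fun c => absurd c hx⟩
  obtain ⟨Θ, i, h1, h2⟩ := crd_one h hx
  obtain ⟨a, u, k1, k2, k3⟩ := Val.exists_div_coord (h1.an b hb) (h1.fr.2 h0) i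
  refine ⟨a, _, h1.hol u k1, h1.ev.1 ?_, fun _ => frequently_nhdsWithin_iff.2 (h1.fr.1 ?_)⟩
  · filter_upwards [k2, h1.tgt] with w c d
    rw [c, Θ.right_inv d, (h2 w d).1, mul_comm]
  · refine (k3.and_eventually h1.tgt).mono fun w hw => ⟨?_, (h2 w hw.2).2.2 hw.1.1⟩
    rw [Θ.right_inv hw.2]
    exact hw.1.2

theorem div_all {κ : Type} {G : κ → Set W} {ζ : κ → W → ℂ} (hζ : ∀ l, LEq (n + 1) (G l) x (ζ l))
    (hb : Hol (n + 1) b x) (h0 : ∃ᶠ y in 𝓝 x, b y ≠ 0) (s : Finset κ) :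
    ∃ (a : κ → ℕ) (u : W → ℂ), Hol (n + 1) u x ∧ (∀ᶠ y in 𝓝 x, b y = u y * ∏ l ∈ s, ζ l y ^ a l) ∧
      ∀ l ∈ s, x ∈ G l → ∃ᶠ y in 𝓝[G l] x, u y ≠ 0 := by
  classical
  induction s using Finset.induction_on with
  | empty => exact ⟨0, b, hb, by simp, by simp⟩
  | insert k s hk ih =>
    obtain ⟨g, u, h1, h2, h3⟩ := ih
    obtain ⟨a, u', k1, k2, k3⟩ := div_one (hζ k) h1 ((h0.and_eventually h2).mono
      fun w hw e => hw.1 (by rw [hw.2, e, zero_mul]))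
    refine ⟨Function.update g k a, u', k1, ?_, Finset.forall_mem_insert _ _ _ |>.2
      ⟨k3, fun l hl hx => ?_⟩⟩
    · filter_upwards [h2, k2] with w e1 e2
      rw [Finset.prod_insert hk, Function.update_self, e1, e2, mul_assoc, Finset.prod_congr
        (f := fun l => ζ l w ^ Function.update g k a l) rfl
        fun l (hl : l ∈ s) => by rw [Function.update_of_ne (ne_of_mem_of_not_mem hl hk)]]
    · exact ((h3 l hl hx).and_eventually (k2.filter_mono nhdsWithin_le_nhds)).mono fun w hw e =>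
        hw.1 (by rw [hw.2, e, zero_mul])

end suc

variable {W : Type} [TopologicalSpace W] [ChartedSpace (Cm 4) W] [IsManifold 𝓘(ℂ, Cm 4) ω W]
  {κ : Type} {G : κ → Set W} {ex : Finset κ} {f : W → ℂ} {w : W} {ζ : κ → W → ℂ}

omit [ChartedSpace (Cm 4) W] [IsManifold 𝓘(ℂ, Cm 4) ω W] [TopologicalSpace W] in
theorem not_ex : w ∉ Ex G ex ↔ ∀ l ∈ ex, w ∉ G l := by simp [Ex]

theorem ev_ex (hζ : ∀ l, LEq 4 (G l) w (ζ l)) :
    ∀ᶠ v in 𝓝 w, (v ∉ Ex G ex ↔ ∀ l ∈ ex, ζ l v ≠ 0) := by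
  filter_upwards [(eventually_all_finset ex).2 fun l _ => (hζ l).1] with v a
  exact not_ex.trans (forall₂_congr fun l hl => (a l hl).not.symm)

/-- the extension theorem -/
theorem ext (hζ : ∀ l, LEq 4 (G l) w (ζ l)) (hf : ∀ᶠ v in 𝓝 w, v ∉ Ex G ex → Hol 4 f v)
    (hb : OLe (Ex G ex) (fun v => ‖f v‖) (fun _ => 1) w) :
    ∃ g, Hol 4 g w ∧ ∀ᶠ v in 𝓝 w, v ∉ Ex G ex → f v = g v := by
  obtain ⟨C, hC⟩ := hb
  obtain ⟨g, h1, h2⟩ := Hl.Ds.riem (τ := fun v => ∏ l ∈ ex, ζ l v) (f := f) (C := C * 1)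
    (hol_prod ex fun l _ => (hζ l).hol) (not_zero_of_gen (((eventually_all_finset ex).2 fun l _ =>
      hol_gen_ne (hζ l).hol (leq_nz (hζ l))).mono fun _ => Finset.prod_ne_zero_iff.2)) (by
      filter_upwards [hf, hC, ev_ex hζ] with v a b c d
      exact ⟨a (c.2 (Finset.prod_ne_zero_iff.1 d)), b (c.2 (Finset.prod_ne_zero_iff.1 d))⟩)
  refine ⟨g, h1, ?_⟩
  filter_upwards [h2, ev_ex hζ] with v a b c using (a (Finset.prod_ne_zero_iff.2 (b.1 c))).symm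

variable [T2Space W] [SecondCountableTopology W]

/-- clearing the denominators -/
theorem clear (hf : MerF G ex f w) (hζ : ∀ l, LEq 4 (G l) w (ζ l)) :
    ∃ (K : ℕ) (g : W → ℂ), Hol 4 g w ∧
      ∀ᶠ v in 𝓝 w, v ∉ Ex G ex → f v * ∏ l ∈ ex, ζ l v ^ K = g v := by
  obtain ⟨⟨ξ, K, h1, h2⟩, h3⟩ := hf
  choose u a1 a2 a3 using fun l => Slc.stUnit 4 W (G l) w _ _ (h1 l) (hζ l)
  obtain ⟨g, k1, k2⟩ := ext (f := fun v => f v * ∏ l ∈ ex, ξ l v ^ K) h1 (by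
    filter_upwards [h3, (eventually_all_finset ex).2 fun l _ => (h1 l).hol.near] with v a b c
      using hol_mul (a c) (hol_prod ex fun l hl => hol_pow (b l hl) K))
    (by simpa only [norm_mul, norm_prod, norm_pow] using h2)
  refine ⟨K, fun v => g v * ∏ l ∈ ex, u l v ^ K,
    hol_mul k1 (hol_prod ex fun l _ => hol_pow (a1 l) K), ?_⟩
  filter_upwards [k2, (eventually_all_finset ex).2 fun l _ => a3 l] with v a b c
  rw [← a c, mul_assoc, ← Finset.prod_mul_distrib]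
  exact congrArg _ (Finset.prod_congr rfl fun l hl => by rw [b l hl, mul_pow, mul_comm])

variable [Fintype κ]

/-- the normal form -/
theorem mon (hG : Snc 4 G) (hf : MerF G ex f w) (hζ : ∀ l, LEq 4 (G l) w (ζ l))
    (h0 : ∃ᶠ v in 𝓝 w, v ∉ Ex G ex ∧ f v ≠ 0) : ∃ (o : κ → ℤ) (g : W → ℂ), (∀ l ∉ ex, o l = 0) ∧
      Hol 4 g w ∧ (∀ᶠ v in 𝓝 w, v ∉ Ex G ex → f v = g v * ∏ l, ζ l v ^ o l) ∧
      (∀ l ∈ ex, ∀ᶠ v in 𝓝[G l] w, ∃ᶠ v' in 𝓝[G l] v, g v' ≠ 0) ∧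
      ((∀ᶠ v in 𝓝 w, v ∉ Ex G ex → f v ≠ 0) → g w ≠ 0) := by
  classical
  obtain ⟨K, g, h1, h2⟩ := clear hf hζ
  obtain ⟨a, u, k1, k2, k3⟩ := div_all hζ h1 ((h0.and_eventually (h2.and (ev_ex hζ))).mono
    fun v hv => hv.2.1 hv.1.1 ▸ mul_ne_zero hv.1.2 (Finset.prod_ne_zero_iff.2 fun l hl =>
      pow_ne_zero K (hv.2.2.1 hv.1.1 l hl))) ex
  have k4 : ∀ᶠ v in 𝓝 w, v ∉ Ex G ex →
      f v = u v * ∏ l, ζ l v ^ (if l ∈ ex then (a l : ℤ) - K else 0) := by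
    filter_upwards [h2, k2, ev_ex hζ] with v b1 b2 b3 b4
    rw [← Finset.prod_subset ex.subset_univ fun l _ hl => by rw [if_neg hl, zpow_zero],
      Finset.prod_congr rfl fun l hl => by
        rw [if_pos hl, zpow_sub₀ (b3.1 b4 l hl), zpow_natCast, zpow_natCast],
      Finset.prod_div_distrib, ← mul_div_assoc, ← b2, ← b1 b4, mul_div_cancel_right₀ _
        (Finset.prod_ne_zero_iff.2 fun l hl => pow_ne_zero K (b3.1 b4 l hl))]
  refine ⟨_, u, fun l hl => if_neg hl, k1, k4, fun l hl => loc_id (hζ l) k1 (k3 l hl),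
    fun h => unit hG ex k1 ?_ k3⟩
  filter_upwards [h, k4] with v b1 b2 b3 b4
  exact b1 (not_ex.2 b3) (by rw [b2 (not_ex.2 b3), b4, zero_mul])

end Lc

/-- **LOC** -/
theorem stLoc : StLoc := fun _ _ _ _ _ _ _ _ _ _ hG =>
  ⟨Lc.gen_off hG, fun _ _ => Lc.genp hG, fun _ w => Lc.ext (hG w).choose_spec.1,
    fun _ _ _ => Lc.mon hG, fun k _ w _ => Lc.ident ((hG w).choose_spec.1 k)⟩

end Vale.Agent.P277Z.Cls
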