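import Vale.Agent.P277Z.Cls.Sk
import Vale.Agent.P277Z.Slc.Unit
import Vale.Agent.P277Z.Slc.Basic
import Vale.Agent.P277Z.Luf.Hol

/-!
# P277, block CLS: the ring of sections with poles
-/

set_option linter.unusedSectionVars false

open scoped Manifold ContDiff Topology
open Vale.Agent.P272.K Vale.Agent.P285.H281.FD Vale.Agent.P277 Set Filter
open Vale.Agent.P277Z.Slc (LEq lin)
open Vale.Agent.P277Z.Brg (LBN)

noncomputable section

namespace Vale.Agent.P277Z.Cls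

section ole

variable {W : Type} [TopologicalSpace W] {E : Set W} {f f' g g' h : W → ℝ} {w : W}

theorem OLe.near (k : OLe E f g w) : ∀ᶠ v in 𝓝 w, OLe E f g v :=
  let ⟨C, hC⟩ := k
  hC.eventually_nhds.mono fun _ hv => ⟨C, hv⟩

theorem OLe.nn (k : OLe E f g w) (hg : ∀ v, 0 ≤ g v) :
    ∃ C : ℝ, 0 ≤ C ∧ ∀ᶠ v in 𝓝 w, v ∉ E → f v ≤ C * g v :=
  let ⟨C, hC⟩ := k
  ⟨|C|, abs_nonneg C, hC.mono fun v hv a =>
    (hv a).trans (mul_le_mul_of_nonneg_right (le_abs_self C) (hg v))⟩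

theorem ole_of_le (k : ∀ᶠ v in 𝓝 w, v ∉ E → f v ≤ g v) : OLe E f g w :=
  ⟨1, k.mono fun _ hv a => (hv a).trans_eq (one_mul _).symm⟩

theorem OLe.of_le (k : OLe E g h w) (k' : ∀ᶠ v in 𝓝 w, v ∉ E → f v ≤ g v) : OLe E f h w :=
  let ⟨C, hC⟩ := k
  ⟨C, (hC.and k').mono fun _ hv a => (hv.2 a).trans (hv.1 a)⟩

theorem OLe.trans (k : OLe E f g w) (k' : OLe E g h w) (hg : ∀ v, 0 ≤ g v) : OLe E f h w := by
  obtain ⟨C, h0, hC⟩ := k.nn hg
  obtain ⟨C', hC'⟩ := k'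
  exact ⟨C * C', (hC.and hC').mono fun v hv a => (hv.1 a).trans
    ((mul_le_mul_of_nonneg_left (hv.2 a) h0).trans_eq (mul_assoc _ _ _).symm)⟩

theorem OLe.mul (k : OLe E f g w) (k' : OLe E f' g' w) (hg : ∀ v, 0 ≤ g v) (hf : ∀ v, 0 ≤ f' v) :
    OLe E (fun v => f v * f' v) (fun v => g v * g' v) w := by
  obtain ⟨C, h0, hC⟩ := k.nn hg
  obtain ⟨C', hC'⟩ := k'
  exact ⟨C * C', (hC.and hC').mono fun v hv a => (mul_le_mul (hv.1 a) (hv.2 a) (hf v)
    (mul_nonneg h0 (hg v))).trans_eq (mul_mul_mul_comm _ _ _ _)⟩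

theorem OLe.add (k : OLe E f g w) (k' : OLe E f' g w) : OLe E (fun v => f v + f' v) g w :=
  let ⟨C, hC⟩ := k
  let ⟨C', hC'⟩ := k'
  ⟨C + C', (hC.and hC').mono fun _ hv a =>
    (add_le_add (hv.1 a) (hv.2 a)).trans_eq (add_mul _ _ _).symm⟩

theorem ole_sum {ι : Type} [Fintype ι] {f : ι → W → ℝ} (k : ∀ m, OLe E (f m) g w) :
    OLe E (fun v => ∑ m, f m v) g w := by
  choose C hC using k
  exact ⟨∑ m, C m, (eventually_all.2 hC).mono fun v hv a =>
    (Finset.sum_le_sum fun m _ => hv m a).trans_eq (Finset.sum_mul _ _ _).symm⟩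

theorem ole_cont (k : ContinuousAt f w) : OLe E f (fun _ => 1) w :=
  ⟨f w + 1, (k.eventually (gt_mem_nhds (lt_add_one (f w)))).mono fun _ hv _ =>
    hv.le.trans_eq (mul_one _).symm⟩

theorem OLe.cmul (k : OLe E f g w) (hh : ContinuousAt h w) (hf : ∀ v, 0 ≤ f v) :
    OLe E (fun v => h v * f v) g w := by
  simpa only [one_mul] using (ole_cont hh).mul k (fun _ => zero_le_one) hf

end ole

section pole

variable {W : Type} [TopologicalSpace W] [T2Space W] [SecondCountableTopology W]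
  [ChartedSpace (Cm 4) W] [IsManifold 𝓘(ℂ, Cm 4) ω W] {κ : Type} {G : κ → Set W} {ex : Finset κ}
  {f f' : W → ℂ} {w : W} {ζ : κ → W → ℂ}

theorem wt_cont (hζ : ∀ l, Hol 4 (ζ l) w) (K : ℕ) :
    ContinuousAt (fun v => ∏ l ∈ ex, ‖ζ l v‖ ^ K) w :=
  tendsto_finsetProd _ fun l _ => (hζ l).cont.norm.pow K

theorem pole_of_cont (hζ : ∀ l, LEq 4 (G l) w (ζ l)) (h : ContinuousAt f w) : Pole G ex f w :=
  ⟨ζ, 0, hζ, ole_cont (h.norm.mul (wt_cont (fun l => (hζ l).hol) 0))⟩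

/-- any system of local equations can be used -/
theorem Pole.chg (h : Pole G ex f w) (hζ : ∀ l, LEq 4 (G l) w (ζ l)) :
    ∃ K : ℕ, OLe (Ex G ex) (fun v => ‖f v‖ * ∏ l ∈ ex, ‖ζ l v‖ ^ K) (fun _ => 1) w := by
  obtain ⟨ζ', K, h1, h2⟩ := h
  choose u k1 _ k3 using fun l => Slc.stUnit 4 W (G l) w _ _ (h1 l) (hζ l)
  refine ⟨K, (h2.cmul (wt_cont (ex := ex) k1 K) fun v => by positivity).of_le ?_⟩
  filter_upwards [(eventually_all_finset ex).2 fun l _ => k3 l] with v hv _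
  rw [mul_left_comm, ← Finset.prod_mul_distrib]
  exact (congrArg _ (Finset.prod_congr rfl fun l hl => by rw [hv l hl, norm_mul, mul_pow])).le

theorem Pole.mul (h : Pole G ex f w) (h' : Pole G ex f' w) : Pole G ex (fun v => f v * f' v) w := by
  obtain ⟨ζ, K, h1, h2⟩ := h
  obtain ⟨K', h3⟩ := h'.chg h1
  refine ⟨ζ, K + K', h1, ?_⟩
  have h4 := h2.mul h3 (fun _ => zero_le_one) fun v => by positivity
  simp only [pow_add, Finset.prod_mul_distrib, norm_mul, mul_one] at h4 ⊢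
  simpa only [mul_mul_mul_comm] using h4

theorem Pole.add (h : Pole G ex f w) (h' : Pole G ex f' w) : Pole G ex (fun v => f v + f' v) w := by
  obtain ⟨ζ, K, h1, h2⟩ := h
  obtain ⟨K', h3⟩ := h'.chg h1
  refine ⟨ζ, K + K', h1, ((h2.cmul (wt_cont (ex := ex) (fun l => (h1 l).hol) K')
    fun v => by positivity).add (h3.cmul (wt_cont (ex := ex) (fun l => (h1 l).hol) K)
    fun v => by positivity)).of_le (.of_forall fun v _ => ?_)⟩
  simp only [pow_add, Finset.prod_mul_distrib]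
  exact (mul_le_mul_of_nonneg_right (norm_add_le _ _) (by positivity)).trans_eq (by ring)

theorem Pole.near [Finite κ] (h : Pole G ex f w) : ∀ᶠ v in 𝓝 w, Pole G ex f v :=
  let ⟨ζ, K, h1, h2⟩ := h
  ((eventually_all.2 fun l => (h1 l).near).and h2.near).mono fun _ k => ⟨ζ, K, k⟩

end pole

variable {X : Ctx} {L : Fin X.q → Bd X.V.W} {y : X.Y.pt} {b b' : Fin X.q → ℤ}
  {s s' : Ix L → X.V.W → ℂ} {w : X.V.W} {i j : Ix L}

instance Ctx.sc (X : Ctx) : SecondCountableTopology X.V.W :=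
  ChartedSpace.secondCountable_of_sigmaCompact (Cm 4) X.V.W

/-- what holds near the fibre over `y` holds on the fibres near `y` -/
theorem Ctx.fib_near {P : X.V.W → Prop} (h : ∀ w ∈ X.F y, ∀ᶠ v in 𝓝 w, P v) :
    ∀ᶠ y' in 𝓝 y, ∀ w ∈ X.F y', P w := X.hyp.res.cont.isClosedMap.eventually_nhds_fiber y h

theorem Ctx.fib_nhds {P : X.V.W → Prop} (h : ∀ᶠ v in 𝓝ˢ (X.F y), P v) :
    ∀ᶠ y' in 𝓝 y, ∀ᶠ v in 𝓝ˢ (X.F y'), P v :=
  (Ctx.fib_near fun w hw => (eventually_nhdsSet_iff_forall.1 h w hw).eventually_nhds).mono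
    fun _ k => eventually_nhdsSet_iff_forall.2 k

theorem Ctx.freqE (X : Ctx) (w : X.V.W) : ∃ᶠ v in 𝓝 w, v ∉ X.E ∧ ∀ l, v ∉ X.V.G l :=
  (X.V.freqE w).mono fun _ k => ⟨fun a => k (iUnion₂_subset (fun l _ => subset_iUnion _ l) a),
    fun l a => k (mem_iUnion.2 ⟨l, a⟩)⟩

variable (L) in
/-- the transition functions are units at `w` -/
def Un (w : X.V.W) : Prop :=
  ∀ a i j, w ∈ (L a).U i → w ∈ (L a).U j → Hol 4 ((L a).g i j) w ∧ (L a).g i j w ≠ 0

theorem un_near (hL : ∀ j, LBN 4 (X.F y) (L j)) : ∀ᶠ w in 𝓝ˢ (X.F y), Un L w :=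
  eventually_all.2 fun a => (hL a).near.mono fun _ k i j p p' => ⟨(k i j p p').1, (k i j p p').2.1⟩

theorem in_near (hL : ∀ j, LBN 4 (X.F y) (L j)) (h : In L i w) : ∀ᶠ v in 𝓝 w, In L i v :=
  eventually_all.2 fun a => ((hL a).isOpen _).mem_nhds (h a)

theorem in_ex (hL : ∀ j, LBN 4 (X.F y) (L j)) (h : w ∈ X.F y) : ∃ i, In L i w := by
  choose i hi using fun a => (hL a).cover w h
  exact ⟨i, hi⟩

theorem Un.hol (h : Un L w) (hi : In L i w) (hj : In L j w) (b : Fin X.q → ℤ) :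
    Hol 4 ((lin L b).g i j) w :=
  Hol.prod Finset.univ fun a _ => (h a _ _ (hi a) (hj a)).1.zpow (h a _ _ (hi a) (hj a)).2 _

theorem ole_frame (hL : ∀ j, LBN 4 (X.F y) (L j)) (h : Un L w)
    (hs : ∀ᶠ v in 𝓝 w, MerAt X.V.G X.ex (lin L b) s v) (hi : In L i w) (hj : In L j w) :
    OLe X.E (fun v => ‖s i v‖) (fun v => ‖s j v‖) w := by
  refine ((ole_of_le (.of_forall fun _ _ => le_rfl)).cmul (h.hol hi hj b).cont.norm
    fun v => norm_nonneg _).of_le ?_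
  filter_upwards [hs, in_near hL hi, in_near hL hj] with v k1 k2 k3 k4
  rw [((k1 i k2).2 k4).2 j k3, norm_mul]

theorem mer_one : X.Mer y (lin L 0) fun _ _ => 1 := .of_forall fun w _ _ =>
  ⟨(X.V.exEq w).elim fun _ k => pole_of_cont k continuousAt_const,
    fun _ => ⟨hol_const _ _, fun _ _ => by simp [Slc.lin]⟩⟩

theorem mer_zero (b : Fin X.q → ℤ) : X.Mer y (lin L b) fun _ _ => 0 := .of_forall fun w _ _ =>
  ⟨(X.V.exEq w).elim fun _ k => pole_of_cont k continuousAt_const,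
    fun _ => ⟨hol_const _ _, fun _ _ => (mul_zero _).symm⟩⟩

theorem mer_add (h : X.Mer y (lin L b) s) (h' : X.Mer y (lin L b) s') :
    X.Mer y (lin L b) fun i w => s i w + s' i w := by
  filter_upwards [h, h'] with w k1 k2 i hi
  refine ⟨(k1 i hi).1.add (k2 i hi).1, fun a => ⟨((k1 i hi).2 a).1.add ((k2 i hi).2 a).1,
    fun j hj => ?_⟩⟩
  rw [mul_add, ← ((k1 i hi).2 a).2 j hj, ← ((k2 i hi).2 a).2 j hj]

theorem mer_mul (hL : ∀ j, LBN 4 (X.F y) (L j)) (h : X.Mer y (lin L b) s)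
    (h' : X.Mer y (lin L b') s') : X.Mer y (lin L (b + b')) fun i w => s i w * s' i w := by
  filter_upwards [h, h', un_near hL] with w k1 k2 k3 i hi
  refine ⟨(k1 i hi).1.mul (k2 i hi).1, fun a => ⟨((k1 i hi).2 a).1.mul ((k2 i hi).2 a).1,
    fun j hj => ?_⟩⟩
  show s i w * s' i w = (∏ a, (L a).g (i a) (j a) w ^ (b a + b' a)) * (s j w * s' j w)
  rw [((k1 i hi).2 a).2 j hj, ((k2 i hi).2 a).2 j hj, mul_mul_mul_comm, Finset.prod_congr rfl
    fun a _ => zpow_add₀ (k3 a _ _ (hi a) (hj a)).2 _ _, Finset.prod_mul_distrib]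
  rfl

theorem mer_cast (h : X.Mer y (lin L b) s) (k : b = b') (k' : ∀ i w, s i w = s' i w) :
    X.Mer y (lin L b') s' := by
  obtain rfl : s = s' := funext fun i => funext (k' i)
  exact k ▸ h

theorem mer_pow (hL : ∀ j, LBN 4 (X.F y) (L j)) (h : X.Mer y (lin L b) s) (c : ℕ) :
    X.Mer y (lin L (c • b)) fun i w => s i w ^ c := by
  induction c with
  | zero => exact mer_cast mer_one (zero_smul _ _).symm fun _ _ => (pow_zero _).symm
  | succ c ih => exact mer_cast (mer_mul hL ih h) (succ_nsmul _ _).symm fun _ _ => (pow_succ _ _).symm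

theorem mer_prod (hL : ∀ j, LBN 4 (X.F y) (L j)) {ι : Type} (T : Finset ι)
    {b : ι → Fin X.q → ℤ} {s : ι → Ix L → X.V.W → ℂ} (h : ∀ a ∈ T, X.Mer y (lin L (b a)) (s a)) :
    X.Mer y (lin L (∑ a ∈ T, b a)) fun i w => ∏ a ∈ T, s a i w := by
  classical
  induction T using Finset.induction_on with
  | empty => exact mer_one
  | insert a T ha ih =>
    exact mer_cast (mer_mul hL (h a (Finset.mem_insert_self a T))
      (ih fun a k => h a (Finset.mem_insert_of_mem k))) (Finset.sum_insert ha).symm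
      fun i w => (Finset.prod_insert (f := fun a => s a i w) ha).symm

theorem mer_near (h : X.Mer y (lin L b) s) : ∀ᶠ y' in 𝓝 y, X.Mer y' (lin L b) s := Ctx.fib_nhds h

theorem mer_merF (hL : ∀ j, LBN 4 (X.F y) (L j)) (h : X.Mer y (lin L b) s) (hw : w ∈ X.F y)
    (hi : In L i w) : MerF X.V.G X.ex (s i) w :=
  have k := eventually_nhdsSet_iff_forall.1 h w hw
  ⟨(k.self_of_nhds i hi).1, (k.and (in_near hL hi)).mono fun _ a c => ((a.1 i a.2).2 c).1⟩

theorem mer_ole (hL : ∀ j, LBN 4 (X.F y) (L j)) (h : X.Mer y (lin L b) s) (hw : w ∈ X.F y)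
    (hi : In L i w) (hj : In L j w) : OLe X.E (fun v => ‖s i v‖) (fun v => ‖s j v‖) w :=
  ole_frame hL ((un_near hL).self_of_nhdsSet w hw) (eventually_nhdsSet_iff_forall.1 h w hw) hi hj

variable {r : ℕ} {u : Fin (r + 1) → Ix L → X.V.W → ℂ}

theorem nrm_nonneg {W I : Type} {r : ℕ} (u : Fin (r + 1) → I → W → ℂ) (i : I) (w : W) :
    0 ≤ nrm u i w := Finset.sum_nonneg fun _ _ => norm_nonneg _

theorem le_nrm {W I : Type} {r : ℕ} (u : Fin (r + 1) → I → W → ℂ) (i : I) (w : W)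
    (m : Fin (r + 1)) : ‖u m i w‖ ≤ nrm u i w :=
  Finset.single_le_sum (f := fun m => ‖u m i w‖) (fun _ _ => norm_nonneg _) (Finset.mem_univ m)

theorem big_near (hL : ∀ j, LBN 4 (X.F y) (L j)) (h : ∀ m, X.Mer y (lin L b) (u m))
    (hB : X.Big L y u) : ∀ᶠ y' in 𝓝 y, X.Big L y' u := by
  refine Ctx.fib_near fun w hw => ?_
  obtain ⟨i, hi⟩ := in_ex hL hw
  obtain ⟨ζ, K, h1, h2⟩ := hB w hw i hi
  filter_upwards [in_near hL hi, h1.eventually, h2.near,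
    eventually_nhdsSet_iff_forall.1 (un_near hL) w hw, eventually_all.2 fun m =>
      (eventually_nhdsSet_iff_forall.1 (h m) w hw).eventually_nhds] with v k1 k2 k3 k4 k5 j hj
  exact ⟨ζ, K, k2, k3.trans (ole_sum fun m => (ole_frame hL k4 (k5 m) k1 hj).trans
    (ole_of_le (.of_forall fun v' _ => le_nrm u j v' m)) fun _ => norm_nonneg _) (nrm_nonneg u i)⟩

theorem big_freq (hB : X.Big L y u) (hw : w ∈ X.F y) (hi : In L i w) :
    ∃ᶠ v in 𝓝 w, v ∉ X.E ∧ ∃ m, u m i v ≠ 0 := by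
  obtain ⟨ζ, K, h1, C, h2⟩ := hB w hw i hi
  refine ((X.freqE w).and_eventually (h2.and h1.iff)).mono fun v k => ⟨k.1.1, ?_⟩
  by_contra! a
  refine (k.2.1 k.1.1).not_gt ?_
  simp only [nrm, a, norm_zero, Finset.sum_const_zero, mul_zero]
  exact Finset.prod_pos fun l _ => pow_pos (norm_pos_iff.2 (mt (k.2.2 l).1 (k.1.2 l))) K

/-- **MER** -/
theorem stMer : StMer := fun _ _ _ hL =>
  ⟨mer_one, mer_zero, fun _ _ _ _ => mer_mul hL,
    fun _ _ _ _ c h => mer_prod hL _ fun a _ => mer_pow hL (h a) (c a),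
    fun _ _ h => ⟨mer_near h, fun _ hw _ hi => ⟨mer_merF hL h hw hi, fun _ => mer_ole hL h hw hi⟩⟩,
    fun _ _ _ h hB => ⟨big_near hL h hB, fun _ hw _ => big_freq hB hw⟩⟩

end Vale.Agent.P277Z.Cls
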