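import Vale.Agent.P277Z.Cls.Ord
import Vale.Agent.P277Z.Cls.Api2
import Vale.Agent.P277Z.Cls.Mer
import Vale.Agent.P277Z.Cls.Loc
import Vale.Agent.P277Z.Slc.Bridge

/-!
# P277, block CLS: freeness at general points of an old divisor (INVM)
-/

set_option linter.unusedSectionVars false

open scoped Manifold ContDiff Topology
open Vale.Agent.P272.K Vale.Agent.P285.H281.FD Set Filter
open Vale.Agent.P277Z.Slc (LEq Snc lin)

noncomputable section

namespace Vale.Agent.P277Z.Cls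

namespace Im

section loc

variable {W : Type} [TopologicalSpace W] [T2Space W] [SecondCountableTopology W]
  [ChartedSpace (Cm 4) W] [IsManifold 𝓘(ℂ, Cm 4) ω W] {κ : Type} [Fintype κ] {G : κ → Set W}
  {k : κ} {w : W} {v : W → ℂ}

theorem ord_zero (hG : Snc 4 G) (hv : Hol 4 v w) (h : ∃ᶠ z in 𝓝[G k] w, v z ≠ 0) :
    Ord (G k) (fun z => ‖v z‖) w 0 :=
  ord_mono (ex := ∅) (o := 0) stLoc hG (hG w).choose_spec.1 hv (.of_forall fun _ _ => by simp)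
    (Lc.loc_id ((hG w).choose_spec.1 k) hv fun _ => h)

theorem ord_leq {D : Set W} {ζ : W → ℂ} (h : LEq 4 D w ζ) : Ord D (fun z => ‖ζ z‖) w 1 :=
  Od.ord_of h (.of_forall fun _ => ⟨1, one_pos, .of_forall fun _ => by simp⟩)

theorem van {D E : Set W} {ζ : W → ℂ} (h : LEq 4 D w ζ) (hw : w ∈ D) (hv : Hol 4 v w)
    (h0 : ¬ ∃ᶠ z in 𝓝[D] w, v z ≠ 0) : OLe E (fun z => ‖v z‖) (fun z => ‖ζ z‖) w := by
  by_cases h1 : ∃ᶠ z in 𝓝 w, v z ≠ 0
  · obtain ⟨a, u, k1, k2, k3⟩ := Lc.div_one h hv h1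
    cases a with
    | zero => exact absurd (((k3 hw).and_eventually (nhdsWithin_le_nhds k2)).mono
        fun z e => by simpa [e.2] using e.1) h0
    | succ a =>
      refine ((ole_of_le (.of_forall fun _ _ => le_rfl)).cmul (k1.mul (h.hol.pow a)).cont.norm
        fun z => norm_nonneg (ζ z)).of_le (k2.mono fun z e _ => ?_)
      rw [e, pow_succ, ← mul_assoc, norm_mul]
  · exact ole_of_le ((not_frequently.1 h1).mono fun z e _ => by simp [not_not.1 e])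

end loc

open A2

variable {X : Ctx} {L : Fin X.q → Bd X.V.W} {S : X.Sf L} {M : Md S} {y : X.Y.pt} {w : M.Z.W}
  {m : Fin (M.R + 1)} {j : Ix L} {k : Fin X.V.r} (h1 : StApi1)

include h1

theorem off (h : w ∈ M.D m) {P : M.Z.W → Prop} (e : ∀ᶠ z in 𝓝 w, M.Z.π z ∉ X.E → P z) :
    ∀ᶠ z in 𝓝 w, z ∉ Ex M.Z.G (exU X.ex) → P z := by
  filter_upwards [e, (M.pm.pm.isOpen m).eventually_mem h] with z a b d
    using a (mt (ex_iff h1 b).1 d)

theorem up (h : w ∈ M.D m) {f g : X.V.W → ℝ} (e : OLe X.E f g (M.Z.π w)) :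
    OLe (Ex M.Z.G (exU X.ex)) (fun z => f (M.Z.π z)) (fun z => g (M.Z.π z)) w :=
  e.imp fun _ a => off h1 h (M.Z.bl.cont.continuousAt.eventually a)

theorem loc_le {c : Fin S.b → ℤ} {s : Ix L → X.V.W → ℂ} {v : M.Z.W → ℂ} {f : M.Z.W → ℝ}
    (h : w ∈ M.D m) (a : A2.Loc c s m j v w) (e : OLe (Ex M.Z.G (exU X.ex)) (fun z => ‖v z‖) f w)
    (hf : ∀ z, 0 ≤ f z) : OLe (Ex M.Z.G (exU X.ex)) (fun z => ‖s j (M.Z.π z)‖)
      (fun z => f z * ‖gn M c m j z‖) w :=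
  (e.mul (ole_of_le (.of_forall fun _ _ => le_rfl)) hf fun _ => norm_nonneg _).of_le
    ((off h1 h a.2).mono fun _ b d => by rw [b d, norm_mul])

/-- the orders of the generators -/
theorem ord_gn (hy : y ∈ M.O) (hN : M.Neg y) (c : X.Cox L y) {o : (Fin X.q → ℤ) → ℤ}
    (hw : w ∈ M.F y) (h : w ∈ M.D m) (hj : In L j (M.Z.π w))
    (ho : ∀ e, Ord (M.Z.G (.inl k)) (fun z => nrm (c.u e) j (M.Z.π z)) w (o e))
    (c₀ : Fin S.b → ℤ) : Ord (M.Z.G (.inl k)) (fun z => ‖gn M (c.n • c₀) m j z‖) w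
      (∑ i, c₀ i * o (S.a i)) := by
  obtain ⟨hL, hu, -⟩ := (h1 X L S M).2.2.2.2.2.2.2 y hy
  obtain ⟨ζ, hζ, -⟩ := M.Z.snc w
  have key : ∀ i, Ord (M.Z.G (.inl k)) (fun z => ‖S.u i (M.eqv m i) j (M.Z.π z)‖ ^ c.n) w
      (o (S.a i)) := fun i => by
    refine (ho _).of_le (ex := exU X.ex) stLoc M.Z.snc (fun _ => by positivity)
      (ole_sum fun l => ?_) ?_
    · obtain ⟨v, a⟩ := hN (Pi.single i c.n) _ (mer_cast (c.mer _ l) (by
        simp [Pi.single_apply, ite_smul]) fun _ _ => rfl) w hw m j h hj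
      simpa [gn, Pi.single_apply] using loc_le h1 h a (ole_cont a.1.cont.norm) fun _ => zero_le_one
    · simpa using up h1 h (c.mul Unit (fun _ => S.a i) (fun _ => 1)
        (fun _ _ _ _ => mul_self_nonneg _) _ (mer_cast (Cls.mer_pow hL (hu i (M.eqv m i)) c.n)
          (by simp) fun _ _ => rfl) _ hw j hj)
  have := Ord.prod (s := Finset.univ) (fun z => ⟨_, (M.Z.snc z).choose_spec.1 (.inl k)⟩)
    fun i _ => (key i).zpow (c₀ i)
  simpa only [gn, norm_prod, norm_zpow, Pi.smul_apply, nsmul_eq_mul, zpow_mul, zpow_natCast,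
    norm_pow] using this

end Im

open Im A2 in
/-- **INVM** -/
theorem stInvm (h1 : StApi1) : StInvm := by
  intro X L S M y hy hN c hI k hk hσ w hw w' hw' hG hG' x ⟨N, c₀, s, d, hf⟩
  obtain ⟨hL, -⟩ := (h1 X L S M).2.2.2.2.2.2.2 y hy
  have lift := (h1 X L S M).2.2.2.2.2.1 k
  obtain ⟨m, j, a1, a2⟩ := ex_D (show M.b w ∈ M.O from hw ▸ hy)
  obtain ⟨m', j', b1, b2⟩ := ex_D (show M.b w' ∈ M.O from hw' ▸ hy)
  have z1 := M.Z.old k w' hG'
  choose o o1 o2 using fun e => ord_sum stLoc (Slc.snc_lg X.V) hk (z := M.Z.π w')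
    (fun l => mer_merF hL (c.mer e l) hw' b2) (big_freq (c.big e) hw' b2)
  have p1 := fun e => lift w hG (b_mem a1) _ _
    (hI k hσ _ ⟨z1, hw'⟩ _ ⟨M.Z.old k w hG, hw⟩ e j' j _ b2 a2 (o1 e))
  have p2 := fun e => lift w' hG' (b_mem b1) _ _ (o1 e)
  have q1 : N * o x ≤ ∑ i, c₀ i * o (S.a i) := by
    obtain ⟨v, e⟩ : ∃ v, A2.Loc c₀ s m j v w := hN c₀ s d.mer w hw m j a1 a2
    have e1 : ∃ᶠ z in 𝓝[M.Z.G (.inl k)] w, v z ≠ 0 :=
      (hf.and_eventually (nhdsWithin_le_nhds ((nearD a1 a2).and ((A2.Loc.near e).and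
        ((merN d.mer).self_of_nhdsSet w hw).eventually_nhds)))).mono fun z b =>
          (A2.Loc.fr_iff h1 stLoc b.2.2.2 b.2.1.1 b.2.1.2 b.2.2.1).1 b.1
    have e2 := (((ord_zero M.Z.snc e.1 e1).pow c.n).mul
      (ord_gn h1 hy hN c hw a1 a2 p1 c₀)).congr stLoc M.Z.snc
      (g := fun z => ‖s j (M.Z.π z) ^ c.n‖) ((off h1 a1 (A2.Loc.pow e c.n).2).mono fun z b b' =>
        ((congrArg norm (b b')).trans (by rw [norm_mul, norm_pow])).symm)
    rw [mul_zero, zero_add] at e2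
    refine e2.le (ex := exU X.ex) stLoc M.Z.snc hG ((p1 x).pow N) ?_
    simpa only [Fintype.prod_unique] using up h1 a1 (c.mul Unit (fun _ => x) (fun _ => N)
      (fun _ _ _ _ => mul_self_nonneg _) _ (mer_cast (Cls.mer_pow hL d.mer c.n)
        (by rw [← d.eq, Fintype.sum_unique]) fun _ _ => rfl) _ hw j a2)
  obtain ⟨l, o3⟩ := o2 x
  have e0 : (N * c.n) • x = ∑ i, (c.n • c₀) i • S.a i := by
    rw [mul_comm, mul_smul, d.eq, Finset.smul_sum]
    exact Finset.sum_congr rfl fun i _ => (smul_assoc _ _ _).symm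
  have e1 := mer_cast (Cls.mer_pow hL (c.mer x l) N) ((mul_smul _ _ _).symm.trans e0)
    fun _ _ => rfl
  obtain ⟨v, e⟩ : ∃ v, A2.Loc (c.n • c₀) (fun i z => c.u x l i z ^ N) m' j' v w' :=
    hN _ _ e1 w' hw' m' j' b1 b2
  refine ⟨_, _, _, ⟨Nat.mul_pos d.pos c.npos, e0, e1⟩, ?_⟩
  by_cases e2 : ∃ᶠ z in 𝓝[M.Z.G (.inl k)] w', v z ≠ 0
  · exact (e2.and_eventually (nhdsWithin_le_nhds ((nearD b1 b2).and (A2.Loc.near e)))).mono
      fun z b => ⟨m', j', v, b.2.1.1, b.2.1.2, b.2.2.1, b.1, b.2.2.2⟩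
  · have hζ := (M.Z.snc w').choose_spec.1 (.inl k)
    have e3 := ((lift w' hG' (b_mem b1) _ _ o3).pow N).le (ex := exU X.ex) stLoc M.Z.snc hG'
      ((ord_leq hζ).mul (ord_gn h1 hy hN c hw' b1 b2 p2 c₀)) (by
        simpa only [norm_pow] using loc_le h1 b1 e (van hζ hG' e.1 e2) fun _ => norm_nonneg _)
    omega

end Vale.Agent.P277Z.Cls
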