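import Vale.Agent.P277Z.Cls.Api1Y
import Vale.Agent.P277Z.Pj.Api
import Vale.Agent.P277Z.Brg.Calc
import Vale.Agent.P277Z.Slc.Div

/-!
# P277, block CLS: the construction of the local model
-/

open scoped Manifold ContDiff Topology
open Vale.Agent.P272.K Vale.Agent.P285.H281.FD Vale.Agent.P277 Set Filter
open Vale.Agent.P277Z.Slc (lin)
open Vale.Agent.P277Z.Brg (PosX)
open Vale.Agent.P277Z.Pj (Prp model_crd model_mem model_proper model_small model_shrink)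

noncomputable section

namespace Vale.Agent.P277Z.Cls

namespace MdH

theorem prp {X : Ctx} {D : Hl.Dat 4 X.V.W} {F : Set X.V.W} (Z : Rz X.V D F) {V : Set X.Y.pt}
    {N k : ℕ} {Ω : Set (Cm N)} {h : Fin k → Cm N → ℂ} {φ : X.Y.pt → Cm N}
    (hM : IsModel X.Y.Hol V Ω h φ) (hV : X.ψ ⁻¹' V ⊆ Z.O₂) :
    Prp 4 (Z.π ⁻¹' (X.ψ ⁻¹' V)) (fun w => φ (X.ψ (Z.π w))) Ω where
  isOpen := (hM.isOpen.preimage X.hyp.res.cont).preimage Z.bl.cont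
  isOpen' := hM.isOpen'
  hol w hw i := Z.bl.hol w (fun z => φ (X.ψ z) i) (X.hyp.res.hol _ _ (model_crd hM hw i))
  maps _ hw := (model_mem hM hw).1
  proper K h1 h2 := Z.bl.proper (X.ψ ⁻¹' (V ∩ φ ⁻¹' K)) (fun _ a => Z.le₂ (hV a.1))
    ((model_proper hM h2 h1).isClosed.preimage X.hyp.res.cont).isCompact

end MdH

theorem stModel (h1 : StMov) (h2 : StRzl) (h3 : StPmd) (h4 : StPosm) (h5 : StPrjl) : StModel := by
  intro X L y hL S hS O₀ hO₀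
  obtain ⟨D, e, hF, hM⟩ := h1 X L y hL S hS
  obtain ⟨Z⟩ := h2 X.V D (X.F y) (isClosed_singleton.preimage X.hyp.res.cont).isCompact hF
  choose B τ hB using fun l => Slc.stDiv 4 Z.W (Z.G l) fun w => (Z.snc w).imp' (· l) fun _ a => a.1 l
  obtain ⟨c, hc, hP⟩ := h4 X D y Z B τ hB
  have hb := fun l => Brg.lbn_of_isLB (hB l).lb (Z.π ⁻¹' X.F y)
  have hJ : Brg.PrjN 4 (Z.π ⁻¹' X.F y) := ⟨lin B fun l => -(c l : ℤ), Brg.lbn_lin hb _,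
    (Brg.posR_lin hb _).1 (by simpa using hP)⟩
  obtain ⟨Λ, hΛ⟩ := hP
  have a : ∀ᶠ y' in 𝓝 y, ∀ z ∈ X.ψ ⁻¹' {y'}, z ∈ Z.O₂ ∧
      ∀ w, Z.π w = z → PosX 4 B (fun l => -(c l : ℝ)) Λ w :=
    X.hyp.res.cont.isClosedMap.eventually_nhds_fiber y fun z hz =>
      (Z.isOpen.eventually_mem (Z.sub hz)).and (AyH.ev_fib Z.bl.cont
        (Z.bl.isOpen.mem_nhds (Z.le₂ (Z.sub hz))) Z.bl.proper (eventually_nhdsSet_iff_forall.2
          fun w hw => (hΛ w (show Z.π w ∈ X.F y from (hw : Z.π w = z) ▸ hz)).near hb))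
  obtain ⟨V₁, v1, v2, v3⟩ := eventually_nhds_iff.1 (a.and hO₀)
  obtain ⟨N, k, V, Ω, h, φ, m1, m2, m3⟩ := model_small X.Y y v2 v3
  have s : X.ψ ⁻¹' V ⊆ Z.O₂ := fun z hz => ((v1 _ (m2 hz)).1 z rfl).1
  have t : Z.π ⁻¹' (X.ψ ⁻¹' V) ∩ (fun w => φ (X.ψ (Z.π w))) ⁻¹' {φ y} ⊆ Z.π ⁻¹' X.F y :=
    fun w hw => congrArg Subtype.val (m3.emb.injective (a₁ := ⟨_, hw.1⟩) (a₂ := ⟨y, m1⟩) hw.2)
  obtain ⟨P, p1, p2⟩ := hJ
  obtain ⟨Ω', o1, o2, -, o4⟩ := h5 Z.W N _ _ Ω (MdH.prp Z m3 s) (φ y) (model_mem m3 m1).1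
    ⟨P, p1.mono t, p2.mono t⟩
  have o := (continuousOn_iff_continuous_domRestrict.2 m3.emb.continuous).isOpen_inter_preimage
    m3.isOpen o1
  obtain ⟨Ω₂, m4⟩ := model_shrink m3 o inter_subset_left
  have s' : X.ψ ⁻¹' (V ∩ φ ⁻¹' Ω') ⊆ Z.O₂ := fun z hz => s hz.1
  obtain ⟨R, hR⟩ := Nat.exists_eq_succ_of_ne_zero
    (Fintype.card_ne_zero (α := ∀ i, Fin (S.r i + 1)))
  have eqv := (Fintype.equivFinOfCardEq hR).symm
  obtain ⟨D', ν, q⟩ := h3 X L S D e _ Z R eqv hM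
  exact ⟨{
    Dt := D, e := e, mov := hM, Z := { Z with sub := empty_subset _ }, O := V ∩ φ ⁻¹' Ω'
    N := N, k := k, Ω := Ω₂, h := h, φ := φ, model := m4, sub := s', prp := MdH.prp Z m4 s'
    prj := o4, B := B, τ := τ, div := hB, c := fun l => c l, c0 := fun l => Nat.cast_nonneg _
    cpos := fun l => Nat.cast_pos.trans (hc l), Λ := Λ
    pos := fun w hw => ((v1 _ (m2 hw.1)).1 _ rfl).2 w rfl
    R := R, eqv := eqv, D := fun m => D' m ∩ Z.π ⁻¹' (X.ψ ⁻¹' (V ∩ φ ⁻¹' Ω')), ν := ν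
    pm := ⟨q.pm.restrict (MdH.prp Z m4 s').isOpen (subset_univ _), fun m w hw => q.rel m w hw.1,
      fun m w hw => q.mon m w hw.1⟩ }, ⟨m1, o2⟩, fun z hz => (v1 z (m2 hz.1)).2⟩

end Vale.Agent.P277Z.Cls
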