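import Vale.Agent.P277Z.Cls.Sk
import Vale.Agent.P277Z.Slc.Bridge
import Vale.Agent.P277Z.Slc.Unit
import Vale.Agent.P277Z.Luf.Hol

/-!
# P277, block CLS: the moving part (MOV)
-/

set_option linter.all false

open scoped Manifold ContDiff Topology
open Vale.Agent.P272.K Vale.Agent.P285.H281.FD Vale.Agent.P277 Set Filter
open Vale.Agent.P277Z.Val (Lg)
open Vale.Agent.P277Z.Slc (LEq Snc lin)
open Vale.Agent.P277Z.Coh (LBOn)

noncomputable section

namespace Vale.Agent.P277Z.Cls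

namespace MovH

section top

variable {W : Type} [TopologicalSpace W] {s : Set W} {z : W} {P Q : W → Prop}

/-- `P` holds on a dense part of `s` near `z` -/
def Dn (s : Set W) (P : W → Prop) (z : W) : Prop := ∀ᶠ v in 𝓝[s] z, ∃ᶠ v' in 𝓝[s] v, P v'

theorem ff (h : ∃ᶠ v in 𝓝[s] z, ∃ᶠ v' in 𝓝[s] v, P v') : ∃ᶠ v in 𝓝[s] z, P v := fun k =>
  h ((eventually_eventually_nhdsWithin.2 k).mono fun _ a b => b a)

theorem Dn.near (h : Dn s P z) : ∀ᶠ x in 𝓝 z, Dn s P x := eventually_nhds_nhdsWithin.2 h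

theorem Dn.and (h : Dn s P z) (h' : Dn s Q z) (o : ∀ᶠ v in 𝓝 z, P v → ∀ᶠ v' in 𝓝 v, P v') :
    Dn s (fun v => P v ∧ Q v) z := by
  filter_upwards [h, eventually_eventually_nhdsWithin.2 h',
    nhdsWithin_le_nhds o.eventually_nhds] with v a b c
  refine ff ((a.and_eventually (b.and (nhdsWithin_le_nhds c))).mono fun v' k => ?_)
  exact (k.2.1.and_eventually (nhdsWithin_le_nhds (k.2.2 k.1))).mono fun _ t => ⟨t.2, t.1⟩

theorem Dn.imp (h : Dn s P z) (o : ∀ᶠ v in 𝓝 z, P v → Q v) : Dn s Q z := by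
  filter_upwards [h, nhdsWithin_le_nhds o.eventually_nhds] with v a b
  exact a.mp (nhdsWithin_le_nhds b)

theorem dn_true : Dn s (fun _ => True) z := by
  filter_upwards [self_mem_nhdsWithin] with v hv
  have := nhdsWithin_neBot_of_mem hv
  exact (Eventually.of_forall fun _ => trivial).frequently

theorem dn_all {ι : Type} [Fintype ι] {P : ι → W → Prop} (h : ∀ i, Dn s (P i) z)
    (o : ∀ i, ∀ᶠ v in 𝓝 z, P i v → ∀ᶠ v' in 𝓝 v, P i v') : Dn s (fun v => ∀ i, P i v) z := by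
  classical
  have : ∀ T : Finset ι, Dn s (fun v => ∀ i ∈ T, P i v) z := fun T => by
    induction T using Finset.induction_on with
    | empty => exact dn_true.imp (.of_forall fun _ _ => by simp)
    | insert a T _ ih =>
      exact ((h a).and ih (o a)).imp (.of_forall fun v k => by
        simpa only [Finset.forall_mem_insert] using k)
  exact (this Finset.univ).imp (.of_forall fun v k i => k i (Finset.mem_univ i))

theorem Dn.freq (h : Dn s P z) (hz : z ∈ s) : ∃ᶠ v in 𝓝[s] z, P v := h.self_of_nhdsWithin hz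

end top

variable {W : Type} [TopologicalSpace W] [ChartedSpace (Cm 4) W] {κ : Type} [Fintype κ]
  {G : κ → Set W} {ex : Finset κ} {M : Type} [Fintype M] {z : W} {u u' f f' : M → W → ℂ}
  {ζ ζ' : κ → W → ℂ} {o o' : κ → ℤ}

theorem not_ex {v : W} : v ∉ Ex G ex ↔ ∀ l ∈ ex, v ∉ G l := by simp [Ex]

/-- `u = f ζ^o`, where the `f m` have no common factor -/
structure Lc (G : κ → Set W) (ex : Finset κ) (u : M → W → ℂ) (ζ : κ → W → ℂ) (o : κ → ℤ)
    (f : M → W → ℂ) (z : W) : Prop where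
  leq : ∀ l, LEq 4 (G l) z (ζ l)
  zero : ∀ k ∉ ex, o k = 0
  hol : ∀ m, Hol 4 (f m) z
  eq : ∀ᶠ v in 𝓝 z, v ∉ Ex G ex → ∀ m, u m v = f m v * ∏ k, ζ k v ^ o k
  dn : ∀ k ∈ ex, Dn (G k) (fun v => ∃ m, f m v ≠ 0) z

/-- what is used about the hypersurfaces -/
structure Ok (G : κ → Set W) : Prop where
  d1 : ∀ w, ∃ᶠ v in 𝓝 w, ∀ l, v ∉ G l
  d2 : ∀ k, ∀ w ∈ G k, ∃ᶠ v in 𝓝[G k] w, ∀ l, l ≠ k → v ∉ G l

theorem Ok.dn (h : Ok G) (k : κ) (z : W) : Dn (G k) (fun v => ∀ l, l ≠ k → v ∉ G l) z := by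
  filter_upwards [self_mem_nhdsWithin] with v hv using h.d2 k v hv

theorem Ok.eq (h : Ok G) {a b : W → ℂ} (ha : ContinuousAt a z) (hb : ContinuousAt b z)
    (e : ∀ᶠ v in 𝓝 z, v ∉ Ex G ex → a v = b v) : a z = b z :=
  tendsto_nhds_unique_of_frequently_eq ha hb
    (((h.d1 z).and_eventually e).mono fun _ k => k.2 (not_ex.2 fun l _ => k.1 l))

variable [IsManifold 𝓘(ℂ, Cm 4) ω W]

theorem Lc.near (h : Lc G ex u ζ o f z) : ∀ᶠ x in 𝓝 z, Lc G ex u ζ o f x := by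
  filter_upwards [eventually_all.2 fun l => (h.leq l).near, eventually_all.2 fun m => (h.hol m).near,
    h.eq.eventually_nhds, (eventually_all_finset ex).2 fun k hk => (h.dn k hk).near] with x a b c d
    using ⟨a, h.zero, b, c, d⟩

theorem opn_ne (h : ∀ m, Hol 4 (f m) z) :
    ∀ᶠ v in 𝓝 z, (∃ m, f m v ≠ 0) → ∀ᶠ v' in 𝓝 v, ∃ m, f m v' ≠ 0 := by
  filter_upwards [eventually_all.2 fun m => (h m).near] with v a ⟨m, b⟩
  exact ((a m).ne_near b).mono fun _ c => ⟨m, c⟩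

/-- the exponent is not positive -/
theorem exp_le (hG : Ok G) {A B : M → W → ℂ} {n : κ → ℤ} (hζ : ∀ l, LEq 4 (G l) z (ζ l))
    (hA : ∀ m, Hol 4 (A m) z) (hB : ∀ m, Hol 4 (B m) z)
    (e : ∀ᶠ v in 𝓝 z, v ∉ Ex G ex → ∀ m, A m v * ∏ l, ζ l v ^ n l = B m v) {k : κ} (hk : z ∈ G k)
    (d : Dn (G k) (fun v => ∃ m, B m v ≠ 0) z) : n k ≤ 0 := by
  classical
  by_contra h0
  push Not at h0
  obtain ⟨v, ⟨⟨m, h1⟩, h2⟩, h3, h4, h5, h6, h7⟩ :=
    (((d.and (hG.dn k z) (opn_ne hB)).freq hk).and_eventually (eventually_mem_nhdsWithin.and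
      (nhdsWithin_le_nhds ((eventually_all.2 fun l => (hζ l).near).and
        ((eventually_all.2 fun m => (hA m).near).and ((eventually_all.2 fun m => (hB m).near).and
          e.eventually_nhds)))))).exists
  have c : ContinuousAt (fun v => A m v * ∏ l, ζ l v ^ n l) v := by
    refine (h5 m).cont.mul (tendsto_finset_prod _ fun l _ => ?_)
    refine (h4 l).hol.cont.zpow₀ _ ?_
    by_cases hl : l = k
    · exact Or.inr (hl ▸ h0.le)
    · exact Or.inl (mt (h4 l).mem.1 (h2 l hl))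
  have := hG.eq c (h6 m).cont (h7.mono fun _ a b => a b m)
  rw [Finset.prod_eq_zero (Finset.mem_univ k) (by rw [(h4 k).mem.2 h3, zero_zpow _ h0.ne']),
    mul_zero] at this
  exact h1 this.symm

theorem Lc.ne (h : Lc G ex u ζ o f z) :
    ∀ᶠ v in 𝓝 z, v ∉ Ex G ex → ∀ k, ζ k v ≠ 0 ∨ (o k = 0 ∧ k ∉ ex) := by
  filter_upwards [eventually_all.2 fun l => (h.leq l).1] with v a b k
  by_cases hk : k ∈ ex
  · exact Or.inl (mt (a k).1 (not_ex.1 b k hk))
  · exact Or.inr ⟨h.zero k hk, hk⟩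

theorem Lc.quot (h : Lc G ex u ζ o f z) (h' : Lc G ex u' ζ o' f' z) {H : W → ℂ}
    (e : ∀ᶠ v in 𝓝 z, v ∉ Ex G ex → ∀ m, u m v = H v * u' m v) :
    ∀ᶠ v in 𝓝 z, v ∉ Ex G ex → ∀ m, (H v * f' m v) * ∏ l, ζ l v ^ (o' l - o l) = f m v := by
  filter_upwards [h.eq, h'.eq, h.ne, e] with v a b c d hv m
  have p : ∏ l, ζ l v ^ o l ≠ 0 := Finset.prod_ne_zero_iff.2 fun l _ => by
    rcases c hv l with k | k
    · exact zpow_ne_zero _ k
    · simp [k.1]
  have q : (∏ l, ζ l v ^ (o' l - o l)) * ∏ l, ζ l v ^ o l = ∏ l, ζ l v ^ o' l := by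
    rw [← Finset.prod_mul_distrib]
    refine Finset.prod_congr rfl fun l _ => ?_
    rcases c hv l with k | k
    · rw [← zpow_add₀ k, sub_add_cancel]
    · simp [k.1, h'.zero l k.2]
  refine mul_right_cancel₀ p ?_
  rw [mul_assoc, q, ← a hv m, d hv m, b hv m, mul_assoc]

/-- uniqueness, the same equations -/
theorem Lc.uq₀ (hG : Ok G) (h : Lc G ex u ζ o f z) (h' : Lc G ex u' ζ o' f' z) {H : W → ℂ}
    (hH : Hol 4 H z) (h0 : H z ≠ 0)
    (e : ∀ᶠ v in 𝓝 z, v ∉ Ex G ex → ∀ m, u m v = H v * u' m v) :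
    ∃ w, Hol 4 w z ∧ w z ≠ 0 ∧ ∀ᶠ v in 𝓝 z, ∀ m, f m v = w v * f' m v := by
  have e' : ∀ᶠ v in 𝓝 z, v ∉ Ex G ex → ∀ m, u' m v = (H v)⁻¹ * u m v := by
    filter_upwards [e, hH.ne_near h0] with v a b c m
    rw [a c m, inv_mul_cancel_left₀ b]
  have k : ∀ l, ζ l z ≠ 0 ∨ o' l - o l = 0 := fun l => by
    by_cases h1 : l ∈ ex
    · by_cases h2 : z ∈ G l
      · have a := exp_le hG h.leq (fun m => hH.mul (h'.hol m)) h.hol (h.quot h' e) h2 (h.dn l h1)
        have b := exp_le hG h.leq (fun m => (hH.inv h0).mul (h.hol m)) h'.hol (h'.quot h e') h2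
          (h'.dn l h1)
        exact Or.inr (by omega)
      · exact Or.inl (mt (h.leq l).mem.1 h2)
    · exact Or.inr (by rw [h.zero l h1, h'.zero l h1, sub_zero])
  have hw : Hol 4 (fun v => H v * ∏ l, ζ l v ^ (o' l - o l)) z :=
    hH.mul (Hol.prod _ fun l _ => by
      rcases k l with a | a
      · exact (h.leq l).hol.zpow a _
      · simpa only [a, zpow_zero] using hol_const 1 z)
  refine ⟨_, hw, mul_ne_zero h0 (Finset.prod_ne_zero_iff.2 fun l _ => ?_), ?_⟩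
  · rcases k l with a | a
    · exact zpow_ne_zero _ a
    · simp [a]
  · filter_upwards [(h.quot h' e).eventually_nhds, hw.near,
      eventually_all.2 fun m => (h.hol m).near, eventually_all.2 fun m => (h'.hol m).near]
      with v a b c d m
    refine hG.eq (ex := ex) (c m).cont (b.mul (d m)).cont (a.mono fun y p q => ?_)
    rw [← p q m]
    ring

variable [T2Space W] [SecondCountableTopology W]

/-- change of the equations -/
theorem Lc.chg (h : Lc G ex u ζ o f z) (hζ : ∀ l, LEq 4 (G l) z (ζ' l)) :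
    ∃ w, Hol 4 w z ∧ w z ≠ 0 ∧ Lc G ex u ζ' o (fun m v => w v * f m v) z := by
  choose c h1 h2 h3 using fun l => Slc.stUnit 4 W (G l) z (ζ' l) (ζ l) (hζ l) (h.leq l)
  have hw : Hol 4 (fun v => ∏ l, c l v ^ o l) z := Hol.prod _ fun l _ => (h1 l).zpow (h2 l) _
  have h0 : ∏ l, c l z ^ o l ≠ 0 := Finset.prod_ne_zero_iff.2 fun l _ => zpow_ne_zero _ (h2 l)
  refine ⟨_, hw, h0, hζ, h.zero, fun m => hw.mul (h.hol m), ?_, fun k hk => (h.dn k hk).imp ?_⟩
  · filter_upwards [h.eq, eventually_all.2 h3] with v a b hv m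
    simp only [a hv m, b, mul_zpow, Finset.prod_mul_distrib]
    ring
  · filter_upwards [hw.ne_near h0] with v a ⟨m, b⟩ using ⟨m, mul_ne_zero a b⟩

/-- uniqueness -/
theorem Lc.uq (hG : Ok G) (h : Lc G ex u ζ o f z) (h' : Lc G ex u' ζ' o' f' z) {H : W → ℂ}
    (hH : Hol 4 H z) (h0 : H z ≠ 0)
    (e : ∀ᶠ v in 𝓝 z, v ∉ Ex G ex → ∀ m, u m v = H v * u' m v) :
    ∃ w, Hol 4 w z ∧ w z ≠ 0 ∧ ∀ᶠ v in 𝓝 z, ∀ m, f m v = w v * f' m v := by
  obtain ⟨w, a, b, c⟩ := h'.chg h.leq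
  obtain ⟨w', a', b', c'⟩ := h.uq₀ hG c hH h0 e
  exact ⟨_, a'.mul a, mul_ne_zero b' b, c'.mono fun v p m => by rw [p m, mul_assoc]⟩

theorem ok_of (hL : StLoc) (hG : Snc 4 G) : Ok G :=
  ⟨fun w => (gen_frequently ((hL W κ G ∅ hG).1 w)).mono fun _ h => h.self_of_nhds,
    (hL W κ G ∅ hG).2.1⟩

/-- existence -/
theorem ex_lc (hL : StLoc) (hG : Snc 4 G) (hζ : ∀ l, LEq 4 (G l) z (ζ l))
    (hu : ∀ m, MerF G ex (u m) z) (h0 : ∃ᶠ v in 𝓝 z, v ∉ Ex G ex ∧ ∃ m, u m v ≠ 0) :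
    ∃ o f, Lc G ex u ζ o f z := by
  classical
  let A : Finset M := Finset.univ.filter fun m => ∃ᶠ v in 𝓝 z, v ∉ Ex G ex ∧ u m v ≠ 0
  have hA : ∀ m, m ∈ A ↔ ∃ᶠ v in 𝓝 z, v ∉ Ex G ex ∧ u m v ≠ 0 := fun m => by simp [A]
  have hn : A.Nonempty := by
    by_contra h1
    refine h0 ?_
    have : ∀ m, ∀ᶠ v in 𝓝 z, ¬ (v ∉ Ex G ex ∧ u m v ≠ 0) := fun m =>
      not_frequently.1 fun h2 => h1 ⟨m, (hA m).2 h2⟩
    filter_upwards [eventually_all.2 this] with v a ⟨b, m, c⟩ using a m ⟨b, c⟩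
  choose! p g h1 h2 h3 h4 _ using fun m (hm : m ∈ A) =>
    (hL W κ G ex hG).2.2.2.1 (u m) z ζ (hu m) hζ ((hA m).1 hm)
  choose μ hμ hm using fun k => A.exists_min_image (fun m => p m k) hn
  refine ⟨fun k => p (μ k) k, fun m v => if m ∈ A then g m v * ∏ l, ζ l v ^ (p m l - p (μ l) l).toNat
    else 0, hζ, fun k hk => h1 _ (hμ k) k hk, fun m => ?_, ?_, fun k hk => ?_⟩
  · by_cases a : m ∈ A
    · simpa only [a, if_true] using (h2 m a).mul (Hol.prod _ fun l _ => (hζ l).hol.pow _)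
    · simpa only [a, if_false] using hol_const 0 z
  · have : ∀ m, ∀ᶠ v in 𝓝 z, v ∉ Ex G ex → u m v = (if m ∈ A then
        g m v * ∏ l, ζ l v ^ (p m l - p (μ l) l).toNat else 0) * ∏ k, ζ k v ^ p (μ k) k := fun m => by
      by_cases a : m ∈ A
      · filter_upwards [h3 m a, eventually_all.2 fun l => (hζ l).1] with v b c hv
        rw [if_pos a, b hv, mul_assoc, ← Finset.prod_mul_distrib]
        refine congrArg _ (Finset.prod_congr rfl fun l _ => ?_)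
        by_cases hl : l ∈ ex
        · rw [← zpow_natCast, Int.toNat_of_nonneg (sub_nonneg.2 (hm l m a)),
            ← zpow_add₀ (mt (c l).1 (not_ex.1 hv l hl)), sub_add_cancel]
        · simp [h1 m a l hl, h1 _ (hμ l) l hl]
      · filter_upwards [not_frequently.1 (mt (hA m).2 a)] with v b hv
        rw [if_neg a, zero_mul]
        exact not_not.1 fun c => b ⟨hv, c⟩
    filter_upwards [eventually_all.2 this] with v a hv m using a m hv
  · refine (Dn.and (P := fun v => g (μ k) v ≠ 0) (h4 _ (hμ k) k hk) ((ok_of hL hG).dn k z) ?_).imp ?_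
    · filter_upwards [(h2 _ (hμ k)).near] with v a b using a.ne_near b
    · filter_upwards [eventually_all.2 fun l => (hζ l).1] with v a b
      refine ⟨μ k, ?_⟩
      rw [if_pos (hμ k)]
      refine mul_ne_zero b.1 (Finset.prod_ne_zero_iff.2 fun l _ => ?_)
      by_cases hl : l = k
      · simp [hl]
      · exact pow_ne_zero _ (mt (a l).1 (b.2 l hl))

end MovH

namespace MovH

variable {X : Ctx} {L : Fin X.q → Bd X.V.W} {S : X.Sf L} {z : X.V.W} {j j' : Ix L}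

/-- what is used at a point -/
structure Gd (S : X.Sf L) (w : X.V.W) : Prop where
  cov : ∀ a, ∃ i, w ∈ (L a).U i
  lb : ∀ a i j, w ∈ (L a).U i → w ∈ (L a).U j → Hol 4 ((L a).g i j) w ∧ (L a).g i j w ≠ 0 ∧
    ∀ k, w ∈ (L a).U k → (L a).g i j w * (L a).g j k w = (L a).g i k w
  mer : ∀ i m, MerAt X.V.G X.ex (lin L (S.a i)) (S.u i m) w
  big : ∀ i, X.Big L (X.ψ w) (S.u i)

theorem gd_near (hM : StMer) {y : X.Y.pt} (hL : ∀ j, Brg.LBN 4 (X.F y) (L j)) (hS : S.Ok y) :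
    ∀ᶠ w in 𝓝ˢ (X.F y), Gd S w := by
  have h1 : ∀ a, ∀ᶠ w in 𝓝ˢ (X.F y), ∃ i, w ∈ (L a).U i := fun a =>
    eventually_nhdsSet_iff_forall.2 fun x hx => by
      obtain ⟨i, hi⟩ := (hL a).cover x hx
      filter_upwards [((hL a).isOpen i).mem_nhds hi] with v hv using ⟨i, hv⟩
  have h2 : ∀ i, ∀ᶠ w in 𝓝ˢ (X.F y), X.Big L (X.ψ w) (S.u i) := fun i =>
    eventually_nhdsSet_iff_forall.2 fun x hx => by
      have a := ((hM X L y hL).2.2.2.2.2 _ (S.u i) _ (hS.mer i) (hS.big i)).1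
      rw [← show X.ψ x = y from hx] at a
      exact X.hyp.res.cont.continuousAt.eventually a
  filter_upwards [eventually_all.2 h1, eventually_all.2 fun a => (hL a).near,
    eventually_all.2 fun i => eventually_all.2 fun m => hS.mer i m, eventually_all.2 h2]
    with w a b c d using ⟨a, b, c, d⟩

theorem Gd.nz (h : Gd S z) (hj : In L j z) (i : Fin S.b) :
    ∀ᶠ v in 𝓝 z, v ∉ X.E → ∃ m, S.u i m j v ≠ 0 := by
  obtain ⟨ζ, K, h1, C, h2⟩ := h.big i z rfl j hj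
  filter_upwards [h2, eventually_all.2 fun l => (h1 l).1] with v a b hv
  by_contra h0
  push Not at h0
  have p : 0 < ∏ l ∈ X.ex, ‖ζ l v‖ ^ K := Finset.prod_pos fun l hl =>
    pow_pos (norm_pos_iff.2 (mt (b l).1 (not_ex.1 hv l hl))) _
  have q := a hv
  simp only [nrm, h0, norm_zero, Finset.sum_const_zero, mul_zero] at q
  exact absurd p (not_lt.2 q)

variable (ho : ∀ a i, IsOpen ((L a).U i))
include ho

theorem in_near (hj : In L j z) : ∀ᶠ v in 𝓝 z, In L j v :=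
  eventually_all.2 fun a => (ho a _).mem_nhds (hj a)

theorem merF (h : ∀ᶠ v in 𝓝 z, Gd S v) (hj : In L j z) (i : Fin S.b) (m : Fin (S.r i + 1)) :
    MerF X.V.G X.ex (S.u i m j) z :=
  ⟨(h.self_of_nhds.mer i m j hj).1, by
    filter_upwards [h, in_near ho hj] with v a b c using ((a.mer i m j b).2 c).1⟩

theorem trans (h : ∀ᶠ v in 𝓝 z, Gd S v) (hj : In L j z) (hj' : In L j' z) (i : Fin S.b) :
    ∃ H, Hol 4 H z ∧ H z ≠ 0 ∧
      ∀ᶠ v in 𝓝 z, v ∉ Ex X.V.G X.ex → ∀ m, S.u i m j v = H v * S.u i m j' v := by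
  have k := fun a => h.self_of_nhds.lb a _ _ (hj a) (hj' a)
  refine ⟨fun x => ∏ a, (L a).g (j a) (j' a) x ^ S.a i a,
    Hol.prod _ fun a _ => (k a).1.zpow (k a).2.1 _,
    Finset.prod_ne_zero_iff.2 fun a _ => zpow_ne_zero _ (k a).2.1, ?_⟩
  filter_upwards [h, in_near ho hj, in_near ho hj'] with v a b c d m
    using ((a.mer i m j b).2 d).2 j' c

theorem ex (hL : StLoc) (h : ∀ᶠ v in 𝓝 z, Gd S v) (hj : In L j z) {ζ : Fin X.V.r → X.V.W → ℂ}
    (hζ : X.V.Eq z ζ) (i : Fin S.b) :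
    ∃ o f, Lc X.V.G X.ex (fun m => S.u i m j) ζ o f z := by
  have := ChartedSpace.secondCountable_of_sigmaCompact (Cm 4) X.V.W
  refine ex_lc hL (Slc.snc_lg X.V) hζ (merF ho h hj i) ?_
  exact (((ok_of hL (Slc.snc_lg X.V)).d1 z).and_eventually (h.self_of_nhds.nz hj i)).mono
    fun v a => ⟨not_ex.2 fun l _ => a.1 l, a.2 (not_ex.2 fun l _ => a.1 l)⟩

end MovH

open MovH in
theorem stMov (hL : StLoc) (hM : StMer) : StMov := by
  intro X L y hLB S hS
  have := ChartedSpace.secondCountable_of_sigmaCompact (Cm 4) X.V.W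
  have ho : ∀ a i, IsOpen ((L a).U i) := fun a => (hLB a).isOpen
  have hG := ok_of hL (Slc.snc_lg X.V)
  let O := interior {w | Gd S w}
  have hO : ∀ {z}, z ∈ O → ∀ᶠ v in 𝓝 z, Gd S v := fun h => mem_interior_iff_mem_nhds.1 h
  choose j hj using fun z : O => (hO z.2).self_of_nhds.cov
  choose ζ hζ _ using Slc.snc_lg X.V
  choose o f hf using fun (z : O) i => ex ho hL (hO z.2) (j := j z) (hj z) (hζ z) i
  let U : O → Set X.V.W := fun z => interior {x | In L (j z) x ∧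
    ∀ i, Lc X.V.G X.ex (fun m => S.u i m (j z)) (ζ z) (o z i) (f z i) x}
  have hU : ∀ {z x}, x ∈ U z → In L (j z) x ∧
      ∀ i, Lc X.V.G X.ex (fun m => S.u i m (j z)) (ζ z) (o z i) (f z i) x :=
    fun {z x} h => (interior_subset h : x ∈ {x | In L (j z) x ∧
      ∀ i, Lc X.V.G X.ex (fun m => S.u i m (j z)) (ζ z) (o z i) (f z i) x})
  have hz : ∀ z : O, z.1 ∈ U z := fun z => mem_interior_iff_mem_nhds.2
    ((in_near ho (hj z)).and (eventually_all.2 fun i => (hf z i).near))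
  have key : ∀ z, ∀ x ∈ O, x ∈ U z → ∀ j' ζ' (o' : Fin S.b → _) (f' : ∀ i, Fin (S.r i + 1) → _),
      In L j' x → (∀ i, Lc X.V.G X.ex (fun m => S.u i m j') ζ' (o' i) (f' i) x) →
      ∃ w, Hol 4 w x ∧ w x ≠ 0 ∧ ∀ᶠ v in 𝓝 x, ∀ m : ∀ i, Fin (S.r i + 1),
        ∏ i, f z i (m i) v = w v * ∏ i, f' i (m i) v := by
    intro z x hx h1 j' ζ' o' f' h2 h3
    choose H a b c using trans ho (hO hx) (hU h1).1 h2
    choose w a' b' c' using fun i => ((hU h1).2 i).uq hG (h3 i) (a i) (b i) (c i)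
    refine ⟨fun v => ∏ i, w i v, Hol.prod _ fun i _ => a' i,
      Finset.prod_ne_zero_iff.2 fun i _ => b' i, ?_⟩
    filter_upwards [eventually_all.2 c'] with v d m
    simp only [d, Finset.prod_mul_distrib]
  have off : ∀ z : O, ∀ᶠ v in 𝓝 z.1, v ∉ X.E → ∃ m : ∀ i, Fin (S.r i + 1),
      ∏ i, f z i (m i) v ≠ 0 := fun z => by
    filter_upwards [eventually_all.2 fun i => (hO z.2).self_of_nhds.nz (j := j z) (hj z) i,
      eventually_all.2 fun i => (hf z i).eq] with v a b c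
    choose m hm using fun i => a i c
    exact ⟨m, Finset.prod_ne_zero_iff.2 fun i _ => left_ne_zero_of_mul (b i c (m i) ▸ hm i)⟩
  let D : Hl.Dat 4 X.V.W :=
    { O := O, isOpen := isOpen_interior, Γ := O, U := U, opn := fun _ => isOpen_interior
      κ := ∀ i, Fin (S.r i + 1), f := fun z m x => ∏ i, f z i (m i) x
      hol := fun z m x _ h => Hol.prod _ fun i _ => ((hU h).2 i).hol _
      chg := fun z z' x h1 h2 h3 =>
        let ⟨w, a, b, c⟩ := key z x h1 h2 _ _ _ _ (hU h3).1 (hU h3).2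
        ⟨w, a.cont, b, c⟩
      nz := fun x hx => by
        by_contra h0
        have : ∀ m : ∀ i, Fin (S.r i + 1), ∀ᶠ v in 𝓝 x, ∏ i, f ⟨x, hx⟩ i (m i) v = 0 := fun m =>
          not_not.1 fun h => h0 ⟨⟨x, hx⟩, m, hz ⟨x, hx⟩, h⟩
        obtain ⟨v, a, b, c⟩ := ((hG.d1 x).and_eventually
          ((eventually_all.2 this).and (off ⟨x, hx⟩))).exists
        obtain ⟨m, d⟩ := c (not_ex.2 fun l _ => a l)
        exact d (b m) }
  have sub : ∀ z ∈ O, z ∈ D.Z → z ∈ X.E := fun z h1 h2 => by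
    by_contra h3
    obtain ⟨m, d⟩ := (off ⟨z, h1⟩).self_of_nhds h3
    exact d (h2 ⟨z, h1⟩ m h1 (hz ⟨z, h1⟩))
  refine ⟨D, Equiv.refl _, subset_interior_iff_mem_nhdsSet.2 (gd_near hM hLB hS),
    fun a => ⟨ho a, fun x h => (hO h).self_of_nhds.cov a,
      fun i i' x h b c => ((hO h).self_of_nhds.lb a i i' b c).1,
      fun i i' x h b c => ((hO h).self_of_nhds.lb a i i' b c).2.1,
      fun i i' k x h b c d => ((hO h).self_of_nhds.lb a i i' b c).2.2 k d⟩,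
    fun i m w h => (hO h).self_of_nhds.mer i m, sub, fun k z h1 h2 => ?_,
    fun z h1 => ⟨⟨z, h1⟩, hz ⟨z, h1⟩, fun j' ζ' h2 h3 => ?_⟩⟩
  · have a : ∀ᶠ v in 𝓝[X.V.G k] z, v ∈ O ∧ v ∈ U ⟨z, h1⟩ := nhdsWithin_le_nhds
      (inter_mem (isOpen_interior.mem_nhds h1) (isOpen_interior.mem_nhds (hz ⟨z, h1⟩)))
    by_cases hk : k ∈ X.ex
    · refine (((dn_all (fun i => (hf ⟨z, h1⟩ i).dn k hk) fun i =>
        opn_ne (hf ⟨z, h1⟩ i).hol).freq h2).and_eventually a).mono fun v b c => ?_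
      choose m hm using b.1
      exact (Finset.prod_ne_zero_iff (s := Finset.univ)).2 (fun i _ => hm i)
        (c ⟨z, h1⟩ m b.2.1 b.2.2)
    · exact ((hG.d2 k z h2).and_eventually a).mono fun v b c =>
        not_ex.2 (fun l hl => b.1 l fun e => hk (e ▸ hl)) (sub v b.2.1 c)
  · choose o' f' h4 using ex ho hL (hO h1) h2 h3
    obtain ⟨w, a, b, c⟩ := key ⟨z, h1⟩ z h1 (hz ⟨z, h1⟩) j' ζ' o' f' h2 h4
    refine ⟨o', f', w, fun i => (h4 i).zero, fun i => (h4 i).hol, a, b, ?_⟩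
    filter_upwards [c, eventually_all.2 fun i => (h4 i).eq] with v d e using ⟨d, fun p i => e i p⟩

end Vale.Agent.P277Z.Cls
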