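import Vale.Agent.P277Z.Cls.Down2
import Vale.Agent.P277Z.Brg.Opn
import Vale.Agent.P277Z.Pos.Rb

/-!
# P277, block CLS: bundles of class zero are flat along the fibres
-/

set_option linter.all false
set_option maxSynthPendingDepth 3

open scoped Manifold ContDiff Topology
open Vale.Agent.P272.K Vale.Agent.P285.H281.FD Vale.Agent.P277 Set Filter Module
open Vale.Agent.P267.H175 (dF)
open Vale.Agent.P277.PH (HolF SmR)
open Vale.Agent.P277.HD (pull)
open Vale.Agent.P284Z (levi)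
open Vale.Agent.P277Z.Tr (pb HolM)
open Vale.Agent.P277Z.Val (Sb Lg)
open Vale.Agent.P277Z.Slc (lin LEq dd)
open Vale.Agent.P277Z.Top Vale.Agent.P277Z.Top.H98 Vale.Agent.P277Z.Gd

noncomputable section

namespace Vale.Agent.P277Z.Cls.Vt

theorem hyp_range {m : ℕ} {A : Cm m →L[ℂ] Cm (m + 1)} (hA : Function.Injective A)
    {l : Cm (m + 1) →L[ℂ] ℂ} (hl : l ≠ 0) (h : ∀ w, l (A w) = 0) {v : Cm (m + 1)} (hv : l v = 0) :
    ∃ w, A w = v := by
  have h1 : LinearMap.range (A : Cm m →ₗ[ℂ] Cm (m + 1)) ≤ LinearMap.ker (l : _ →ₗ[ℂ] ℂ) := by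
    rintro _ ⟨w, rfl⟩
    exact h w
  have h2 : finrank ℂ (LinearMap.ker (l : Cm (m + 1) →ₗ[ℂ] ℂ)) < m + 1 := by
    have := Submodule.finrank_lt (s := LinearMap.ker (l : Cm (m + 1) →ₗ[ℂ] ℂ)) fun e =>
      hl (ContinuousLinearMap.coe_injective (LinearMap.ker_eq_top.1 e))
    simpa using this
  have h3 := LinearMap.finrank_range_of_inj (f := (A : Cm m →ₗ[ℂ] Cm (m + 1))) hA
  rw [Module.finrank_fin_fun] at h3
  exact (Submodule.eq_of_le_of_finrank_le h1 (by omega)).ge hv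

variable {m n : ℕ}

section loc

variable {H W : Type} [TopologicalSpace H] [TopologicalSpace W] [ChartedSpace (Cm m) H]
  [ChartedSpace (Cm n) W] {f : H → W} {x : H} {c : Chart m H} {e : Chart n W}

theorem ev_comp (hf : HolM m n f) (hc : At c x) (he : At e (f x)) {α : Type} (u : W → α) :
    (fun z => u (f (c.symm z))) =ᶠ[𝓝 (c x)] fun z => u (e.symm (e (f (c.symm z)))) := by
  filter_upwards [Tr.ev_symm hc.2 (hf.1.continuousAt.preimage_mem_nhds
    (e.open_source.mem_nhds he.2))] with z hz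
  rw [e.left_inv hz]

theorem levi_comp (hf : HolM m n f) (hc : At c x) (he : At e (f x)) {u : W → ℝ}
    (hu : SmR n u (f x)) (w : Cm m) : levi (fun z => u (f (c.symm z))) (c x) w =
      levi (fun z => u (e.symm z)) (e (f x)) (fderiv ℂ (fun z => e (f (c.symm z))) (c x) w) := by
  have := P284Y.Lib.levi_hol (u := fun z => u (e.symm z)) (w := w) (hf.2 x c e hc he)
    (by rw [hc.left_inv]; exact (hu e he).of_le (WithTop.coe_le_coe.2 le_top))
  rw [hc.left_inv] at this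
  exact (P284Y.Lib.levi_congr (ev_comp hf hc he u)).trans this

theorem dd_comp (hf : HolM m n f) (hc : At c x) (he : At e (f x)) {g : W → ℂ}
    (hg : AnalyticAt ℂ (fun z => g (e.symm z)) (e (f x))) (w : Cm m) : dd (fun y => g (f y)) c x w =
      dd g e (f x) (fderiv ℂ (fun z => e (f (c.symm z))) (c x) w) := by
  have := (HasFDerivAt.comp (g := fun z => g (e.symm z)) (c x)
    (by rw [hc.left_inv]; exact hg.differentiableAt.hasFDerivAt)
    (hf.2 x c e hc he).differentiableAt.hasFDerivAt).fderiv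
  rw [dd, (ev_comp hf hc he g).fderiv_eq]
  exact congrArg (fun A : Cm m →L[ℂ] ℂ => A w) this

theorem dd_const {g : H → ℂ} {a : ℂ} (hc : At c x) (h : ∀ᶠ y in 𝓝 x, g y = a) (w : Cm m) :
    dd g c x w = 0 := by
  rw [dd, EventuallyEq.fderiv_eq (f := fun _ => a) (Tr.ev_symm hc.2 h)]
  simp

end loc

theorem ext_loc {N : Mf m} {X : Mf n} {f : N.M → X.M} (h : Sb m n f) {u : N.M → ℝ}
    (hu : ∀ y, SmR m u y) (x : N.M) :
    ∃ F : X.M → ℝ, ∀ᶠ w in 𝓝 (f x), SmR n F w ∧ ∀ y, f y = w → F w = u y := by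
  have hc := at_ch (d := m) x
  set c := chartAt (Cm m) x
  choose g g1 g2 using fun a : Fin m => h.ext (x := x) (f := fun y => c y a) fun e he =>
    analyticAt_pi_iff.1 (PH.chg_analyticAt hc he) a
  have g3 : ∀ᶠ y in 𝓝 x, (fun a => g a (f y)) = c y :=
    (eventually_all.2 g2).mono fun y a => funext fun i => (a i).symm
  refine ⟨fun w => u (c.symm fun a => g a w), ?_⟩
  filter_upwards [eventually_all.2 fun a => Val.holF_ev (g1 a),
    (continuousAt_pi.2 fun a => Pj.holF_cont (g1 a)).eventually (c.open_target.mem_nhds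
      (g3.self_of_nhds.symm ▸ hc.mem_target : (fun a => g a (f x)) ∈ c.target)), h.cont.isClosedMap.eventually_nhds_fiber
      (p := fun y => (fun a => g a (f y)) = c y ∧ y ∈ c.source) (f x) fun y hy => h.inj hy ▸
        g3.and (c.open_source.mem_nhds hc.2)] with w a1 a2 a3
  refine ⟨fun e he => ?_, fun y hy => ?_⟩
  · refine ContDiffAt.comp (g := fun z => u (c.symm z)) (f := fun z a => g a (e.symm z)) (e w) ?_
      (contDiffAt_pi.2 fun a => (((a1 a e he).contDiffAt (n := ∞)).restrict_scalars ℝ))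
    have := hu _ c ⟨hc.1, c.map_target a2⟩
    rwa [c.right_inv a2, ← he.left_inv] at this
  · subst hy
    rw [(a3 y rfl).1, c.left_inv (a3 y rfl).2]

/-- smooth functions on disjoint compact submanifolds extend -/
theorem ext_all {J : Type} [Finite J] {N : J → Mf m} {X : Mf n} {f : ∀ i, (N i).M → X.M}
    (h : ∀ i, Sb m n (f i)) (hd : ∀ i i', i ≠ i' → Disjoint (range (f i)) (range (f i')))
    {u : ∀ i, (N i).M → ℝ} (hu : ∀ i y, SmR m (u i) y) :
    ∃ F : X.M → ℝ, (∀ w, SmR n F w) ∧ ∀ i y, F (f i y) = u i y := by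
  have hc : ∀ i, IsClosed (range (f i)) := fun i => (isCompact_range (h i).cont).isClosed
  have key : ∀ x, ∃ F : X.M → ℝ, ∀ᶠ w in 𝓝 x, SmR n F w ∧ ∀ i y, f i y = w → F w = u i y := by
    intro x
    by_cases hx : ∃ i y, f i y = x
    · obtain ⟨i, y, rfl⟩ := hx
      obtain ⟨F, hF⟩ := ext_loc (h i) (hu i) y
      refine ⟨F, ?_⟩
      filter_upwards [hF, eventually_all.2 fun i' : {i' // i' ≠ i} => (hc i').isOpen_compl.mem_nhds
        (disjoint_right.1 (hd _ _ i'.2) ⟨y, rfl⟩)] with w a b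
      refine ⟨a.1, fun i' y' e => ?_⟩
      obtain rfl : i' = i := by_contra fun k => b ⟨i', k⟩ ⟨y', e⟩
      exact a.2 y' e
    · refine ⟨fun _ => 0, ?_⟩
      filter_upwards [eventually_all.2 fun i => (hc i).isOpen_compl.mem_nhds
        fun k => hx ⟨i, k⟩] with w b using ⟨smR_const 0, fun i y e => absurd ⟨y, e⟩ (b i)⟩
  choose F hF using key
  choose U u1 u2 u3 using fun x => eventually_nhds_iff.1 (hF x)
  obtain ⟨χ, a1, a2, -, a3, a4⟩ := Van.exists_pou (d := n) U u2 fun x => ⟨x, u3 x⟩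
  refine ⟨fun w => ∑ᶠ a, χ a w • F a w, fun w e he => Van.contDiffAt_patch a1 a2 a3 he
    (F := fun a z => F a (e.symm z)) fun a ha => (u1 a w ha).1 e he, fun i y => ?_⟩
  rw [← one_smul ℝ (u i y), ← a4 (f i y), finsum_smul' (a3.point_finite _)]
  refine finsum_congr fun a => ?_
  by_cases k : χ a (f i y) = 0
  · rw [k, zero_smul, zero_smul]
  · rw [(u1 a _ (a2 a (subset_tsupport _ k))).2 i y rfl]

end Vt

open Vt in
/-- **VT** -/
theorem vt : StVt := by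
  intro X ι _ Λ ξ b O₁ y O t g Δ hO hc hξ h0 hD hk
  have := ChartedSpace.secondCountable_of_sigmaCompact (Cm 4) X.U.W
  have hp := X.hp
  obtain ⟨c1, c2⟩ := clsOn_lin hc hξ b
  have hF : ∀ w, X.p w = y → X.p w ∈ O₁ := fun w e => e ▸ mem_of_mem_nhds hO
  obtain ⟨χ, hχ⟩ := (lbn_of_on c1 (F := X.p ⁻¹' {y}) (mem_nhdsSet_iff_forall.2 fun w hw =>
    hp.1.continuousAt ((show X.p w = y from hw) ▸ hO))).exists_met
    (isClosed_singleton.preimage hp.1).isCompact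
  have hχ' := eventually_nhdsSet_iff_forall.1 hχ
  suffices h : ∀ k, ∃ u : X.U.W → ℝ, (∀ w, SmR 4 u w) ∧ ∀ z ∈ X.U.G k, X.p z = y →
      ∀ i ζ (e : Chart 4 X.U.W) v, z ∈ (lin Λ b).U i → LEq 4 (X.U.G k) z ζ → At e z →
        dd ζ e z v = 0 → dd (fun z => t (X.p z)) e z v = 0 →
        levi (fun w => u (e.symm w) - χ i (e.symm w)) (e z) v = 0 by
    choose u h1 h2 using h
    exact ⟨χ, u, hχ, fun k z a b => ⟨.of_forall (h1 k), h2 k z a b⟩⟩
  intro k
  by_cases hy : y ∈ X.p '' X.U.G k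
  swap
  · exact ⟨fun _ => 0, fun _ => smR_const 0, fun z a b => absurd ⟨z, a, b⟩ hy⟩
  have hr := (rng3 X.Q k).trans (hk k hy)
  obtain ⟨a1, a2⟩ := Fb.disc_eq hD.disc (hk k hy ▸ hy) hD.mem
  have hι := par_hol X.Q k
  obtain ⟨κ, -, h1⟩ := fib X.Y X.R.B 2 (X.Q.H k) _ (X.Q.conn k) (holY_comp hp hι)
    (dim3 X.Q X.hyp.dimU k) (hr ▸ X.nsub)
  obtain ⟨⟨J, _, N, j, h2⟩, -⟩ := h1 O t g Δ (hr ▸ hD.disc) _ a1 fun x e => hD.reg k x (e.trans a2)
  rw [a2] at h2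
  have h3 : ∀ a w, X.p (X.Q.ι k (j a w)) = y := fun a w => h2.rng.le (mem_iUnion.2 ⟨a, w, rfl⟩)
  have key : ∀ a, ∃ u : (N a).M → ℝ, ∀ x, SmR 2 u x ∧ ∀ i, X.Q.ι k (j a x) ∈ (lin Λ b).U i →
      ddc 2 u x = ddc 2 (fun x => χ i (X.Q.ι k (j a x))) x := fun a => by
    have hj := sb_holM (h2.emb a)
    have hf := holM_comp hι hj
    obtain ⟨β, hβ⟩ := Gx.cv_of_met (M := (N a).M) (L := pull (fun x => X.Q.ι k (j a x)) (lin Λ b))
      (lb_of_on (lbOn_pull hf c1) fun w => hF _ (h3 a w))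
      (ψ := fun i x => χ i (X.Q.ι k (j a x))) ⟨fun i e x he hi => smR_comp hf
        (u := χ i) ((hχ' _ (h3 a x)).self_of_nhds i hi).1 e he, fun i i' x hi =>
          ((hχ' _ (h3 a x)).self_of_nhds i hi).2 i'⟩
    obtain ⟨θ, b1, b2⟩ := c2 k 2 (N a) (j a) hj (fun w => hF _ (h3 a w)) _ β hβ
    beta_reduce at b2
    rw [h0, pb_zero, sub_zero] at b2
    have b3 := (stLam 2 (N a)).1 _ _ _ hβ
    obtain ⟨u, hu⟩ := (stHI.2.1 (N a) (h2.conn a) (res hj (X.C.A k + X.C.τ • X.C.o k)) ⟨β, b3⟩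
      (pd_pb (h2.emb a) (cfg_w3 stForm hp X.cfg k))
      (b2 ▸ int_dF_wd (d := 1) (N a) b1 (c_cl _))).2
      ((congrArg (fun γ => B2 (N a) γ β) b2).trans (int_dF_wd (d := 1) (N a) b1 b3.1))
    exact ⟨u, fun x => ⟨(hu x).1, fun i hi => (hu x).2.symm.trans (hβ.eq i x hi)⟩⟩
  choose u hu using key
  obtain ⟨u₃, b1, b2⟩ := ext_all h2.emb h2.disj fun a x => (hu a x).1
  obtain ⟨u₄, b3, b4⟩ := ext_all (J := Unit) (N := fun _ => X.Q.H k) (X := lgM X.U)
    (f := fun _ => X.Q.ι k) (fun _ => X.Q.emb k) (fun _ _ h => (h rfl).elim) fun _ => b1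
  refine ⟨u₄, b3, fun z hz hz' i ζ e v hi hζ he d1 d2 => ?_⟩
  obtain ⟨z₃, rfl⟩ := (X.Q.rng k).ge hz
  obtain ⟨a, x, rfl⟩ := mem_iUnion.1 (h2.rng.ge hz')
  have hj := sb_holM (h2.emb a)
  have e₃ := at_ch (d := 3) (j a x)
  have e₂ := at_ch (d := 2) x
  have ht := hp.2 _ t (hD.disc.hol _ (hz' ▸ hD.mem))
  obtain ⟨v₃, rfl⟩ := hyp_range (m := 3) ((X.Q.emb k).holo _ _ e e₃ he).2
    ((hζ.2 e he).2 (hζ.1.self_of_nhds.2 hz)) (fun w => (dd_comp hι e₃ he (hζ.2 e he).1 w).symm.trans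
      (dd_const e₃ ((hι.1.continuousAt.eventually hζ.1).mono fun w h =>
        h.2 ((X.Q.rng k).le ⟨w, rfl⟩)) w)) d1
  obtain ⟨v₂, rfl⟩ := hyp_range (m := 2) ((h2.emb a).holo _ _ _ e₂ e₃).2 (hD.reg k _ hz' _ e₃)
    (fun w => (dd_comp hj e₂ e₃ (g := fun z => t (X.p (X.Q.ι k z)))
      (holF_comp hι ht _ e₃) w).symm.trans
      (dd_const e₂ (.of_forall fun w => congrArg t (h3 a w)) w))
    ((dd_comp hι e₃ he (ht e he) v₃).trans d2)
  have s1 : ∀ᶠ w in 𝓝 (X.Q.ι k (j a x)), SmR 4 (χ i) w := by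
    filter_upwards [hχ' _ hz', (c1.isOpen i).mem_nhds hi] with w a b using (a i b).1
  have s2 := smR_sub (b3 _) s1.self_of_nhds
  have s3 : ∀ᶠ w in 𝓝 x, SmR 2 (fun x => χ i (X.Q.ι k (j a x))) w :=
    ((hι.1.comp hj.1).continuousAt.eventually s1).mono fun w h => smR_comp (holM_comp hι hj) h
  rw [← levi_comp hι e₃ he s2, ← levi_comp hj e₂ e₃ (u := fun w => u₄ (X.Q.ι k w) - χ i (X.Q.ι k w))
    (smR_comp hι s2)]
  simp only [b4 (), b2]
  have s4 := s3.mono fun w h => smR_sub (hu a w).1 h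
  refine Pos.RbAux.levi_of_flat ((s4.self_of_nhds _ e₂).of_le (WithTop.coe_le_coe.2 le_top)) ?_ _
  have s5 := Gd.mat_ddc s4
  have s6 := H38.mat_smul 0 (0 : Cm 2 [⋀^Fin 2]→L[ℝ] ℝ)
  rw [zero_smul] at s6
  rw [ddc_sub (.of_forall fun w => (hu a w).1) s3, (hu a x).2 i hi, sub_self, s6] at s5
  have s7 : (((4 * Real.pi)⁻¹ : ℝ) : ℂ) ≠ 0 := Complex.ofReal_ne_zero.2 (by positivity)
  exact (smul_eq_zero.1 (s5.symm.trans (by simp))).resolve_left s7

end Vale.Agent.P277Z.Cls
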