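import Vale.Agent.P277Z.Cls.NegsP
import Vale.Agent.P277Z.Cls.Vt
import Vale.Agent.P277Z.Cls.Mer
import Vale.Agent.P277Z.Cls.Carb
import Vale.Agent.P277Z.Cls.Api2

/-!
# P277, block CLS: comparison with all bundles of the same class
-/

set_option linter.all false
set_option maxSynthPendingDepth 3

open scoped Manifold ContDiff Topology
open Vale.Agent.P272.K Vale.Agent.P285.H281.FD Vale.Agent.P277 Set Filter
open Vale.Agent.P277.PH (SmR)
open Vale.Agent.P277Z.Tr (HolM)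
open Vale.Agent.P277Z.Slc (LEq lin)

noncomputable section

namespace Vale.Agent.P277Z.Cls.Ngs

variable {X : Ctx}

/-- both families -/
def two (Φ' Φ : X.Fam) : Fin X.q ⊕ Fin X.q → Bd X.U.W := Sum.elim Φ'.L Φ.L

theorem cls_mono {O O' : Set X.Y.pt} (h : O' ⊆ O) {Λ ξ} (k : X.ClsOn O Λ ξ) : X.ClsOn O' Λ ξ :=
  ⟨⟨k.1.isOpen, fun x a => k.1.cover x (h a), fun i j x a => k.1.holo i j x (h a),
    fun i j x a => k.1.ne_zero i j x (h a), fun i j l x a => k.1.cocycle i j l x (h a)⟩,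
    fun i d N j a b => k.2 i d N j a fun z => h (b z)⟩

theorem xi_single (j : Fin X.q) (n : ℤ) (k : Fin X.U.r) :
    X.ξ (Pi.single j n) k = (n : ℝ) • (X.x j k).1 := by
  rw [Ctx.ξ, Finset.sum_eq_single j (fun i _ a => by rw [Pi.single_eq_of_ne a, Int.cast_zero,
    zero_smul]) (fun a => (a (Finset.mem_univ _)).elim), Pi.single_eq_same]

theorem vt2 (Φ' Φ : X.Fam) {y : X.Y.pt} (h' : y ∈ Φ'.O) (h : y ∈ Φ.O) (hg : X.Gp y)
    {b b' : Fin X.q → ℤ} (e : Φ'.n • b + Φ.n • b' = 0) :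
    ∃ t, X.Y.Hol t y ∧ X.VT (lin (two Φ' Φ) (Sum.elim b b')) y t := by
  obtain ⟨O, t, g, Δ, hD⟩ := hg.dsc
  refine ⟨t, hD.disc.hol y hD.mem, vt X _ _ (Sum.elim (fun j => X.ξ (Pi.single j Φ'.n))
    fun j => X.ξ (Pi.single j Φ.n)) _ (Φ'.O ∩ Φ.O) y O t g Δ
    ((Φ'.isOpen.inter Φ.isOpen).mem_nhds ⟨h', h⟩) ?_ ?_ (fun k => ?_) hD hg.img⟩
  · rintro (j | j)
    exacts [cls_mono inter_subset_left (Φ'.cls j), cls_mono inter_subset_right (Φ.cls j)]
  · rintro (j | j) k <;> exact xi_mem _ k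
  · simp only [Fintype.sum_sum_type, Sum.elim_inl, Sum.elim_inr, xi_single, smul_smul,
      ← Finset.sum_add_distrib, ← add_smul]
    refine Finset.sum_eq_zero fun j _ => ?_
    have : (Φ'.n : ℤ) * b j + Φ.n * b' j = 0 := by simpa using congrFun e j
    rw [← Int.cast_mul, ← Int.cast_mul, ← Int.cast_add, mul_comm (b j), mul_comm (b' j), this,
      Int.cast_zero, zero_smul]

theorem gn_pole (h1 : StApi1) {L : Fin X.q → Bd X.V.W} {S : X.Sf L} (M : Md S) (c : Fin S.b → ℤ)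
    {m : Fin (M.R + 1)} {j : Ix L} {w : M.Z.W} (hm : w ∈ M.D m) (hj : In L j (M.Z.π w)) :
    Pole M.Z.G (exU X.ex) (A2.gn M c m j) w := by
  obtain ⟨ζ, hζ, -⟩ := M.Z.snc w
  choose o u k1 k2 k3 k4 using fun i => M.pm.mon m w hm i j ζ hj hζ
  refine (Cb.pole_of (o := fun l => ∑ i, o i l * c i) (h := fun x => ∏ i, u i x ^ c i) hζ
    (Hol.prod _ fun i _ => (k2 i).zpow (k3 i) _) ?_).1
  filter_upwards [eventually_all.2 k4, Cb.ne_of hζ, (M.pm.pm.isOpen m).eventually_mem hm]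
    with x a1 a2 a3 a4
  simp only [A2.gn, fun i => a1 i (mt (A2.ex_iff h1 a3).1 a4), mul_zpow, Finset.prod_mul_distrib]
  rw [Finset.prod_congr rfl fun l hl => Cb.zpow_sum Finset.univ (a2 l (Cb.not_mem a4 hl)) _,
    Finset.prod_comm]
  refine congrArg _ (Finset.prod_congr rfl fun i _ => ?_)
  rw [Cb.prod_ex (k1 i), ← Finset.prod_zpow]
  simp only [zpow_mul]

theorem inv {g a : ℂ} (hg : g ≠ 0) (x : ℝ) : ‖g * a‖ ^ 2 * Real.exp (-(x + Real.log (‖g‖ ^ 2))) =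
    ‖a‖ ^ 2 * Real.exp (-x) := by
  have : 0 < ‖g‖ ^ 2 := by positivity
  rw [neg_add, Real.exp_add, Real.exp_neg (Real.log _), Real.exp_log this, norm_mul, mul_pow]
  field_simp

end Vale.Agent.P277Z.Cls.Ngs

namespace Vale.Agent.P277Z.Cls

open Ngs Classical in
/-- **NEGS** -/
theorem stNegs (hL : StLoc) (hA : StApi1) : StNegs := by
  intro X Φ S M y hy hΦ hg hc Φ' b n c s hΦ' e hs w hw m j j' hm hj hj'
  obtain ⟨t, ht, hV⟩ := vt2 Φ' Φ hΦ' hΦ hg (b := n • b) (b' := ∑ i, (-c) i • S.a i) (by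
    simp only [Pi.neg_apply, neg_smul, Finset.sum_neg_distrib, smul_neg, ← e, smul_comm Φ'.n n,
      add_neg_cancel])
  let Λ := lin (two Φ' Φ) (Sum.elim (n • b) (∑ i, (-c) i • S.a i))
  obtain ⟨χ, ι, typ, u, hχ, h1, h2⟩ := Nk.ker (Λ := Λ) hL M hy hc ht hV
  obtain ⟨-, -, -, a4, a5, -⟩ := hA X _ S M
  have l1 := (lbv X Φ').2.1 y hΦ'
  have l2 := (lbv X Φ).2.1 y hΦ
  have hπ : HolM 4 4 M.Z.π := ⟨M.Z.bl.cont, fun x c e a b => analyticAt_pi_iff.2 fun i =>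
    M.Z.bl.hol x (fun z => e z i)
      (fun _ k => analyticAt_pi_iff.1 (PH.chg_analyticAt b k) i) c a⟩
  let F : Λ.ι → M.Z.W → ℂ := fun I v =>
    s (fun a => I (.inl a)) (M.Z.π v) ^ n * A2.gn M (-c) m (fun a => I (.inr a)) v
  let P : Λ.ι → M.Z.W → ℝ := fun I v => ‖F I v‖ ^ 2 * Real.exp (-χ I (X.μ (M.Z.π v)))
  let A : M.Z.W → ℝ := fun v => if h : ∃ I, X.μ (M.Z.π v) ∈ Λ.U I then P h.choose v else 0
  have key : ∀ x, M.b x = y → ∀ I, X.μ (M.Z.π x) ∈ Λ.U I → ∀ᶠ v in 𝓝 x,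
      SmR 4 (fun v => -χ I (X.μ (M.Z.π v))) v ∧ (M.Z.π v ∉ X.E → A v = P I v) := by
    intro x hx I hI
    have c1 := M.Z.bl.cont.continuousAt (x := x)
    have i1 : In Φ'.Lv (fun a => I (.inl a)) (M.Z.π x) := fun a => hI (.inl a)
    have i2 : In Φ.Lv (fun a => I (.inr a)) (M.Z.π x) := fun a => hI (.inr a)
    filter_upwards [c1.eventually (X.hyp.hol.1.continuousAt.eventually
      (eventually_nhdsSet_iff_forall.1 hχ _ ((X.hyp.fac _).trans hx))), c1.eventually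
      (eventually_nhdsSet_iff_forall.1 (hs.and ((un_near l1).and (un_near l2))) _ hx),
      c1.eventually ((in_near l1 i1).and (in_near l2 i2))] with v k1 k2 k3
    have k4 : X.μ (M.Z.π v) ∈ Λ.U I := fun a => Sum.rec k3.1 k3.2 a
    refine ⟨(Ngp.sm_comp hπ (Ngp.sm_comp X.hyp.hol (u := χ I) (k1 I k4).1)).neg, fun k5 => ?_⟩
    have k6 : ∃ I, X.μ (M.Z.π v) ∈ Λ.U I := ⟨I, k4⟩
    have k7 := k6.choose_spec
    simp only [A, dif_pos k6]
    generalize k6.choose = I' at k7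
    have k8 : F I' v = Λ.g I' I (X.μ (M.Z.π v)) * F I v := by
      simp only [F]
      rw [((k2.1 _ fun a => k7 (.inl a)).2 k5).2 _ k3.1,
        A2.gn_frame (fun a => k7 (.inr a)) k3.2 k5, mul_pow, mul_mul_mul_comm]
      have k9 : ∀ a, (n • b) a = b a * n := fun a => (nsmul_eq_mul' _ _)
      simp only [Λ, Slc.lin, Fintype.prod_sum_type, Sum.elim_inl, Sum.elim_inr, k9, zpow_mul,
        zpow_natCast, Finset.prod_pow]
      rfl
    simp only [P]
    rw [k8, (k1 I' k7).2 I k4]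
    refine inv (Finset.prod_ne_zero_iff.2 fun a _ => zpow_ne_zero _ ?_) _
    rcases a with a | a
    exacts [(k2.2.1 a _ _ (k7 (.inl a)) (k4 (.inl a))).2, (k2.2.2 a _ _ (k7 (.inr a)) (k4 (.inr a))).2]
  have fib : ∀ x ∈ M.D m, Fin.append (M.t x) (M.ν m x) = Fin.append (M.t w) (M.ν m w) →
      M.b x = y := fun x a k => (congrArg Subtype.val (M.model.emb.injective
    (a₁ := ⟨_, A2.b_mem a⟩) (a₂ := ⟨_, A2.b_mem hm⟩) (funext fun i => show M.t x i = M.t w i by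
      simpa only [Fin.append_left] using congrFun k (Fin.castAdd _ i)))).trans hw
  have h3 := Ng.core hL M.Z.W _ M.Z.G (exU X.ex) M.B M.τ M.c M.Λ _ (M.D m) _ _ _ A ι typ u M.Z.snc
    M.div M.c0 M.cpos (fun x a => M.pos x (A2.b_mem a)) (a4 m) ((a4 m).maps hm)
    (fun l _ x _ a _ => h1 l x a) (fun x a k => ?_) w hm rfl
  · let I : Λ.ι := fun a => Sum.rec j' j a
    have hI : X.μ (M.Z.π w) ∈ Λ.U I := fun a => Sum.rec hj' hj a
    have k1 := key w hw I hI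
    have k2 : OLe (Ex M.Z.G (exU X.ex)) (fun v => Real.exp (χ I (X.μ (M.Z.π v))) * A v + 1)
        (fun _ => 1) w := (h3.cmul (by simpa using (Ng.sm_cont k1.self_of_nhds.1).neg.rexp)
      fun v => by
        simp only [A, P]
        split_ifs <;> positivity).add (ole_cont continuousAt_const)
    obtain ⟨C, k3⟩ := k2
    refine ⟨C, ?_⟩
    filter_upwards [k1, k3, A2.nearD hm hj] with v b1 b2 b3 b4
    have b5 : s j' (M.Z.π v) ^ n = F I v * A2.gn M c m j v := by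
      simp only [F]
      rw [mul_assoc, ← A2.gn_add hA b3.1 b3.2 b4, neg_add_cancel]
      simp [A2.gn, I]
    have b6 := b2 (mt (A2.ex_iff hA b3.1).2 b4)
    simp only [b1.2 b4, P, mul_left_comm (Real.exp _), ← Real.exp_add, add_neg_cancel,
      Real.exp_zero, mul_one] at b6
    rw [← norm_pow, b5, norm_mul, A2.gn, norm_prod]
    simp only [norm_zpow]
    exact mul_le_mul_of_nonneg_right (le_trans (by nlinarith [norm_nonneg (F I v)]) b6)
      (by positivity)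
  · have hx := fib x a k
    obtain ⟨i', hi'⟩ := in_ex l1 (w := M.Z.π x) hx
    obtain ⟨i, hi⟩ := in_ex l2 (w := M.Z.π x) hx
    let I : Λ.ι := fun a => Sum.rec i' i a
    have hI : X.μ (M.Z.π x) ∈ Λ.U I := fun a => Sum.rec hi' hi a
    have k1 := mer_merF l1 (mer_pow l1 hs n) (w := M.Z.π x) hx hi'
    refine ⟨F I, fun v => -χ I (X.μ (M.Z.π v)),
      ⟨(a5 x _ (A2.b_mem a) k1.1).mul (gn_pole hA M _ a hi), ?_⟩, ?_, h2 m x a hx I hI⟩
    · filter_upwards [M.Z.bl.cont.continuousAt.eventually k1.2, A2.nearD a hi] with v b1 b2 b3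
      have b4 := mt (A2.ex_iff hA b2.1).1 b3
      exact (M.Z.bl.hol v _ (b1 b4)).mul (A2.gn_hol hA b2.1 b2.2 b4)
    · filter_upwards [key x hx I hI, (M.pm.pm.isOpen m).eventually_mem a] with v b1 b2
        using ⟨b1.1, fun b3 => b1.2 (mt (A2.ex_iff hA b2).1 b3)⟩

end Vale.Agent.P277Z.Cls
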