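import Vale.Agent.P277Z.Cls.Sk
import Vale.Agent.P277Z.Top.Irr
import Vale.Agent.P277Z.Top.Par
import Vale.Agent.P277Z.Top.Api
import Vale.Agent.P277Z.Top.Good
import Vale.Agent.P277Z.Val.Snc

/-!
# P277, block CLS: the old divisors
-/

set_option linter.all false
set_option maxSynthPendingDepth 3

open scoped Manifold ContDiff Topology
open Vale.Agent.P272.K Vale.Agent.P285.H281.FD Vale.Agent.P277 Set Filter
open Vale.Agent.P277Z.Top Vale.Agent.P277Z.Gd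

noncomputable section

namespace Vale.Agent.P277Z.Cls

theorem Ctx.img_of_near (X : Ctx) {k : Fin X.V.r} {z : X.V.W} (hz : z ∈ X.V.G k)
    (h : ∀ᶠ v in 𝓝 z, v ∈ X.V.G k → X.ψ v ∈ X.σ) (hn : X.ψ '' X.V.G k ≠ {X.ψ z}) :
    X.ψ '' X.V.G k = X.σ := by
  obtain ⟨P⟩ := stPar X.V
  have hE : (⋃ l ∈ (Finset.univ : Finset (Fin X.U.r)), X.U.G l) = X.U.E := by simp [Val.Lg.E]
  have hs : X.σ ⊆ X.p '' X.U.E := X.hσ ▸ image_mono (subset_iUnion X.U.G _)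
  have h1 : X.V.G k ⊆ X.ψ ⁻¹' (X.p '' X.U.E) := by
    refine Val.U.G_subset (fun v _ => ?_) hz (h.mono fun v a b => hs (a b))
    obtain ⟨m, g, a, b⟩ := (hE ▸ X.hyp.resU.an) (X.ψ v) trivial
    exact ⟨m, fun i v => g i (X.ψ v), fun i => X.hyp.res.hol v _ (a i),
      X.hyp.res.cont.continuousAt.eventually b⟩
  have r0 : range (fun x => X.p (X.Q.ι X.k₀ x)) = X.σ := by
    rw [← X.hσ, ← X.Q.rng, ← range_comp]; rfl
  have r1 : range (fun x => X.ψ (P.ι k x)) = X.ψ '' X.V.G k := by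
    rw [← P.rng, ← range_comp]; rfl
  have f0 := holY_comp (show HolY 4 X.Y X.p from ⟨X.hyp.resU.cont, X.hyp.resU.hol⟩)
    (par_hol X.Q X.k₀)
  have f1 := holY_comp (show HolY 4 X.Y X.ψ from ⟨X.hyp.res.cont, X.hyp.res.hol⟩) (par_hol P k)
  have d0 : DimLe X.Y 1 (range fun x => X.p (X.Q.ι X.k₀ x)) := r0 ▸ X.hyp.dimU.mono hs
  have d1 : DimLe X.Y 1 (range fun x => X.ψ (P.ι k x)) :=
    r1 ▸ X.hyp.dimU.mono (image_subset_iff.2 h1)
  have := P.conn k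
  have nc : ¬ ((range fun x => X.ψ (P.ι k x)) ∩ range fun x => X.p (X.Q.ι X.k₀ x)).Countable := by
    intro hc
    obtain ⟨x, rfl⟩ := (P.rng k).ge hz
    have := (Ir.conn_compl f1 (fun a => hn (r1 ▸ a.eq_singleton_of_mem ⟨x, rfl⟩)) hc).2 x
    obtain ⟨x', a, b⟩ := ((mem_closure_iff_frequently.1 this).and_eventually
      ((par_hol P k).1.continuousAt.eventually h)).exists
    exact a ⟨⟨x', rfl⟩, r0 ▸ b ((P.rng k).le ⟨x', rfl⟩)⟩
  rw [← r0, ← r1]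
  exact ((stIrr X.Y 3 _ _ this f1 d1).2.1 3 _ _ f0 d0 nc).antisymm
    ((stIrr X.Y 3 _ _ (X.Q.conn X.k₀) f0 d0).2.1 3 _ _ f1 d1 (inter_comm _ _ ▸ nc))

/-- **OLD** -/
theorem stOld (hL : StLoc) : StOld := by
  intro X L S M y O τ g Δ hG k w hw
  by_contra hn
  obtain ⟨v, ⟨a1, a2⟩, a3⟩ := ((((hL M.Z.W _ M.Z.G ∅ M.Z.snc).2.1 _ w hw.mem).and_eventually
    (eventually_eventually_nhdsWithin.2 hw.near)).and_eventually self_mem_nhdsWithin).exists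
  have b1 : M.Z.π v ∉ M.Dt.Z := fun h => ((M.Z.new v).1 h).elim fun l hl => a1 _ (by simp) hl
  obtain ⟨s, s1, s2, s3, -⟩ := M.Z.bl.sec v b1
  have b2 : ∀ᶠ z in 𝓝 (M.Z.π v), z ∈ X.V.G k → X.ψ z ∈ X.σ := by
    filter_upwards [s3, M.Z.bl.closed.isOpen_compl.mem_nhds b1,
      s1.tendsto.eventually (s2.symm ▸ eventually_nhdsWithin_iff.1 a2)] with z c1 c2 c3 hz
    have := c3 (M.Z.off k _ (c1.symm ▸ c2) (c1.symm ▸ hz))
    rwa [Md.b, c1] at this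
  refine hn (X.img_of_near (M.Z.old k v a3) b2 fun e => hG.pt k ?_)
  have : y ∈ X.ψ '' X.V.G k := ⟨_, M.Z.old k w hw.mem, hw.fib⟩
  rw [e] at this ⊢
  rw [this]

end Vale.Agent.P277Z.Cls
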