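import Vale.Agent.P277Z.Cls.Sk
import Vale.Agent.P277Z.Slc.Unit
import Vale.Agent.P277Z.Slc.Basic

/-!
# P277, block CLS: orders along a component
-/

open scoped Manifold ContDiff Topology
open Vale.Agent.P272.K Set Filter
open Vale.Agent.P277Z.Slc (LEq Snc)
open Vale.Agent.P277Z.Hir (Cpb)

set_option linter.unusedSectionVars false

noncomputable section

namespace Vale.Agent.P277Z.Cls

namespace Od

section cpb

variable {T : Type} {l : Filter T} {f g h a b : T → ℝ}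

theorem symm (h1 : Cpb l f g) : Cpb l g f :=
  let ⟨C, c, k⟩ := h1
  ⟨C, c, k.mono fun _ => And.symm⟩

theorem trans (h1 : Cpb l f g) (h2 : Cpb l g h) : Cpb l f h := by
  obtain ⟨C, c, k⟩ := h1
  obtain ⟨C', c', k'⟩ := h2
  refine ⟨C * C', mul_pos c c', ?_⟩
  filter_upwards [k, k'] with v m m'
  exact ⟨by nlinarith [mul_le_mul_of_nonneg_left m'.1 c.le],
    by nlinarith [mul_le_mul_of_nonneg_left m.2 c'.le]⟩

theorem congr (h1 : Cpb l f g) (e : ∀ᶠ v in l, f v = a v) (e' : ∀ᶠ v in l, g v = b v) : Cpb l a b :=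
  let ⟨C, c, k⟩ := h1
  ⟨C, c, by filter_upwards [k, e, e'] with v m m1 m2 using m1 ▸ m2 ▸ m⟩

theorem pos (h1 : Cpb l f g) (hg : ∀ᶠ v in l, 0 < g v) : ∀ᶠ v in l, 0 < f v := by
  obtain ⟨C, c, k⟩ := h1
  filter_upwards [k, hg] with v m m1 using pos_of_mul_pos_left' (m1.trans_le m.2) c
where pos_of_mul_pos_left' {x y : ℝ} (h : 0 < x * y) (c : 0 < x) : 0 < y :=
  (mul_pos_iff_of_pos_left c).1 h

theorem of_le {C C' : ℝ} (hf : ∀ᶠ v in l, 0 ≤ f v) (hg : ∀ᶠ v in l, 0 ≤ g v)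
    (h1 : ∀ᶠ v in l, f v ≤ C * g v) (h2 : ∀ᶠ v in l, g v ≤ C' * f v) : Cpb l f g := by
  refine ⟨|C| + |C'| + 1, by positivity, ?_⟩
  filter_upwards [hf, hg, h1, h2] with v m1 m2 m3 m4
  exact ⟨m3.trans (mul_le_mul_of_nonneg_right (by linarith [le_abs_self C, abs_nonneg C']) m2),
    m4.trans (mul_le_mul_of_nonneg_right (by linarith [le_abs_self C', abs_nonneg C]) m1)⟩

theorem mul (h1 : Cpb l f a) (h2 : Cpb l g b) (ha : ∀ᶠ v in l, 0 < a v) (hb : ∀ᶠ v in l, 0 < b v) :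
    Cpb l (fun v => f v * g v) fun v => a v * b v := by
  have hf := pos h1 ha
  have hg := pos h2 hb
  obtain ⟨C, c, k⟩ := h1
  obtain ⟨C', c', k'⟩ := h2
  refine ⟨C * C', mul_pos c c', ?_⟩
  filter_upwards [k, k', ha, hb, hf, hg] with v m m' p1 p2 p3 p4
  rw [mul_mul_mul_comm, mul_mul_mul_comm C C' (f v)]
  exact ⟨mul_le_mul m.1 m'.1 p4.le (by positivity), mul_le_mul m.2 m'.2 p2.le (by positivity)⟩

theorem zpow (h1 : Cpb l f a) (ha : ∀ᶠ v in l, 0 < a v) (c : ℤ) :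
    Cpb l (fun v => f v ^ c) fun v => a v ^ c := by
  have hf := pos h1 ha
  obtain ⟨C, p, k⟩ := h1
  have e : ∀ n : ℕ, ∀ᶠ v in l, f v ^ n ≤ C ^ n * a v ^ n ∧ a v ^ n ≤ C ^ n * f v ^ n := fun n => by
    filter_upwards [k, ha, hf] with v m p1 p2
    rw [← mul_pow, ← mul_pow]
    exact ⟨pow_le_pow_left₀ p2.le m.1 n, pow_le_pow_left₀ p1.le m.2 n⟩
  obtain ⟨n, rfl | rfl⟩ := c.eq_nat_or_neg
  · exact ⟨C ^ n, pow_pos p n, by simpa only [zpow_natCast] using e n⟩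
  · refine ⟨C ^ n, pow_pos p n, ?_⟩
    filter_upwards [e n, ha, hf] with v m p1 p2
    rw [zpow_neg, zpow_neg, zpow_natCast, zpow_natCast, ← div_eq_mul_inv, ← div_eq_mul_inv,
      le_div_iff₀ (pow_pos p1 n), le_div_iff₀ (pow_pos p2 n), inv_mul_le_iff₀ (pow_pos p2 n),
      inv_mul_le_iff₀ (pow_pos p1 n), mul_comm, mul_comm (a v ^ n)]
    exact m.symm

theorem unit {u : T → ℝ} {c : ℝ} (hu : Tendsto u l (𝓝 c)) (hc : 0 < c) (ha : ∀ v, 0 ≤ a v) :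
    Cpb l (fun v => u v * a v) a := by
  have h1 := hu.eventually (Ioo_mem_nhds (half_lt_self hc) (lt_add_one c))
  refine of_le (C := c + 1) (C' := 2 / c) (h1.mono fun v m => mul_nonneg
    ((half_pos hc).trans m.1).le (ha v)) (.of_forall ha)
    (h1.mono fun v m => mul_le_mul_of_nonneg_right m.2.le (ha v)) (h1.mono fun v m => ?_)
  rw [← mul_assoc]
  exact le_mul_of_one_le_left (ha v) (by
    rw [div_mul_eq_mul_div, le_div_iff₀ hc]
    linarith [m.1])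

end cpb

section gen

variable {W : Type} [TopologicalSpace W] {D : Set W} {z : W} {P : W → Prop}

theorem ff (h : ∃ᶠ x in 𝓝[D] z, ∃ᶠ y in 𝓝[D] x, P y) : ∃ᶠ y in 𝓝[D] z, P y :=
  fun k => h (eventually_eventually_nhdsWithin.2 k |>.mono fun _ a b => b a)

theorem nb (h : z ∈ D) : (𝓝[D] z).NeBot := mem_closure_iff_nhdsWithin_neBot.1 (subset_closure h)

/-- the general points of `D` near `z` -/
def gD (D : Set W) (z : W) : Filter W where
  sets := {T | ∀ᶠ x in 𝓝[D] z, ∃ᶠ y in 𝓝[D] x, T ∈ 𝓝[D] y}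
  univ_sets := eventually_mem_nhdsWithin.mono fun _ h =>
    haveI := nb h; (Eventually.of_forall fun _ => univ_mem).frequently
  sets_of_superset h k := Eventually.mono (f := 𝓝[D] z) (mem_ofPred.1 h) fun _ a =>
    a.mono fun _ b => mem_of_superset b k
  inter_sets h k := by
    filter_upwards [h, eventually_eventually_nhdsWithin.2 k] with x a b
    exact ff ((a.and_eventually b).mono fun y c => (c.2.and_eventually
      (eventually_eventually_nhdsWithin.2 c.1)).mono fun _ d => inter_mem d.2 d.1)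

theorem gD_iff : (∀ᶠ y in gD D z, P y) ↔
    ∀ᶠ x in 𝓝[D] z, ∃ᶠ y in 𝓝[D] x, ∀ᶠ w in 𝓝[D] y, P w := Iff.rfl

theorem gD_le : gD D z ≤ 𝓝[D] z := fun _ h => gD_iff.2 <| by
  filter_upwards [eventually_eventually_nhdsWithin.2 (eventually_eventually_nhdsWithin.2 h),
    self_mem_nhdsWithin] with x a b
  exact haveI := nb b; a.frequently

theorem gD_near (h : ∀ᶠ y in 𝓝 z, P y) : ∀ᶠ y in gD D z, P y := gD_le (nhdsWithin_le_nhds h)

theorem gD_mem : ∀ᶠ y in gD D z, y ∈ D := gD_le self_mem_nhdsWithin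

theorem gD_freq (h : ∀ᶠ y in gD D z, P y) : ∀ᶠ x in 𝓝[D] z, ∃ᶠ y in 𝓝[D] x, P y :=
  (gD_iff.1 h).mono fun _ a => (a.and_eventually self_mem_nhdsWithin).mono
    fun _ b => b.1.self_of_nhdsWithin b.2

theorem gD_of (h : ∀ᶠ x in 𝓝[D] z, ∃ᶠ y in 𝓝[D] x, P y) (ho : ∀ y, P y → ∀ᶠ w in 𝓝 y, P w) :
    ∀ᶠ y in gD D z, P y :=
  gD_iff.2 (h.mono fun _ a => a.mono fun y b => nhdsWithin_le_nhds (ho y b))

theorem gD_ex (hz : z ∈ D) (h : ∀ᶠ y in gD D z, P y) : ∃ y, P y :=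
  ((gD_freq h).self_of_nhdsWithin hz).exists

end gen

variable {W : Type} [TopologicalSpace W] [T2Space W] [SecondCountableTopology W]
  [ChartedSpace (Cm 4) W] [IsManifold 𝓘(ℂ, Cm 4) ω W] {D : Set W} {z : W} {f g : W → ℝ}
  {o o' : ℤ} {ζ ζ' : W → ℂ}

theorem zpos (h : LEq 4 D z ζ) : ∀ᶠ v in 𝓝[Dᶜ] z, 0 < ‖ζ v‖ := by
  filter_upwards [nhdsWithin_le_nhds h.1, self_mem_nhdsWithin] with v a b
  exact norm_pos_iff.2 (mt a.1 b)

theorem zpos' (h : LEq 4 D z ζ) (o : ℤ) : ∀ᶠ v in 𝓝[Dᶜ] z, 0 < ‖ζ v‖ ^ o :=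
  (zpos h).mono fun _ a => zpow_pos a o

theorem chg (h : LEq 4 D z ζ) (h' : LEq 4 D z ζ') (o : ℤ) :
    Cpb (𝓝[Dᶜ] z) (fun v => ‖ζ' v‖ ^ o) fun v => ‖ζ v‖ ^ o := by
  obtain ⟨u, h1, h2, h3⟩ := Slc.stUnit 4 W D z ζ ζ' h h'
  refine zpow (congr (unit (h1.continuousAt'.norm.mono_left nhdsWithin_le_nhds) (norm_pos_iff.2 h2)
    fun v => norm_nonneg (ζ v)) ?_ (.of_forall fun _ => rfl)) (zpos h) o
  filter_upwards [nhdsWithin_le_nhds h3] with v a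
  rw [a, norm_mul]

/-- the order at the general points, for all local equations -/
theorem ord_iff : Ord D f z o ↔ ∀ᶠ y in gD D z, (∃ ζ, LEq 4 D y ζ) ∧
    ∀ ζ, LEq 4 D y ζ → Cpb (𝓝[Dᶜ] y) f fun v => ‖ζ v‖ ^ o := by
  refine ⟨fun h => (gD_of h ?_).mono fun y ⟨ζ, a, b⟩ =>
    ⟨⟨ζ, a⟩, fun ζ' a' => trans b (chg a' a o)⟩,
    fun h => (gD_freq h).mono fun _ a => a.mono fun _ ⟨⟨ζ, b⟩, c⟩ => ⟨ζ, b, c ζ b⟩⟩
  rintro y ⟨ζ, a, C, b, c⟩
  filter_upwards [a.near, eventually_nhds_nhdsWithin.2 c] with w a' c' using ⟨ζ, a', C, b, c'⟩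

theorem ord_of (hζ : LEq 4 D z ζ)
    (h : ∀ᶠ y in gD D z, Cpb (𝓝[Dᶜ] y) f fun v => ‖ζ v‖ ^ o) : Ord D f z o :=
  (gD_freq (h.and (gD_near hζ.near))).mono fun _ a => a.mono fun _ b => ⟨ζ, b.2, b.1⟩

theorem nbc (h : LEq 4 D z ζ) : (𝓝[Dᶜ] z).NeBot := by
  refine mem_closure_iff_nhdsWithin_neBot.1 (mem_closure_iff_frequently.2 fun k => ?_)
  have h1 : ∀ᶠ v in 𝓝 z, ζ v = 0 := (h.1.and k).mono fun _ a => a.1.2 (not_not.1 a.2)
  have he := Slc.at_chartAt (n := 4) z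
  exact (h.2 _ he).2 h1.self_of_nhds ((EventuallyEq.fderiv_eq (f := fun _ => (0 : ℂ))
    ((Slc.tendsto_symm he).eventually h1)).trans (by simp))

theorem tend0 (h : LEq 4 D z ζ) (hz : z ∈ D) : Tendsto (fun v => ‖ζ v‖) (𝓝[Dᶜ] z) (𝓝 0) := by
  simpa only [h.mem.2 hz, norm_zero] using
    h.hol.continuousAt'.norm.tendsto.mono_left (nhdsWithin_le_nhds (s := Dᶜ))

theorem le_of (h : LEq 4 D z ζ) (hz : z ∈ D) {C : ℝ}
    (e : ∀ᶠ v in 𝓝[Dᶜ] z, ‖ζ v‖ ^ o ≤ C * ‖ζ v‖ ^ o') : o' ≤ o := by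
  by_contra c
  obtain ⟨n, rfl⟩ : ∃ n : ℕ, o' = o + (n + 1 : ℕ) := ⟨(o' - o - 1).toNat, by omega⟩
  have h1 : Tendsto (fun v => C * ‖ζ v‖ ^ (n + 1)) (𝓝[Dᶜ] z) (𝓝 0) := by
    simpa using ((tend0 h hz).pow (n + 1)).const_mul C
  have := nbc h
  obtain ⟨v, k1, k2, k3⟩ := (e.and ((zpos h).and (h1.eventually (gt_mem_nhds one_pos)))).exists
  rw [zpow_add₀ k2.ne', zpow_natCast, mul_left_comm] at k1
  exact absurd (mul_lt_of_lt_one_right (zpow_pos k2 o) k3) (not_lt.2 k1)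

variable {κ : Type} [Fintype κ] {G : κ → Set W} {ex : Finset κ} {k : κ}

theorem alone (hL : StLoc) (hG : Snc 4 G) : ∀ᶠ y in gD (G k) z, ∀ l, l ≠ k → y ∉ G l :=
  gD_of (eventually_mem_nhdsWithin.mono ((hL W κ G ∅ hG).2.1 k)) fun y a =>
    eventually_all.2 fun l => eventually_imp_distrib_left.2 fun b =>
      ((hG y).choose_spec.1 l).not_mem_near (a l b)

theorem off (hL : StLoc) (hG : Snc 4 G) {P : W → Prop} (h : ∀ᶠ v in 𝓝 z, v ∉ Ex G ex → P v) :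
    ∀ᶠ y in gD (G k) z, ∀ᶠ v in 𝓝[(G k)ᶜ] y, P v := by
  filter_upwards [alone hL hG, gD_near h.eventually_nhds] with y a b
  filter_upwards [nhdsWithin_le_nhds b, self_mem_nhdsWithin, nhdsWithin_le_nhds
    (eventually_all.2 fun l => eventually_imp_distrib_left.2 fun c =>
      ((hG y).choose_spec.1 l).not_mem_near (a l c))] with v c d e
  refine c fun m => ?_
  obtain ⟨l, -, m⟩ := mem_iUnion₂.1 m
  by_cases q : l = k
  · exact d (q ▸ m)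
  · exact e l q m

end Od

open Od

variable {W : Type} [TopologicalSpace W] [T2Space W] [SecondCountableTopology W]
  [ChartedSpace (Cm 4) W] [IsManifold 𝓘(ℂ, Cm 4) ω W] {D : Set W} {z : W} {f g : W → ℝ}
  {o o' : ℤ}

theorem Ord.near (h : Ord D f z o) : ∀ᶠ z' in 𝓝[D] z, Ord D f z' o :=
  eventually_eventually_nhdsWithin.2 h

theorem Ord.mul (h : Ord D f z o) (h' : Ord D g z o') : Ord D (fun v => f v * g v) z (o + o') := by
  refine ord_iff.2 ?_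
  filter_upwards [ord_iff.1 h, ord_iff.1 h'] with y a b
  exact ⟨a.1, fun ζ c => Od.congr (Od.mul (a.2 ζ c) (b.2 ζ c) (zpos' c o) (zpos' c o'))
    (.of_forall fun _ => rfl) ((zpos c).mono fun _ d => (zpow_add₀ d.ne' o o').symm)⟩

theorem Ord.zpow (h : Ord D f z o) (c : ℤ) : Ord D (fun v => f v ^ c) z (c * o) :=
  ord_iff.2 ((ord_iff.1 h).mono fun _ a => ⟨a.1, fun ζ b =>
    Od.congr (Od.zpow (a.2 ζ b) (zpos' b o) c) (.of_forall fun _ => rfl)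
      (.of_forall fun _ => by rw [mul_comm, zpow_mul])⟩)

theorem Ord.pow (h : Ord D f z o) (c : ℕ) : Ord D (fun v => f v ^ c) z (c * o) := by
  simpa only [zpow_natCast] using h.zpow c

theorem ord_one (h : ∀ y, ∃ ζ, LEq 4 D y ζ) (z : W) : Ord D (fun _ => 1) z 0 :=
  ord_iff.2 (.of_forall fun y => ⟨h y, fun _ _ => ⟨1, one_pos, .of_forall fun _ => by simp⟩⟩)

theorem Ord.prod (h : ∀ y, ∃ ζ, LEq 4 D y ζ) {ι : Type} {s : Finset ι} {f : ι → W → ℝ} {o : ι → ℤ}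
    (hf : ∀ i ∈ s, Ord D (f i) z (o i)) : Ord D (fun v => ∏ i ∈ s, f i v) z (∑ i ∈ s, o i) := by
  induction s using Finset.cons_induction with
  | empty => exact ord_one h z
  | cons i s hi ih =>
    simpa only [Finset.prod_cons, Finset.sum_cons] using (hf i (Finset.mem_cons_self ..)).mul
      (ih fun j hj => hf j (Finset.mem_cons_of_mem hj))

theorem Ord.unique (hz : z ∈ D) (h : Ord D f z o) (h' : Ord D f z o') : o = o' := by
  obtain ⟨y, ⟨⟨ζ, a⟩, b⟩, c, d⟩ := gD_ex hz ((ord_iff.1 h).and ((ord_iff.1 h').and gD_mem))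
  obtain ⟨C, -, e⟩ := trans (symm (b ζ a)) (c.2 ζ a)
  exact le_antisymm (le_of a d (e.mono fun _ m => m.2)) (le_of a d (e.mono fun _ m => m.1))

variable {κ : Type} [Fintype κ] {G : κ → Set W} {ex : Finset κ} {k : κ}

theorem Ord.congr (hL : StLoc) (hG : Snc 4 G) (h : Ord (G k) f z o)
    (e : ∀ᶠ v in 𝓝 z, v ∉ Ex G ex → f v = g v) : Ord (G k) g z o := by
  refine ord_iff.2 ?_
  filter_upwards [ord_iff.1 h, off hL hG e] with y a b
  exact ⟨a.1, fun ζ c => Od.congr (a.2 ζ c) b (.of_forall fun _ => rfl)⟩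

theorem Ord.le (hL : StLoc) (hG : Snc 4 G) (hz : z ∈ G k) (h : Ord (G k) f z o)
    (h' : Ord (G k) g z o') (e : OLe (Ex G ex) f g z) : o' ≤ o := by
  obtain ⟨C, e⟩ := e
  obtain ⟨y, ⟨⟨ζ, a⟩, b⟩, c, d, e⟩ :=
    gD_ex hz ((ord_iff.1 h).and ((ord_iff.1 h').and (gD_mem.and (off hL hG e))))
  have p := pos (c.2 ζ a) (zpos' a o')
  obtain ⟨C₁, p1, q1⟩ := b ζ a
  obtain ⟨C₂, p2, q2⟩ := c.2 ζ a
  refine le_of a d (C := C₁ * (|C| * C₂)) ?_
  filter_upwards [e, p, q1, q2] with v m1 m2 m3 m4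
  rw [mul_assoc, mul_assoc]
  exact m3.2.trans (mul_le_mul_of_nonneg_left (m1.trans
    (mul_le_mul (le_abs_self C) m4.1 m2.le (abs_nonneg C))) p1.le)

theorem Ord.of_le (hL : StLoc) (hG : Snc 4 G) (h : Ord (G k) f z o) (hg : ∀ v, 0 ≤ g v)
    (e : OLe (Ex G ex) f g z) (e' : OLe (Ex G ex) g f z) : Ord (G k) g z o := by
  obtain ⟨C, e⟩ := e
  obtain ⟨C', e'⟩ := e'
  refine ord_iff.2 ?_
  filter_upwards [ord_iff.1 h, off hL hG e, off hL hG e'] with y a b c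
  exact ⟨a.1, fun ζ d => trans (Od.of_le (.of_forall hg)
    ((pos (a.2 ζ d) (zpos' d o)).mono fun _ => le_of_lt) c b) (a.2 ζ d)⟩

/-- a unit times a monomial -/
theorem ord_mono (hL : StLoc) (hG : Snc 4 G) {f g : W → ℂ} {ζ : κ → W → ℂ} {o : κ → ℤ}
    (hζ : ∀ l, LEq 4 (G l) z (ζ l)) (hg : Hol 4 g z)
    (e : ∀ᶠ v in 𝓝 z, v ∉ Ex G ex → f v = g v * ∏ l, ζ l v ^ o l)
    (h0 : ∀ᶠ v in 𝓝[G k] z, ∃ᶠ v' in 𝓝[G k] v, g v' ≠ 0) :
    Ord (G k) (fun v => ‖f v‖) z (o k) := by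
  classical
  refine ord_of (hζ k) ?_
  have h1 : ∀ᶠ y in gD (G k) z, Hol 4 g y ∧ g y ≠ 0 := by
    refine gD_of ?_ fun y a => a.1.near.and (a.1.continuousAt'.eventually_ne a.2)
    filter_upwards [h0, nhdsWithin_le_nhds hg.near.eventually_nhds] with x a b
    exact Eventually.and_frequently (nhdsWithin_le_nhds b) a
  filter_upwards [h1, alone hL hG, off hL hG e, gD_near (eventually_all.2 fun l => (hζ l).near)]
    with y a b c d
  have h2 : ∀ l ∈ Finset.univ.erase k, ζ l y ≠ 0 := fun l hl =>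
    mt (d l).mem.1 (b l (Finset.ne_of_mem_erase hl))
  have h3 : ContinuousAt (fun v => ‖g v * ∏ l ∈ Finset.univ.erase k, ζ l v ^ o l‖) y :=
    (a.1.continuousAt'.mul (tendsto_finsetProd _ fun l hl =>
      (d l).hol.continuousAt'.zpow₀ _ (.inl (h2 l hl)))).norm
  refine Od.congr (unit (h3.mono_left nhdsWithin_le_nhds) (norm_pos_iff.2 (mul_ne_zero a.2
    (Finset.prod_ne_zero_iff.2 fun l hl => zpow_ne_zero _ (h2 l hl))))
    fun v => zpow_nonneg (norm_nonneg (ζ k v)) (o k)) (c.mono fun v m => ?_)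
    (.of_forall fun _ => rfl)
  rw [m, ← Finset.prod_erase_mul _ _ (Finset.mem_univ k), ← mul_assoc, norm_mul _ (_ ^ _),
    norm_zpow]

theorem ord_sum (hL : StLoc) (hG : Snc 4 G) (hk : k ∈ ex) {ι : Type} [Fintype ι] {f : ι → W → ℂ}
    (hf : ∀ m, MerF G ex (f m) z) (h0 : ∃ᶠ v in 𝓝 z, v ∉ Ex G ex ∧ ∃ m, f m v ≠ 0) :
    ∃ o, Ord (G k) (fun v => ∑ m, ‖f m v‖) z o ∧ ∃ m, Ord (G k) (fun v => ‖f m v‖) z o := by
  classical
  obtain ⟨ζ, hζ, -⟩ := hG z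
  have h1 : ∀ m, ∃ o, (∃ᶠ v in 𝓝 z, v ∉ Ex G ex ∧ f m v ≠ 0) →
      Ord (G k) (fun v => ‖f m v‖) z o := fun m => by
    by_cases c : ∃ᶠ v in 𝓝 z, v ∉ Ex G ex ∧ f m v ≠ 0
    · obtain ⟨o, g, -, a, b, d, -⟩ := (hL W κ G ex hG).2.2.2.1 _ z ζ (hf m) hζ c
      exact ⟨o k, fun _ => ord_mono hL hG hζ a b (d k hk)⟩
    · exact ⟨0, fun a => absurd a c⟩
  choose o ho using h1
  obtain ⟨m₀, a, b⟩ := (Finset.univ.filter fun m =>
      ∃ᶠ v in 𝓝 z, v ∉ Ex G ex ∧ f m v ≠ 0).exists_min_image o (by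
    by_contra c
    refine h0 ((eventually_all.2 fun m => not_frequently.1 fun d => c ⟨m, by simpa using d⟩).mono
      fun v d e => ?_)
    obtain ⟨e, m, e'⟩ := e
    exact d m ⟨e, e'⟩)
  have h2 := ho m₀ (Finset.mem_filter.1 a).2
  refine ⟨o m₀, ord_of (hζ k) ?_, m₀, h2⟩
  have h3 : ∀ m, ∀ᶠ y in gD (G k) z, ∃ C : ℝ, ∀ᶠ v in 𝓝[(G k)ᶜ] y,
      ‖f m v‖ ≤ C * ‖ζ k v‖ ^ o m₀ := fun m => by
    by_cases c : ∃ᶠ v in 𝓝 z, v ∉ Ex G ex ∧ f m v ≠ 0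
    · filter_upwards [ord_iff.1 (ho m c), gD_near (hζ k).near, gD_mem] with y d e e'
      obtain ⟨C, p, q⟩ := d.2 _ e
      refine ⟨C, ?_⟩
      filter_upwards [q, zpos e, (tend0 e e').eventually (ge_mem_nhds one_pos)] with v m1 m2 m3
      exact m1.1.trans (mul_le_mul_of_nonneg_left (zpow_le_zpow_right_of_le_one₀ m2 m3
        (b m (Finset.mem_filter.2 ⟨Finset.mem_univ m, c⟩))) p.le)
    · refine (off hL hG (P := fun v => f m v = 0) ((not_frequently.1 c).mono fun v d e =>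
        not_not.1 fun e' => d ⟨e, e'⟩)).mono fun y d => ⟨0, d.mono fun v e => ?_⟩
      rw [e, norm_zero, zero_mul]
  filter_upwards [eventually_all.2 h3, ord_iff.1 h2, gD_near (hζ k).near] with y c d e
  choose C hC using c
  obtain ⟨C', p, q⟩ := d.2 _ e
  refine Od.of_le (C := ∑ m, C m) (C' := C')
    (.of_forall fun v => Finset.sum_nonneg fun _ _ => norm_nonneg _)
    (.of_forall fun v => zpow_nonneg (norm_nonneg _) _)
    ((eventually_all.2 hC).mono fun v m => ?_) (q.mono fun v m => m.2.trans ?_)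
  · rw [Finset.sum_mul]
    exact Finset.sum_le_sum fun i _ => m i
  · exact mul_le_mul_of_nonneg_left (Finset.single_le_sum (f := fun m => ‖f m v‖)
      (fun _ _ => norm_nonneg _) (Finset.mem_univ m₀)) p.le

/-- **ORD** -/
theorem stOrd (hL : StLoc) : StOrd := fun _ _ _ _ _ _ _ _ _ _ k hG hk z hz =>
  ⟨fun _ _ _ _ a b => a.le hL hG hz b, fun _ _ => Ord.near, fun _ _ _ a => a.of_le hL hG,
    fun _ _ _ _ => Ord.mul, fun _ _ c a => a.zpow c,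
    ord_one (fun y => ⟨_, (hG y).choose_spec.1 k⟩) z, fun _ _ => ord_sum hL hG hk⟩

end Vale.Agent.P277Z.Cls
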