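import Vale.Agent.P277Z.Cls.Sk
import Vale.Agent.P277Z.Val.Fin
import Vale.Agent.P277Z.Luf.Hol

/-!
# P277, block CLS: the map to the projective space of a local model (PMD)
-/

set_option linter.all false

open scoped Topology
open Vale.Agent.P272.K Vale.Agent.P285.H281.FD Set Filter
open Vale.Agent.P277Z.Val (Lg)
open Vale.Agent.P277Z.Slc (LEq)
open Vale.Agent.P277Z.Pj (PMap)

noncomputable section

namespace Vale.Agent.P277Z.Cls

namespace PmdH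

variable {V : Lg} {D : Hl.Dat 4 V.W} {F : Set V.W} (Z : Rz V D F) {m l k : D.κ} {w : Z.W}

/-- `f l = a f m` at `w` -/
def Rel (m l : D.κ) (a : ℂ) (w : Z.W) : Prop :=
  ∀ γ, Z.π w ∈ D.U γ → D.f γ l (Z.π w) = a * D.f γ m (Z.π w)

/-- `c` is the quotient near `w` -/
def Qt (m l : D.κ) (c : Z.W → ℂ) (w : Z.W) : Prop :=
  Hol 4 c w ∧ ∀ᶠ w' in 𝓝 w, Rel Z m l (c w') w'

/-- the points where `f m` generates -/
def Dm (m : D.κ) : Set Z.W := {w | ∀ l, ∃ c, Qt Z m l c w}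

open Classical in
/-- the value of the quotient -/
def nu (m : D.κ) (w : Z.W) (l : D.κ) : ℂ := if h : ∃ c, Qt Z m l c w then h.choose w else 0

theorem memO (w : Z.W) : Z.π w ∈ D.O := Z.le (Z.bl.maps w)

theorem exU' (w : Z.W) : ∃ γ, Z.π w ∈ D.U γ := (D.nz _ (memO Z w)).imp fun _ h => h.elim fun _ h => h.1

variable {Z}

theorem rel_of {γ : D.Γ} {a : ℂ} (h : Z.π w ∈ D.U γ)
    (e : D.f γ l (Z.π w) = a * D.f γ m (Z.π w)) : Rel Z m l a w := fun γ' h' => by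
  obtain ⟨g, -, -, k⟩ := D.chg γ' γ _ (memO Z w) h' h
  rw [k.self_of_nhds l, k.self_of_nhds m, e, mul_left_comm]

theorem Qt.near {c : Z.W → ℂ} (h : Qt Z m l c w) : ∀ᶠ w' in 𝓝 w, Qt Z m l c w' :=
  h.1.near.and h.2.eventually_nhds

theorem dm_near (h : w ∈ Dm Z m) : ∀ᶠ w' in 𝓝 w, w' ∈ Dm Z m :=
  eventually_all.2 fun l => (h l).elim fun c k => k.near.mono fun _ k => ⟨c, k⟩

theorem ne_of (h : w ∈ Dm Z m) (hz : Z.π w ∉ D.Z) {γ : D.Γ} (hγ : Z.π w ∈ D.U γ) :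
    D.f γ m (Z.π w) ≠ 0 := fun e => hz ((D.mem_Z (memO Z w) hγ).2 fun l =>
  (h l).elim fun c k => by rw [k.2.self_of_nhds γ hγ, e, mul_zero])

theorem freq (w : Z.W) : ∃ᶠ w' in 𝓝 w, Z.π w' ∉ D.Z := mem_closure_iff_frequently.1 (Z.bl.dense w)

theorem uniq (h : w ∈ Dm Z m) {a b : Z.W → ℂ} (ha : Qt Z m l a w) (hb : Qt Z m l b w) :
    a w = b w := by
  refine tendsto_nhds_unique_of_frequently_eq ha.1.cont hb.1.cont
    (((freq w).and_eventually ((dm_near h).and (ha.2.and hb.2))).mono fun v k => ?_)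
  obtain ⟨γ, hγ⟩ := exU' Z v
  exact mul_right_cancel₀ (ne_of k.2.1 k.1 hγ) ((k.2.2.1 γ hγ).symm.trans (k.2.2.2 γ hγ))

theorem nu_eq (h : w ∈ Dm Z m) {c : Z.W → ℂ} (hc : Qt Z m l c w) : nu Z m w l = c w := by
  rw [nu, dif_pos ⟨c, hc⟩]
  exact uniq h (Exists.choose_spec (⟨c, hc⟩ : ∃ c, Qt Z m l c w)) hc

theorem qt_nu (h : w ∈ Dm Z m) (l : D.κ) : Qt Z m l (fun v => nu Z m v l) w := by
  obtain ⟨c, hc⟩ := h l
  have e : ∀ᶠ v in 𝓝 w, c v = nu Z m v l := by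
    filter_upwards [dm_near h, hc.near] with v a b using (nu_eq a b).symm
  refine ⟨hc.1.congr e, ?_⟩
  filter_upwards [e, hc.2] with v a b using a ▸ b

theorem qt_one (m : D.κ) (w : Z.W) : Qt Z m m (fun _ => 1) w :=
  ⟨hol_const 1 w, .of_forall fun _ _ _ => (one_mul _).symm⟩

theorem Qt.mul {a b : Z.W → ℂ} (ha : Qt Z m l a w) (hb : Qt Z l k b w) :
    Qt Z m k (fun v => a v * b v) w :=
  ⟨ha.1.mul hb.1, by
    filter_upwards [ha.2, hb.2] with v c d γ hγ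
    rw [d γ hγ, c γ hγ, mul_left_comm, mul_assoc]⟩

theorem nu_mul (h : w ∈ Dm Z m) (h' : w ∈ Dm Z l) (k : D.κ) :
    nu Z m w k = nu Z m w l * nu Z l w k := nu_eq h ((qt_nu h l).mul (qt_nu h' k))

theorem nu_one (h : w ∈ Dm Z m) : nu Z m w m = 1 := nu_eq h (qt_one m w)

theorem mem_iff (h : w ∈ Dm Z m) : w ∈ Dm Z l ↔ nu Z m w l ≠ 0 := by
  refine ⟨fun h' e => ?_, fun e k => ⟨_, Qt.mul (l := m) (a := fun v => (nu Z m v l)⁻¹)
    ⟨(qt_nu h l).1.inv e, ?_⟩ (qt_nu h k)⟩⟩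
  · simpa [nu_one h, e] using nu_mul h h' m
  · filter_upwards [(qt_nu h l).2, (qt_nu h l).1.ne_near e] with v a b γ hγ
    rw [a γ hγ, inv_mul_cancel_left₀ b]

theorem cover (w : Z.W) : ∃ m, w ∈ Dm Z m := by
  obtain ⟨γ, hγ⟩ := exU' Z w
  obtain ⟨m, h⟩ := Z.prin w γ hγ
  refine ⟨m, fun l => (h l).imp fun c k => ⟨k.1, ?_⟩⟩
  filter_upwards [k.2, Z.bl.cont.continuousAt.eventually_mem ((D.opn γ).mem_nhds hγ)] with v a b
    using rel_of b a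

theorem ex_iff : w ∉ Ex Z.G (exU ∅) ↔ Z.π w ∉ D.Z := by
  simp [Z.new, Ex, exU]

end PmdH

open PmdH in
/-- **PMD** -/
theorem stPmd (hL : StLoc) : StPmd := by
  intro X L S D e F Z R eqv hM
  refine ⟨fun m => Dm Z (e (eqv m)), fun m w l => nu Z (e (eqv m)) w (e (eqv l)),
    ⟨fun m => isOpen_iff_mem_nhds.2 fun w => dm_near, fun w => ⟨fun _ => ?_, fun _ => trivial⟩,
      fun m w h l => (qt_nu h _).1, fun m w => nu_one, fun m l w => mem_iff,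
      fun m l w h h' => funext fun k => nu_mul h h' _⟩, fun m w h hE l j hj => ?_,
    fun m w h i j ζ' hj hζ' => ?_⟩
  · obtain ⟨m, h⟩ := cover w
    exact ⟨eqv.symm (e.symm m), by simpa using h⟩
  · obtain ⟨γ, hγ, h1⟩ := hM.loc _ (memO Z w)
    obtain ⟨ζ, hζ⟩ := X.V.exEq (Z.π w)
    obtain ⟨o, f, v, -, -, -, h2, h3⟩ := h1 j ζ hj hζ
    obtain ⟨h3, h4⟩ := h3.self_of_nhds
    have h5 := (qt_nu h (e (eqv l))).2.self_of_nhds γ hγ
    rw [h3, h3, mul_left_comm] at h5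
    simp only [h4 hE, Finset.prod_mul_distrib, mul_left_cancel₀ h2 h5, mul_assoc]
  obtain ⟨γ, hγ, h1⟩ := hM.loc _ (memO Z w)
  obtain ⟨ζ, hζ⟩ := X.V.exEq (Z.π w)
  obtain ⟨o, f, v, o0, hf, -, -, h3⟩ := h1 j ζ hj hζ
  have hc := Z.bl.cont.continuousAt (x := w)
  replace h3 := hc.eventually h3
  have h4 := Z.bl.hol w _ (hf i (eqv m i))
  have h5 : ∀ᶠ w' in 𝓝 w, w' ∉ Ex Z.G (exU ∅) → f i (eqv m i) (Z.π w') ≠ 0 := by
    filter_upwards [h3, dm_near h, hc.eventually_mem ((D.opn γ).mem_nhds hγ)] with w' a b c d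
    have := ne_of b (ex_iff.1 d) c
    rw [a.1] at this
    exact Finset.prod_ne_zero_iff.1 (right_ne_zero_of_mul this) i (Finset.mem_univ i)
  obtain ⟨C, hC⟩ := h4.cont.norm.isBoundedUnder_le
  obtain ⟨o', g, p0, hg, h6, -, h7⟩ := (hL Z.W _ Z.G (exU ∅) Z.snc).2.2.2.1 _ w ζ'
    ⟨⟨ζ', 0, hζ', C, (eventually_map.1 hC).mono fun _ a _ => by simpa using a⟩,
      h4.near.mono fun _ a _ => a⟩ hζ'
    (((freq w).and_eventually h5).mono fun _ a => ⟨ex_iff.2 a.1, a.2 (ex_iff.2 a.1)⟩)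
  choose u u1 u2 u3 using Z.tot w ζ ζ' hζ hζ'
  refine ⟨Sum.elim (o i) fun l => o' (.inr l) + ∑ k, Z.mo k l * o i k,
    fun w' => g w' * ∏ k, u k w' ^ o i k, ?_,
    hg.mul (Hol.prod _ fun k _ => (u1 k).zpow (u2 k) _), mul_ne_zero (h7 h5)
      (Finset.prod_ne_zero_iff.2 fun k _ => zpow_ne_zero _ (u2 k)), ?_⟩
  · rintro (k | l) hl
    · exact o0 i k (by simpa [exU] using hl)
    · simp [exU] at hl
  filter_upwards [h3, h6, eventually_all.2 u3, eventually_all.2 fun l => (hζ' (.inr l)).1]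
    with w' a b c d hE
  have h8 : Z.π w' ∉ D.Z := fun k => hE (hM.sub _ (memO Z w') k)
  have h9 : ∀ l, ζ' (.inr l) w' ≠ 0 := fun l k => h8 ((Z.new w').2 ⟨l, (d l).1 k⟩)
  have h10 : ∀ (s : Finset (Fin X.V.r)) (l) (t : Fin X.V.r → ℤ),
      ζ' (.inr l) w' ^ ∑ k ∈ s, t k = ∏ k ∈ s, ζ' (.inr l) w' ^ t k := fun s l t => by
    induction s using Finset.induction_on with
    | empty => simp
    | insert k s hk ih => rw [Finset.sum_insert hk, Finset.prod_insert hk, zpow_add₀ (h9 l), ih]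
  rw [a.2 hE, b (ex_iff.2 h8)]
  simp only [c, Fintype.prod_sum_type, Sum.elim_inl, Sum.elim_inr, zpow_add₀ (h9 _), h10, mul_zpow,
    ← Finset.prod_zpow, Finset.prod_mul_distrib, zpow_mul, zpow_natCast,
    fun k => p0 (.inl k) (by simp [exU]), zpow_zero, Finset.prod_const_one]
  rw [Finset.prod_comm]
  ring

end Vale.Agent.P277Z.Cls
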