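import Vale.Agent.P277Z.Ps.Opn
import Vale.Agent.P277Z.Pos.All
import Vale.Agent.P277Z.Pj.Sk
import Vale.Agent.P277Z.Pj.Imm
import Vale.Agent.P277Z.Brg.Defs

/-!
# P277, block CLS: the embedding theorem near a fibre, in any dimension
-/

open scoped Manifold ContDiff Topology ComplexOrder
open Set Filter Metric
open Vale.Agent.P272.K Vale.Agent.P301.H599 Vale.Agent.P285Z
open Vale.Agent.P301.H862 (powL)
open TopologicalSpace (Opens)
open Vale.Agent.P277Z.Pj (Prp Prj HolV)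
open Vale.Agent.P277Z.Pos Vale.Agent.P277Z.Ps
open Vale.Agent.P277Z.Van (SecOn)

noncomputable section

namespace Vale.Agent.P277Z.Cls.Prjl

variable {n : ℕ} {W : Type} [TopologicalSpace W] [ChartedSpace (Cm n) W]
  [IsManifold 𝓘(ℂ, Cm n) ω W]

/-- the map to the projective space -/
theorem prj {Y : Opens W} {ι : Type} {L : LineBundle n Y ι} {A V K : Set Y} (hA : IsOpen A)
    (hV : A ⊆ V) (hK : A ⊆ K) {k r : ℕ} {s : Fin (r + 1) → ι → Y → ℂ}
    (hs : ∀ l, SecOn (powL L k) V (s l)) (hE : Emb n L.U K s) {N : ℕ} {t : W → Cm N}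
    (ht : ∀ y ∈ A, HolV n t y.1) : Prj n (Subtype.val '' A) t := by
  choose i hi using L.cover
  have hc : ∀ {y j}, y ∈ A → y ∈ L.U j → ∃ c, c ≠ 0 ∧ ∀ l, s l (i y) y = c * s l j y :=
    fun {y j} a b => ⟨_, (powL L k).ne_zero _ _ y (hi y) b,
      fun l => (hs l).change _ _ y (hi y) b (hV a)⟩
  have hh : ∀ {y} l, y ∈ A → Hol n (s l (i y)) y := fun l a e he =>
    (hs l).holo _ e _ he (hi _) (hV a)
  have hc' : ∀ {y} l, y ∈ A → ContinuousAt (s l (i y)) y := fun {y} l a =>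
    continuousAt_of_chart (at_chartAt (n := n) y) (hh l a _ (at_chartAt y)).continuousAt
  have ev : ∀ {y}, y ∈ A → ∀ᶠ x in 𝓝 y, x ∈ A ∧ (∀ m, s m (i x) x ≠ 0 ↔ s m (i y) x ≠ 0) ∧
      ∀ m l, s l (i y) x / s m (i y) x = s l (i x) x / s m (i x) x := fun {y} a => by
    filter_upwards [hA.mem_nhds a, (L.isOpen _).mem_nhds (hi y)] with x b c
    obtain ⟨g, g0, hg⟩ := hc b c
    exact ⟨b, fun m => by simp [hg, g0], fun m l => by rw [hg, hg, mul_div_mul_left _ _ g0]⟩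
  have hq : ∀ {y} m l, y ∈ A → s m (i y) y ≠ 0 → ∀ e : Chart n Y, At e y →
      (fun z => s l (i y) (e.symm z) / s m (i y) (e.symm z)) =ᶠ[𝓝 (e y)]
        fun z => s l (i (e.symm z)) (e.symm z) / s m (i (e.symm z)) (e.symm z) :=
    fun m l a _ e he => (tendsto_symm he).eventually ((ev a).mono fun x b => b.2.2 m l)
  have hν : ∀ {y} m l, y ∈ A → s m (i y) y ≠ 0 →
      Hol n (ext fun x => s l (i x) x / s m (i x) x) y.1 := fun m l a b => hol_ext fun e he =>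
    ((hh l a e he).div (hh m a e he) (by rwa [e.left_inv he.2])).congr (hq m l a b e he)
  refine ⟨r, fun m => Subtype.val '' {y : Y | y ∈ A ∧ s m (i y) y ≠ 0},
    fun m w l => ext (fun x => s l (i x) x / s m (i x) x) w, ⟨⟨fun m =>
      Y.isOpen.isOpenMap_subtype_val _ (isOpen_iff_mem_nhds.2 fun y hy => ?_), fun w => ⟨?_, ?_⟩,
      ?_, ?_, ?_, ?_⟩, ?_, ?_⟩⟩
  · filter_upwards [ev hy.1, (hc' m hy.1).eventually_ne hy.2] with x a b
      using ⟨a.1, (a.2.1 m).2 b⟩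
  · rintro ⟨y, a, rfl⟩
    exact (hE.nz y (hK a) _ (hi y)).imp fun m b => ⟨y, ⟨a, b⟩, rfl⟩
  · rintro ⟨m, y, a, rfl⟩
    exact ⟨y, a.1, rfl⟩
  · rintro m _ ⟨y, a, rfl⟩ l
    exact hν m l a.1 a.2
  · rintro m _ ⟨y, a, rfl⟩
    rw [ext_val, div_self a.2]
  · rintro m l _ ⟨y, a, rfl⟩
    rw [ext_val, Subtype.val_injective.mem_set_image, div_ne_zero_iff]
    exact ⟨fun b => ⟨b.2, a.2⟩, fun b => ⟨a.1, b.1⟩⟩
  · rintro m l _ ⟨y, a, rfl⟩ b
    funext j
    simp only [Pi.smul_apply, ext_val, smul_eq_mul]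
    rw [mul_comm, div_mul_div_cancel₀ (Subtype.val_injective.mem_set_image.1 b).2]
  · rintro m _ ⟨y, a, rfl⟩ _ ⟨y', b, rfl⟩ - c
    by_contra h
    obtain ⟨l, l', h1⟩ := hE.sep y (hK a.1) y' (hK b.1) (fun e => h (congrArg _ e)) _ _ (hi y) (hi y')
    have h2 : ∀ j, s j (i y') y' = s j (i y) y / s m (i y) y * s m (i y') y' := fun j => by
      have h3 := congrFun c j
      simp only [ext_val] at h3
      rw [← h3, div_mul_cancel₀ _ b.2]
    refine h1 ?_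
    rw [h2 l, h2 l']
    ring
  · rintro m _ ⟨y, a, rfl⟩
    obtain ⟨e, e1, e2, e3⟩ := chart_fn (at_chartAt (n := n) y)
    have h1 := analyticAt_pi_iff.2 fun l => hν m l a.1 a.2 e e1
    refine Pj.imm_of_chart e1 ((ht y a.1 e e1).prod h1) ((injective_iff_map_eq_zero _).2 fun v hv =>
      hE.imm y (hK a.1) _ m (hi y) a.2 _ (at_chartAt y) v fun l => ?_)
    rw [(ht y a.1 e e1).differentiableAt.fderiv_prodMk h1.differentiableAt,
      fderiv_pi fun l => (hν m l a.1 a.2 e e1).differentiableAt] at hv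
    have h2 := congrFun (congrArg Prod.snd hv) l
    rw [(hq m l a.1 a.2 _ (at_chartAt y)).fderiv_eq, e2]
    have h3 := e3 _ (ext fun x => s l (i x) x / s m (i x) x)
    simp only [ext_val] at h3
    rw [← h3.fderiv_eq]
    exact h2

theorem main [T2Space W] [SecondCountableTopology W] {N : ℕ} {O : Set W} {t : W → Cm N}
    {Ω : Set (Cm N)} (h : Prp n O t Ω) {z : Cm N} (hz : z ∈ Ω) (hp : Brg.PrjN n (O ∩ t ⁻¹' {z})) :
    ∃ Ω', IsOpen Ω' ∧ z ∈ Ω' ∧ Ω' ⊆ Ω ∧ Prj n (O ∩ t ⁻¹' Ω') t := by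
  obtain ⟨P, hP, Λ, hΛ⟩ := hp
  obtain ⟨O₁, hO, hF, k⟩ := eventually_nhdsSet_iff_exists.1
    (hP.near.and (eventually_nhdsSet_iff_forall.2 fun x hx => (hΛ x hx).chg))
  let U : P.ι → Set W := fun i => interior {y | y ∈ P.U i ∧ y ∈ O₁ ∧ Spsh n (Λ fun _ => i) y}
  have hU : ∀ {i y}, y ∈ U i → y ∈ P.U i ∧ y ∈ O₁ ∧ Spsh n (Λ fun _ => i) y :=
    fun {i y} a => interior_subset (s := {y | y ∈ P.U i ∧ y ∈ O₁ ∧ Spsh n (Λ fun _ => i) y}) a
  let Y : Opens W := ⟨O ∩ ⋃ i, U i, h.isOpen.inter (isOpen_iUnion fun _ => isOpen_interior)⟩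
  have c0 : Continuous fun w : Cm N => nsq (w - z) := Kod.continuous_nsq.comp (by fun_prop)
  have c1 : ∀ w ∈ O, ContinuousAt (fun w => nsq (t w - z)) w := fun w hw =>
    c0.continuousAt.comp (Pj.holV_pi.2 (h.hol w hw)).continuousAt
  obtain ⟨r, r0, hr⟩ := Metric.mem_nhds_iff.1 (h.isOpen'.mem_nhds hz)
  have b1 : ∀ {w}, nsq (w - z) < r ^ 2 → w ∈ ball z r := fun a =>
    mem_ball_iff_norm.2 (Kod.norm_lt r0 a)
  have b2 : ∀ c < r ^ 2, IsCompact (O ∩ t ⁻¹' {w | nsq (w - z) ≤ c}) := fun c hc =>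
    h.proper _ (fun w a => hr (b1 (a.trans_lt hc))) ((isCompact_closedBall z r).of_isClosed_subset
      (isClosed_le c0 continuous_const) fun w a => ball_subset_closedBall (b1 (a.trans_lt hc)))
  have r2 : 0 < r ^ 2 / 2 := by positivity
  obtain ⟨ε, ε0, hε⟩ := ((b2 _ (half_lt_self (pow_pos r0 2))).diff Y.isOpen).exists_forall_le'
    (fun w a => (c1 w a.1.1).continuousWithinAt) (a := 0) fun w a => by
      refine lt_of_le_of_ne (Finset.sum_nonneg fun _ _ => sq_nonneg _) fun b => a.2 ⟨a.1.1, ?_⟩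
      have e : t w = z := funext fun l => sub_eq_zero.1 (norm_eq_zero.1 (pow_eq_zero_iff two_ne_zero
        |>.1 ((Finset.sum_eq_zero_iff_of_nonneg fun _ _ => sq_nonneg _).1 b.symm l
          (Finset.mem_univ l))))
      obtain ⟨i, h1, h2⟩ := (hΛ w ⟨a.1.1, e⟩).pos
      exact mem_iUnion.2 ⟨i (), mem_interior_iff_mem_nhds.2 (((hP.isOpen _).eventually_mem
        (h1 ())).and ((hO.eventually_mem (hF ⟨a.1.1, e⟩)).and h2))⟩
  set c := min (ε / 2) (r ^ 2 / 2)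
  have c2 : 0 < c := lt_min (half_pos ε0) r2
  have b3 : ∀ w ∈ O, nsq (t w - z) ≤ c → w ∈ Y := fun w a b => by_contra fun d =>
    (hε w ⟨⟨a, b.trans (min_le_right _ _)⟩, d⟩).not_gt
      ((b.trans (min_le_left _ _)).trans_lt (half_lt_self ε0))
  have b4 : ∀ c' ≤ c, IsCompact {y : Y | y ∈ univ ∧ nsq (t y - z) ≤ c'} := fun c' hc => by
    rw [Subtype.isCompact_iff, show Subtype.val '' {y : Y | y ∈ univ ∧ nsq (t y - z) ≤ c'} =
      O ∩ t ⁻¹' {w | nsq (w - z) ≤ c'} from Set.ext fun w => ⟨fun ⟨y, a, b⟩ => b ▸ ⟨y.2.1, a.2⟩,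
        fun a => ⟨⟨w, b3 w a.1 (a.2.trans hc)⟩, ⟨trivial, a.2⟩, rfl⟩⟩]
    exact b2 _ ((hc.trans (min_le_right _ _)).trans_lt (half_lt_self (pow_pos r0 2)))
  have b5 : ∀ c', IsOpen {y : Y | y ∈ univ ∧ nsq (t y - z) < c'} := fun c' =>
    isOpen_univ.inter (isOpen_lt (continuous_iff_continuousAt.2 fun y =>
      (c1 _ y.2.1).comp continuousAt_subtype_val) continuous_const)
  let L : LineBundle n Y P.ι := ⟨fun i => Subtype.val ⁻¹' U i,
    fun _ => isOpen_interior.preimage continuous_subtype_val, fun y => (mem_iUnion.1 y.2.2 :),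
    fun i j y => P.g i j y.1, fun i j e y he a b =>
      hol_res ((k _ (hU a).2.1).1 i j (hU a).1 (hU b).1).1 e he,
    fun i j y a b => ((k _ (hU a).2.1).1 i j (hU a).1 (hU b).1).2.1,
    fun i j l y a b d => ((k _ (hU a).2.1).1 i j (hU a).1 (hU b).1).2.2 l (hU d).1⟩
  have : LocallyCompactSpace Y := ChartedSpace.locallyCompactSpace (Cm n) Y
  obtain ⟨q, R, s, -, hs, hE⟩ := soft n Y _ L _ (b5 c) (joA n Y _ L univ (fun i y => Λ (fun _ => i) y)
    (fun y => nsq (t y - z)) c isOpen_univ ⟨fun i y _ a => spsh_res (hU a).2.2, fun i j y _ a b => by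
      simpa using (k _ (hU a).2.1).2 (fun _ => i) (fun _ => j) (fun _ => (hU a).1) fun _ => (hU b).1⟩
    (fun y _ => psdAt_sq fun l e he => (hol_res (a := fun w => t w l) (h.hol _ y.2.1 l) e he).sub
      (analyticAt_const (v := z l)))
    (b4 c le_rfl)) _ (b4 _ (half_le_self c2.le)) fun y a => ⟨trivial, a.2.trans_lt (half_lt_self c2)⟩
  refine ⟨{w | nsq (w - z) < c / 2}, isOpen_lt c0 continuous_const, by simpa [nsq] using c2,
    fun w a => hr (b1 (a.trans_le (by linarith [min_le_right (ε / 2) (r ^ 2 / 2)]))), ?_⟩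
  rw [show O ∩ t ⁻¹' {w | nsq (w - z) < c / 2} =
    Subtype.val '' {y : Y | y ∈ univ ∧ nsq (t y - z) < c / 2} from Set.ext fun w =>
      ⟨fun a => ⟨⟨w, b3 w a.1 (a.2.le.trans (half_le_self c2.le))⟩, ⟨trivial, a.2⟩, rfl⟩,
        fun ⟨y, a, b⟩ => b ▸ ⟨y.2.1, a.2⟩⟩]
  refine prj (b5 _) (fun y a => ?_) (fun y a => ?_) hs hE fun y _ => Pj.holV_pi.2 (h.hol _ y.2.1)
  exacts [⟨trivial, a.2.trans (half_lt_self c2)⟩, ⟨trivial, a.2.le⟩]

end Vale.Agent.P277Z.Cls.Prjl
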