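import Vale.Agent.P277Z.Cls.Sk
import Vale.Agent.P277Z.Cls.PrjlA

/-!
# P277, block CLS: the embedding theorem near a fibre
-/

namespace Vale.Agent.P277Z.Cls

/-- **PRJL** -/
theorem stPrjl : StPrjl := fun _ _ _ _ _ _ _ _ _ _ h _ hz hp => Prjl.main h hz hp

end Vale.Agent.P277Z.Cls
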