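import Vale.Agent.P277Z.Cls.Sk
import Vale.Agent.P277Z.Top.FbCrit

/-!
# P277, block CLS: rigidity, level sets, critical values
-/

open scoped Manifold ContDiff Topology
open Vale.Agent.P272.K Vale.Agent.P277 Set Filter Metric
open Vale.Agent.P277Z.Slc (LEq Ind dd)

noncomputable section

namespace Vale.Agent.P277Z.Cls

namespace RigH

variable {n : ℕ} {W : Type} [TopologicalSpace W] [ChartedSpace (Cm n) W]
  [IsManifold 𝓘(ℂ, Cm n) ω W] {α : Type} [Fintype α] {β : α → W → ℂ} {x : W} {T : Set W}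

/-- coordinates whose first part is a given independent family -/
theorem exists_th (h : Ind n β x) : ∃ (d : ℕ) (Θ : OpenPartialHomeomorph W ((α → ℂ) × Cm d)),
    x ∈ Θ.source ∧ (∀ y ∈ Θ.source, (Θ y).1 = fun a => β a y) ∧
    ∀ g, ∀ y ∈ Θ.source, Hol n g y → AnalyticAt ℂ (fun v => g (Θ.symm v)) (Θ y) := by
  have he := Slc.at_chartAt (n := n) x
  set e := chartAt (Cm n) x
  obtain ⟨d, hd⟩ : ∃ d, Fintype.card α + d = n := Nat.exists_eq_add_of_le (by
    simpa using LinearMap.finrank_le_finrank_of_surjective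
      (f := (ContinuousLinearMap.pi fun a => dd (β a) e x).toLinearMap)
      ((Slc.ind_iff_surj _).1 (h.2 e he))) |>.imp fun _ => Eq.symm
  obtain ⟨Φ, P, h1, h2, -, h4⟩ := h.par hd he
  refine ⟨d, e.trans Φ, ⟨he.2, h1⟩, fun y hy => ?_, fun g y hy hg => ?_⟩
  · simp [h2, e.left_inv hy.1]
  · exact AnalyticAt.comp (g := fun z => g (e.symm z)) (f := Φ.symm)
      (by rw [show Φ.symm ((e.trans Φ) y) = e y from Φ.left_inv hy.2]; exact hg e ⟨he.1, hy.1⟩)
      (h4 _ (Φ.map_source hy.2))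

/-- a parametrization of a submanifold -/
theorem slice (h : Ind n β x) (hT : ∀ᶠ y in 𝓝 x, y ∈ T ↔ ∀ a, β a y = β a x) :
    ∃ (d : ℕ) (γ : Cm d → W) (v₀ : Cm d), γ v₀ = x ∧ ∀ᶠ v in 𝓝 v₀, map γ (𝓝 v) = 𝓝[T] (γ v) ∧
      ∀ g, Hol n g (γ v) → AnalyticAt ℂ (fun v => g (γ v)) v := by
  obtain ⟨d, Θ, h1, h2, h3⟩ := exists_th h
  have h4 : ∀ v, ((Θ x).1, v) ∈ Θ.target → ContinuousAt (fun v => Θ.symm ((Θ x).1, v)) v :=
    fun v a => (Θ.continuousAt_symm a).comp (f := Prod.mk _) (Continuous.prodMk_right _).continuousAt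
  have h5 : ∀ v, ((Θ x).1, v) ∈ Θ.target → ∀ᶠ v' in 𝓝 v, ((Θ x).1, v') ∈ Θ.target := fun v a =>
    (Continuous.prodMk_right _).continuousAt.eventually (Θ.open_target.mem_nhds a)
  have h6 := h4 (Θ x).2 (Θ.map_source h1)
  rw [ContinuousAt, Θ.left_inv h1] at h6
  refine ⟨d, fun v => Θ.symm ((Θ x).1, v), (Θ x).2, Θ.left_inv h1, ?_⟩
  filter_upwards [h5 _ (Θ.map_source h1), h6.eventually hT.eventually_nhds] with v a b
  refine ⟨le_antisymm (tendsto_nhdsWithin_iff.2 ⟨h4 v a, ?_⟩) fun s hs => ?_, fun g hg => ?_⟩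
  · filter_upwards [h5 v a, (h4 v a).eventually b] with w c d
    refine d.2 (congrFun ?_)
    rw [← h2 _ (Θ.map_target c), Θ.right_inv c, h2 x h1]
  · have c := (Θ.continuousAt (Θ.map_target a)).snd
    rw [ContinuousAt, Θ.right_inv a] at c
    refine eventually_nhdsWithin_iff.2 ?_
    filter_upwards [c.eventually hs, b, Θ.open_source.mem_nhds (Θ.map_target a)] with y d e f g
    rwa [h2 x h1, ← funext (e.1 g), ← h2 y f, Θ.left_inv f] at d
  · have c := h3 g _ (Θ.map_target a) hg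
    rw [Θ.right_inv a] at c
    exact c.comp (f := Prod.mk _) (analyticAt_const.prod analyticAt_id)

theorem ident {E : Type} [NormedAddCommGroup E] [NormedSpace ℂ E] {H : E → ℂ} {v₀ : E}
    (hH : AnalyticAt ℂ H v₀) (h : ∃ᶠ v in 𝓝 v₀, ∀ᶠ w in 𝓝 v, H w = H v) :
    ∀ᶠ v in 𝓝 v₀, H v = H v₀ := by
  obtain ⟨r, hr, h1⟩ := Metric.eventually_nhds_iff_ball.1 hH.eventually_analyticAt
  obtain ⟨v, a, b⟩ := (h.and_eventually (ball_mem_nhds v₀ hr)).exists
  have := AnalyticOnNhd.eqOn_of_preconnected_of_eventuallyEq h1 (fun _ _ => analyticAt_const)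
    (convex_ball v₀ r).isPreconnected b a
  filter_upwards [ball_mem_nhds v₀ hr] with w c
    using (this c).trans (this (mem_ball_self hr)).symm

/-- a holomorphic function on a compact submanifold is locally constant -/
theorem cst [T2Space W] (hT : IsCompact T) {h : W → ℂ} (H : ∀ x ∈ T, Hol n h x ∧
    ∃ β : α → W → ℂ, Ind n β x ∧ ∀ᶠ y in 𝓝 x, y ∈ T ↔ ∀ a, β a y = β a x) :
    ∀ x ∈ T, ∀ᶠ y in 𝓝[T] x, h y = h x := by
  by_contra! h0
  have h1 : IsClosed {x ∈ T | ¬ ∀ᶠ y in 𝓝[T] x, h y = h x} :=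
    isClosed_of_closure_subset fun x hx =>
      ⟨hT.isClosed.closure_subset (closure_mono (sep_subset _ _) hx), fun a => by
        obtain ⟨z, b, c⟩ := ((mem_closure_iff_frequently.1 hx).and_eventually
          (eventually_nhdsWithin_iff.1 ((eventually_eventually_nhdsWithin.2 a).and a))).exists
        exact b.2 ((c b.1).1.mono fun _ d => d.trans (c b.1).2.symm)⟩
  obtain ⟨x, hx, h2⟩ := (hT.of_isClosed_subset h1 (sep_subset _ _)).exists_isMaxOn
    (f := fun y => ‖h y‖) (h0.imp fun x a => ⟨a.1, not_eventually.2 a.2⟩)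
    fun x a => (H x a.1).1.continuousAt.norm.continuousWithinAt
  obtain ⟨h3, β, h4, h5⟩ := H x hx.1
  obtain ⟨d, γ, v₀, rfl, h6⟩ := slice h4 h5
  obtain ⟨h7, h8⟩ := h6.self_of_nhds
  refine hx.2 (h7 ▸ eventually_map.2 (by_contra fun h9 => h9 ?_))
  refine Complex.eventually_eq_of_isLocalMax_norm (f := fun v => h (γ v))
    ((h8 h h3).eventually_analyticAt.mono fun _ => AnalyticAt.differentiableAt) ?_
  filter_upwards [not_frequently.1 (mt (ident (h8 h h3)) h9), h6,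
    eventually_map.1 (h7 ▸ self_mem_nhdsWithin : ∀ᶠ y in map γ (𝓝 v₀), y ∈ T)] with v a b c
  exact h2 ⟨c, fun d => a (eventually_map.1 (b.1 ▸ d))⟩

end RigH

open RigH

theorem stRig : StRig := by
  intro W _ _ _ _ _ Z K f h s hK H
  have := ChartedSpace.locallyCompactSpace (Cm 4) W
  obtain ⟨L, l1, l2, l3⟩ := exists_compact_between hK isOpen_interior
    (U := interior {y | (Hol 4 h y ∧ ∃ ζ, LEq 4 Z y ζ ∧ Ind 4 ![ζ, f] y) ∧
      (y ∈ K ↔ y ∈ Z ∧ f y = s)}) fun x hx => mem_interior_iff_mem_nhds.2 (by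
      obtain ⟨a, ⟨ζ, b, c⟩, d⟩ := H x hx
      filter_upwards [a.near, b.near, c.near, d] with y a b c d using ⟨⟨a, ζ, b, c⟩, d⟩)
  replace l3 := fun y a => interior_subset (l3 (a : y ∈ L))
  have h1 : ∀ y ∈ L, ContinuousAt f y := fun y a =>
    let ⟨_, _, b⟩ := (l3 y a).1.2
    (b.1 1).continuousAt
  have h2 : IsCompact (L ∩ Z) := l1.of_isClosed_subset (isClosed_of_closure_subset fun y a => by
    have b := l1.isClosed.closure_subset (closure_mono inter_subset_left a)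
    obtain ⟨ζ, c, -⟩ := (l3 y b).1.2
    exact ⟨b, c.mem.1 (tendsto_nhds_unique_of_frequently_eq c.hol.continuousAt tendsto_const_nhds
      (((mem_closure_iff_frequently.1 a).and_eventually c.1).mono fun z d => d.2.2 d.1.2))⟩)
    inter_subset_left
  have h3 := ((h2.diff isOpen_interior (t := interior L)).image_of_continuousOn
    fun y a => (h1 y a.1.1).continuousWithinAt).isClosed.isOpen_compl
  refine eventually_nhdsSet_iff_forall.2 fun x₀ h0 => ?_
  have h4 := interior_subset (l2 h0)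
  filter_upwards [isOpen_interior.mem_nhds (l2 h0), (h1 _ h4).eventually (h3.mem_nhds
    fun ⟨y, a, b⟩ => a.2 (l2 ((l3 y a.1.1).2.2 ⟨a.1.2, b.trans ((l3 _ h4).2.1 h0).2⟩)))]
    with x a b c
  have d := cst (n := 4) (α := Fin 2) (T := (L ∩ Z) ∩ f ⁻¹' {f x}) (h := h)
    (h2.of_isClosed_subset (ContinuousOn.preimage_isClosed_of_isClosed
      (fun y a => (h1 y a.1).continuousWithinAt) h2.isClosed isClosed_singleton) inter_subset_left)
    (fun y g => by
      obtain ⟨g1, ζ, g2, g3⟩ := (l3 y g.1.1).1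
      refine ⟨g1, _, g3, ?_⟩
      filter_upwards [g2.1, mem_interior_iff_mem_nhds.1
        (by_contra fun j => b ⟨y, ⟨g.1, j⟩, g.2⟩ : y ∈ interior L)] with z j1 j2
      simp [j1, j2, g2.mem.2 g.1.2, show f y = f x from g.2]) x ⟨⟨interior_subset a, c⟩, rfl⟩
  filter_upwards [eventually_nhdsWithin_iff.1 d, mem_interior_iff_mem_nhds.1 a] with y g j k m
    using g ⟨⟨j, k⟩, m⟩

theorem stLev : StLev := by
  intro W _ _ _ _ _ d Z f
  refine ⟨fun ι _ h => (Top.Fb.CritH.cnt_local (f := f) (S := {x ∈ Z | (∀ i, Hol 4 (h i) x) ∧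
    (∃ β : Fin d → W → ℂ, Lev Z β f x) ∧ (∀ᶠ y in 𝓝 x, y ∈ Z → f y = f x → ∀ i, h i y = 0) ∧
    ¬ ∀ᶠ y in 𝓝 x, y ∈ Z → ∀ i, h i y = 0}) ?_).mono (by
      rintro _ ⟨x, a, rfl, c⟩
      exact ⟨x, ⟨a, c⟩, rfl⟩), Top.Fb.CritH.cnt_local ?_⟩
  · rintro x ⟨hx, h1, ⟨β, h2, h3⟩, h4, h5⟩
    obtain ⟨k, Θ, t1, t2, t3⟩ := exists_th h2
    let ε : ℂ × Cm k → (Option (Fin d) → ℂ) × Cm k := fun p => (fun o => o.elim p.1 0, p.2)
    have e1 : ∀ p, AnalyticAt ℂ ε p := fun p => (analyticAt_pi_iff.2 fun o => by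
      cases o
      exacts [analyticAt_fst, analyticAt_const]).prod analyticAt_snd
    have e2 : ∀ y ∈ Θ.source, (∀ i, β i y = 0) → ε (f y, (Θ y).2) = Θ y := fun y a b =>
      Prod.ext ((funext fun o => by cases o; exacts [rfl, (b _).symm]).trans (t2 y a).symm) rfl
    have e3 : ∀ y ∈ Θ.source, ContinuousAt f y → ContinuousAt (fun y => (f y, (Θ y).2)) y :=
      fun y a b => b.prodMk (Θ.continuousAt a).snd
    have e4 := e2 x t1 (h3.self_of_nhds.1 hx)
    have e5 : Tendsto (fun p => Θ.symm (ε p)) (𝓝 (f x, (Θ x).2)) (𝓝 x) :=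
      (Θ.tendsto_symm t1).comp (e4 ▸ (e1 _).continuousAt)
    obtain ⟨r, hr, b1⟩ := Metric.eventually_nhds_iff_ball.1 ((eventually_all.2 fun i =>
      ((e4 ▸ t3 _ x t1 (h1 i)).comp (e1 _)).eventually_analyticAt).and
      (((e1 _).continuousAt.eventually (Θ.open_target.mem_nhds (e4 ▸ Θ.map_source t1))).and
        (e5.eventually h3.eventually_nhds)))
    have b2 : ∀ᶠ y in 𝓝 x, (f y, (Θ y).2) ∈ ball (f x, (Θ x).2) r :=
      (e3 x t1 (h2.1 none).continuousAt).eventually (ball_mem_nhds _ hr)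
    obtain ⟨y₁, c1, c2, c3, c4⟩ :=
      ((not_eventually.1 h5).and_eventually (b2.and (h3.and (Θ.open_source.mem_nhds t1)))).exists
    push Not at c1
    obtain ⟨c5, i, c6⟩ := c1
    rw [← ball_prod_same] at b1 c2 b2
    have b3 : ∀ t ∈ ball (f x) r, (∃ v ∈ ball (Θ x).2 r, ∀ᶠ y in 𝓝 (Θ.symm (ε (t, v))),
        y ∈ Z → f y = t → ∀ i, h i y = 0) → h i (Θ.symm (ε (t, (Θ y₁).2))) = 0 := by
      rintro t ht ⟨v, hv, g⟩
      have g1 := b1 (t, v) ⟨ht, hv⟩
      have g2 : ContinuousAt (fun w => ε (t, w)) v :=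
        (e1 _).continuousAt.comp (f := Prod.mk t) (Continuous.prodMk_right _).continuousAt
      refine AnalyticOnNhd.eqOn_zero_of_preconnected_of_eventuallyEq_zero
        (f := fun w => h i (Θ.symm (ε (t, w)))) (fun w a => ((b1 (t, w) ⟨ht, a⟩).1 i).comp
          (f := Prod.mk t) (analyticAt_const.prod analyticAt_id))
        (convex_ball _ r).isPreconnected hv ?_ c2.2
      filter_upwards [((Θ.continuousAt_symm g1.2.1).comp (f := fun w => ε (t, w)) g2).eventually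
        (g.and g1.2.2),
        g2.eventually (Θ.open_target.mem_nhds g1.2.1)] with w a b
      have c := t2 _ (Θ.map_target b)
      rw [Θ.right_inv b] at c
      exact a.1 (a.2.2 fun j => (congrFun c (some j)).symm) (congrFun c none).symm i
    have b4 : AnalyticOnNhd ℂ (fun t => h i (Θ.symm (ε (t, (Θ y₁).2)))) (ball (f x) r) :=
      fun t a => ((b1 (t, _) ⟨a, c2.2⟩).1 i).comp (f := fun t => (t, (Θ y₁).2))
        (analyticAt_id.prod analyticAt_const)
    rcases (b4 _ (mem_ball_self hr)).eventually_eq_zero_or_eventually_ne_zero with b5 | b5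
    · have := b4.eqOn_zero_of_preconnected_of_eventuallyEq_zero (convex_ball _ r).isPreconnected
        (mem_ball_self hr) b5 c2.1
      simp only [e2 y₁ c4 (c3.1 c5), Θ.left_inv c4] at this
      exact absurd this c6
    · refine ⟨_, ((h2.1 none).continuousAt.eventually (eventually_nhdsWithin_iff.1 b5)).and
        (b2.and (h3.and (Θ.open_source.mem_nhds t1))), (countable_singleton (f x)).mono ?_⟩
      rintro _ ⟨y, ⟨⟨g1, g2, g3, g4⟩, g5, -, -, g6, -⟩, rfl⟩
      exact by_contra fun g => g1 g (b3 (f y) g2.1 ⟨(Θ y).2, g2.2, by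
        rwa [e2 y g4 (g3.1 g5), Θ.left_inv g4]⟩)
  · rintro x ⟨hx, h1, β₀, h2, h3, -⟩
    obtain ⟨k, γ, v₀, rfl, h4⟩ := slice (T := Z) h2 (h3.mono fun y a => by
      simp only [a, h3.self_of_nhds.1 hx])
    have h5 := h4.self_of_nhds.1
    obtain ⟨Ω, o1, o2, o3⟩ := _root_.eventually_nhds_iff.1 (h4.and (eventually_map.1
      (h5 ▸ h1.near.filter_mono nhdsWithin_le_nhds : ∀ᶠ y in map γ (𝓝 v₀), Hol 4 f y)))
    obtain ⟨N, n1, n2⟩ := mem_nhdsWithin_iff_exists_mem_nhds_inter.1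
      (h5 ▸ image_mem_map (o2.mem_nhds o3) : γ '' Ω ∈ 𝓝[Z] (γ v₀))
    refine ⟨N, n1, (Top.Fb.CritH.key (T := fun v => f (γ v)) k Ω id o2
      fun v a => ⟨analyticAt_id, (o1 v a).1.2 f (o1 v a).2⟩).mono ?_⟩
    rintro _ ⟨y, ⟨a1, a2, a3, β, a4, a5, a6⟩, rfl⟩
    obtain ⟨v, hv, rfl⟩ := n2 ⟨a1, a2⟩
    refine ⟨v, ⟨hv, ?_⟩, rfl⟩
    obtain ⟨⟨b1, b2⟩, -⟩ := o1 v hv
    have he := Slc.at_chartAt (n := 4) (γ v)
    set e := chartAt (Cm 4) (γ v)
    have b3 : Tendsto γ (𝓝 v) (𝓝[Z] (γ v)) := b1.le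
    have b4 : ∀ g, Hol 4 g (γ v) →
        fderiv ℂ (fun v => g (γ v)) v = (dd g e (γ v)).comp (fderiv ℂ (fun v => e (γ v)) v) := by
      intro g hg
      rw [dd, ← fderiv_fun_comp (f := fun v => e (γ v)) v (hg e he).differentiableAt
        (analyticAt_pi_iff.2 fun i => b2 (fun y => e y i) ((Val.crd_chart he).hol i)).differentiableAt]
      refine EventuallyEq.fderiv_eq ?_
      filter_upwards [(b3.mono_right nhdsWithin_le_nhds).eventually (e.open_source.mem_nhds he.2)]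
        with w a using by rw [e.left_inv a]
    have b5 : dd f e (γ v) ∈ Submodule.span ℂ (range fun i => dd (β i) e (γ v)) := by
      by_contra c
      exact a6 ⟨Slc.Ind.of_chart (fun o => by cases o; exacts [a3, a4.1 _]) he
        (linearIndependent_option.2 ⟨a4.2 e he, c⟩), a5⟩
    obtain ⟨c, hc⟩ := (Submodule.mem_span_range_iff_exists_fun ℂ).1 b5
    rw [id, b4 f a3, ← hc, ContinuousLinearMap.finsetSum_comp]
    refine Finset.sum_eq_zero fun i _ => ?_
    rw [ContinuousLinearMap.smul_comp, ← b4 _ (a4.1 i), EventuallyEq.fderiv_eq (f := fun _ => 0)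
      ((b3.eventually ((a5.filter_mono nhdsWithin_le_nhds).and self_mem_nhdsWithin)).mono
        fun w a => a.1.1 a.2 i), fderiv_fun_const]
    ext1 v
    simp

end Vale.Agent.P277Z.Cls
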