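import Vale.Agent.P277Z.Cls.Alv
import Vale.Agent.P277Z.Cls.Api3

/-!
# P277, block CLS: the rank on a surface
-/

set_option maxSynthPendingDepth 3

open scoped Manifold ContDiff Topology
open Vale.Agent.P272.K Vale.Agent.P285.H281.FD Vale.Agent.P277 Set Filter
open Vale.Agent.P277Z.Slc (LEq Ind Snc dd lin)

noncomputable section

namespace Vale.Agent.P277Z.Cls

namespace Rk2

theorem ker1 {b : Fin 3 → Cm 4 →L[ℂ] ℂ} (hb : LinearIndependent ℂ b) {ξ ξ' : Cm 4} (h0 : ξ ≠ 0)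
    (h : ∀ a, b a ξ = 0) (h' : ∀ a, b a ξ' = 0) : ∃ c : ℂ, c • ξ = ξ' := by
  have h1 := (ContinuousLinearMap.pi b).toLinearMap.finrank_range_add_finrank_ker
  rw [LinearMap.range_eq_top.2 ((Slc.ind_iff_surj b).1 hb)] at h1
  simp only [finrank_top, Module.finrank_fintype_fun_eq_card, Fintype.card_fin] at h1
  have h2 : Module.finrank ℂ (ContinuousLinearMap.pi b).toLinearMap.ker = 1 := by omega
  obtain ⟨c, hc⟩ := (finrank_eq_one_iff_of_nonzero'
    (⟨ξ, funext h⟩ : (ContinuousLinearMap.pi b).toLinearMap.ker)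
    fun e => h0 (congrArg Subtype.val e)).1 h2 ⟨ξ', funext h'⟩
  exact ⟨c, congrArg Subtype.val hc⟩

/-- a function which is killed by the tangent vectors of a curve is constant on it -/
theorem cst {W : Type} [TopologicalSpace W] [ChartedSpace (Cm 4) W] [IsManifold 𝓘(ℂ, Cm 4) ω W]
    {β : Fin 3 → W → ℂ} {x : W} {T : Set W} (h : Ind 4 β x)
    (hT : ∀ᶠ y in 𝓝 x, y ∈ T ↔ ∀ a, β a y = β a x) {g : W → ℂ} (hg : Hol 4 g x)
    (H : ∀ᶠ y in 𝓝[T] x, ∀ e : Chart 4 W, At e y →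
      ∃ ξ, ξ ≠ 0 ∧ (∀ a, dd (β a) e y ξ = 0) ∧ dd g e y ξ = 0) : ∀ᶠ y in 𝓝[T] x, g y = g x := by
  obtain ⟨d, γ, v₀, rfl, h1⟩ := RigH.slice h hT
  have h2 := h1.self_of_nhds.1
  have h3 : Tendsto γ (𝓝 v₀) (𝓝 (γ v₀)) := h2.le.trans nhdsWithin_le_nhds
  have h4 : ∀ᶠ v in 𝓝 v₀, DifferentiableAt ℂ (fun v => g (γ v)) v ∧
      fderiv ℂ (fun v => g (γ v)) v = 0 := by
    filter_upwards [h1, h3.eventually h.near, h3.eventually hg.near,
      h3.eventually hT.eventually_nhds, eventually_map.1 (h2 ▸ H)] with v ⟨b1, b2⟩ c1 c2 c3 c4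
    refine ⟨(b2 g c2).differentiableAt, ?_⟩
    have he := Slc.at_chartAt (n := 4) (γ v)
    generalize chartAt (Cm 4) (γ v) = e at he
    have b3 : Tendsto γ (𝓝 v) (𝓝[T] (γ v)) := b1.le
    have b4 : ∀ g, Hol 4 g (γ v) →
        fderiv ℂ (fun v => g (γ v)) v = (dd g e (γ v)).comp (fderiv ℂ (fun v => e (γ v)) v) := by
      intro g hg
      rw [dd, ← fderiv_fun_comp (f := fun v => e (γ v)) v (hg e he).differentiableAt
        (analyticAt_pi_iff.2 fun i => b2 (fun y => e y i) ((Val.crd_chart he).hol i)).differentiableAt]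
      refine EventuallyEq.fderiv_eq ?_
      filter_upwards [(b3.mono_right nhdsWithin_le_nhds).eventually (e.open_source.mem_nhds he.2)]
        with w a using by rw [e.left_inv a]
    obtain ⟨ξ, x1, x2, x3⟩ := c4 e he
    ext1 u
    obtain ⟨c, hc⟩ := ker1 (c1.2 e he) x1 x2 (ξ' := fderiv ℂ (fun v => e (γ v)) v u) fun a => by
      have k := b4 _ (c1.1 a)
      rw [EventuallyEq.fderiv_eq (f := fun _ => β a (γ v₀)) ((b3.eventually
        ((c3.filter_mono nhdsWithin_le_nhds).and self_mem_nhdsWithin)).mono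
          fun w a' => a'.1.1 a'.2 a), fderiv_fun_const] at k
      exact (DFunLike.congr_fun k u).symm
    rw [b4 g c2, ContinuousLinearMap.comp_apply, ← hc, map_smul, x3, smul_zero]
    rfl
  obtain ⟨r, hr, h5⟩ := Metric.eventually_nhds_iff_ball.1 h4
  rw [← h2]
  filter_upwards [image_mem_map (Metric.ball_mem_nhds v₀ hr)]
  rintro _ ⟨v, hv, rfl⟩
  exact Metric.isOpen_ball.is_const_of_fderiv_eq_zero (convex_ball v₀ r).isPreconnected
    (fun u a => (h5 u a).1.differentiableWithinAt) (fun u a => (h5 u a).2) hv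
    (Metric.mem_ball_self hr)

theorem cnt {W B : Type} [TopologicalSpace W] [SecondCountableTopology W] {S : Set W} {f : W → B}
    (h : ∀ x ∈ S, ∀ᶠ y in 𝓝[S] x, f y = f x) : (f '' S).Countable := by
  obtain ⟨t, -, hc, hS⟩ := TopologicalSpace.countable_cover_nhdsWithin (s := S)
    (f := fun x => {y | f y = f x}) h
  refine (hc.image f).mono ?_
  rintro _ ⟨y, hy, rfl⟩
  obtain ⟨x, hx, h3⟩ := mem_iUnion₂.1 (hS hy)
  exact ⟨x, hx, h3.symm⟩

variable {X : Ctx} {L : Fin X.q → Bd X.V.W} {S : X.Sf L} {M : Md S} {y : X.Y.pt}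
  {O : Set X.Y.pt} {τ : X.Y.pt → ℂ} {g : ℂ → X.Y.pt} {Δ : Set ℂ}

theorem dd_tau (hG : M.Gen y O τ g Δ) (h1 : StApi1) {u : M.Z.W} (hu : M.b u ∈ M.O)
    {e : Chart 4 M.Z.W} (he : At e u) {ξ : Cm 4} (h : ∀ i, dd (fun w => M.t w i) e u ξ = 0) :
    dd (fun v => τ (M.b v)) e u ξ = 0 := by
  obtain ⟨G, g1, g2⟩ := (M.model.hol _ hu τ).1 (hG.disc.hol _ (hG.le hu))
  have k1 : ∀ i, DifferentiableAt ℂ (fun z => M.t (e.symm z) i) (e u) := fun i =>
    (M.prp.hol u hu i e he).differentiableAt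
  rw [Slc.dd_congr (b := fun v => G (M.t v)) ((h1 X L S M).1.continuousAt.eventually g2) he, dd,
    fderiv_fun_comp (f := fun z => M.t (e.symm z)) _ (by
      rw [e.left_inv he.2]; exact g1.differentiableAt) (differentiableAt_pi.2 k1),
    ContinuousLinearMap.comp_apply, fderiv_pi k1,
    show ContinuousLinearMap.pi (fun i => fderiv ℂ (fun z => M.t (e.symm z) i) (e u)) ξ = 0 from
      funext h, map_zero]

/-- the slices lie in the components of the fibres -/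
theorem sli (h1 : StApi1) (h3 : StApi3) (hG : M.Gen y O τ g Δ) {l} (hl : l ∈ exU X.ex)
    {v : M.Z.W} (hA : M.TyA y l v) {m i} (hN : M.NC τ m i l v) :
    ∀ᶠ u in 𝓝 v, u ∈ M.Z.G l → τ (M.b u) = τ y → M.ν m u i = M.ν m v i →
      u ∈ connectedComponentIn {u ∈ M.D m | M.b u = y ∧ M.ν m u = M.ν m v} v := by
  obtain ⟨hm, ζ, z1, z2⟩ := hN
  obtain ⟨O', o1, o2⟩ := hG.ctr
  have t4 := (((h3 X L S M y O τ g Δ hG).2.2 l v hA).2.2 v
    (mem_connectedComponentIn ⟨hA.mem, hA.fib⟩)).2.2.2.1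
  have hT : ∀ᶠ u in 𝓝 v, u ∈ {u | u ∈ M.Z.G l ∧ τ (M.b u) = τ y ∧ M.ν m u i = M.ν m v i} ↔
      ∀ a, ![ζ, fun v => τ (M.b v), fun v => M.ν m v i] a u =
        ![ζ, fun v => τ (M.b v), fun v => M.ν m v i] a v := by
    filter_upwards [z1.1] with u a
    simp [Fin.forall_fin_succ, a, z1.mem.2 hA.mem, hA.fib]
  have hD := (M.pm.pm.isOpen m).mem_nhds hm
  have k1 := fun a => cst z2 hT (g := fun u => M.ν m u a) (M.pm.pm.hol m v hm a) (by
    refine eventually_nhdsWithin_iff.2 ?_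
    filter_upwards [z1.near, hD, (h1 X L S M).1.continuousAt.eventually (hA.fib.symm ▸ o1)]
      with u a1 a2 a3 a4 e he
    obtain ⟨ξ, x1, x2, x3, x4⟩ := o2 l hl m u a2 a4.1 a3 ζ e a1 he
    refine ⟨ξ, x1, fun a => ?_, x4 a⟩
    fin_cases a
    exacts [x2, dd_tau hG h1 (AlvH.memO M a2) he x3, x4 i])
  have k2 := A3H.lconn z2 hT (A := {u ∈ M.D m | M.b u = y ∧ M.ν m u = M.ν m v}) (by
    filter_upwards [eventually_all.2 k1, mem_nhdsWithin_of_mem_nhds hD,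
      mem_nhdsWithin_of_mem_nhds t4, self_mem_nhdsWithin] with u a b c d
    exact ⟨b, (connectedComponentIn_subset _ _ (c.2 ⟨d.1, d.2.1⟩)).2, funext a⟩)
  exact (eventually_nhdsWithin_iff.1 k2).mono fun u a b c d => a ⟨b, c, d⟩

end Rk2

open AlvH Rk2

theorem stRk2 (hGpl : StGpl) (h1 : StApi1) (h2 : StApi2) (h3 : StApi3) : StRk1 := by
  intro X L S M y O τ g Δ hG x Ψ l hl w j η m hA hn
  obtain ⟨-, -, t3⟩ := (h3 X L S M y O τ g Δ hG).2.2 l w hA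
  have lev := stLev M.Z.W 2 (M.Z.G l ∩ {v | τ (M.b v) = τ y})
  have eqn : ∀ v ζ, LEq 4 (M.Z.G l) v ζ → ∀ᶠ u in 𝓝 v, u ∈ M.Z.G l ∩ {v | τ (M.b v) = τ y} ↔
      ∀ a, ![ζ, fun v => τ (M.b v) - τ y] a u = 0 := fun v ζ a => by
    filter_upwards [a.1] with u b
    simp [b, sub_eq_zero]
  set A := M.T y l w ∩ M.D m ∩ {v ∈ Ψ.D j | Ψ.ν j v = η}
  have k0 : (M.ν m '' {v ∈ A | ∀ i, ¬ M.NC τ m i l v}).Countable := by
    refine (countable_univ_pi fun i => (lev fun v => M.ν m v i).2).mono ?_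
    rintro _ ⟨v, ⟨⟨⟨a1, a2⟩, -⟩, a3⟩, rfl⟩ i -
    obtain ⟨b1, -, ⟨ζ, z1, z2⟩, -⟩ := t3 v a1
    refine ⟨v, ⟨⟨b1.mem, congrArg τ b1.fib⟩, M.pm.pm.hol m v a2 i, _, ?_, eqn v ζ z1, fun c =>
      a3 i ⟨a2, ζ, z1, ind_tr c.1 _ ![some 0, some 1, none] (by decide) fun a => ?_⟩⟩, rfl⟩
    · refine ind_tr z2 _ id Function.injective_id fun a => ?_
      fin_cases a
      · exact ⟨0, fun _ => (sub_zero _).symm⟩
      · exact ⟨-τ y, fun _ => by simp⟩
    · fin_cases a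
      · exact ⟨0, fun _ => (sub_zero _).symm⟩
      · exact ⟨_, fun _ => rfl⟩
      · exact ⟨0, fun _ => (sub_zero _).symm⟩
  have k1 : ∀ i, (M.ν m '' {v ∈ A | M.NC τ m i l v}).Countable := fun i => by
    have sl := fun v (a : v ∈ {v ∈ A | M.NC τ m i l v}) => sli h1 h3 hG hl (t3 v a.1.1.1).1 a.2
    refine (((lev fun v => M.ν m v i).1 _ fun a v => Ψ.ν j v a - η a).biUnion fun s _ => cnt
      (S := {v ∈ A | M.NC τ m i l v} ∩ {v | M.ν m v i = s}) (f := M.ν m) fun v a => ?_).mono ?_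
    · filter_upwards [mem_nhdsWithin_of_mem_nhds (sl v a.1), self_mem_nhdsWithin] with u b c
      exact (connectedComponentIn_subset _ _ (b (t3 u c.1.1.1.1).1.mem
        (congrArg τ (t3 u c.1.1.1.1).1.fib) (c.2.trans a.2.symm))).2.2
    · rintro _ ⟨v, a, rfl⟩
      refine mem_biUnion (x := M.ν m v i) ?_ ⟨v, ⟨a, rfl⟩, rfl⟩
      have b := sl v a
      obtain ⟨⟨⟨a1, a2⟩, a3, a4⟩, a5⟩ := a
      obtain ⟨b1, b2, -, b3, -⟩ := t3 v a1
      obtain ⟨-, ζ, z1, z2⟩ := id a5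
      refine ⟨v, ⟨b1.mem, congrArg τ b1.fib⟩, rfl, fun r e he =>
        (Ψ.pm.hol j v a3 r e he).sub analyticAt_const, ⟨_, ?_, eqn v ζ z1⟩, ?_, fun c => ?_⟩
      · refine ind_tr z2 _ (fun o => o.elim 2 ![0, 1]) (by decide) ?_
        rintro (_ | a)
        · exact ⟨0, fun _ => (sub_zero _).symm⟩
        · fin_cases a
          · exact ⟨0, fun _ => (sub_zero _).symm⟩
          · exact ⟨-τ y, fun _ => by simp⟩
      · filter_upwards [b] with u c d e r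
        exact sub_eq_zero.2 (congrFun
          ((cmp Ψ hGpl h1 h2 hG.mem b1.fib a2 a3 u (c d.1 d.2 e)).2.trans a4) r)
      · have c1 : M.T y l v ⊆ Ψ.D j := idt Ψ h3 hG b1 (η := η) (by
          refine eventually_nhdsWithin_iff.2 ?_
          filter_upwards [c, (Ψ.pm.isOpen j).mem_nhds a3, b3] with u d e f k
          exact ⟨e, funext fun r => sub_eq_zero.1 (d (f.1 (b2 ▸ k)) r)⟩)
        exact hn ⟨v, a1, m, i, a5⟩ fun u d => ⟨c1 (b2 ▸ d),
          (rig Ψ stRig h3 hG b1 c1 u (b2 ▸ d)).trans a4⟩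
  refine (k0.union (countable_iUnion k1)).mono ?_
  rintro _ ⟨v, a, rfl⟩
  by_cases b : ∀ i, ¬ M.NC τ m i l v
  · exact .inl ⟨v, ⟨a, b⟩, rfl⟩
  · obtain ⟨i, c⟩ := not_forall.1 b
    exact .inr (mem_iUnion.2 ⟨i, v, ⟨a, not_not.1 c⟩, rfl⟩)

end Vale.Agent.P277Z.Cls
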