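import Vale.Agent.P277Z.Cls.Rzl
import Vale.Agent.P277Z.Hir.All

/-!
# P277, block CLS: the principalization with the strict transforms, the theorem
-/

namespace Vale.Agent.P277Z.Cls

theorem stRzl : StRzl := rzl_of Hir.stMainL

end Vale.Agent.P277Z.Cls
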