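import Vale.Agent.P277Z.Cls.Sk
import Vale.Agent.P277Z.Top.Gen
import Vale.Agent.P277Z.Top.Grx
import Vale.Agent.P277Z.Top.FbAll
import Vale.Agent.P277Z.R2.Main
import Vale.Agent.P277Z.Val.An

/-!
# P277, block CLS: general points, and the line bundles near their fibres
-/

set_option linter.all false
set_option maxSynthPendingDepth 3

open scoped Manifold ContDiff Topology
open Vale.Agent.P272.K Vale.Agent.P285.H281.FD Vale.Agent.P277 Set Filter Module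
open Vale.Agent.P267.H175 (dF)
open Vale.Agent.P277.PH (HolF SmR)
open Vale.Agent.P277Z.Tr (pb HolM)
open Vale.Agent.P277Z.Val (Sb Lg)
open Vale.Agent.P277Z.Ln (Iso pl RData)
open Vale.Agent.P277Z.Top Vale.Agent.P277Z.Top.H98 Vale.Agent.P277Z.Gd

noncomputable section

namespace Vale.Agent.P277Z.Cls

theorem Ctx.hp (X : Ctx) : HolY 4 X.Y X.p := ⟨X.hyp.resU.cont, X.hyp.resU.hol⟩

theorem gen_pts (X : Ctx) : ¬ X.σ.Countable ∧ {y ∈ X.σ | ¬ ∃ O t g Δ s, IsDisc X.Y X.σ O t g Δ ∧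
    s ∈ Δ ∧ g s = y ∧ H98.Gen X.Q X.p X.σ t (g s)}.Countable := by
  have r1 : range (fun x => X.p (X.Q.ι X.k₀ x)) = X.σ := by
    rw [← X.hσ, ← X.Q.rng, ← range_comp]; rfl
  have hf := holY_comp X.hp (par_hol X.Q X.k₀)
  obtain ⟨a1, a2⟩ := (stIrr X.Y 3 _ _ (X.Q.conn X.k₀) hf (by
    rw [r1, ← X.hσ]; exact X.hyp.dimU.mono (image_mono (subset_iUnion X.U.G _)))).2.2
    (r1 ▸ X.nsub)
  obtain ⟨C, -, hC⟩ := Fb.exists_seq (d := 2) hf (by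
    by_contra k
    exact a1 (a2.mono fun _ ⟨x, e⟩ => e ▸ by_contra fun k' => k ⟨x, k'⟩))
  have hD : ∀ k, IsDisc X.Y X.σ (C k).O (C k).t (C k).g (C k).Δ := fun k => r1 ▸ (C k).disc
  refine ⟨r1 ▸ a1, (a2.union (countable_iUnion fun k => (gen_count Fb.stCrit X.Q X.hp X.hyp.dimU
    (X.hσ ▸ hD k)).image (C k).g)).mono fun y ⟨hy, h⟩ => or_iff_not_imp_left.2 fun k => ?_⟩
  obtain ⟨x, rfl⟩ := r1.ge hy
  obtain ⟨n, hn⟩ := hC x k
  obtain ⟨b1, b2⟩ := Fb.disc_eq (hD n) hy (mem_of_indicator_ne_zero (hn.trans_ne one_ne_zero))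
  exact mem_iUnion.2 ⟨n, _, ⟨b1, fun c => h ⟨_, _, _, _, _, hD n, b1, b2, X.hσ ▸ c⟩⟩, b2⟩

/-- **GP** -/
theorem gp : StGp := fun X => ⟨(gen_pts X).1, (gen_pts X).2.mono fun y ⟨hy, h⟩ => by
  refine ⟨hy, ?_⟩
  rintro ⟨O, t, g, Δ, s, hD, hs, rfl, hG⟩
  exact h ⟨hy, fun k a => (hG.thr k a).1, O, t, g, Δ, hD, (Fb.disc_mem hD hs).2, fun k z a =>
    (hG.thr k ⟨_, (X.Q.rng k).le ⟨z, rfl⟩, a⟩).2 z a⟩⟩

theorem six_near {N : ℕ} (G : Geo 4 N) (R : RData G) (hE : G.F ⊆ R.E)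
    {κ : Type} [Fintype κ] (H : κ → Mf 3) (ι : ∀ k, (H k).M → G.W) (hι : ∀ k, Sb 3 4 (ι k))
    (cov : ∀ w ∈ G.F, ∃ k, w ∈ range (ι k))
    (tri : ∀ k m j, k ≠ m → m ≠ j → k ≠ j →
      (G.F ∩ range (ι k) ∩ range (ι m) ∩ range (ι j)).Finite)
    (x : ∀ k, C11 (H k)) (hx : ∀ k, x k ∈ Lam (H k))
    (dc : ∀ k m, k ≠ m → DC G.F (ι k) (ι m) (x k).1 (x m).1) :
    ∃ n : ℕ, 1 ≤ n ∧ ∀ n', n ∣ n' → ∃ L : Bd G.W, G.LB L ∧ ∀ k, ∃ V, IsOpen V ∧ ι k ⁻¹' G.F ⊆ V ∧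
      ∀ (d : ℕ) (X : Mf d) (j : X.M → (H k).M), HolM d 3 j → (∀ z, j z ∈ V) →
        ∀ ψ α, IsCv (d := d) (HD.pull (fun z => ι k (j z)) L) ψ α →
          ∃ θ : Fr d 1 X.M, Sm θ ∧ α - pb (Cm d) j ((n' : ℝ) • (x k).1) = dF θ := by
  classical
  choose L ψ hc using fun k => ((stLam 3 (H k)).2.2.1 (x k)).1 (hx k)
  have key : ∀ q : κ × κ, ∃ n, 1 ≤ n ∧ (q.1 ≠ q.2 → Iso {z : (H q.1).M × (H q.2).M |
      ι q.1 z.1 = ι q.2 z.2 ∧ ι q.1 z.1 ∈ G.F} ((pl Prod.fst (L q.1)).pow n)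
      ((pl Prod.snd (L q.2)).pow n)) := fun q => by
    by_cases h : q.1 = q.2
    · exact ⟨1, le_rfl, fun h' => absurd h h'⟩
    · obtain ⟨n, h1, h2⟩ := (dc _ _ h).iso stLam (hι _).inj (hι _).inj (hc _) (hc _)
      exact ⟨n, h1, fun _ => h2⟩
  choose n hn hi using key
  have := fun k => ChartedSpace.secondCountable_of_sigmaCompact (Cm 3) (H k).M
  refine ⟨∏ q, n q, Finset.one_le_prod' fun q _ => hn q, fun n' hn' => ?_⟩
  have hp := fun k => cv_pow (hc k) n'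
  obtain ⟨L₁, h1, h2⟩ := Ln.lb_of R2.stR2 N G R hE κ (fun k => (H k).M) ι
    (fun k => (L k).pow n') (fun k => (hι k).cont) (fun k => (hι k).inj)
    (fun k => (G.cpt.isClosed.preimage (hι k).cont).isCompact)
    (fun k y a ha => holF_comp (sb_holM (hι k)) ha) cov
    (fun k => by
      have h := lb_cb (hp k).lb
      exact ⟨h.isOpen, fun y _ => h.cover y trivial, h.sm, h.ne_zero, h.cocycle⟩) tri
    fun k m hkm => by
      obtain ⟨c, hc⟩ := (Finset.dvd_prod_of_mem n (Finset.mem_univ (k, m))).trans hn'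
      rw [hc]
      exact iso_pow (hi (k, m) hkm) c
  refine ⟨L₁, h1, fun k => (h2 k).imp fun V ⟨a, b, h3⟩ => ⟨a, b, fun d X j hj hF ψ' α hα => ?_⟩⟩
  exact ex_of_iso X hα ((stLam 3 (H k)).2.2.2.2 d X j _ _ _ hj (hp k))
    (((siso_iso h3).pl hj.1).mono fun z _ => hF z)

theorem dc_gen (X : Ctx) {O t g Δ s} (hD : IsDisc X.Y X.σ O t g Δ) (hs : s ∈ Δ)
    (hG : H98.Gen X.Q X.p X.σ t (g s)) (j : Fin X.q) (k m : Fin X.U.r) (hkm : k ≠ m) :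
    DC (X.p ⁻¹' {g s}) (X.Q.ι k) (X.Q.ι m) (X.x j k).1 (X.x j m).1 := by
  obtain ⟨V, U, a, Y, ψ, α, μ, s', p, Q, R, C, hyp, hC, σ, k₀, hσ, hn, l, hl, sub, q, x, lam,
    zero, he⟩ := X
  have hp : HolY 4 Y p := ⟨hyp.resU.cont, hyp.resU.hol⟩
  refine dc_par Q p (g s) (fun k => (x j k).1) (fun e => ?_) k m hkm
  have r2 : range (fun z => p (Q.ι₂ e.1.2.2 z)) = p '' e.1.2.2 := by
    exact (range_comp p _).trans (congrArg (p '' ·) (Q.rng₂ (e.1.1, e.1.2.2) (ed_s e)))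
  by_cases hy : g s ∈ p '' e.1.2.2
  swap
  · exact deg_empty (d := 1) (r2 ▸ hy) fun N i => N.int (pb (Cm 1) i (pb (Cm 2) (Q.j e.1.1 e.1.2.2)
      (x j _).1)) = N.int (pb (Cm 1) i (pb (Cm 2) (Q.j e.1.2.1 e.1.2.2) (x j _).1))
  obtain ⟨a1, a2⟩ := hG.srf _ (ed_s e) hy
  have a3 : p '' e.1.2.2 = σ := a1
  have k1 : HolM 2 3 (Q.j e.1.1 e.1.2.2) := par_hol₂ Q (ed_s e)
  have k2 : HolM 2 3 (Q.j e.1.2.1 e.1.2.2) := par_hol₂ Q (ed_t e)
  have k3 := he j e (by rw [hC.P, a3]; exact hn)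
  have k4 : (C.rs e (C.o _)).1 = R.B.form 2 fun z => p (Q.ι₂ e.1.2.2 z) := by
    rw [hC.rs, hC.o]
    refine (congrArg (fun k => pb (Cm 2) (Q.j k e.1.2.2) (R.B.form 3 fun x => p (Q.ι k x)))
      (hC.s e)).trans ?_
    have y1 := holY_comp hp (par_hol Q e.1.1)
    exact ((stForm Y R.B 3 _ _ y1).2.2.2.2.2.2.2 2 _ _ k1).trans
      (congrArg (R.B.form 2) (funext fun z => congrArg p (Q.fac _ (ed_s e) z)))
  rw [hC.B, hC.B, k4, hC.rs, hC.rt] at k3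
  have k5 := congrArg (fun k => pb (Cm 2) (Q.j k e.1.2.2) (x j k).1) (hC.s e)
  have k6 := congrArg (fun k => pb (Cm 2) (Q.j k e.1.2.2) (x j k).1) (hC.t e)
  beta_reduce at k5 k6
  rw [k5, k6] at k3
  exact deg_fib fib eqd R.B _ _ (Q.conn₂ _ (ed_s e)) (holY_comp hp (par_hol₄ Q (ed_s e)))
    (r2 ▸ hyp.dimU.mono (image_mono (((ed_cc e).2.sub.trans inter_subset_left).trans
      (subset_iUnion U.G _)))) (by rw [r2, a3]; exact hn) (by rw [r2, a3]; exact hD) hs a2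
    (cl_pb k1 (c_cl _)) (cl_pb k2 (c_cl _)) k3

theorem Ctx.connU (X : Ctx) (y : X.Y.pt) : IsConnected (X.p ⁻¹' {y}) := by
  have h := X.hyp.resU
  obtain ⟨P, c, τ, h1, h2, h3, h4⟩ := h.amp
  exact ⟨h.surj y, (Val.an X.U X.Y X.p _ P c τ X.hyp.normal
    ⟨⟨h.cont, h.hol⟩, h.surj, h.emb, h.inj, h.dim, h1, h2, h3, h4⟩).2.1 y⟩

/-- **SIX** -/
theorem six : StSix := fun X => (gen_pts X).2.mono fun y ⟨hy, h⟩ => by
  classical
  refine ⟨hy, ?_⟩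
  rintro ⟨O, t, g, Δ, s, hD, hs, rfl, hG⟩
  have := ChartedSpace.secondCountable_of_sigmaCompact (Cm 4) X.U.W
  have hp := X.hp
  obtain ⟨N, k', O', Ω, h', φ, a1, a2⟩ := X.Y.model (g s)
  have ev : ∀ᶠ w in 𝓝ˢ (X.p ⁻¹' {g s}), X.p w ∈ O' :=
    (a2.isOpen.preimage hp.1).mem_nhdsSet.2 fun w hw => show X.p w ∈ O' from hw ▸ a1
  let G : Geo 4 N := ⟨X.U.W, X.p ⁻¹' {g s}, (isClosed_singleton.preimage hp.1).isCompact,
    X.connU _, fun w => φ (X.p w) - φ (g s), fun w hw i e he => (hp.2 w (fun y => φ y i)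
      ((a2.hol _ (show X.p w ∈ O' from hw ▸ a1) _).2 ⟨fun z => z i,
        (ContinuousLinearMap.proj (R := ℂ) (φ := fun _ => ℂ) i).analyticAt _, .rfl⟩) e he).sub
          analyticAt_const, ev.mono fun w hw => sub_eq_zero.trans ⟨fun e => congrArg Subtype.val
            (a2.emb.injective (a₁ := ⟨_, hw⟩) (a₂ := ⟨_, a1⟩) e), fun e => congrArg φ e⟩⟩
  obtain ⟨D, hE⟩ := rdata (cpt := G.cpt) (conn := G.conn) (π := G.π) (hol := G.hol) (fib := G.fib)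
    hp X.R X.hyp.vol hD hs (hG.near hp.1)
  have hF := fib_sub X.hyp.resU (image_mono (subset_iUnion X.U.G X.k₀) (X.hσ.ge hy))
  choose n hn hL using fun j => six_near G D (hE ▸ hF) X.Q.H X.Q.ι X.Q.emb
    (fun w hw => by simpa only [X.Q.rng] using mem_iUnion.1 (hF hw))
    (fun k m j a b c => by simpa only [X.Q.rng] using hG.tri k m j a b c) (X.x j) (X.lam j)
    (dc_gen X hD hs hG j)
  choose L b1 V b2 b3 b4 using fun j => hL j _ (Finset.dvd_prod_of_mem n (Finset.mem_univ j))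
  obtain ⟨O₁, c1, c2, c3⟩ := eventually_nhds_iff.1 ((eventually_all.2 fun j =>
    hp.1.isClosedMap.eventually_nhds_fiber (p := fun w => ∃ i, w ∈ (L j).U i) (g s) fun w hw =>
      let ⟨i, hi⟩ := (b1 j).cover w hw
      mem_of_superset (((b1 j).isOpen i).mem_nhds hi) fun _ a => ⟨i, a⟩).and
    (eventually_all.2 fun j => eventually_all.2 fun k =>
      (hp.1.comp (X.Q.emb k).cont).isClosedMap.eventually_nhds_fiber (p := fun z => z ∈ V j k)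
        (g s) fun z hz => (b2 j k).mem_nhds (b3 j k hz)))
  refine h ⟨⟨O₁, ∏ j, n j, L, c2, Finset.one_le_prod' fun j _ => hn j, fun j =>
    ⟨⟨(b1 j).isOpen, fun w hw => (c1 _ hw).1 j w rfl, fun i i' w _ => (b1 j).holo i i' w,
      fun i i' w _ => (b1 j).ne_zero i i' w, fun i i' i'' w _ => (b1 j).cocycle i i' i'' w⟩,
      fun k d M i hi hO χ β hc => ?_⟩⟩, c3⟩
  have e : X.ξ (Pi.single j (∏ j, n j : ℕ)) k = ((∏ j, n j : ℕ) : ℝ) • (X.x j k).1 := by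
    rw [Ctx.ξ, Finset.sum_eq_single j (fun j' _ a => by simp [a]) (by simp)]
    simp
  rw [e]
  exact b4 j k d M i hi (fun z => (c1 _ (hO z)).2 j k _ rfl) χ β hc

end Vale.Agent.P277Z.Cls
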