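import Vale.Agent.P277Z.Cls.SliA
import Vale.Agent.P277Z.Cls.Carb
import Vale.Agent.P277Z.Slc.Disc
import Vale.Agent.P277Z.Num.Term
import Vale.Agent.P277Z.Brg.Calc

/-!
# P277, block CLS: the slice
-/

set_option linter.all false
set_option maxSynthPendingDepth 3

open scoped Manifold ContDiff Topology
open Vale.Agent.P272.K Vale.Agent.P285.H281.FD Vale.Agent.P277 Set Filter
open Vale.Agent.P277Z.Slc

noncomputable section

namespace Vale.Agent.P277Z.Cls.Sli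

theorem not_big {W : Type} [TopologicalSpace W] [T2Space W] [SecondCountableTopology W]
    [ChartedSpace (Cm 4) W] [IsManifold 𝓘(ℂ, Cm 4) ω W] {κ : Type} [Fintype κ] {G : κ → Set W}
    (hG : Snc 4 G) {V : Set W} (hV : IsOpen V) {N : ℕ} {T : W → Cm N}
    (hT : ∀ x ∈ V, ∀ i, Hol 4 (fun y => T y i) x) {l : κ}
    (h : ∀ x ∈ V, x ∈ G l → ∀ ζ (e : Chart 4 W), LEq 4 (G l) x ζ → At e x →
      ∃ v, v ≠ 0 ∧ dd ζ e x v = 0 ∧ ∀ i, dd (fun y => T y i) e x v = 0) :
    ¬ Big 3 (T '' (V ∩ G l)) := fun hB => by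
  obtain ⟨φ, hφ⟩ := hB.proj
  obtain ⟨_, ⟨x, hx, rfl⟩, hR⟩ := hφ _ (stSard 4 W κ G V 3 (fun x => φ (T x)) hG hV
    fun x hx i => Hol.comp_an (φ := fun z => φ z i) (hT x hx)
      (analyticAt_pi_iff.1 (φ.analyticAt _) i))
  obtain ⟨ζ, hζ, -⟩ := hG x
  have he := at_chartAt (n := 4) x
  obtain ⟨v, h0, h1, h2⟩ := h x hx.1 hx.2 _ _ (hζ l) he
  have hi := hR.ind hx.1 rfl hζ (f := fun _ : Unit => l) (fun _ _ _ => rfl) fun _ => hx.2
  refine h0 ((LinearMap.injective_iff_surjective_of_finrank_eq_finrank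
    (f := (ContinuousLinearMap.pi fun a => dd (Sum.elim (fun _ : Unit => ζ l)
      (fun (i : Fin 3) y => φ (T y) i - φ (T x) i) a) (chartAt (Cm 4) x) x).toLinearMap)
    (by simp)).2 ((ind_iff_surj _).1 (hi.2 _ he)) (funext ?_))
  rintro (a | i)
  · simpa using h1
  · have h3 : HasFDerivAt (fun z => T ((chartAt (Cm 4) x).symm z)) (ContinuousLinearMap.pi
        fun j => dd (fun y => T y j) (chartAt (Cm 4) x) x) (chartAt (Cm 4) x x) :=
      hasFDerivAt_pi.2 fun j => (hT x hx.1 j _ he).differentiableAt.hasFDerivAt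
    have h4 := (((ContinuousLinearMap.proj i).comp φ).hasFDerivAt.comp _ h3).fderiv
    have h5 : (ContinuousLinearMap.pi
        fun j => dd (fun y => T y j) (chartAt (Cm 4) x) x) v = 0 := funext h2
    have h6 : dd (fun y => φ (T y) i) (chartAt (Cm 4) x) x v = 0 := by
      refine (congrArg (fun L : Cm 4 →L[ℂ] ℂ => L v) h4).trans ?_
      simp only [ContinuousLinearMap.comp_apply, h5, map_zero]
    simpa [dd_sub_const] using h6

theorem reg_congr {W : Type} [TopologicalSpace W] [ChartedSpace (Cm 4) W] {κ : Type} {m : ℕ}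
    {G : κ → Set W} {V V' : Set W} {F F' : W → Cm m} {s : Cm m} (h : Reg 4 G V F s)
    (hV : IsOpen V') (h1 : V' ⊆ V) (h2 : ∀ x ∈ V', F' x = F x) : Reg 4 G V' F' s := by
  intro x hx hs ζ hζ
  have h3 := h x (h1 hx) (h2 x hx ▸ hs) ζ hζ
  have h4 : ∀ a, ∀ᶠ y in 𝓝 x, Sum.elim (fun l : {l // x ∈ G l} => ζ l)
      (fun (i : Fin m) y => F y i - s i) a y = Sum.elim (fun l : {l // x ∈ G l} => ζ l)
      (fun (i : Fin m) y => F' y i - s i) a y := by
    rintro (a | i)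
    · exact Eventually.of_forall fun _ => rfl
    · exact (hV.eventually_mem hx).mono fun y hy => by simp [h2 y hy]
  exact ⟨fun a => (h3.1 a).congr (h4 a), fun e he => by
    rw [← funext fun a => dd_congr (h4 a) he]
    exact h3.2 e he⟩

theorem app_inj {a b : ℕ} {u u' : Cm a} {v v' : Cm b} :
    Fin.append u v = Fin.append u' v' ↔ u = u' ∧ v = v' :=
  ⟨fun h => ⟨funext fun i => by simpa using congrFun h (Fin.castAdd b i),
    funext fun i => by simpa using congrFun h (Fin.natAdd a i)⟩, fun h => by rw [h.1, h.2]⟩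

end Vale.Agent.P277Z.Cls.Sli

namespace Vale.Agent.P277Z.Cls

open Sli Classical in
/-- **SLI** -/
theorem stSli (hA : StApi1) (hA3 : StApi3) (hE : StEcho) (hC : StCarb) : StSli := by
  intro X L S M y O τ g Δ hG m i w hw hm hR
  obtain ⟨a1, -, a3, a4, -⟩ := hA X L S M
  have hw : M.b w = y := hw
  have hO : ∀ {v}, v ∈ M.D m → M.b v ∈ M.O := fun {v} h => (M.pm.pm.cover v).2 ⟨m, h⟩
  obtain ⟨H, hH, hH'⟩ := (M.model.hol y hG.mem τ).1 (hG.disc.hol y (hG.le hG.mem))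
  obtain ⟨O', hO', hc⟩ := hG.ctr
  obtain ⟨O₁, k1, k2, k3⟩ := eventually_nhds_iff.1 ((show ∀ᶠ y' in 𝓝 y, y' ∈ O' from hO').and
    (hH'.and ((M.model.continuousAt hG.mem).eventually hH.eventually_analyticAt)))
  let T : M.Z.W → Cm (M.N + (M.R + 1)) := fun v => Fin.append (M.t v) (M.ν m v)
  let φ : Cm (M.N + (M.R + 1)) → Cm 2 := fun z =>
    ![H fun j => z (Fin.castAdd _ j), z (Fin.natAdd _ i)]
  let V := M.D m ∩ M.b ⁻¹' O₁
  have hV : IsOpen V := (M.pm.pm.isOpen m).inter (k2.preimage a1)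
  have hφ : ∀ v ∈ V, φ (T v) = ![τ (M.b v), M.ν m v i] := fun v hv => by
    simp only [φ, T, Fin.append_left, Fin.append_right, (k1 _ hv.2).2.1]
    rfl
  have hwV : w ∈ V := ⟨hm, by rwa [mem_preimage, hw]⟩
  set K := {v ∈ M.D m | M.b v = y ∧ M.ν m v = M.ν m w} with hK
  have hT : ∀ v, v ∈ K ↔ v ∈ M.D m ∧ T v = T w := fun v => and_congr_right fun hv => by
    rw [app_inj, ← hw]
    exact and_congr_left' ⟨fun h => congrArg M.φ h, fun h => M.model.injOn (hO hv) (hO hm) h⟩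
  have hKV : ∀ v ∈ K, v ∈ V := fun v hv => ⟨hv.1, by rwa [mem_preimage, hv.2.1]⟩
  have hTh : ∀ x ∈ V, ∀ j, Hol 4 (fun z => T z j) x := fun x hx => (a4 m).hol x hx.1
  have hφa : ∀ x ∈ V, AnalyticAt ℂ φ (T x) := fun x hx => by
    refine analyticAt_pi_iff.2 (Fin.forall_fin_two.2 ⟨?_, (ContinuousLinearMap.proj
      (R := ℂ) (φ := fun _ => ℂ) (Fin.natAdd _ i)).analyticAt _⟩)
    refine AnalyticAt.fun_comp (g := H) (f := fun (z : Cm _) j => z (Fin.castAdd _ j)) ?_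
      (AnalyticAt.pi fun j => (ContinuousLinearMap.proj (R := ℂ) (φ := fun _ => ℂ)
        (Fin.castAdd _ j)).analyticAt _)
    simp only [T, Fin.append_left]
    exact (k1 _ hx.2).2.2
  have hR' : Reg 4 M.Z.G V (fun x => φ (T x)) (φ (T w)) := by
    rw [hφ w hwV, hw]
    exact reg_congr hR hV inter_subset_left hφ
  have hnb : ∀ l ∈ exU X.ex, ¬ Big 3 (T '' (V ∩ M.Z.G l)) := fun l hl =>
    not_big M.Z.snc hV hTh fun x hx h1 ζ e h2 h3 => by
      obtain ⟨v, b1, b2, b3, b4⟩ := hc l hl m x hx.1 h1 (k1 _ hx.2).1 ζ e h2 h3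
      refine ⟨v, b1, b2, fun j => ?_⟩
      refine Fin.addCases (fun j => ?_) (fun j => ?_) j
      · simpa only [T, Fin.append_left] using b3 j
      · simpa only [T, Fin.append_right] using b4 j
  obtain ⟨J, _, c, o, q, nn, hS⟩ := stSl dZ isDeg 4 M.Z.W _ M.Z.G M.B M.τ ∅ 2 _ V T φ (T w) M.div
    rfl hV hTh hφa (by
      have := (a4 m).proper {T w} (singleton_subset_iff.2 ((a4 m).maps hm)) isCompact_singleton
      refine (congrArg IsCompact (Subset.antisymm (fun v hv => ?_) fun v hv => ?_)).mp this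
      exacts [⟨hKV v ((hT v).2 hv), hv.2⟩, ⟨hv.1.1, hv.2⟩]) hR'
  have h0 : ∀ l, l ∉ (∅ : Finset (Fin X.V.r ⊕ Fin M.Z.r)) := fun l => Finset.notMem_empty l
  have hcK : ∀ a p, (c a).ι p ∈ K := fun a p => (hT _).2 ⟨(hS.sub a p).1.1, (hS.sub a p).2.1⟩
  have own : ∀ a, o a ∈ exU X.ex := hS.own_mem (ex := {l | l ∈ exU X.ex})
    (fun l hl => absurd hl (h0 l)) fun x hx x' hx' h1 _ h2 => by
      have b1 : M.Z.π x ∉ X.E := fun h =>
        let ⟨l, hl, h⟩ := mem_iUnion₂.1 ((a3 x (hO hx.1)).1 h); h1 l hl h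
      exact (M.Z.bl.one x x' (fun h => b1 (M.mov.sub _ (Cb.mem_O M x) h))
        (Cb.inj b1 (M.model.injOn (hO hx'.1) (hO hx.1) (app_inj.1 h2).1.symm))).symm
  have cov : ∀ v ∈ K, ∀ l ∈ exU X.ex, v ∈ M.Z.G l → ∃ a, o a = l ∧ v ∈ range (c a).ι :=
    fun v hv l hl h => (hS.cover l (h0 l) v (hKV v hv) ((hT v).1 hv).2
      (fun l hl => absurd hl (h0 l)) h).resolve_right fun h1 => hnb l hl
        ((h1.1 V (hV.mem_nhds (hKV v hv))).mono (image_mono fun x hx => ⟨hx.1.1, hx.2⟩))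
  have cov' : ∀ v ∈ K, ∃ a, v ∈ range (c a).ι := fun v hv => by
    obtain ⟨l, hl, h⟩ := (hA3 X L S M y O τ g Δ hG).1 v hv.2.1
    exact (cov v hv l hl h.mem).imp fun _ h => h.2
  have nn0 : ∀ a, ∀ l ∈ exU X.ex, nn l a = 0 := fun a l hl => by
    rw [hS.nn_eq a l (h0 l)]
    refine (congrArg ncard (eq_empty_of_forall_notMem ?_)).trans (ncard_empty _)
    rintro _ ⟨⟨⟨p, rfl⟩, h5⟩, h6⟩
    obtain ⟨b, h7, h8⟩ := cov _ (hcK a p) l hl h5
    exact h6 b h7 h8
  set Z := connectedComponentIn K w with hZ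
  have hZK : Z ⊆ K := connectedComponentIn_subset _ _
  have hin : ∀ a, ∀ v ∈ Z, v ∈ range (c a).ι → range (c a).ι ⊆ Z := fun a v hv h => by
    rw [hZ, connectedComponentIn_eq hv]
    exact (isConnected_range (c a).cont).isPreconnected.subset_connectedComponentIn h
      (range_subset_iff.2 (hcK a))
  have hcl : ∀ A : Finset J, IsClosed (⋃ a ∈ A, range (c a).ι) := fun A =>
    A.finite_toSet.isClosed_biUnion fun a _ => (isCompact_range (c a).cont).isClosed
  let s : Finset J := Finset.univ.filter fun a => range (c a).ι ⊆ Z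
  have hs : ∀ a, a ∈ s ↔ range (c a).ι ⊆ Z := fun a => by simp [s]
  have covZ : ∀ v ∈ Z, ∃ a ∈ s, v ∈ range (c a).ι := fun v hv =>
    (cov' v (hZK hv)).imp fun a h => ⟨(hs a).2 (hin a v hv h), h⟩
  have hq : ∀ a ∈ s, ∀ f : J → ℝ, ∑ b, f b * q b a = ∑ b ∈ s, f b * q b a := fun a ha f => by
    refine (Finset.sum_subset (Finset.subset_univ _) fun b _ hb => ?_).symm
    rw [hS.off b a fun e => hb (e ▸ ha), eq_empty_of_forall_notMem (s := _ ∩ _) fun v hv =>
      hb ((hs b).2 (hin b v ((hs a).1 ha hv.2) hv.1))]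
    simp
  have hb : ∀ a p, M.b ((c a).ι p) = y := fun a p => (hcK a p).2.1
  obtain ⟨k, ρ, μ, r0, r1⟩ := dg_pair M.Z M.div ⟨X.hyp.res.cont, X.hyp.res.hol⟩ X.hyp.pair
  let β : Fin k ⊕ (Fin X.V.r ⊕ Fin M.Z.r) → ℝ :=
    Sum.elim ρ fun l => if l ∈ exU X.ex then 0 else -M.disc l
  have hβ : ∀ t, 0 ≤ β t := by
    rintro (e | l | l)
    · exact r0 e
    · simp only [β, Sum.elim_inr, Cb.mem_ex M]
      split_ifs with h
      exacts [le_rfl, neg_nonneg.2 (not_lt.1 h)]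
    · simp [β, exU]
  have hD : P277Z.Num.Dat s q (fun a => dg dZ (c a) (Bd.can 4 M.Z.W))
      (Sum.elim (fun e a => μ e (c a)) nn) β fun a => M.disc (o a) := by
    refine ⟨fun a _ b _ => hS.symm a b, fun a _ b _ h => hS.nonneg h,
      ⟨fun a => M.c (o a), fun a _ => (M.cpos _).2 (own a), fun a ha => ?_⟩,
      fun a _ => by simpa using hS.adj a, fun a ha => ?_⟩
    · have b1 := fun p => M.pos ((c a).ι p) (hO (hcK a p).1)
      have b2 := dg_spsh (c a) M.B (-M.c) (fun l => isLB_pull _ (M.div l).lb) M.Λ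
        (fun j p hj => ((b1 p).all (F := univ) (fun l => Brg.lbn_of_isLB (M.div l).lb _)
          trivial hj).self_of_nhds) fun j j' p => (b1 p).chg.self_of_nhds j j'
      rw [← hq a ha]
      refine hS.neg M.c0 (fun l hl => absurd hl (h0 l)) ?_
      simpa only [Pi.neg_apply, neg_mul, Finset.sum_neg_distrib, neg_pos] using b2
    · have b1 := r1 (c a) (fun p => M.sub (hO (hcK a p).1)) fun p p' =>
        (hb a p).trans (hb a p').symm
      have b2 := hS.comb M.disc a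
      rw [Fintype.sum_sum_type, Finset.sum_empty, zero_add, Finset.compl_empty] at b2
      have b3 : ∑ l, (if l ∈ exU X.ex then 0 else -M.disc l) * (nn l a : ℝ) =
          -∑ l, M.disc l * nn l a := by
        rw [← Finset.sum_neg_distrib]
        refine Finset.sum_congr rfl fun l _ => ?_
        split_ifs with h
        · simp [nn0 a l h]
        · ring
      rw [← hq a ha, Fintype.sum_sum_type]
      simp only [β, Sum.elim_inl, Sum.elim_inr, b3]
      simp only [Md.disc] at b2 ⊢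
      linarith
  have hwK : w ∈ K := ⟨hm, hw, rfl⟩
  obtain ⟨j, hj, n, e1, e2⟩ := P277Z.Num.last' hβ hD (fun A hA h1 h2 => by
      obtain ⟨a, ha⟩ := h1
      obtain ⟨b, b1, b2⟩ := Finset.exists_of_ssubset (hA.ssubset_of_ne h2)
      obtain ⟨p⟩ : Nonempty (c a).C := inferInstance
      obtain ⟨p'⟩ : Nonempty (c b).C := inferInstance
      obtain ⟨v, -, b3, b4⟩ := isPreconnected_closed_iff.1 (isPreconnected_connectedComponentIn
        (F := K) (x := w)) _ _ (hcl A) (hcl (s \ A)) (fun v hv => by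
          obtain ⟨a, b3, b4⟩ := covZ v hv
          by_cases h : a ∈ A
          exacts [Or.inl (mem_iUnion₂.2 ⟨a, h, b4⟩),
            Or.inr (mem_iUnion₂.2 ⟨a, Finset.mem_sdiff.2 ⟨b3, h⟩, b4⟩)])
        ⟨_, (hs a).1 (hA ha) ⟨p, rfl⟩, mem_iUnion₂.2 ⟨a, ha, p, rfl⟩⟩
        ⟨_, (hs b).1 b1 ⟨p', rfl⟩, mem_iUnion₂.2 ⟨b, Finset.mem_sdiff.2 ⟨b1, b2⟩, p', rfl⟩⟩
      obtain ⟨a', c1, c2⟩ := mem_iUnion₂.1 b3
      obtain ⟨b', c3, c4⟩ := mem_iUnion₂.1 b4
      obtain ⟨c5, c6⟩ := Finset.mem_sdiff.1 c3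
      have c7 : a' ≠ b' := fun e => c6 (e ▸ c1)
      refine ⟨a', c1, b', c5, c6, ?_⟩
      rw [hS.off a' b' c7]
      exact_mod_cast (ncard_pos ((hS.fin a' (o b') (h0 _) fun e => disjoint_left.1
        (hS.disj a' b' c7 e.symm) c2 c4).1.subset (inter_subset_inter_right _
          (range_subset_iff.2 fun p => (hS.sub b' p).2.2.2)))).2 ⟨v, c2, c4⟩)
    ((covZ w (mem_connectedComponentIn hwK)).imp fun _ h => h.1) fun a _ => by
      obtain ⟨p⟩ : Nonempty (c a).C := inferInstance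
      have b1 := (hS.sub a p).2.2.2
      have b2 := own a
      generalize o a = l at b1 b2 ⊢
      rcases l with l | l
      exacts [(Cb.mem_ex M).1 b2, (hE X L S M l _ b1 (hO (hcK a p).1)).1]
  have hl : X.a X.l < 0 := by linarith [X.hl, X.hyp.αle]
  have hl₀ : (Sum.inl X.l : _ ⊕ Fin M.Z.r) ∉ exU X.ex := fun h => by
    linarith [(Cb.mem_ex M).1 h]
  obtain ⟨p⟩ : Nonempty (c j).C := inferInstance
  have hp : (c j).ι p ∈ Z := (hs j).1 hj ⟨p, rfl⟩
  refine ⟨o j, own j, ?_, _, hp, (hS.sub j p).2.2.2, ?_⟩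
  · obtain ⟨v, b1, b2⟩ := hC X L S M y O τ g Δ hG m w hw hm
    obtain ⟨a, b3, b4⟩ := covZ v b1
    have b5 : 1 ≤ nn (.inl X.l) a := by
      rw [hS.nn_eq a _ (h0 _)]
      exact (ncard_pos ((hS.fin a (.inl X.l) (h0 _) fun e => hl₀ (e ▸ own a)).1.subset
        fun _ h => h.1)).2
        ⟨v, ⟨b4, b2⟩, fun b e => absurd (e ▸ own b) hl₀⟩
    have b6 : (1 : ℝ) ≤ n (.inr (.inl X.l)) := by
      exact_mod_cast b5.trans ((Finset.single_le_sum (f := fun a => nn (.inl X.l) a)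
        (fun _ _ => Nat.zero_le _) b3).trans (e2 (.inr (.inl X.l))))
    have b7 := Finset.single_le_sum (f := fun t => β t * (n t : ℝ))
      (fun t _ => mul_nonneg (hβ t) (Nat.cast_nonneg _)) (Finset.mem_univ (.inr (.inl X.l)))
    have b8 : β (.inr (.inl X.l)) = -X.a X.l := if_neg hl₀
    rw [b8] at b7
    nlinarith [X.hl]
  · have b0 := hcK j p
    have b1 := hKV _ b0
    have b2 := ((hT _).1 b0).2
    obtain ⟨ζ, hζ, -⟩ := M.Z.snc ((c j).ι p)
    have b3 := hR'.ind b1 (by rw [b2]) hζ (f := fun _ : Unit => o j) (fun _ _ _ => rfl)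
      fun _ => (hS.sub j p).2.2.2
    rw [← b2] at b3
    have b4 := (alt (n := 4) (m := 2) (S := M.Z.G (o j)) rfl (hTh _ b1) (hφa _ b1) b3 (hS.sub j p).2.2.2
      ((hζ (o j)).1.mono fun _ h => by simpa using h.symm)).resolve_right fun h =>
        hnb _ (own j) (h.1 V (hV.mem_nhds b1))
    filter_upwards [b4, hV.eventually_mem b1, (hcl sᶜ).isOpen_compl.eventually_mem
      (x := (c j).ι p) fun h => let ⟨a, h1, h2⟩ := mem_iUnion₂.1 h
        Finset.mem_compl.1 h1 ((hs a).2 (hin a _ hp h2))] with v d1 d2 d3 d4 d5 d6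
    obtain ⟨a, ha⟩ := cov' v ((hT v).2 ⟨d2.1, (d1 d4 (by
      rw [b2, hφ v d2, hφ w hwV, d5, d6, hw])).trans b2⟩)
    by_cases h : a ∈ s
    exacts [(hs a).1 h ha, absurd (mem_iUnion₂.2 ⟨a, Finset.mem_compl.2 h, ha⟩) d3]

end Vale.Agent.P277Z.Cls
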