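import Vale.Agent.P277Z.Cls.Api2
import Vale.Agent.P277Z.Cls.Rig

/-!
# P277, block CLS: a contracted degree is not big along the component
-/

set_option linter.unusedSectionVars false

open scoped Manifold ContDiff Topology
open Vale.Agent.P272.K Vale.Agent.P285.H281.FD Vale.Agent.P277 Set Filter Function
open Vale.Agent.P277Z.Slc (LEq Ind lin)

noncomputable section

namespace Vale.Agent.P277Z.Cls

namespace Two

open A2

/-- the last of three independent functions is not constant on the level set of the others -/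
theorem ind3 {W : Type} [TopologicalSpace W] [ChartedSpace (Cm 4) W] [IsManifold 𝓘(ℂ, Cm 4) ω W]
    {a b c : W → ℂ} {x : W} (h : Ind 4 ![a, b, c] x) :
    ¬ ∀ᶠ y in 𝓝 x, a y = a x → b y = b x → c y = c x := fun k => by
  obtain ⟨d, Θ, h1, h2, -⟩ := RigH.exists_th h
  let η : ℂ → (Fin 3 → ℂ) × Cm d := fun t => ((Θ x).1 + t • Pi.single 2 1, (Θ x).2)
  have h3 : Tendsto η (𝓝 0) (𝓝 (Θ x)) := by
    have : Continuous η := by fun_prop
    simpa [η] using this.tendsto 0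
  have h4 := Θ.continuousAt_symm (Θ.map_source h1)
  rw [ContinuousAt, Θ.left_inv h1] at h4
  obtain ⟨t, ⟨p, q⟩, r⟩ := (((((h4.comp h3).eventually k).and (h3.eventually
    (Θ.open_target.mem_nhds (Θ.map_source h1)))).filter_mono
      (nhdsWithin_le_nhds (s := {0}ᶜ))).and self_mem_nhdsWithin).exists
  have e := h2 _ (Θ.map_target q)
  rw [Θ.right_inv q] at e
  rw [comp_apply] at p
  generalize Θ.symm (η t) = z at p e
  have e1 := congrFun e 0
  have e2 := congrFun e 1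
  have e3 := congrFun e 2
  simp [η, h2 x h1] at e1 e2 e3
  exact r (by simpa [p e1.symm e2.symm] using e3)

variable {X : Ctx} {L : Fin X.q → Bd X.V.W} {S : X.Sf L} {M : Md S}

/-- the quotient of two sections of the same degree -/
theorem quot (h1 : StApi1) (hL : StLoc) (c : Fin S.b → ℤ) (n d : Ix L → X.V.W → ℂ) :
    ∃ h : M.Z.W → ℂ, ∀ z m j v v₀, MerN c n z → MerN c d z → z ∈ M.D m → In L j (M.Z.π z) →
      A2.Loc c n m j v z → A2.Loc c d m j v₀ z → v₀ z ≠ 0 → ∀ᶠ z' in 𝓝 z, h z' = v z' / v₀ z' := by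
  let P : M.Z.W → ℂ → Prop := fun z r => ∃ m j v v₀, z ∈ M.D m ∧ In L j (M.Z.π z) ∧
    A2.Loc c n m j v z ∧ A2.Loc c d m j v₀ z ∧ v₀ z ≠ 0 ∧ r = v z / v₀ z
  have key : ∀ z m j v v₀, MerN c n z → MerN c d z → z ∈ M.D m → In L j (M.Z.π z) →
      A2.Loc c n m j v z → A2.Loc c d m j v₀ z → v₀ z ≠ 0 → Classical.epsilon (P z) = v z / v₀ z := by
    intro z m j v v₀ a1 a2 a3 a4 a5 a6 a7
    obtain ⟨m', j', v', v₀', b3, b4, b5, b6, b7, b8⟩ :=
      Classical.epsilon_spec (p := P z) ⟨_, m, j, v, v₀, a3, a4, a5, a6, a7, rfl⟩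
    rw [b8, div_eq_div_iff b7 a7]
    refine eq_of h1 hL a3 (b5.1.mul a6.1) (a5.1.mul b6.1) ?_
    filter_upwards [a1, a2, nearD a3 a4, nearD b3 b4, a5.2, a6.2, b5.2, b6.2]
      with w c1 c2 c3 c4 c5 c6 c7 c8 e
    have d1 := ((c1 j c3.2).2 e).2 j' c4.2
    have d2 := ((c2 j c3.2).2 e).2 j' c4.2
    rw [c5 e, c7 e] at d1
    rw [c6 e, c8 e] at d2
    refine mul_right_cancel₀ (mul_ne_zero (gn_ne h1 (c := c) c3.1 c3.2 e)
      (gn_ne h1 (c := c) c4.1 c4.2 e)) ?_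
    linear_combination (v' w * gn M c m' j' w) * d2 - (v₀' w * gn M c m' j' w) * d1
  refine ⟨fun z => Classical.epsilon (P z), fun z m j v v₀ a1 a2 a3 a4 a5 a6 a7 => ?_⟩
  filter_upwards [a1.eventually_nhds, a2.eventually_nhds, nearD a3 a4, a5.near, a6.near,
    a6.1.ne_near a7] with w c1 c2 c3 c4 c5 c6 using key w m j v v₀ c1 c2 c3.1 c3.2 c4 c5 c6

end Two

open A2 Two in
/-- **II** -/
theorem stTwo (hR : StRig) (h1 : StApi1) (h3 : StApi3) (hM : StMer) (hL : StLoc) : StTwo := by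
  rintro X L S M y O τ g Δ hG l w m i x hT ⟨hw, ζ, hζ, hI⟩ ⟨N₀, c₀, s₀, d₀, f₀⟩ p
    ⟨N₁, c₁, s₁, d₁, f₁⟩
  have hy := hG.mem
  have hN := hG.neg
  obtain ⟨K, hK⟩ : ∃ K, N₀ * N₁ = K + 1 :=
    Nat.exists_eq_add_of_le' (Nat.mul_pos d₀.pos d₁.pos)
  have hA := (h1 X L S M).2.2.2.2.2.2.2 y hy
  let u : Fin (M.R + 1) → Ix L → X.V.W → ℂ := fun a j z => ∏ i, S.u i (M.eqv a i) j z
  have hu : ∀ a, X.Mer y (lin L (∑ i, (1 : Fin S.b → ℤ) i • S.a i)) (u a) := fun a => by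
    have := (hM X L y hA.1).2.2.2.1 _ S.a (fun i => S.u i (M.eqv a i)) (fun _ => 1)
      fun i => hA.2.1 i _
    simp only [pow_one] at this
    exact mer_cast (by simp) this
  let n : Fin (M.R + 1) → Ix L → X.V.W → ℂ := fun a j z => s₁ j z ^ N₀ * u m j z ^ K * u a j z
  have hc : ∑ i, (N₀ • c₁ + K • (1 : Fin S.b → ℤ) + 1) i • S.a i =
      ∑ i, ((N₁ * p) • c₀) i • S.a i := by
    have e0 := d₀.eq
    have e1 := d₁.eq
    simp only [Pi.add_apply, add_smul, Finset.sum_add_distrib, Pi.smul_apply, smul_assoc,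
      ← Finset.smul_sum, ← e0, ← e1, Pi.one_apply, one_smul]
    rw [add_assoc, ← succ_nsmul, ← hK, smul_sub, smul_sub, mul_smul N₀, sub_add_cancel,
      ← mul_smul, ← mul_smul, ← mul_smul]
    congr 1
    ring
  have hn : ∀ a, X.Mer y (lin L (∑ i, ((N₁ * p) • c₀) i • S.a i)) (n a) := fun a =>
    mer_cast hc (mer_mul h1 hM hy (mer_mul h1 hM hy (mer_pow h1 hM hy d₁.mer N₀)
      (mer_pow h1 hM hy (hu m) K)) (hu a))
  have hd := mer_pow h1 hM hy d₀.mer (N₁ * p)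
  choose h hh using fun a => quot (M := M) h1 hL ((N₁ * p) • c₀) (n a) fun j z => s₀ j z ^ (N₁ * p)
  obtain ⟨t1, -, t2⟩ := (h3 X L S M y O τ g Δ hG).2.2 l w hT
  have hF : ∀ v ∈ M.T y l w, v ∈ M.F y := fun v hv => (t2 v hv).1.fib
  have loc : ∀ v ∈ M.T y l w, ∀ m' j, v ∈ M.D m' → In L j (M.Z.π v) →
      ∃ v₀, v₀ v ≠ 0 ∧ A2.Loc ((N₁ * p) • c₀) (fun j z => s₀ j z ^ (N₁ * p)) m' j v₀ v :=
    fun v hv m' j a b => fr_all h1 hL ((merN hd).self_of_nhdsSet v (hF v hv))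
      (fr_pow (f₀ v hv) _) a b
  have rig := fun a => hR M.Z.W (M.Z.G l) (M.T y l w) (fun v => τ (M.b v)) (h a) (τ y) t1
    fun v hv => ⟨by
      obtain ⟨m', j, a1, a2⟩ := ex_D (show M.b v ∈ M.O from hF v hv ▸ hy)
      obtain ⟨v₀, b1, b2⟩ := loc v hv m' j a1 a2
      obtain ⟨v₁, b3⟩ := hN _ _ (hn a) v (hF v hv) m' j a1 a2
      exact (b3.1.div b2.1 b1).congr ((hh a v m' j v₁ v₀ ((merN (hn a)).self_of_nhdsSet v (hF v hv))
        ((merN hd).self_of_nhdsSet v (hF v hv)) a1 a2 b3 b2 b1).mono fun _ => Eq.symm),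
      (t2 v hv).2.2.1, (t2 v hv).2.2.2.1⟩
  have hwT : w ∈ M.T y l w := mem_connectedComponentIn ⟨hT.mem, hT.fib⟩
  have hwF := hF w hwT
  obtain ⟨-, j, -, hj⟩ := ex_D (b_mem hw)
  obtain ⟨v₀, b1, b2⟩ := loc w hwT m j hw hj
  obtain ⟨v₁, b3⟩ := hN _ _ (hn m) w hwF m j hw hj
  replace b3 : A2.Loc ((N₁ * p) • c₀) (n m) m j v₁ w := b3
  have b4 : A2.Loc ((N₁ * p) • c₀) (n i) m j (fun z => M.ν m z i * v₁ z) w :=
    ⟨(nu_hol hw i).mul b3.1, by
      filter_upwards [b3.2, nearD hw hj] with z a b e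
      rw [mul_assoc, ← a e]
      simp only [n, u, M.pm.rel m z b.1 e i j b.2]
      ring⟩
  have e1 := hh m w m j v₁ v₀ ((merN (hn m)).self_of_nhdsSet w hwF)
    ((merN hd).self_of_nhdsSet w hwF) hw hj b3 b2 b1
  have e2 := hh i w m j _ v₀ ((merN (hn i)).self_of_nhdsSet w hwF)
    ((merN hd).self_of_nhdsSet w hwF) hw hj b4 b2 b1
  have nb := nhds_le_nhdsSet hwF
  have nb' := nhds_le_nhdsSet hwT
  have key : ∀ᶠ z in 𝓝 w, z ∈ M.Z.G l → ¬ M.Fr c₁ s₁ z := by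
    filter_upwards [e1.eventually_nhds, e2.eventually_nhds, (rig m).filter_mono nb',
      (rig i).filter_mono nb', hζ.near, hI.near, nearD hw hj, b3.near, b2.1.ne_near b1,
      (merN (hn m)).filter_mono nb, (merN (mer_pow h1 hM hy d₁.mer N₀)).filter_mono nb,
      (merN (mer_mul h1 hM hy (mer_pow h1 hM hy d₁.mer N₀)
        (mer_pow h1 hM hy (hu m) K))).filter_mono nb,
      (fr_cast (s := n m) h1 hL hM hy hN hc).filter_mono nb]
      with z a1 a2 a3 a4 a5 a6 a7 a8 a9 a10 a11 a12 a13 hz fz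
    have fu : M.Fr 1 (u m) z :=
      ⟨m, j, _, a7.1, a7.2, hol_const 1 z, one_ne_zero, .of_forall fun _ _ => by simp [u]⟩
    have c1 := (a8.fr_iff h1 hL a10 a7.1 a7.2).1
      (a13 (fr_mul h1 hL a12 (fr_mul h1 hL a11 (fr_pow fz N₀) (fr_pow fu K)) fu))
    refine ind3 a6 ?_
    filter_upwards [a1, a2, a3 hz, a4 hz, a5.1] with z' c2 c3 c4 c5 c6 c7 c8
    have c9 := c6.1 (c7.trans (a5.mem.2 hz))
    have c10 := c4 c9 c8
    have c11 := c5 c9 c8
    rw [c3, a2.self_of_nhds, mul_div_assoc, mul_div_assoc, ← c2, c10, a1.self_of_nhds] at c11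
    exact mul_right_cancel₀ (div_ne_zero c1 a9) c11
  obtain ⟨z, a, b, c⟩ := (f₁.and_eventually ((key.filter_mono nhdsWithin_le_nhds).and
    self_mem_nhdsWithin)).exists
  exact b c a

end Vale.Agent.P277Z.Cls
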