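import Vale.Agent.P277Z.Cls.Sk
import Vale.Agent.P277Z.Slc.Bridge
import Vale.Agent.P277Z.Luf.Hol
import Mathlib.Algebra.Order.Chebyshev

/-!
# P277, block CLS: invertible degrees have sections without zeros (UNIT)
-/

set_option linter.all false

open scoped Topology
open Vale.Agent.P272.K Vale.Agent.P285.H281.FD Set Filter
open Vale.Agent.P277Z.Slc (LEq lin)
open Vale.Agent.P277Z.Brg (LBN)

noncomputable section

namespace Vale.Agent.P277Z.Cls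

namespace UnitH

variable {X : Ctx} {L : Fin X.q → Bd X.V.W} {y : X.Y.pt} {b b' : Fin X.q → ℤ}
  {s s' : Ix L → X.V.W → ℂ}

/-- sections of degree `b` -/
def Me (L : Fin X.q → Bd X.V.W) (y : X.Y.pt) (b : Fin X.q → ℤ) (s : Ix L → X.V.W → ℂ) : Prop :=
  X.Mer y (lin L b) s

theorem Me.cast (h : Me L y b s) (e : b = b') : Me L y b' s := e ▸ h

theorem Me.pow (hM : StMer) (hL : ∀ j, LBN 4 (X.F y) (L j)) (h : Me L y b s) (k : ℕ) :
    Me L y (k • b) fun i w => s i w ^ k := by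
  have : Me L y (∑ _a : Unit, k • b) fun i w => ∏ _a : Unit, s i w ^ k :=
    (hM X L y hL).2.2.2.1 Unit (fun _ => b) (fun _ => s) (fun _ => k) fun _ => h
  simpa using this

theorem Me.mul (hM : StMer) (hL : ∀ j, LBN 4 (X.F y) (L j)) (h : Me L y b s) (h' : Me L y b' s') :
    Me L y (b + b') fun i w => s i w * s' i w := (hM X L y hL).2.2.1 b b' s s' h h'

theorem in_near (hL : ∀ j, LBN 4 (X.F y) (L j)) {i : Ix L} {z : X.V.W} (h : In L i z) :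
    ∀ᶠ v in 𝓝 z, In L i v := eventually_all.2 fun j => ((hL j).isOpen _).mem_nhds (h j)

/-- sections of degree zero -/
theorem zero (hZ : StZero) (hL : ∀ j, LBN 4 (X.F y) (L j)) (h : Me L y 0 s) :
    ∃ g : X.Y.pt → ℂ, X.Y.Hol g y ∧ ∀ z ∈ X.F y, Tendsto (fun v => g (X.ψ v)) (𝓝 z) (𝓝 (g y)) ∧
      ∀ᶠ v in 𝓝 z, v ∉ X.E → ∀ i, In L i v → s i v = g (X.ψ v) := by
  obtain ⟨g, g1, g2⟩ := (hZ X L y hL).2 s h
  refine ⟨g, g1, fun z hz => ⟨?_, eventually_nhdsSet_iff_forall.1 g2 z hz⟩⟩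
  obtain rfl : X.ψ z = y := hz
  exact Hol.cont (n := 4) (X.hyp.res.hol z g g1)

end UnitH

open UnitH in
/-- **UNIT** -/
theorem stUnit (hOrd : StOrd) (h1 : StApi1) (h2 : StApi2) (hM : StMer) (hZ : StZero)
    (hLoc : StLoc) : StUnit := by
  intro X L S M y hy hN c hI x hx hx'
  have : SecondCountableTopology X.V.W := ChartedSpace.secondCountable_of_sigmaCompact (Cm 4) X.V.W
  obtain ⟨cb, hb, hE, -, -, -, -, k1⟩ := h1 X L S M
  obtain ⟨hL, -, -, ⟨w₀, hw₀⟩, -⟩ := k1 y hy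
  obtain ⟨N₁, c₁, s₁, d₁, f₁⟩ := hx w₀ hw₀
  obtain ⟨N₂, c₂, s₂, d₂, f₂⟩ := hx' w₀ hw₀
  obtain ⟨m, j, v₁, hm, hj, a1, a2, a3⟩ := f₁ w₀ rfl
  obtain ⟨v₂, b1, b2, b3⟩ := ((h2 X L S M y hy).2.1 c₂ s₂ d₂.mer).1.self_of_nhdsSet w₀ hw₀
    (f₂ w₀ rfl) m j hm hj
  have t₁ := (Me.cast d₁.mer d₁.eq.symm).pow hM hL N₂
  have t₂ := (Me.cast d₂.mer d₂.eq.symm).pow hM hL N₁
  obtain ⟨g, g0, g1⟩ := zero hZ hL ((t₁.mul hM hL t₂).cast (by module))
  obtain ⟨v, v1, v2⟩ := hN (fun i => N₂ * c₁ i + N₁ * c₂ i) (fun _ _ => 1)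
    (Me.cast (hM X L y hL).1 (by
      simp only [add_smul, mul_smul, Finset.sum_add_distrib, ← Finset.smul_sum, ← d₁.eq, ← d₂.eq]
      module)) w₀ hw₀ m j hm hj
  have hg : g y ≠ 0 := by
    obtain rfl : M.b w₀ = y := hw₀
    obtain ⟨ζ, hζ, -⟩ := M.Z.snc w₀
    choose o u u0 u1 u2 u3 using fun i => M.pm.mon m w₀ hm i j ζ hj hζ
    have hc := M.Z.bl.cont.continuousAt (x := w₀)
    refine left_ne_zero_of_mul ((eq_of_gen ((hb w₀ g g0).mul v1).cont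
      ((a1.pow N₂).mul (b1.pow N₁)).cont ?_).trans_ne
      (mul_ne_zero (pow_ne_zero _ a2) (pow_ne_zero _ b2)))
    filter_upwards [(hLoc M.Z.W _ M.Z.G ∅ M.Z.snc).1 w₀, gen_le_nhds w₀ (a3.and (b3.and v2)),
      gen_le_nhds w₀ (cb.continuousAt.eventually_mem (M.model.isOpen.mem_nhds hy)),
      gen_le_nhds w₀ (hc.eventually ((g1 _ rfl).2.and (in_near hL hj))),
      gen_le_nhds w₀ (eventually_all.2 fun i => (u3 i).and ((u1 i).ne_near (u2 i))),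
      gen_le_nhds w₀ (eventually_all.2 fun l => (hζ l).1)] with w e1 e2 e3 e4 e5 e6
    have e7 : M.Z.π w ∉ X.E := fun k => by simpa [Ex, e1] using (hE w e3).1 k
    have e8 : ∀ i, S.u i (M.eqv m i) j (M.Z.π w) ≠ 0 := fun i => by
      rw [(e5 i).1 e7]
      exact mul_ne_zero (e5 i).2 (Finset.prod_ne_zero_iff.2 fun l _ =>
        zpow_ne_zero _ fun k => e1 l ((e6 l).1 k))
    have e9 := e2.2.2 e7
    simp only [zpow_add₀ (e8 _), zpow_mul', zpow_natCast, Finset.prod_mul_distrib,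
      Finset.prod_pow] at e9
    rw [Md.b, ← e4.1 e7 j e4.2, e2.1 e7, e2.2.1 e7, mul_pow, mul_pow]
    linear_combination -(v₁ w ^ N₂ * v₂ w ^ N₁) * e9
  obtain ⟨P, hP⟩ : ∃ P, N₂ * N₁ = P + 1 :=
    Nat.exists_eq_succ_of_ne_zero (mul_pos d₂.pos d₁.pos).ne'
  have t₃ := t₁.pow hM hL c.n
  have ho : ∀ k, ∃ o, k ∈ X.ex → X.ψ '' X.V.G k = X.σ → ∀ z ∈ X.V.G k ∩ X.F y, ∀ i, In L i z →
      Ord (X.V.G k) (nrm (c.u x) i) z o := fun k => by
    by_cases h : k ∈ X.ex ∧ ∃ z ∈ X.V.G k ∩ X.F y, ∃ i, In L i z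
    · obtain ⟨hk, z, hz, i, hi⟩ := h
      obtain ⟨o, h, -⟩ := (hOrd X.V.W _ X.V.G X.ex k (Slc.snc_lg X.V) hk z hz.1).2.2.2.2.2.2 _
        (fun m => c.u x m i) (fun m => (((hM X L y hL).2.2.2.2.1 _ _ (c.mer x m)).2 z hz.2 i hi).1)
        (((hM X L y hL).2.2.2.2.2 _ _ _ (c.mer x) (c.big x)).2 z hz.2 i hi)
      exact ⟨o, fun _ e z' hz' i' hi' => hI k e z hz z' hz' x i i' o hi hi' h⟩
    · exact ⟨0, fun hk _ z hz i hi => (h ⟨hk, z, hz, i, hi⟩).elim⟩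
  choose o ho using ho
  refine ⟨c.n * (N₂ * N₁), fun i w => (s₁ i w ^ N₂) ^ c.n, fun k => (P + 1 : ℕ) * o k,
    Nat.mul_pos c.npos (Nat.mul_pos d₂.pos d₁.pos), t₃.cast (by simp only [mul_smul]),
    eventually_nhdsSet_iff_forall.2 fun z hz => ?_, fun k hk e z hz i hi => ?_⟩
  · filter_upwards [(g1 z hz).1.eventually_ne hg, (g1 z hz).2] with w a b hw i hi
    exact pow_ne_zero _ (left_ne_zero_of_mul ((b hw i hi).trans_ne a))
  obtain ⟨-, -, o3, -, o5, -⟩ := hOrd X.V.W _ X.V.G X.ex k (Slc.snc_lg X.V) hk z hz.1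
  refine o3 _ _ _ (o5 _ _ (P + 1 : ℕ) (ho k hk e z hz i hi)) (fun _ => norm_nonneg _) ?_ ?_
  · have h3 : ∀ m', ∃ C : ℝ, ∀ᶠ w in 𝓝 z, w ∉ X.E →
        ‖c.u x m' i w‖ ^ (P + 1) ≤ C * ‖(s₁ i w ^ N₂) ^ c.n‖ := fun m' => by
      obtain ⟨g', -, g2⟩ := zero hZ hL ((((Me.pow hM hL (c.mer x m') (P + 1)).mul hM hL
        (t₂.pow hM hL c.n))).cast (by rw [← hP]; module))
      have h4 := ((g2 z hz.2).1.div ((g1 z hz.2).1.pow c.n) (pow_ne_zero _ hg)).norm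
      refine ⟨‖g' y / g y ^ c.n‖ + 1, ?_⟩
      filter_upwards [h4.eventually (gt_mem_nhds (lt_add_one _)), (g1 z hz.2).1.eventually_ne hg,
        (g1 z hz.2).2, (g2 z hz.2).2, in_near hL hi] with w e1 e2 e3 e4 e5 e6
      refine le_trans (le_of_eq ?_) (mul_le_mul_of_nonneg_right e1.le (norm_nonneg _))
      have e7 := e3 e6 i e5
      rw [← norm_pow, ← norm_mul, Pi.div_apply, ← e4 e6 i e5, ← e7]
      congr 1
      have := left_ne_zero_of_mul (e7.trans_ne e2)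
      have := right_ne_zero_of_mul (e7.trans_ne e2)
      rw [mul_pow]
      field_simp
    choose C hC using h3
    refine ⟨(c.r x + 1 : ℕ) ^ P * ∑ m', C m', (eventually_all.2 hC).mono fun w a hw => ?_⟩
    simp only [zpow_natCast, nrm, mul_assoc, Finset.sum_mul]
    refine (pow_sum_le_card_mul_sum_pow (fun _ _ => norm_nonneg _) P).trans ?_
    rw [Finset.card_fin]
    exact mul_le_mul_of_nonneg_left (Finset.sum_le_sum fun m' _ => a m' hw) (by positivity)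
  · simpa only [zpow_natCast, Fintype.prod_unique, Ctx.E] using c.mul Unit (fun _ => x) (fun _ => P + 1)
      (fun h _ _ _ => mul_self_nonneg _) _ (t₃.cast (by simp [← hP, mul_smul])) z hz.2 i hi

end Vale.Agent.P277Z.Cls
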