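import Vale.Agent.P277Z.Cls.ZcA

/-!
# P277, block CLS: the row ZC
-/

set_option linter.all false
set_option maxSynthPendingDepth 3

open scoped Manifold ContDiff Topology
open Vale.Agent.P272.K Vale.Agent.P285.H281.FD Vale.Agent.P277 Set Filter
open Vale.Agent.P277.HD (pull)
open Vale.Agent.P277Z.Slc (LEq lin)
open Vale.Agent.P277Z.Pj (Prp Prj PMap SecD)
open Vale.Agent.P277Z.Coh (LBOn ScAt)

noncomputable section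

namespace Vale.Agent.P277Z.Cls

namespace ZcH

open Classical in
/-- a chart which contains `v` -/
def pick {W : Type} {n : ℕ} (D : Fin (n + 1) → Set W) (v : W) : Fin (n + 1) :=
  if h : ∃ j, v ∈ D j then h.choose else 0

theorem pick_mem {W : Type} {n : ℕ} {D : Fin (n + 1) → Set W} {v : W} {j : Fin (n + 1)}
    (h : v ∈ D j) : v ∈ D (pick D v) := by
  have e : ∃ j, v ∈ D j := ⟨j, h⟩
  rw [pick, dif_pos e]
  exact e.choose_spec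

variable {X : Ctx} {L : Fin X.q → Bd X.V.W} {S : X.Sf L} {M : Md S}

theorem memD {m : Fin (M.R + 1)} {w : M.Z.W} (h : w ∈ M.D m) : M.b w ∈ M.O :=
  (M.pm.pm.cover w).2 ⟨m, h⟩

theorem in_near {k : Ix L} {w : M.Z.W} (h : In L k (M.Z.π w)) :
    ∀ᶠ v in 𝓝 w, In L k (M.Z.π v) :=
  eventually_all.2 fun a =>
    M.Z.bl.cont.continuousAt.eventually (((M.mov.lb a).isOpen (k a)).mem_nhds (h a))

/-- the generators are monomials -/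
theorem gen_mon {m : Fin (M.R + 1)} {w : M.Z.W} {k : Ix L} {ζ : _ → M.Z.W → ℂ} (hm : w ∈ M.D m)
    (hk : In L k (M.Z.π w)) (hζ : ∀ l, LEq 4 (M.Z.G l) w (ζ l)) :
    ∃ (o : Fin S.b → _ → ℤ) (v : Fin S.b → M.Z.W → ℂ), (∀ i, Hol 4 (v i) w ∧ v i w ≠ 0) ∧
      ∀ᶠ w' in 𝓝 w, M.Z.π w' ∉ X.E → ∀ i,
        S.u i (M.eqv m i) k (M.Z.π w') = v i w' * ∏ l ∈ exU X.ex, ζ l w' ^ o i l := by
  choose o v h0 hv hn he using fun i => M.pm.mon m w hm i k ζ hk hζ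
  refine ⟨o, v, fun i => ⟨hv i, hn i⟩, (eventually_all.2 he).mono fun w' h hw i => ?_⟩
  rw [h i hw]
  congr 1
  exact (Finset.prod_subset (Finset.subset_univ _) fun l _ hl => by
    rw [h0 i l hl, zpow_zero]).symm

/-- the exceptional sets agree -/
def EE (M : Md S) : Prop := ∀ w, M.b w ∈ M.O → (M.Z.π w ∈ X.E ↔ w ∈ Ex M.Z.G (exU X.ex))

theorem gen_ne (hE : EE M) {m : Fin (M.R + 1)} {w : M.Z.W} {k : Ix L} (hm : w ∈ M.D m)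
    (hk : In L k (M.Z.π w)) :
    ∀ᶠ w' in 𝓝 w, M.Z.π w' ∉ X.E → ∀ i, S.u i (M.eqv m i) k (M.Z.π w') ≠ 0 := by
  obtain ⟨ζ, hζ, -⟩ := M.Z.snc w
  obtain ⟨o, v, hv, he⟩ := gen_mon hm hk hζ
  filter_upwards [he, ne_ex (exU X.ex) hζ, (M.pm.pm.isOpen m).mem_nhds hm,
    eventually_all.2 fun i => (hv i).1.ne_near (hv i).2] with w' h1 h2 h3 h4 h5 i
  rw [h1 h5 i]
  exact mul_ne_zero (h4 i) (Finset.prod_ne_zero_iff.2 fun l hl =>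
    zpow_ne_zero _ (h2.1 (mt (hE w' (memD h3)).2 h5) l hl))

variable {y : X.Y.pt} {x : Fin X.q → ℤ} (Ψ : M.Fre y x) (d : ℕ)
  (g : Fin (Ψ.R + 1) → Fin (M.R + 1) → M.Z.W → ℂ)

/-- the local expression of the section -/
def loc (j : Fin (Ψ.R + 1)) (m : Fin (M.R + 1)) (k : Ix L) (v : M.Z.W) : ℂ :=
  g j m v * Ψ.s j k (M.Z.π v) ^ d / ∏ i, S.u i (M.eqv m i) k (M.Z.π v)

/-- the section -/
def sec (k : Ix L) (v : M.Z.W) : ℂ := loc Ψ d g (pick Ψ.D v) (pick M.D v) k v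

variable {Ψ d g} {j : Fin (Ψ.R + 1)} {m : Fin (M.R + 1)} {k : Ix L} {v : M.Z.W}

theorem sec_eq (hs : SecD 4 (om M.D M.ν) Ψ.D Ψ.ν d g v) (hj : v ∈ Ψ.D j) (hm : v ∈ M.D m)
    (hE : M.Z.π v ∉ X.E) (hk : In L k (M.Z.π v)) : sec Ψ d g k v = loc Ψ d g j m k v := by
  have h1 := pick_mem hj
  have h2 := pick_mem hm
  unfold sec loc
  generalize pick Ψ.D v = j₀ at h1 ⊢
  generalize pick M.D v = m₀ at h2 ⊢
  have e1 : g j₀ m₀ v = Ψ.ν j₀ v j ^ d * g j m₀ v := (hs j hj).2 j₀ h1 m₀ h2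
  have e2 : g j m₀ v = M.ν m v m₀ * g j m v := ((hs j hj).1 m₀ h2).2 m hm
  rw [e1, e2, Ψ.rel j₀ v h1 hE j k hk, M.pm.rel m v hm hE m₀ k hk, mul_pow,
    ← mul_div_mul_left (g j m v * _) _ ((M.pm.pm.mem m m₀ v hm).1 h2)]
  congr 1
  ring

theorem sec_form (hE : EE M) (hs : ∀ᶠ w in 𝓝 v, SecD 4 (om M.D M.ν) Ψ.D Ψ.ν d g w)
    (hj : v ∈ Ψ.D j) (hm : v ∈ M.D m) (hk : In L k (M.Z.π v)) {a : M.Z.W → ℂ}
    (ha : ∀ᶠ w in 𝓝 v, M.Z.π w ∉ X.E →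
      Ψ.s j k (M.Z.π w) = a w * ∏ i, S.u i (M.eqv m i) k (M.Z.π w) ^ Ψ.c i) :
    ∀ᶠ w in 𝓝 v, M.Z.π w ∉ X.E → sec Ψ d g k w =
      g j m w * a w ^ d * ∏ i, S.u i (M.eqv m i) k (M.Z.π w) ^ ((d : ℤ) * Ψ.c i - 1) := by
  filter_upwards [hs, ha, (Ψ.pm.isOpen j).mem_nhds hj, (M.pm.pm.isOpen m).mem_nhds hm, in_near hk,
    gen_ne hE hm hk] with w h1 h2 h3 h4 h5 h6 hw
  rw [sec_eq h1 h3 h4 hw h5, loc, h2 hw, quo (h6 hw)]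

theorem sec_mer (hE : EE M) (hv : v ∈ M.b ⁻¹' M.O ∩ M.t ⁻¹' Ψ.Ω)
    (hs : ∀ᶠ w in 𝓝 v, SecD 4 (om M.D M.ν) Ψ.D Ψ.ν d g w)
    (hΨ : ∀ j, MerAt X.V.G X.ex (lin L (∑ i, Ψ.c i • S.a i)) (Ψ.s j) (M.Z.π v)) :
    MerAt M.Z.G (exU X.ex) (pull M.Z.π (lin L (∑ i, ((d : ℤ) * Ψ.c i - 1) • S.a i)))
      (sec Ψ d g) v := by
  intro k hk
  have hk : In L k (M.Z.π v) := hk
  obtain ⟨j, hj⟩ := (Ψ.pm.cover v).1 hv
  obtain ⟨m, hm⟩ := (M.pm.pm.cover v).1 hv.1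
  obtain ⟨a, ha, he⟩ := Ψ.hl j v hv m k hm hk
  obtain ⟨ζ, hζ, -⟩ := M.Z.snc v
  obtain ⟨o, u, hu, hf⟩ := gen_mon hm hk hζ
  have hg : Hol 4 (g j m) v := ((hs.self_of_nhds j hj).1 m hm).1
  have key := mono (ex := exU X.ex) hζ (f := sec Ψ d g k)
    (e := fun l => ∑ i, o i l * ((d : ℤ) * Ψ.c i - 1))
    ((hg.mul (ha.pow d)).mul (Hol.prod Finset.univ fun i _ =>
      (hu i).1.zpow (hu i).2 ((d : ℤ) * Ψ.c i - 1))) (by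
      filter_upwards [sec_form hE hs hj hm hk he, hf, ne_ex (exU X.ex) hζ,
        (M.pm.pm.isOpen m).mem_nhds hm] with w h1 h2 h3 h4 hw
      have hw' : M.Z.π w ∉ X.E := mt (hE w (memD h4)).1 hw
      rw [h1 hw', mul_assoc _ (∏ i, _), ← mon _ (h3.1 hw)]
      simp only [h2 hw'])
  refine ⟨key.1, fun hw => ⟨key.2 hw, fun k' hk' => ?_⟩⟩
  have hk' : In L k' (M.Z.π v) := hk'
  have hw' : M.Z.π v ∉ X.E := mt (hE v hv.1).1 hw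
  have hO : M.Z.π v ∈ M.Dt.O := M.Z.le (M.Z.bl.maps v)
  have e1 : Ψ.s j k (M.Z.π v) = (∏ b, (L b).g (k b) (k' b) (M.Z.π v) ^ (∑ i, Ψ.c i • S.a i) b) *
      Ψ.s j k' (M.Z.π v) := ((hΨ j k hk).2 hw').2 k' hk'
  have e2 : ∀ i, S.u i (M.eqv m i) k (M.Z.π v) =
      (∏ b, (L b).g (k b) (k' b) (M.Z.π v) ^ S.a i b) * S.u i (M.eqv m i) k' (M.Z.π v) :=
    fun i => ((M.mov.mer i _ _ hO k hk).2 hw').2 k' hk'
  show sec Ψ d g k v = (∏ b, (L b).g (k b) (k' b) (M.Z.π v) ^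
    (∑ i, ((d : ℤ) * Ψ.c i - 1) • S.a i) b) * sec Ψ d g k' v
  rw [sec_eq hs.self_of_nhds hj hm hw' hk, sec_eq hs.self_of_nhds hj hm hw' hk',
    chi fun b => (M.mov.lb b).ne_zero _ _ _ hO (hk b) (hk' b)]
  unfold ZcH.loc
  rw [e1, Finset.prod_congr rfl fun i _ => e2 i, Finset.prod_mul_distrib]
  ring

end ZcH

open ZcH in
theorem stZc (hR : StRk1) (hG : StGpl) (h1 : StApi1) (h3 : StApi3) : StZc := by
  intro X L S M y O τ g₀ Δ hy x Ψ j w hw hj H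
  obtain ⟨hb, -, hE, -, -, -, -, hA⟩ := h1 X L S M
  obtain ⟨hc1, hc2, hc3⟩ := h3 X L S M y O τ g₀ Δ hy
  have hw' : M.b w = y := hw
  have hp : Prp 4 (M.b ⁻¹' M.O ∩ M.t ⁻¹' Ψ.Ω) M.t Ψ.Ω := prp_res M.prp Ψ.isOpen Ψ.sub
  have hq : Prj 4 (M.b ⁻¹' M.O ∩ M.t ⁻¹' Ψ.Ω) M.t := prj_res M.prj hp.isOpen inter_subset_left
  have hF : ∀ v ∈ M.F y, M.t v = M.t w ∧ v ∈ M.b ⁻¹' M.O ∩ M.t ⁻¹' Ψ.Ω := fun v hv => by
    have hv' : M.b v = y := hv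
    refine ⟨congrArg M.φ (hv'.trans hw'.symm), ?_, ?_⟩
    · show M.b v ∈ M.O
      rw [hv']
      exact hy.mem
    · show M.φ (M.b v) ∈ Ψ.Ω
      rw [hv']
      exact Ψ.mem
  obtain ⟨m, k, a, hm, hk, ha, ha0, he⟩ := (Ψ.fr j w (hF w hw).2).1 hj
  obtain ⟨Z, hZ⟩ : ∃ Z, Z = connectedComponentIn
    {v ∈ Ψ.D j | M.t v = M.t w ∧ Ψ.ν j v = Ψ.ν j w} w := ⟨_, rfl⟩
  have hZ1 : ∀ v ∈ Z, v ∈ Ψ.D j ∧ M.t v = M.t w ∧ Ψ.ν j v = Ψ.ν j w := fun v hv =>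
    connectedComponentIn_subset {v ∈ Ψ.D j | M.t v = M.t w ∧ Ψ.ν j v = Ψ.ν j w} w (hZ ▸ hv)
  have hZ2 : ∀ v ∈ Z, M.b v ∈ M.O := fun v hv => ((Ψ.pm.cover v).2 ⟨j, (hZ1 v hv).1⟩).1
  have hZ3 : ∀ v ∈ Z, v ∈ M.F y := fun v hv =>
    (congrArg Subtype.val (M.model.emb.injective (a₁ := ⟨M.b v, hZ2 v hv⟩)
      (a₂ := ⟨M.b w, memD hm⟩) (hZ1 v hv).2.1)).trans hw'
  have hsub : Z ⊆ M.D m := by
    refine sub_chart M.pm.pm (hZ ▸ isPreconnected_connectedComponentIn) hZ2 (fun m' => ?_)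
      (by rw [hZ]; exact mem_connectedComponentIn ⟨hj, rfl, rfl⟩) hm
    have hT : {T | ∃ l ∈ exU X.ex, ∃ v, M.TyA y l v ∧ T = M.T y l v}.Countable :=
      hc2.mono (by rintro T ⟨l, _, v, h⟩; exact ⟨l, v, h⟩)
    refine (hT.biUnion (t := fun T _ => M.ν m' '' (T ∩ M.D m' ∩
      {v ∈ Ψ.D j | Ψ.ν j v = Ψ.ν j w})) ?_).mono ?_
    · rintro T ⟨l, hl, v, hv, rfl⟩
      refine hR X L S M y O τ g₀ Δ hy x Ψ l hl v j _ m' hv fun ⟨v', hv', m'', i, hN⟩ => ?_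
      obtain ⟨p1, p2, -⟩ := (hc3 l v hv).2.2 v' hv'
      exact p2 ▸ H l hl v' m'' i p1 hN
    · rintro _ ⟨v, ⟨hv, hv'⟩, rfl⟩
      obtain ⟨l, hl, hT⟩ := hc1 v (hZ3 v hv)
      exact mem_iUnion₂.2 ⟨_, ⟨l, hl, v, hT, rfl⟩, v,
        ⟨⟨mem_connectedComponentIn ⟨hT.mem, hZ3 v hv⟩, hv'⟩, (hZ1 v hv).1, (hZ1 v hv).2.2⟩, rfl⟩
  obtain ⟨d, g, hg0, hg⟩ := (hG M.Z.W M.N _ M.t Ψ.Ω Ψ.R Ψ.D Ψ.ν hp hq Ψ.pm j w hj Z hZ).2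
    (om M.D M.ν) (fun l x => M.ν m x l) (om_lb M.pm.pm inter_subset_left)
    (fun l hl => (M.pm.pm.mem m l w hm).1 hl) fun v hv =>
      mem_of_superset ((M.pm.pm.isOpen m).mem_nhds (hsub hv)) fun _ h => om_sc M.pm.pm h
  have hS : ∀ v ∈ M.F y, ∀ᶠ v' in 𝓝 v, v' ∈ M.b ⁻¹' M.O ∩ M.t ⁻¹' Ψ.Ω ∧
      SecD 4 (om M.D M.ν) Ψ.D Ψ.ν d g v' := fun v hv => by
    have c : Tendsto M.t (𝓝 v) (𝓝 (M.t w)) := (hF v hv).1 ▸ prp_cont hp (hF v hv).2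
    filter_upwards [c.eventually hg, hp.isOpen.mem_nhds (hF v hv).2] with v' p1 p2
      using ⟨p2, p1 v' p2 rfl⟩
  obtain ⟨s, hs, hs'⟩ := (hA y hy.mem).2.2.2.2.2.2 (∑ i, ((d : ℤ) * Ψ.c i - 1) • S.a i)
    (sec Ψ d g) (eventually_nhdsSet_iff_forall.2 fun v hv => by
      filter_upwards [(hS v hv).eventually_nhds, eventually_all.2 fun j =>
        M.Z.bl.cont.continuousAt.eventually
          (eventually_nhdsSet_iff_forall.1 (Ψ.dg j).mer (M.Z.π v) hv)] with v' p1 p2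
      exact sec_mer hE p1.self_of_nhds.1 (p1.mono fun _ h => h.2) p2)
  have hSw : ∀ᶠ v' in 𝓝 w, SecD 4 (om M.D M.ν) Ψ.D Ψ.ν d g v' := (hS w hw).mono fun _ h => h.2
  refine ⟨d * Ψ.N, 1, fun i => (d : ℤ) * Ψ.c i - 1, s, ⟨le_rfl, ?_, hs⟩, fun v hv => ?_⟩
  · rw [one_smul, mul_smul, (Ψ.dg j).eq, Finset.smul_sum, ← Finset.sum_sub_distrib]
    exact Finset.sum_congr rfl fun i _ => by rw [sub_smul, one_smul, mul_smul, natCast_zsmul]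
  · obtain rfl : v = w := hv
    refine ⟨m, k, fun u => g j m u * a u ^ d, hm, hk,
      Hol.mul ((hSw.self_of_nhds j hj).1 m hm).1 (ha.pow d),
      mul_ne_zero (hg0 m hm) (pow_ne_zero _ ha0), ?_⟩
    filter_upwards [sec_form hE hSw hj hm hk he, (M.pm.pm.isOpen m).mem_nhds hm] with u p1 p2 p3
    rw [hs' u k (memD p2) p3, p1 p3]

end Vale.Agent.P277Z.Cls
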