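import Vale.Agent.P277Z.Cls.Sk
import Vale.Agent.P277Z.Val.An

/-!
# P277, block CLS: functions descend
-/

open scoped Manifold ContDiff Topology
open Vale.Agent.P272.K Vale.Agent.P285.H281.FD Vale.Agent.P277 Set Filter
open Vale.Agent.P277Z.Slc (lin)

noncomputable section

namespace Vale.Agent.P277Z.Cls

/-- **ZERO** -/
theorem stZero : StZero := by
  classical
  intro X L y hL
  have hR := X.hyp.res
  obtain ⟨P, c, τ, h0⟩ := Val.An.res₀ hR
  obtain ⟨w₀, hw₀⟩ := hR.surj y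
  refine ⟨⟨⟨w₀, hw₀⟩, Val.An.conn X.hyp.normal h0 y⟩, fun s hs => ?_⟩
  have h1 : ∀ᶠ w in 𝓝ˢ (X.F y), ∃ i, In L i w := eventually_nhdsSet_iff_forall.2 fun w hw => by
    choose i hi using fun j => (hL j).cover w hw
    exact (eventually_all.2 fun j => ((hL j).isOpen _).eventually_mem (hi j)).mono
      fun v k => ⟨i, k⟩
  obtain ⟨N, hN, hFN, h2⟩ := eventually_nhdsSet_iff_exists.1 (hs.and h1)
  obtain ⟨O, hO, hy, h3⟩ := exists_nhds_preimage_subset (X := X.V.X) hR.cont hN hFN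
  let f : X.V.W → ℂ := fun w => if h : ∃ i, In L i w then s h.choose w else 0
  have h4 : ∀ w ∈ N, w ∉ X.E → ∀ i, In L i w → s i w = f w := fun w hw hE i hi => by
    have k : ∃ i, In L i w := ⟨i, hi⟩
    rw [show f w = s k.choose w from dif_pos k, (((h2 w hw).1 i hi).2 hE).2 _ k.choose_spec]
    exact (congrArg (· * _) (Finset.prod_eq_one fun a _ => zpow_zero _)).trans (one_mul _)
  obtain ⟨g, k1, k2⟩ := X.hyp.normal.ext O _ hO (fun x _ => hR.an x (mem_univ x))
    (hR.dim.mono inter_subset_right) (fun x => f (hR.emb.inv w₀ x)) fun x hx => by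
      obtain ⟨w, rfl⟩ := hR.surj x
      have hE : w ∉ X.E := mt (Val.An.mem_iff h0).2 hx.2
      obtain ⟨i, hi⟩ := (h2 w (h3 hx.1)).2
      refine hR.emb.hol_of_analyticAt w₀ hE (PH.at_chartAt w)
        (Hol.congr (((h2 w (h3 hx.1)).1 i hi).2 hE).1 ?_ _ (PH.at_chartAt w))
      filter_upwards [hN.mem_nhds (h3 hx.1), hR.emb.isOpen.mem_nhds hE,
        eventually_all.2 fun j => ((hL j).isOpen _).eventually_mem (hi j)] with v a b d
        using h4 v a b i d
  refine ⟨g, k1 y hy, ?_⟩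
  filter_upwards [(hO.preimage hR.cont).mem_nhdsSet.2 fun w (hw : X.ψ w = y) =>
    show X.ψ w ∈ O from hw ▸ hy] with w hw hE i hi
  rw [k2 _ ⟨hw, mt (Val.An.mem_iff h0).1 hE⟩, hR.emb.inv_apply w₀ hE]
  exact h4 w (h3 hw) hE i hi

end Vale.Agent.P277Z.Cls
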