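import Vale.Agent.P277Z.Cls.Main
import Vale.Agent.P277Z.Cls.Alv
import Vale.Agent.P277Z.Cls.Api1
import Vale.Agent.P277Z.Cls.Api2
import Vale.Agent.P277Z.Cls.Api3
import Vale.Agent.P277Z.Cls.Bd
import Vale.Agent.P277Z.Cls.Big
import Vale.Agent.P277Z.Cls.Carb
import Vale.Agent.P277Z.Cls.Ch
import Vale.Agent.P277Z.Cls.Cl
import Vale.Agent.P277Z.Cls.Cox
import Vale.Agent.P277Z.Cls.Ctr
import Vale.Agent.P277Z.Cls.Down1C
import Vale.Agent.P277Z.Cls.Echo
import Vale.Agent.P277Z.Cls.Fac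
import Vale.Agent.P277Z.Cls.FgrB
import Vale.Agent.P277Z.Cls.Fre2
import Vale.Agent.P277Z.Cls.Geny
import Vale.Agent.P277Z.Cls.Gpl
import Vale.Agent.P277Z.Cls.Inv
import Vale.Agent.P277Z.Cls.Invm
import Vale.Agent.P277Z.Cls.Loc
import Vale.Agent.P277Z.Cls.Mer
import Vale.Agent.P277Z.Cls.Model7
import Vale.Agent.P277Z.Cls.Mov
import Vale.Agent.P277Z.Cls.Negs
import Vale.Agent.P277Z.Cls.Old
import Vale.Agent.P277Z.Cls.Ord
import Vale.Agent.P277Z.Cls.Pmd
import Vale.Agent.P277Z.Cls.Posm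
import Vale.Agent.P277Z.Cls.Prjl
import Vale.Agent.P277Z.Cls.Rig
import Vale.Agent.P277Z.Cls.Rk2
import Vale.Agent.P277Z.Cls.RzlAll
import Vale.Agent.P277Z.Cls.Six
import Vale.Agent.P277Z.Cls.Sli
import Vale.Agent.P277Z.Cls.Two
import Vale.Agent.P277Z.Cls.Unit
import Vale.Agent.P277Z.Cls.Zc
import Vale.Agent.P277Z.Cls.Zero
import Vale.Agent.P277Z.Brg.All

/-!
# P277, block CLS: all rows
-/

namespace Vale.Agent.P277Z.Cls

theorem cls_all (hB : Brg.FGB 4) (hP : Pj.GEN) (hG : GGF) : Top.StCls :=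
  have h1 := stApi1
  have hL := stLoc
  have hM := stMer
  have h2 := stApi2 hL hM h1
  have h3 := stApi3 hL h1
  have gpl := stGpl hP
  have cox := stCox stCh (stFgr hB stZero hL) (stBig stZero Brg.ramp Brg.rpoA hG) stZero hM
  have model := stModel (stMov hL hM) stRzl (stPmd hL) stPosm stPrjl
  have ctr := stCtr hP h1 h2 hL hM
  have negs := stNegs hL h1
  have fre := stFre2 h1 hL hM
  have zc := stZc (stRk2 gpl h1 h2 h3) gpl h1 h3
  stCls_of
    { basis := stBasis, fac := stFac, gp := gp, six := six, lbv := lbv, cox := cox, model := model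
      api1 := h1, api2 := h2, ctr := ctr, negs := negs
      inv := stInv model ctr negs h1 (stOrd hL) hM cox lbv six gp hL
      geny := stGeny h1, cl := stCl h1 hM hL, invm := stInvm h1, bd := stBd fre zc h1 h2
      two := stTwo stRig h1 h3 hM hL, three := stThree fre zc h1 h2 h3
      alv := stAlv (stSli h1 h3 stEcho (stCarb hL gpl h1)) fre gpl stRig stLev stEcho (stOld hL)
        h1 h2 h3
      unit := stUnit (stOrd hL) h1 h2 hM stZero hL, down1 := stDown1c, down2 := down2 }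

end Vale.Agent.P277Z.Cls
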