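import Vale.Agent.P277Z.Cls.Rig

/-!
# P277, block CLS: tools for the alive divisor
-/

set_option maxSynthPendingDepth 3

open scoped Manifold ContDiff Topology
open Vale.Agent.P272.K Vale.Agent.P285.H281.FD Vale.Agent.P277 Set Filter
open Vale.Agent.P277Z.Slc (LEq Ind Snc dd lin)

noncomputable section

namespace Vale.Agent.P277Z.Cls

namespace AlvH

section gen

variable {n : ℕ} {W : Type} [TopologicalSpace W] [ChartedSpace (Cm n) W]

theorem ind_tr {α γ : Type} {h : α → W → ℂ} {x : W} (hi : Ind n h x) (k : γ → W → ℂ) (f : γ → α)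
    (hf : Function.Injective f) (hc : ∀ a, ∃ c, ∀ y, h (f a) y = k a y - c) : Ind n k x := by
  choose c hc using hc
  have h1 : ∀ a, k a = fun y => h (f a) y - -c a := fun a => funext fun y => by rw [hc]; ring
  refine ⟨fun a e he => ?_, fun e he => ?_⟩
  · rw [h1]
    exact (hi.1 (f a) e he).sub analyticAt_const
  · have h2 : (fun a => dd (k a) e x) = fun a => dd (h (f a)) e x :=
      funext fun a => by rw [h1, Slc.dd_sub_const]
    rw [h2]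
    exact (hi.2 e he).comp f hf

variable [IsManifold 𝓘(ℂ, Cm n) ω W]

/-- a submersion is open -/
theorem opn {α : Type} [Fintype α] {β : α → W → ℂ} {x : W} (h : Ind n β x) {P : W → Prop}
    (hP : ∀ᶠ y in 𝓝 x, P y) : ∀ᶠ z in 𝓝 (fun a => β a x), ∃ y, P y ∧ (fun a => β a y) = z := by
  obtain ⟨d, Θ, h1, h2, -⟩ := RigH.exists_th h
  have h3 : Tendsto (fun z => (z, (Θ x).2)) (𝓝 (Θ x).1) (𝓝 (Θ x)) :=
    (Continuous.prodMk_left (Θ x).2).continuousAt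
  rw [← h2 x h1]
  filter_upwards [h3.eventually (Θ.open_target.mem_nhds (Θ.map_source h1)),
    ((Θ.tendsto_symm h1).comp h3).eventually hP] with z a b
  refine ⟨_, b, ?_⟩
  rw [Function.comp_apply, ← h2 _ (Θ.map_target a), Θ.right_inv a]

theorem off {κ : Type} [Finite κ] {G : κ → Set W} (h : Snc n G) (x : W) :
    ∃ᶠ y in 𝓝 x, ∀ l, y ∉ G l := by
  obtain ⟨ζ, h1, h2⟩ := h x
  have := Fintype.ofFinite {l // x ∈ G l}
  intro h3
  have h4 : ∀ᶠ y in 𝓝 x, ∀ l, (ζ l y = 0 ↔ y ∈ G l) ∧ (x ∉ G l → y ∉ G l) :=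
    eventually_all.2 fun l => (h1 l).1.and (by
      by_cases a : x ∈ G l
      · simp [a]
      · exact ((h1 l).not_mem_near a).mono fun _ b _ => b)
  have h5 := opn h2 (h3.and h4)
  have h6 : (fun a : {l // x ∈ G l} => ζ a x) = fun _ => 0 :=
    funext fun a => (h1 a).mem.2 a.2
  rw [h6] at h5
  have h7 : Tendsto (fun (t : ℂ) (_ : {l // x ∈ G l}) => t) (𝓝[≠] 0) (𝓝 fun _ => 0) :=
    (continuous_pi fun _ => continuous_id).continuousAt.mono_left nhdsWithin_le_nhds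
  obtain ⟨t, ⟨y, ⟨a, b⟩, c⟩, d⟩ := ((h7.eventually h5).and self_mem_nhdsWithin).exists
  refine a fun l hl => ?_
  by_cases e : x ∈ G l
  · exact d ((congrFun c ⟨l, e⟩).symm.trans ((b l).1.2 hl))
  · exact (b l).2 e hl

end gen

/-- the extension of a function by continuity -/
theorem glue {W : Type} [TopologicalSpace W] (U : Set W) (ρ : W → ℂ) : ∃ h : W → ℂ, ∀ v φ,
    (∀ᶠ w in 𝓝 v, (∃ᶠ w' in 𝓝 w, w' ∈ U) ∧ ContinuousAt φ w) →
    (∀ᶠ w in 𝓝 v, w ∈ U → ρ w = φ w) → ∀ᶠ w in 𝓝 v, φ w = h w := by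
  refine ⟨fun v => limUnder (𝓝[U] v) ρ, fun v φ h1 h2 => ?_⟩
  filter_upwards [h1, h2.eventually_nhds] with w a b
  have : (𝓝[U] w).NeBot := mem_closure_iff_nhdsWithin_neBot.1 (mem_closure_iff_frequently.2 a.1)
  exact ((a.2.mono_left nhdsWithin_le_nhds).congr'
    ((eventually_nhdsWithin_iff.2 b).mono fun _ c => c.symm)).limUnder_eq.symm

theorem prod_zpow {q b : ℕ} (g : Fin q → ℂ) (hg : ∀ k, g k ≠ 0) (a : Fin b → Fin q → ℤ)
    (c : Fin b → ℤ) : ∏ k, g k ^ (∑ i, c i • a i) k = ∏ i, (∏ k, g k ^ a i k) ^ c i := by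
  have h1 : ∀ (s : Finset (Fin b)) k, g k ^ (∑ i ∈ s, c i • a i) k = ∏ i ∈ s, (g k ^ a i k) ^ c i := by
    intro s k
    induction s using Finset.induction_on with
    | empty => simp
    | insert i s hi ih =>
      rw [Finset.sum_insert hi, Finset.prod_insert hi, Pi.add_apply, zpow_add₀ (hg k), ih,
        Pi.smul_apply, smul_eq_mul, mul_comm (c i), zpow_mul]
  simp only [h1]
  rw [Finset.prod_comm]
  exact Finset.prod_congr rfl fun i _ => Finset.prod_zpow _ _ _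

variable {X : Ctx} {L : Fin X.q → Bd X.V.W} {S : X.Sf L} (M : Md S)

theorem memO {m : Fin (M.R + 1)} {w : M.Z.W} (h : w ∈ M.D m) : M.b w ∈ M.O :=
  (M.pm.pm.cover w).2 ⟨m, h⟩

theorem tinj {v w : M.Z.W} (hv : M.b v ∈ M.O) (hw : M.b w ∈ M.O) (h : M.φ (M.b v) = M.φ (M.b w)) :
    M.b v = M.b w :=
  congrArg Subtype.val (M.model.emb.injective (a₁ := ⟨_, hv⟩) (a₂ := ⟨_, hw⟩) h)

theorem dns (h1 : StApi1) {w : M.Z.W} (hw : M.b w ∈ M.O) : ∃ᶠ v in 𝓝 w, M.Z.π v ∉ X.E := by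
  obtain ⟨a1, -, a3, -⟩ := h1 X L S M
  refine ((off M.Z.snc w).and_eventually
    (a1.continuousAt.eventually (M.model.isOpen.mem_nhds hw))).mono fun v a b => ?_
  obtain ⟨l, -, c⟩ := mem_iUnion₂.1 ((a3 v a.2).1 b)
  exact a.1 l c

theorem gen_ne (h1 : StApi1) {m : Fin (M.R + 1)} {w : M.Z.W} (hw : w ∈ M.D m) {j : Ix L}
    (hj : In L j (M.Z.π w)) : ∀ᶠ v in 𝓝 w, M.Z.π v ∉ X.E →
      ∀ i, S.u i (M.eqv m i) j (M.Z.π v) ≠ 0 := by
  obtain ⟨a1, -, a3, -⟩ := h1 X L S M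
  obtain ⟨ζ, h2, -⟩ := M.Z.snc w
  have h3 : ∀ i, ∀ᶠ v in 𝓝 w, M.Z.π v ∉ X.E → S.u i (M.eqv m i) j (M.Z.π v) ≠ 0 := fun i => by
    obtain ⟨o, u, b1, b2, b3, b4⟩ := M.pm.mon m w hw i j ζ hj h2
    filter_upwards [b4, b2.continuousAt.eventually_ne b3, eventually_all.2 fun l => (h2 l).1,
      (M.pm.pm.isOpen m).mem_nhds hw] with v c1 c2 c3 c4 c5
    rw [c1 c5]
    refine mul_ne_zero c2 (Finset.prod_ne_zero_iff.2 fun l _ => ?_)
    by_cases d : l ∈ exU X.ex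
    · exact zpow_ne_zero _ fun e => c5 ((a3 v (memO M c4)).2 (mem_iUnion₂.2 ⟨l, d, (c3 l).1 e⟩))
    · rw [b1 l d, zpow_zero]
      exact one_ne_zero
  exact (eventually_all.2 h3).mono fun v a b i => a i b

/-- the expression of a section in a chart of the projective space -/
theorem exh (h1 : StApi1) (h2 : StApi2) {y : X.Y.pt} (hy : y ∈ M.O) {c : Fin S.b → ℤ}
    {s : Ix L → X.V.W → ℂ} (hs : X.Mer y (lin L (∑ i, c i • S.a i)) s) (m : Fin (M.R + 1)) :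
    ∃ h : M.Z.W → ℂ, ∀ v ∈ M.F y, v ∈ M.D m → M.Hl c s v →
      Hol 4 h v ∧ (h v ≠ 0 ↔ M.Fr c s v) := by
  classical
  obtain ⟨b1, b2, -, ⟨w₀, b3⟩, -⟩ := (h1 X L S M).2.2.2.2.2.2.2 y hy
  have fr : ∀ v ∈ M.F y, ∃ j, In L j (M.Z.π v) := fun v hv => by
    choose i hi using fun j => (b1 j).cover (M.Z.π v) hv
    exact ⟨i, hi⟩
  obtain ⟨j₀, -⟩ := fr w₀ b3
  let J : X.V.W → Ix L := fun z => if a : ∃ j, In L j z then a.choose else j₀
  have hJ : ∀ z j, In L j z → In L (J z) z := fun z j a => by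
    have b : ∃ j, In L j z := ⟨j, a⟩
    simp only [J, dif_pos b]
    exact b.choose_spec
  obtain ⟨h, hh⟩ := glue {v | M.Z.π v ∉ X.E} fun v =>
    s (J (M.Z.π v)) (M.Z.π v) / ∏ i, S.u i (M.eqv m i) (J (M.Z.π v)) (M.Z.π v) ^ c i
  have key : ∀ v ∈ M.F y, v ∈ M.D m → ∀ j u, In L j (M.Z.π v) → Hol 4 u v →
      (∀ᶠ w in 𝓝 v, M.Z.π w ∉ X.E →
        s j (M.Z.π w) = u w * ∏ i, S.u i (M.eqv m i) j (M.Z.π w) ^ c i) →
      ∀ᶠ w in 𝓝 v, u w = h w := by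
    intro v hv hm j u hj hu he
    have hπ : ContinuousAt M.Z.π v := M.Z.bl.cont.continuousAt
    have n1 : ∀ {P : X.V.W → Prop}, (∀ᶠ z in 𝓝ˢ (X.F y), P z) → ∀ᶠ w in 𝓝 v, P (M.Z.π w) :=
      fun a => hπ.eventually (a.filter_mono (nhds_le_nhdsSet (show M.Z.π v ∈ X.F y from hv)))
    refine hh v u ?_ ?_
    · filter_upwards [(M.pm.pm.isOpen m).mem_nhds hm, hu.near] with w a b
        using ⟨dns M h1 (memO M a), b.continuousAt⟩
    · filter_upwards [he, gen_ne M h1 hm hj, n1 hs, n1 (eventually_all.2 fun i => b2 i (M.eqv m i)),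
        n1 (eventually_all.2 fun k => (b1 k).near), hπ.eventually
          (eventually_all.2 fun k => ((b1 k).isOpen (j k)).mem_nhds (hj k))] with w a1 a2 a3 a4 a5 a6 a7
      have c1 := hJ _ j a6
      have c2 : ∀ k, (L k).g (J (M.Z.π w) k) (j k) (M.Z.π w) ≠ 0 := fun k =>
        (a5 k _ _ (c1 k) (a6 k)).2.1
      rw [((a3 _ c1).2 a7).2 j a6, Finset.prod_congr rfl fun i _ => by
        rw [((a4 i _ c1).2 a7).2 j a6, mul_zpow], Finset.prod_mul_distrib, a1 a7]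
      have c3 := prod_zpow _ c2 S.a c
      have c4 : ∏ i, S.u i (M.eqv m i) j (M.Z.π w) ^ c i ≠ 0 :=
        Finset.prod_ne_zero_iff.2 fun i _ => zpow_ne_zero _ (a2 a7 i)
      have c5 : ∏ i, (∏ k, (L k).g (J (M.Z.π w) k) (j k) (M.Z.π w) ^ S.a i k) ^ c i ≠ 0 :=
        Finset.prod_ne_zero_iff.2 fun i _ => zpow_ne_zero _
          (Finset.prod_ne_zero_iff.2 fun k _ => zpow_ne_zero _ (c2 k))
      exact (congrArg (fun t => t * _ / _) c3).trans
        ((mul_div_mul_left _ _ c5).trans (mul_div_cancel_right₀ _ c4))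
  refine ⟨h, fun v hv hm hl => ?_⟩
  obtain ⟨j, hj⟩ := fr v hv
  obtain ⟨u, u1, u2⟩ := hl m j hm hj
  have k1 := key v hv hm j u hj u1 u2
  refine ⟨u1.congr k1, fun a => ⟨m, j, u, hm, hj, u1, k1.self_of_nhds ▸ a, u2⟩, fun a => ?_⟩
  obtain ⟨u', v1, v2, v3⟩ :=
    (((h2 X L S M y hy).2.1 c s hs).1.self_of_nhdsSet v hv) a m j hm hj
  exact (key v hv hm j u' hj v1 v3).self_of_nhds ▸ v2

end AlvH

end Vale.Agent.P277Z.Cls
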