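import Vale.Agent.P277Z.Cls.Sk
import Vale.Agent.P277Z.Slc.Basic

/-!
# P277, block CLS: the modification near a fibre
-/

open scoped Manifold ContDiff Topology
open Vale.Agent.P272.K Vale.Agent.P285.H281.FD Vale.Agent.P277 Set Filter Asymptotics
open Vale.Agent.P277.HD (pull)
open Vale.Agent.P277Z.Slc (LEq lin)
open Vale.Agent.P277Z.Brg (LBN)
open Vale.Agent.P277Z.Val (Lg)

noncomputable section

namespace Vale.Agent.P277Z.Cls

namespace AyH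

section top

variable {A B : Type} [TopologicalSpace A] [TopologicalSpace B]

theorem unif {β : Type} [SemilatticeSup β] [Inhabited β] {K : Set A} (hK : IsCompact K)
    {Q : β → A → Prop} (hm : ∀ c c' v, c ≤ c' → Q c v → Q c' v)
    (h : ∀ w ∈ K, ∃ c, ∀ᶠ v in 𝓝 w, Q c v) : ∃ c, ∀ᶠ v in 𝓝ˢ K, Q c v :=
  hK.induction_on (p := fun S => ∃ c, ∀ᶠ v in 𝓝ˢ S, Q c v) ⟨default, by simp⟩
    (fun _ _ a ⟨c, b⟩ => ⟨c, b.filter_mono (nhdsSet_mono a)⟩)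
    (fun _ _ ⟨c, a⟩ ⟨c', b⟩ => ⟨c ⊔ c', by
      rw [nhdsSet_union]
      exact ⟨a.mono fun v => hm _ _ v le_sup_left, b.mono fun v => hm _ _ v le_sup_right⟩⟩)
    fun w a => let ⟨c, b⟩ := h w a
      ⟨_, mem_nhdsWithin_of_mem_nhds b.eventually_nhds, c, eventually_nhdsSet_iff_forall.2 fun _ => id⟩

variable [T2Space B] [LocallyCompactSpace B] {π : A → B} {O : Set B} {z : B}

theorem ev_fib (hπ : Continuous π) (hO : O ∈ 𝓝 z)
    (hp : ∀ K ⊆ O, IsCompact K → IsCompact (π ⁻¹' K)) {P : A → Prop}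
    (h : ∀ᶠ w in 𝓝ˢ (π ⁻¹' {z}), P w) : ∀ᶠ z' in 𝓝 z, ∀ w, π w = z' → P w := by
  obtain ⟨K, k1, k2, k3⟩ := local_compact_nhds hO
  obtain ⟨U, u1, u2, u3⟩ := mem_nhdsSet_iff_exists.1 h
  filter_upwards [k1, (((hp K k2 k3).diff u1).image hπ).isClosed.isOpen_compl.mem_nhds
    fun ⟨w, a, b⟩ => a.2 (u2 b)] with z' a b w c
  exact u3 (by_contra fun d => b ⟨w, ⟨show π w ∈ K from c ▸ a, d⟩, c⟩)

theorem onto (hπ : Continuous π) (hO : O ∈ 𝓝 z)
    (hp : ∀ K ⊆ O, IsCompact K → IsCompact (π ⁻¹' K)) (h : ∃ᶠ z' in 𝓝 z, ∃ w, π w = z') :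
    ∃ w, π w = z := by
  by_contra! e
  obtain ⟨z', ⟨w, a⟩, b⟩ := (h.and_eventually (ev_fib hπ hO hp (P := fun _ => False)
    (eventually_nhdsSet_iff_forall.2 fun w a => (e w a).elim))).exists
  exact b w a

end top

variable {V : Lg} {D : Hl.Dat 4 V.W} {F : Set V.W} (Z : Rz V D F)

theorem surj {z : V.W} (hz : z ∈ Z.O₁) : ∃ w, Z.π w = z := by
  obtain ⟨γ, k, a, b⟩ := D.nz z (Z.le hz)
  refine onto Z.bl.cont (Z.bl.isOpen.mem_nhds hz) Z.bl.proper (((not_eventually.1 b).and_eventually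
    (((D.opn γ).eventually_mem a).and (Z.bl.isOpen.eventually_mem hz))).mono fun z' c => ?_)
  exact Z.bl.surj z' c.2.2 fun d => c.1 (d γ k (Z.le c.2.2) c.2.1)

theorem ole {z : V.W} (hz : z ∈ Z.O₁) {E : Set V.W} {f g : V.W → ℝ}
    (h : ∀ w, Z.π w = z → OLe (Z.π ⁻¹' E) (fun v => f (Z.π v)) (fun v => g (Z.π v)) w)
    (hg : ∀ v, 0 ≤ g v) : OLe E f g z := by
  obtain ⟨C, hC⟩ := unif (β := ℝ) (Z.bl.proper {z} (singleton_subset_iff.2 hz) isCompact_singleton)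
    (Q := fun C v => Z.π v ∉ E → f (Z.π v) ≤ C * g (Z.π v))
    (fun _ _ v a b c => (b c).trans (mul_le_mul_of_nonneg_right a (hg _))) h
  refine ⟨C, ?_⟩
  filter_upwards [ev_fib Z.bl.cont (Z.bl.isOpen.mem_nhds hz) Z.bl.proper hC,
    Z.bl.isOpen.mem_nhds hz] with z' a b
  obtain ⟨w, rfl⟩ := surj Z b
  exact a w rfl

theorem tot_le (hL : StLoc) {ex : Finset (Fin V.r)} (hE : ∀ z ∈ D.O, z ∈ D.Z → z ∈ Ex V.G ex)
    {w : Z.W} {ζ} (hζ : V.Eq (Z.π w) ζ) {ζ' : Fin V.r ⊕ Fin Z.r → Z.W → ℂ}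
    (h' : ∀ l, LEq 4 (Z.G l) w (ζ' l)) :
    (fun v => ∏ k ∈ ex, ζ k (Z.π v)) =O[𝓝 w] fun v => ∏ l ∈ exU ex, ζ' l v := by
  choose u u1 u2 u3 using Z.tot w ζ ζ' hζ h'
  have h1 : ∀ l, (fun v => ζ' (.inr l) v ^ ∑ k ∈ ex, Z.mo k l) =O[𝓝 w] ζ' (.inr l) := fun l => by
    have c := (h' (.inr l)).hol.continuousAt
    by_cases a : w ∈ Z.G (.inr l)
    · obtain ⟨v, b1, ⟨b2, b3, b4, b5⟩, b6⟩ := (((hL Z.W _ Z.G ∅ Z.snc).2.1 _ w a).and_eventually
        ((((eventually_all.2 u3).and ((eventually_all.2 fun l => (h' l).1).and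
          ((eventually_all.2 fun k => (u1 k).continuousAt.eventually_ne (u2 k)).and
            (Z.bl.cont.continuousAt.eventually hζ.iff)))).filter_mono nhdsWithin_le_nhds).and
              self_mem_nhdsWithin)).exists
      obtain ⟨k, c1, c2⟩ := mem_iUnion₂.1 (hE _ (Z.le (Z.bl.maps v)) ((Z.new v).2 ⟨l, b6⟩))
      have c3 := (b5 k).2 c2
      rw [b2 k, mul_eq_zero, or_iff_right (b4 k), mul_eq_zero, or_iff_right
        fun e => b1 _ (by simp) ((b3 _).1 e), Finset.prod_eq_zero_iff] at c3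
      obtain ⟨l', -, c4⟩ := c3
      obtain rfl : l' = l := by_contra fun e =>
        b1 _ (by simpa using e) ((b3 _).1 (pow_eq_zero_iff'.1 c4).1)
      obtain ⟨m, hm⟩ := Nat.exists_eq_add_one_of_ne_zero (n := ∑ k ∈ ex, Z.mo k l')
        (fun e => (pow_eq_zero_iff'.1 c4).2 (Finset.sum_eq_zero_iff.1 e k c1))
      simp only [hm, pow_succ]
      exact (((c.pow m).isBigO_one ℂ).mul (isBigO_refl _ _)).congr_right fun _ => one_mul _
    · have b := norm_pos_iff.2 (mt (h' _).mem.1 a)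
      exact ((c.pow _).isBigO_one ℂ).trans ((isBigO_const_left_iff_pos_le_norm one_ne_zero).2
        ⟨_, half_pos b, c.norm.eventually (le_mem_nhds (half_lt_self b))⟩)
  have h2 := ((IsBigO.finsetProd fun k (_ : k ∈ ex) => (u1 k).continuousAt.isBigO_one ℂ).mul
    (isBigO_refl (fun v => ∏ k ∈ ex, ζ' (.inl k) v) _)).mul
      (IsBigO.finsetProd fun l (_ : l ∈ Finset.univ) => h1 l)
  refine h2.congr' ((eventually_all.2 u3).mono fun v a => ?_) (Eventually.of_forall fun v => ?_)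
  · simp only [a, Finset.prod_mul_distrib, ← Finset.prod_pow_eq_pow_sum, mul_assoc]
    rw [Finset.prod_comm]
  · simp [exU, Finset.prod_disjSum]

end AyH

open AyH

theorem api1y (hL : StLoc) (X : Ctx) (L : Fin X.q → Bd X.V.W) (S : X.Sf L) (M : Md S)
    (h3 : ∀ w, M.b w ∈ M.O → (M.Z.π w ∈ X.E ↔ w ∈ Ex M.Z.G (exU X.ex))) :
    ∀ y ∈ M.O, (∀ j, LBN 4 (X.F y) (L j)) ∧ (∀ i m, X.Mer y (lin L (S.a i)) (S.u i m)) ∧
    IsCompact (M.F y) ∧ (M.F y).Nonempty ∧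
    (∀ P : M.Z.W → Prop, (∀ᶠ w in 𝓝ˢ (M.F y), P w) → ∀ᶠ y' in 𝓝 y, ∀ w, M.b w = y' → P w) ∧
    (∀ z ∈ X.F y, ∀ f g, (∀ w, M.Z.π w = z → OLe (M.Z.π ⁻¹' X.E) (fun v => f (M.Z.π v))
      (fun v => g (M.Z.π v)) w) → (∀ v, 0 ≤ g v) → OLe X.E f g z) ∧
    ∀ b (s : Ix L → M.Z.W → ℂ), (∀ᶠ w in 𝓝ˢ (M.F y),
      MerAt M.Z.G (exU X.ex) (pull M.Z.π (lin L b)) s w) → ∃ s', X.Mer y (lin L b) s' ∧
        ∀ w i, M.b w ∈ M.O → M.Z.π w ∉ X.E → s' i (M.Z.π w) = s i w := by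
  intro y hy
  have hψ := X.hyp.res.cont
  have hπ := M.Z.bl.cont
  have o1 : ∀ z, X.ψ z ∈ M.O → z ∈ M.Z.O₁ := fun z a => M.Z.le₂ (M.sub a)
  have o2 : ∀ z ∈ X.F y, z ∈ M.Z.O₁ := fun z (a : X.ψ z = y) => o1 z (a ▸ hy)
  have o3 : M.Dt.O ∈ 𝓝ˢ (X.F y) := M.Dt.isOpen.mem_nhdsSet.2 fun z a => M.Z.le (o2 z a)
  have o4 : ∀ K ⊆ M.O, IsCompact K → IsCompact (M.b ⁻¹' K) := fun K a b =>
    M.Z.bl.proper (X.ψ ⁻¹' K) (fun z c => o1 z (a c)) (b.isClosed.preimage hψ).isCompact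
  have o5 : ∀ P : M.Z.W → Prop, (∀ᶠ w in 𝓝ˢ (M.F y), P w) →
      ∀ᶠ y' in 𝓝 y, ∀ w, M.b w = y' → P w := fun P =>
    ev_fib (hψ.comp hπ) (M.model.isOpen.mem_nhds hy) o4
  refine ⟨fun j => ⟨(M.mov.lb j).isOpen, fun z a => (M.mov.lb j).cover z (M.Z.le (o2 z a)),
    mem_of_superset o3 fun z a i k b c => ⟨(M.mov.lb j).holo i k z a b c,
      (M.mov.lb j).ne_zero i k z a b c, fun l => (M.mov.lb j).cocycle i k l z a b c⟩⟩,
    fun i m => mem_of_superset o3 (M.mov.mer i m),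
    o4 _ (singleton_subset_iff.2 hy) isCompact_singleton, ?_, o5,
    fun z a f g => ole M.Z (o2 z a), fun b s hs => ?_⟩
  · obtain ⟨z, a⟩ := X.hyp.res.surj y
    obtain ⟨w, rfl⟩ := surj M.Z (o2 z a)
    exact ⟨w, a⟩
  obtain ⟨σ, hσ⟩ : ∃ σ : X.V.W → M.Z.W, ∀ w, M.Z.π w ∉ X.E → σ (M.Z.π w) = w := by
    obtain ⟨z, a⟩ := X.hyp.res.surj y
    have : Nonempty M.Z.W := ⟨(surj M.Z (o2 z a)).choose⟩
    exact ⟨Function.invFun M.Z.π, fun w a => M.Z.bl.one w _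
      (fun c => a (M.mov.sub _ (M.Z.le (M.Z.bl.maps w)) c)) (Function.invFun_eq ⟨w, rfl⟩)⟩
  refine ⟨fun i z => s i (σ z), eventually_nhdsSet_iff_forall.2 fun z₀ (h0 : X.ψ z₀ = y) => ?_,
    fun w i _ a => congrArg (s i) (hσ w a)⟩
  filter_upwards [hψ.continuousAt.eventually (h0 ▸ (o5 _ hs).and (M.model.isOpen.mem_nhds hy))]
    with z ⟨a1, a2⟩ i hi
  have hE : IsClosed X.E := X.ex.finite_toSet.isClosed_biUnion fun l _ => X.V.closed l
  refine ⟨?_, fun c => ?_⟩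
  · obtain ⟨ζ, hζ⟩ := X.V.exEq z
    let ρ : M.Z.W → ℂ := fun v => ∏ k ∈ X.ex, ζ k (M.Z.π v)
    obtain ⟨K, hK⟩ := unif (β := ℕ)
      (M.Z.bl.proper {z} (singleton_subset_iff.2 (o1 z a2)) isCompact_singleton)
      (Q := fun K w => ContinuousAt ρ w ∧
        OLe (M.Z.π ⁻¹' X.E) (fun v => ‖s i v‖ * ‖ρ v‖ ^ K) (fun _ => 1) w)
      (fun K K' w c ⟨d, C, f⟩ => by
        obtain ⟨m, rfl⟩ := Nat.exists_eq_add_of_le c
        refine ⟨d, C * (‖ρ w‖ + 1) ^ m, ?_⟩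
        filter_upwards [f, d.norm.eventually (ge_mem_nhds (lt_add_one _))] with v g j k
        rw [pow_add, ← mul_assoc, mul_one, ← mul_one C]
        exact mul_le_mul (g k) (pow_le_pow_left₀ (norm_nonneg _) j m) (by positivity)
          (le_trans (by positivity) (g k)))
      fun w (c : M.Z.π w = z) => by
        subst c
        obtain ⟨ζ', K, d1, C, d2⟩ := (a1 w rfl i hi).1
        obtain ⟨C', d3⟩ := (tot_le M.Z hL M.mov.sub hζ d1).bound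
        refine ⟨K, Eventually.and ((hπ.continuousAt.eventually (eventually_all.2 fun k =>
          Hol.near (Slc.LEq.hol (hζ k)))).mono fun v f => tendsto_finsetProd _ fun k _ =>
            (f k).continuousAt.comp hπ.continuousAt) (Eventually.mono (Eventually.eventually_nhds
              (p := fun v => M.Z.π v ∉ X.E → ‖s i v‖ * ‖ρ v‖ ^ K ≤ |C'| ^ K * C * 1) ?_)
              fun v f => ⟨_, f⟩)⟩
        filter_upwards [d2, d3, (hψ.comp hπ).continuousAt.eventually (M.model.isOpen.mem_nhds a2)]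
          with v f g j k
        have m := f (mt (h3 v j).2 k)
        rw [Finset.prod_pow, ← norm_prod] at m
        rw [mul_assoc]
        refine (mul_le_mul_of_nonneg_left (pow_le_pow_left₀ (norm_nonneg _) (g.trans
          (mul_le_mul_of_nonneg_right (le_abs_self _) (norm_nonneg _))) K) (norm_nonneg _)).trans ?_
        rw [mul_pow, mul_left_comm]
        exact mul_le_mul_of_nonneg_left m (by positivity)
    refine ⟨ζ, K, hζ, ole M.Z (o1 z a2) (fun w c => ?_) fun _ => zero_le_one⟩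
    obtain ⟨C, d⟩ := (hK.self_of_nhdsSet w c).2
    refine ⟨C, d.mono fun v f g => ?_⟩
    show ‖s i (σ (M.Z.π v))‖ * ∏ l ∈ X.ex, ‖ζ l (M.Z.π v)‖ ^ K ≤ C * 1
    rw [hσ v g, Finset.prod_pow, ← norm_prod]
    exact f g
  · obtain ⟨w, rfl⟩ := surj M.Z (o1 z a2)
    obtain ⟨d1, d2⟩ := (a1 w rfl i hi).2 (mt (h3 w a2).2 c)
    obtain ⟨τ, -, -, f1, f2⟩ := M.Z.bl.sec w fun d => c (M.mov.sub _ (M.Z.le (M.Z.bl.maps w)) d)
    refine ⟨(f2 _ d1).congr ?_, fun j d => by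
      show s i (σ (M.Z.π w)) = _ * s j (σ (M.Z.π w))
      rw [hσ w c]
      exact d2 j d⟩
    filter_upwards [f1, hE.isOpen_compl.mem_nhds c] with z' g j
    rw [← hσ (τ z') (by rwa [g]), g]

end Vale.Agent.P277Z.Cls
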