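import Vale.Agent.P277Z.Cls.Ord
import Vale.Agent.P277Z.Cls.Api1Y
import Vale.Agent.P277Z.Val.Fin

/-!
# P277, block CLS: orders and points on the strict transforms
-/

open scoped Manifold ContDiff Topology
open Vale.Agent.P272.K Vale.Agent.P285.H281.FD Set Filter
open Vale.Agent.P277Z.Slc (LEq)
open Vale.Agent.P277Z.Val (Lg)
open Vale.Agent.P277Z.Hir (Cpb)

noncomputable section

namespace Vale.Agent.P277Z.Cls

namespace AoH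

variable {V : Lg} {D : Hl.Dat 4 V.W} {F : Set V.W} (Z : Rz V D F) {k : Fin V.r} {w : Z.W}

theorem nz (h : Z.π w ∉ D.Z) : ∀ᶠ v in 𝓝 w, Z.π v ∉ D.Z :=
  Z.bl.cont.continuousAt.eventually_mem (Z.bl.closed.isOpen_compl.mem_nhds h)

theorem good {f : V.W → ℝ} {o : ℤ} (h : Z.π w ∉ D.Z) {ζ : V.W → ℂ} (a : LEq 4 (V.G k) (Z.π w) ζ)
    (b : Cpb (𝓝[(V.G k)ᶜ] (Z.π w)) f fun v => ‖ζ v‖ ^ o) : ∃ ζ', LEq 4 (Z.G (.inl k)) w ζ' ∧
      Cpb (𝓝[(Z.G (.inl k))ᶜ] w) (fun v => f (Z.π v)) fun v => ‖ζ' v‖ ^ o := by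
  classical
  obtain ⟨ζ₀, h0⟩ := V.exEq (Z.π w)
  obtain ⟨ζ', h1, -⟩ := Z.snc w
  obtain ⟨u, u1, u2, u3⟩ := Z.tot w (Function.update ζ₀ k ζ) ζ' (fun l => by
    by_cases e : l = k
    · rw [e, Function.update_self]
      exact a
    · rw [Function.update_of_ne e]
      exact h0 l) h1 k
  rw [Function.update_self] at u3
  have h2 : Tendsto Z.π (𝓝[(Z.G (.inl k))ᶜ] w) (𝓝[(V.G k)ᶜ] (Z.π w)) :=
    tendsto_nhdsWithin_iff.2 ⟨Z.bl.cont.continuousAt.mono_left nhdsWithin_le_nhds, by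
      filter_upwards [nhdsWithin_le_nhds (nz Z h), self_mem_nhdsWithin] with v c d
      exact fun e => d (Z.off k v c e)⟩
  have h3 : ContinuousAt (fun v => ‖u v * ∏ l, ζ' (.inr l) v ^ Z.mo k l‖) w :=
    (u1.continuousAt'.mul (tendsto_finsetProd _ fun l _ => (h1 _).hol.continuousAt'.pow _)).norm
  obtain ⟨C, c, b⟩ := b
  refine ⟨_, h1 _, Od.trans ⟨C, c, h2.eventually b⟩ (Od.zpow (Od.congr (Od.unit
    (h3.mono_left nhdsWithin_le_nhds) (norm_pos_iff.2 (mul_ne_zero u2 (Finset.prod_ne_zero_iff.2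
      fun l _ => pow_ne_zero _ fun e => h ((Z.new w).2 ⟨l, (h1 _).mem.1 e⟩))))
    fun v => norm_nonneg (ζ' (.inl k) v)) ?_ (.of_forall fun _ => rfl)) (Od.zpos (h1 _)) o)⟩
  filter_upwards [nhdsWithin_le_nhds u3] with v e
  rw [e, ← norm_mul, mul_assoc, mul_comm (ζ' _ v)]

theorem ord (hL : StLoc) {f : V.W → ℝ} {o : ℤ} (h : Ord (V.G k) f (Z.π w) o) :
    Ord (Z.G (.inl k)) (fun v => f (Z.π v)) w o := by
  have h1 : Tendsto Z.π (𝓝[Z.G (.inl k)] w) (𝓝[V.G k] (Z.π w)) :=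
    Z.bl.cont.continuousWithinAt.tendsto_nhdsWithin (Z.old k)
  refine (Od.gD_freq ((Od.gD_le (h1.eventually h)).and ((Od.alone hL Z.snc).and Od.gD_mem))).mono
    fun _ a => Od.ff (a.mono fun x ⟨b, c, _⟩ => ?_)
  have h2 : Z.π x ∉ D.Z := fun e => let ⟨l, e⟩ := (Z.new x).1 e; c _ (by simp) e
  obtain ⟨σ, s1, s2, s3, -⟩ := Z.bl.sec x h2
  have h3 : ∀ᶠ z in 𝓝[V.G k] (Z.π x), Z.π (σ z) = z ∧ z ∉ D.Z :=
    nhdsWithin_le_nhds (s3.and (Z.bl.closed.isOpen_compl.mem_nhds h2))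
  have h4 : Tendsto σ (𝓝[V.G k] (Z.π x)) (𝓝[Z.G (.inl k)] x) :=
    tendsto_nhdsWithin_iff.2 ⟨(s1.tendsto.mono_right (by rw [s2])).mono_left nhdsWithin_le_nhds, by
      filter_upwards [h3, self_mem_nhdsWithin] with z d e
      exact Z.off k _ (d.1.symm ▸ d.2) (d.1.symm ▸ e)⟩
  refine h4.frequently ((b.and_eventually h3).mono fun z ⟨⟨ζ, d, e⟩, g⟩ => ?_)
  exact good Z (g.1.symm ▸ g.2) (g.1.symm ▸ d) (g.1.symm ▸ e)

theorem lift {z : V.W} (hz : z ∈ Z.O₁) (h : ∃ᶠ z' in 𝓝[V.G k] z, z' ∉ D.Z) :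
    ∃ w ∈ Z.G (.inl k), Z.π w = z := by
  have hc : IsClosed (Z.G (.inl k)) := Slc.isClosed_of_leq fun x => ⟨_, (Z.snc x).choose_spec.1 _⟩
  by_contra! e
  obtain ⟨z', a, ⟨b, c⟩, d⟩ := (h.and_eventually ((((AyH.ev_fib Z.bl.cont
    (Z.bl.isOpen.mem_nhds hz) Z.bl.proper (P := fun w => w ∉ Z.G (.inl k))
    (hc.isOpen_compl.mem_nhdsSet.2 fun w a b => e w b a)).and
      (Z.bl.isOpen.eventually_mem hz)).filter_mono nhdsWithin_le_nhds).and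
        self_mem_nhdsWithin)).exists
  obtain ⟨w, rfl⟩ := Z.bl.surj z' c a
  exact b w rfl (Z.off k w a d)

end AoH

theorem api1o (hL : StLoc) (X : Ctx) (L : Fin X.q → Bd X.V.W) (S : X.Sf L) (M : Md S) :
    (∀ k, ∀ w ∈ M.Z.G (.inl k), M.b w ∈ M.O → ∀ f o, Ord (X.V.G k) f (M.Z.π w) o →
      Ord (M.Z.G (.inl k)) (fun v => f (M.Z.π v)) w o) ∧
    ∀ k, ∀ z ∈ X.V.G k, X.ψ z ∈ M.O → ∃ w ∈ M.Z.G (.inl k), M.Z.π w = z :=
  ⟨fun _ _ _ _ _ _ => AoH.ord M.Z hL, fun k z a b => AoH.lift M.Z (M.Z.le₂ (M.sub b))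
    (M.mov.thin k z (M.Z.le (M.Z.le₂ (M.sub b))) a)⟩

end Vale.Agent.P277Z.Cls
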