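import Vale.Agent.P277Z.Top.Sk
import Vale.Agent.P277Z.Brg.Sk2
import Vale.Agent.P277Z.Hl.Rz
import Vale.Agent.P277Z.Pos.MSpec

/-!
# P277, block CLS: the class group step (definitions)
-/

set_option linter.all false
set_option maxSynthPendingDepth 3

open scoped Manifold ContDiff Topology
open Vale.Agent.P272.K Vale.Agent.P285.H281.FD Vale.Agent.P277 Set Filter Module
open Vale.Agent.P267.H175 (dF)
open Vale.Agent.P277.PH (SmR)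
open Vale.Agent.P277.HD (pull)
open Vale.Agent.P284Z (levi)
open Vale.Agent.P277Z.Tr (pb HolM)
open Vale.Agent.P277Z.Val (Lg jac)
open Vale.Agent.P277Z.Slc (LEq Snc IsDiv Ind Reg lin dd)
open Vale.Agent.P277Z.Brg (PosX MetN)
open Vale.Agent.P277Z.Pj (Prp Prj PMap)
open Vale.Agent.P277Z.Coh (LBOn)
open Vale.Agent.P277Z.Hir (Cpb)
open Vale.Agent.P277Z.Top

noncomputable section

namespace Vale.Agent.P277Z.Cls

/-! ### Sections with poles -/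

section mer

variable {W : Type} [TopologicalSpace W] [ChartedSpace (Cm 4) W] {κ : Type}

/-- the union of the components in `ex` -/
def Ex (G : κ → Set W) (ex : Finset κ) : Set W := ⋃ l ∈ ex, G l

/-- `f ≤ C g` near `w`, outside `E` -/
def OLe (E : Set W) (f g : W → ℝ) (w : W) : Prop := ∃ C : ℝ, ∀ᶠ v in 𝓝 w, v ∉ E → f v ≤ C * g v

/-- `f` has at most poles along the components in `ex` -/
def Pole (G : κ → Set W) (ex : Finset κ) (f : W → ℂ) (w : W) : Prop :=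
  ∃ (ζ : κ → W → ℂ) (K : ℕ), (∀ l, LEq 4 (G l) w (ζ l)) ∧
    OLe (Ex G ex) (fun v => ‖f v‖ * ∏ l ∈ ex, ‖ζ l v‖ ^ K) (fun _ => 1) w

/-- `s` is at `w` a section of `L` with poles along the components in `ex` -/
def MerAt (G : κ → Set W) (ex : Finset κ) (L : Bd W) (s : L.ι → W → ℂ) (w : W) : Prop :=
  ∀ i, w ∈ L.U i → Pole G ex (s i) w ∧
    (w ∉ Ex G ex → Hol 4 (s i) w ∧ ∀ j, w ∈ L.U j → s i w = L.g i j w * s j w)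

/-- `f` has the size of `|ζ|^o` at the points of a dense part of `D` near `z` -/
def Ord (D : Set W) (f : W → ℝ) (z : W) (o : ℤ) : Prop :=
  ∀ᶠ z₁ in 𝓝[D] z, ∃ᶠ z' in 𝓝[D] z₁, ∃ ζ, LEq 4 D z' ζ ∧ Cpb (𝓝[Dᶜ] z') f fun v => ‖ζ v‖ ^ o

/-- `f` is near `w` holomorphic outside the components in `ex`, with poles along them -/
def MerF (G : κ → Set W) (ex : Finset κ) (f : W → ℂ) (w : W) : Prop :=
  Pole G ex f w ∧ ∀ᶠ v in 𝓝 w, v ∉ Ex G ex → Hol 4 f v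

/-- `h` is constant on the level set of `f` in `Z` near `x` -/
def VC {A B : Type} (Z : Set W) (f : W → A) (h : W → B) (x : W) : Prop :=
  ∀ᶠ y in 𝓝 x, y ∈ Z → f y = f x → h y = h x

/-- `β` are independent equations of `Z` at `x`, and `f` is a submersion on `Z` at `x` -/
def Lev {d : ℕ} (Z : Set W) (β : Fin d → W → ℂ) (f : W → ℂ) (x : W) : Prop :=
  Ind 4 (fun o : Option (Fin d) => o.elim f β) x ∧ ∀ᶠ y in 𝓝 x, y ∈ Z ↔ ∀ i, β i y = 0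

/-- the indices of the frames of a family of line bundles -/
abbrev Ix {q : ℕ} (L : Fin q → Bd W) : Type := ∀ j, (L j).ι

/-- `w` lies in the domain of the frame `i` -/
def In {q : ℕ} (L : Fin q → Bd W) (i : Ix L) (w : W) : Prop := ∀ j, w ∈ (L j).U (i j)

/-- the size of a family of sections -/
def nrm {I : Type} {r : ℕ} (u : Fin (r + 1) → I → W → ℂ) (i : I) (w : W) : ℝ := ∑ m, ‖u m i w‖

end mer

/-! ### The global data -/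

/-- The data of the class group step. -/
structure Ctx where
  V : Lg
  U : Lg
  a : Fin V.r → ℝ
  Y : CSp
  ψ : V.W → Y.pt
  α : ℝ
  μ : V.W → U.W
  s : Fin U.r → Fin V.r
  p : U.W → Y.pt
  Q : Par U
  R : Pol U Y p
  C : Cf Q
  hyp : Hyp V a Y ψ α U μ s p
  cfg : IsCfg Q R C
  σ : Set Y.pt
  k₀ : Fin U.r
  hσ : p '' U.G k₀ = σ
  nsub : ¬ σ.Subsingleton
  l : Fin V.r
  hl : a l + 1 < α
  sub : σ ⊆ ψ '' V.G l
  q : ℕ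
  x : Fin q → ∀ k, C11 (Q.H k)
  lam : ∀ j k, x j k ∈ Lam (Q.H k)
  zero : ∀ j k, p '' U.G k ≠ σ → x j k = 0
  deg : ∀ j e, ¬ C.P e → C.B e (C.rs e (x j _)) (C.rs e (C.o _)) =
    C.B e (C.rt e (x j _)) (C.rs e (C.o _))

namespace Ctx

variable (X : Ctx)

open Classical in
/-- the exceptional components -/
def ex : Finset (Fin X.V.r) := Finset.univ.filter fun k => 0 < X.a k

/-- the exceptional set -/
def E : Set X.V.W := Ex X.V.G X.ex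

/-- the fibre -/
def F (y : X.Y.pt) : Set X.V.W := X.ψ ⁻¹' {y}

/-- the components which are counted -/
def Alive (k : Fin X.V.r) : Prop := 0 < X.a k ∧ X.a k < X.α ∧ X.ψ '' X.V.G k = X.σ

/-- `s` is near the fibre over `y` a section of `L` with poles along the exceptional set -/
def Mer (y : X.Y.pt) (L : Bd X.V.W) (s : L.ι → X.V.W → ℂ) : Prop :=
  ∀ᶠ w in 𝓝ˢ (X.F y), MerAt X.V.G X.ex L s w

/-- `L` is a line bundle over `O` whose restrictions have the classes `ξ k` -/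
def ClsOn (O : Set X.Y.pt) (L : Bd X.U.W) (ξ : ∀ k, Fr 3 2 (X.Q.H k).M) : Prop :=
  LBOn 4 (X.p ⁻¹' O) L ∧ ∀ k (d : ℕ) (N : Mf d) (j : N.M → (X.Q.H k).M), HolM d 3 j →
    (∀ z, X.p (X.Q.ι k (j z)) ∈ O) → ∀ χ β, IsCv (d := d) (pull (fun z => X.Q.ι k (j z)) L) χ β →
      ∃ θ : Fr d 1 N.M, Sm θ ∧ β - pb (Cm d) j (ξ k) = dF θ

/-- the class `∑ b j • x j` -/
def ξ (b : Fin X.q → ℤ) (k : Fin X.U.r) : Fr 3 2 (X.Q.H k).M := ∑ j, (b j : ℝ) • (X.x j k).1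

/-- a disc in `σ` around `y`, and the threefolds of `U` have smooth fibres over `y` -/
structure Dsc (y : X.Y.pt) (O : Set X.Y.pt) (t : X.Y.pt → ℂ) (g : ℂ → X.Y.pt) (Δ : Set ℂ) :
    Prop where
  disc : IsDisc X.Y X.σ O t g Δ
  mem : y ∈ O
  reg : ∀ k z, X.p (X.Q.ι k z) = y → Top.Sub 3 (fun z => t (X.p (X.Q.ι k z))) z

/-- general points of `σ` -/
structure Gp (y : X.Y.pt) : Prop where
  mem : y ∈ X.σ
  img : ∀ k, y ∈ X.p '' X.U.G k → X.p '' X.U.G k = X.σ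
  dsc : ∃ O t g Δ, X.Dsc y O t g Δ

/-- line bundles over `O` with the classes `n • x j` -/
structure Fam where
  O : Set X.Y.pt
  n : ℕ
  L : Fin X.q → Bd X.U.W
  isOpen : IsOpen O
  npos : 1 ≤ n
  cls : ∀ j, X.ClsOn O (L j) (X.ξ (Pi.single j n))

/-- the line bundles on `V` -/
def Fam.Lv {X : Ctx} (Φ : X.Fam) (j : Fin X.q) : Bd X.V.W := pull X.μ (Φ.L j)

/-- `Λ` has a metric whose curvature is `d d^c`-exact on the fibres over `y` -/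
def VT (Λ : Bd X.U.W) (y : X.Y.pt) (t : X.Y.pt → ℂ) : Prop :=
  ∃ (χ : Λ.ι → X.U.W → ℝ) (u : Fin X.U.r → X.U.W → ℝ), MetN 4 (X.p ⁻¹' {y}) Λ χ ∧
    ∀ k, ∀ z ∈ X.U.G k, X.p z = y → (∀ᶠ z' in 𝓝 z, SmR 4 (u k) z') ∧
      ∀ i ζ (e : Chart 4 X.U.W) v, z ∈ Λ.U i → LEq 4 (X.U.G k) z ζ → At e z → dd ζ e z v = 0 →
        dd (fun z => t (X.p z)) e z v = 0 →
        levi (fun w => u k (e.symm w) - χ i (e.symm w)) (e z) v = 0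

variable (L : Fin X.q → Bd X.V.W)

/-- generators of the ring of sections -/
structure Gens (y : X.Y.pt) where
  g : ℕ
  d : Fin g → Fin X.q → ℤ
  u : Fin g → Ix L → X.V.W → ℂ
  mer : ∀ a, X.Mer y (lin L (d a)) (u a)
  gen : ∀ b s, X.Mer y (lin L b) s → ∃ (T : Finset (Fin g → ℕ)) (c : (Fin g → ℕ) → X.V.W → ℂ),
    (∀ m ∈ T, ∑ a, m a • d a = b ∧ ∀ w ∈ X.F y, ContinuousAt (c m) w) ∧
    ∀ᶠ w in 𝓝ˢ (X.F y), w ∉ X.E → ∀ i, In L i w → s i w = ∑ m ∈ T, c m w * ∏ a, u a i w ^ m a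

/-- the family `u` has no common zeros outside the exceptional set -/
def Big (y : X.Y.pt) {r : ℕ} (u : Fin (r + 1) → Ix L → X.V.W → ℂ) : Prop :=
  ∀ w ∈ X.F y, ∀ i, In L i w → ∃ (ζ : Fin X.V.r → X.V.W → ℂ) (K : ℕ), X.V.Eq w ζ ∧
    OLe X.E (fun v => ∏ l ∈ X.ex, ‖ζ l v‖ ^ K) (nrm u i) w

/-- the chamber structure of the ring of sections -/
structure Cox (y : X.Y.pt) where
  n : ℕ
  npos : 1 ≤ n
  H : Finset (Fin X.q → ℤ)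
  r : (Fin X.q → ℤ) → ℕ
  u : ∀ e, Fin (r e + 1) → Ix L → X.V.W → ℂ
  mer : ∀ e m, X.Mer y (lin L (n • e)) (u e m)
  big : ∀ e, X.Big L y (u e)
  mul : ∀ (ι : Type) [Fintype ι] (e : ι → Fin X.q → ℤ) (c : ι → ℕ),
    (∀ h ∈ H, ∀ a b, 0 ≤ (h ⬝ᵥ e a) * (h ⬝ᵥ e b)) →
    ∀ s, X.Mer y (lin L (n • ∑ a, c a • e a)) s → ∀ w ∈ X.F y, ∀ i, In L i w →
      OLe X.E (fun v => ‖s i v‖) (fun v => ∏ a, nrm (u (e a)) i v ^ c a) w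

/-- the orders along `G k` do not depend on the point of the fibre -/
def Inv {y : X.Y.pt} (c : X.Cox L y) : Prop :=
  ∀ k, X.ψ '' X.V.G k = X.σ → ∀ z ∈ X.V.G k ∩ X.F y, ∀ z' ∈ X.V.G k ∩ X.F y, ∀ e i i' o,
    In L i z → In L i' z' → Ord (X.V.G k) (nrm (c.u e) i) z o → Ord (X.V.G k) (nrm (c.u e) i') z' o

/-- finitely many families of sections -/
structure Sf where
  b : ℕ
  a : Fin b → Fin X.q → ℤ
  r : Fin b → ℕ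
  u : ∀ i, Fin (r i + 1) → Ix L → X.V.W → ℂ

variable {X L}

/-- the families are sections near the fibre over `y` -/
structure Sf.Ok (S : X.Sf L) (y : X.Y.pt) : Prop where
  mer : ∀ i m, X.Mer y (lin L (S.a i)) (S.u i m)
  big : ∀ i, X.Big L y (S.u i)

/-- the products generate -/
def Sf.Gen (S : X.Sf L) (y : X.Y.pt) : Prop :=
  ∀ (d : ℕ) s, X.Mer y (lin L (d • ∑ i, S.a i)) s → ∀ w ∈ X.F y, ∀ j, In L j w →
    OLe X.E (fun v => ‖s j v‖) (fun v => ∏ i, nrm (S.u i) j v ^ d) w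

end Ctx

/-! ### Local models -/

/-- The principalization of `D` near `F`, with the strict transforms. -/
structure Rz (V : Lg) (D : Hl.Dat 4 V.W) (F : Set V.W) where
  W : Type
  [top : TopologicalSpace W]
  [t2 : T2Space W]
  [sc : SecondCountableTopology W]
  [cs : ChartedSpace (Cm 4) W]
  [mf : IsManifold 𝓘(ℂ, Cm 4) ω W]
  π : W → V.W
  O₁ : Set V.W
  O₂ : Set V.W
  isOpen : IsOpen O₂
  sub : F ⊆ O₂
  le₂ : O₂ ⊆ O₁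
  le : O₁ ⊆ D.O
  bl : Hl.Bl 4 π O₁ D.Z
  r : ℕ
  G : Fin V.r ⊕ Fin r → Set W
  snc : Snc 4 G
  old : ∀ k w, w ∈ G (.inl k) → π w ∈ V.G k
  off : ∀ k w, π w ∉ D.Z → π w ∈ V.G k → w ∈ G (.inl k)
  new : ∀ w, π w ∈ D.Z ↔ ∃ l, w ∈ G (.inr l)
  mo : Fin V.r → Fin r → ℕ
  tot : ∀ w ζ (ζ' : Fin V.r ⊕ Fin r → W → ℂ), V.Eq (π w) ζ → (∀ l, LEq 4 (G l) w (ζ' l)) → ∀ k,
    ∃ v, Hol 4 v w ∧ v w ≠ 0 ∧
      ∀ᶠ w' in 𝓝 w, ζ k (π w') = v w' * (ζ' (.inl k) w' * ∏ l, ζ' (.inr l) w' ^ mo k l)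
  J : Fin r → ℕ
  jac : ∀ w (ζ' : Fin r → W → ℂ) (e' : Chart 4 W) (e : Chart 4 V.W), π w ∈ O₂ →
    (∀ l, LEq 4 (G (.inr l)) w (ζ' l)) → At e' w → At e (π w) →
    ∃ v, Hol 4 v w ∧ v w ≠ 0 ∧ ∀ᶠ w' in 𝓝 w, jac π e' e w' = v w' * ∏ l, ζ' l w' ^ J l
  prin : ∀ w γ, π w ∈ D.U γ → ∃ k₀, ∀ k,
    Dvd 4 (fun z => D.f γ k₀ (π z)) (fun z => D.f γ k (π z)) w
  c : Fin r → ℚ
  c0 : ∀ l, 0 < c l
  v : W → ℝ
  pos : ∀ w, ∃ (m : ℕ) (g : Fin m → V.W → ℂ) (ζ' : Fin r → W → ℂ) (φ : W → ℝ),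
    (∀ i, Hol 4 (g i) (π w)) ∧ (∀ l, LEq 4 (G (.inr l)) w (ζ' l)) ∧ Pos.SPshAt 4 φ w ∧
    ∀ᶠ w' in 𝓝 w, (∀ l, w' ∉ G (.inr l)) → φ w' = v w' + ∑ i, ‖g i (π w')‖ ^ 2 -
      ∑ l, (c l : ℝ) * Real.log (‖ζ' l w'‖ ^ 2)

attribute [instance] Rz.top Rz.t2 Rz.sc Rz.cs Rz.mf

/-- the exceptional components of a local model -/
def exU {r r' : ℕ} (ex : Finset (Fin r)) : Finset (Fin r ⊕ Fin r') := ex.disjSum Finset.univ

variable {X : Ctx} {L : Fin X.q → Bd X.V.W}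

/-- `D` is the moving part of the product of the families. -/
structure Mov (S : X.Sf L) (D : Hl.Dat 4 X.V.W) (e : (∀ i, Fin (S.r i + 1)) ≃ D.κ) : Prop where
  lb : ∀ j, LBOn 4 D.O (L j)
  mer : ∀ i m, ∀ w ∈ D.O, MerAt X.V.G X.ex (lin L (S.a i)) (S.u i m) w
  sub : ∀ z ∈ D.O, z ∈ D.Z → z ∈ X.E
  thin : ∀ k, ∀ z ∈ D.O, z ∈ X.V.G k → ∃ᶠ z' in 𝓝[X.V.G k] z, z' ∉ D.Z
  loc : ∀ z ∈ D.O, ∃ γ, z ∈ D.U γ ∧ ∀ j ζ, In L j z → X.V.Eq z ζ →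
    ∃ (o : Fin S.b → Fin X.V.r → ℤ) (f : ∀ i, Fin (S.r i + 1) → X.V.W → ℂ) (v : X.V.W → ℂ),
      (∀ i, ∀ k ∉ X.ex, o i k = 0) ∧ (∀ i m, Hol 4 (f i m) z) ∧ Hol 4 v z ∧ v z ≠ 0 ∧
      ∀ᶠ z' in 𝓝 z, (∀ m, D.f γ (e m) z' = v z' * ∏ i, f i (m i) z') ∧
        (z' ∉ X.E → ∀ i m, S.u i m j z' = f i m z' * ∏ k, ζ k z' ^ o i k)

/-- The map to the projective space which is defined by the products. -/
structure Pm (S : X.Sf L) {W : Type} [TopologicalSpace W] [ChartedSpace (Cm 4) W] {r : ℕ}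
    (π : W → X.V.W) (G : Fin X.V.r ⊕ Fin r → Set W) (O : Set W) {R : ℕ}
    (eqv : Fin (R + 1) ≃ ∀ i, Fin (S.r i + 1)) (D : Fin (R + 1) → Set W)
    (ν : Fin (R + 1) → W → Cm (R + 1)) : Prop where
  pm : PMap 4 O D ν
  rel : ∀ m, ∀ w ∈ D m, π w ∉ X.E → ∀ l j, In L j (π w) →
    ∏ i, S.u i (eqv l i) j (π w) = ν m w l * ∏ i, S.u i (eqv m i) j (π w)
  mon : ∀ m, ∀ w ∈ D m, ∀ i j (ζ' : Fin X.V.r ⊕ Fin r → W → ℂ), In L j (π w) →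
    (∀ l, LEq 4 (G l) w (ζ' l)) → ∃ (o : Fin X.V.r ⊕ Fin r → ℤ) (v : W → ℂ),
      (∀ l ∉ exU X.ex, o l = 0) ∧ Hol 4 v w ∧ v w ≠ 0 ∧
      ∀ᶠ w' in 𝓝 w, π w' ∉ X.E → S.u i (eqv m i) j (π w') = v w' * ∏ l, ζ' l w' ^ o l

/-- A local model on which the families `S` are principal, over the open set `O` of `Y`. -/
structure Md (S : X.Sf L) where
  Dt : Hl.Dat 4 X.V.W
  e : (∀ i, Fin (S.r i + 1)) ≃ Dt.κ
  mov : Mov S Dt e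
  Z : Rz X.V Dt ∅
  O : Set X.Y.pt
  N : ℕ
  k : ℕ
  Ω : Set (Cm N)
  h : Fin k → Cm N → ℂ
  φ : X.Y.pt → Cm N
  model : IsModel X.Y.Hol O Ω h φ
  sub : X.ψ ⁻¹' O ⊆ Z.O₂
  prp : Prp 4 (Z.π ⁻¹' (X.ψ ⁻¹' O)) (fun w => φ (X.ψ (Z.π w))) Ω
  prj : Prj 4 (Z.π ⁻¹' (X.ψ ⁻¹' O)) fun w => φ (X.ψ (Z.π w))
  B : Fin X.V.r ⊕ Fin Z.r → Bd Z.W
  τ : ∀ l, (B l).ι → Z.W → ℂ
  div : ∀ l, IsDiv 4 (Z.G l) (B l) (τ l)
  c : Fin X.V.r ⊕ Fin Z.r → ℝ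
  c0 : ∀ l, 0 ≤ c l
  cpos : ∀ l, 0 < c l ↔ l ∈ exU X.ex
  Λ : (∀ l, (B l).ι) → Z.W → ℝ
  pos : ∀ w, X.ψ (Z.π w) ∈ O → PosX 4 B (-c) Λ w
  R : ℕ
  eqv : Fin (R + 1) ≃ ∀ i, Fin (S.r i + 1)
  D : Fin (R + 1) → Set Z.W
  ν : Fin (R + 1) → Z.W → Cm (R + 1)
  pm : Pm S Z.π Z.G (Z.π ⁻¹' (X.ψ ⁻¹' O)) eqv D ν

namespace Md

variable {S : X.Sf L} (M : Md S)

/-- the map to `Y` -/
def b (w : M.Z.W) : X.Y.pt := X.ψ (M.Z.π w)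

/-- the map to the chart of `Y` -/
def t (w : M.Z.W) : Cm M.N := M.φ (M.b w)

/-- the fibre -/
def F (y : X.Y.pt) : Set M.Z.W := M.b ⁻¹' {y}

/-- the exceptional components are contracted over `O'` -/
def Ctr (O' : Set X.Y.pt) : Prop :=
  ∀ l ∈ exU X.ex, ∀ m, ∀ w ∈ M.D m, w ∈ M.Z.G l → M.b w ∈ O' → ∀ ζ (e : Chart 4 M.Z.W),
    LEq 4 (M.Z.G l) w ζ → At e w → ∃ v, v ≠ 0 ∧ dd ζ e w v = 0 ∧
      (∀ i, dd (fun w => M.t w i) e w v = 0) ∧ ∀ i, dd (fun w => M.ν m w i) e w v = 0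

/-- `s` is at `w` a holomorphic section of the moving part of degree `c` -/
def Hl (c : Fin S.b → ℤ) (s : Ix L → X.V.W → ℂ) (w : M.Z.W) : Prop :=
  ∀ m j, w ∈ M.D m → In L j (M.Z.π w) → ∃ v, Hol 4 v w ∧ ∀ᶠ w' in 𝓝 w, M.Z.π w' ∉ X.E →
    s j (M.Z.π w') = v w' * ∏ i, S.u i (M.eqv m i) j (M.Z.π w') ^ c i

/-- `s` generates at `w` the moving part of degree `c` -/
def Fr (c : Fin S.b → ℤ) (s : Ix L → X.V.W → ℂ) (w : M.Z.W) : Prop :=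
  ∃ m j v, w ∈ M.D m ∧ In L j (M.Z.π w) ∧ Hol 4 v w ∧ v w ≠ 0 ∧ ∀ᶠ w' in 𝓝 w, M.Z.π w' ∉ X.E →
    s j (M.Z.π w') = v w' * ∏ i, S.u i (M.eqv m i) j (M.Z.π w') ^ c i

/-- all sections near the fibre over `y` are holomorphic sections of the moving parts -/
def Neg (y : X.Y.pt) : Prop :=
  ∀ (c : Fin S.b → ℤ) s, X.Mer y (lin L (∑ i, c i • S.a i)) s → ∀ w ∈ M.F y, M.Hl c s w

/-- `s` is a section of degree `N • x = ∑ c i • a i` near the fibre over `y` -/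
structure Dg (_ : Md S) (y : X.Y.pt) (x : Fin X.q → ℤ) (N : ℕ) (c : Fin S.b → ℤ)
    (s : Ix L → X.V.W → ℂ) : Prop where
  pos : 1 ≤ N
  eq : N • x = ∑ i, c i • S.a i
  mer : X.Mer y (lin L (∑ i, c i • S.a i)) s

variable (y : X.Y.pt)

/-- the degree `x` is free on `A` -/
def Tr (x : Fin X.q → ℤ) (A : Set M.Z.W) : Prop :=
  ∃ N c s, M.Dg y x N c s ∧ ∀ w ∈ A, M.Fr c s w

/-- the cone of free degrees -/
def Cn : Set (Fin X.q → ℤ) := {x | ∀ w ∈ M.F y, M.Tr y x {w}}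

/-- the degree `x` is free at general points of `G l` near `w` -/
def GFr (x : Fin X.q → ℤ) (l : Fin X.V.r ⊕ Fin M.Z.r) (w : M.Z.W) : Prop :=
  ∃ N c s, M.Dg y x N c s ∧ ∃ᶠ w' in 𝓝[M.Z.G l] w, M.Fr c s w'

/-- the component of the fibre of `G l` through `w` -/
def T (l : Fin X.V.r ⊕ Fin M.Z.r) (w : M.Z.W) : Set M.Z.W :=
  connectedComponentIn (M.Z.G l ∩ M.F y) w

/-- `w` is a point over `y` of `G l`, which is mapped to `σ` near `w` -/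
structure TyA (l : Fin X.V.r ⊕ Fin M.Z.r) (w : M.Z.W) : Prop where
  mem : w ∈ M.Z.G l
  fib : M.b w = y
  near : ∀ᶠ w' in 𝓝[M.Z.G l] w, M.b w' ∈ X.σ

/-- the coordinate `i` of the chart `m` is a submersion at `w` on the level set of `τ` in `G l` -/
def NC (τ : X.Y.pt → ℂ) (m i : Fin (M.R + 1)) (l : Fin X.V.r ⊕ Fin M.Z.r) (w : M.Z.W) : Prop :=
  w ∈ M.D m ∧ ∃ ζ, LEq 4 (M.Z.G l) w ζ ∧ Ind 4 ![ζ, fun v => τ (M.b v), fun v => M.ν m v i] w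

/-- `y` is general for the model -/
structure Gen (O : Set X.Y.pt) (τ : X.Y.pt → ℂ) (g : ℂ → X.Y.pt) (Δ : Set ℂ) : Prop where
  gp : X.Gp y
  mem : y ∈ M.O
  disc : IsDisc X.Y X.σ O τ g Δ
  le : M.O ⊆ O
  ctr : ∃ O' ∈ 𝓝 y, M.Ctr O'
  neg : M.Neg y
  reg : Reg 4 M.Z.G (M.b ⁻¹' M.O) (fun w => ![τ (M.b w)]) ![τ y]
  reg₂ : ∀ m i, ∀ᵐ s : ℂ, Reg 4 M.Z.G (M.D m) (fun w => ![τ (M.b w), M.ν m w i]) ![τ y, s]
  typ : ∀ l, ∀ w ∈ M.Z.G l, M.b w = y →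
    (∀ᶠ w' in 𝓝[M.Z.G l] w, τ (M.b w') = τ y → M.b w' = y) → M.TyA y l w
  pt : ∀ k, X.ψ '' X.V.G k ≠ {y}

/-- A free family of sections of degree `x`, with its map to the projective space. -/
structure Fre (x : Fin X.q → ℤ) where
  N : ℕ
  c : Fin S.b → ℤ
  R : ℕ
  s : Fin (R + 1) → Ix L → X.V.W → ℂ
  dg : ∀ j, M.Dg y x N c (s j)
  Ω : Set (Cm M.N)
  isOpen : IsOpen Ω
  mem : M.φ y ∈ Ω
  sub : Ω ⊆ M.Ω
  D : Fin (R + 1) → Set M.Z.W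
  ν : Fin (R + 1) → M.Z.W → Cm (R + 1)
  pm : PMap 4 (M.b ⁻¹' M.O ∩ M.t ⁻¹' Ω) D ν
  hl : ∀ j, ∀ w ∈ M.b ⁻¹' M.O ∩ M.t ⁻¹' Ω, M.Hl c (s j) w
  fr : ∀ j, ∀ w ∈ M.b ⁻¹' M.O ∩ M.t ⁻¹' Ω, w ∈ D j ↔ M.Fr c (s j) w
  rel : ∀ j, ∀ w ∈ D j, M.Z.π w ∉ X.E → ∀ l i, In L i (M.Z.π w) →
    s l i (M.Z.π w) = ν j w l * s j i (M.Z.π w)

/-- the discrepancies -/
def disc : Fin X.V.r ⊕ Fin M.Z.r → ℝ
  | .inl k => X.a k
  | .inr l => M.Z.J l + ∑ k, X.a k * M.Z.mo k l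

end Md

end Vale.Agent.P277Z.Cls
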