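import Vale.Agent.P277Z.Cls.Down1A
import Vale.Agent.P277Z.Slc.Div

/-!
# P277, block CLS, row DOWN1: the descended section
-/

open scoped Manifold ContDiff Topology
open Vale.Agent.P272.K Vale.Agent.P285.H281.FD Vale.Agent.P277 Set Filter
open Vale.Agent.P277.PH (HolF)
open Vale.Agent.P277.T2 (IsLEq)
open Vale.Agent.P277Z.Hir (Cpb)
open Vale.Agent.P277Z.Val
open Vale.Agent.P277Z.Top (Rg Dom)
open Vale.Agent.P277Z.Slc.Dv (ext ext_at)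

noncomputable section

namespace Vale.Agent.P277Z.Cls.Dn

variable {V U : Lg} {μ : V.W → U.W} {s : Fin U.r → Fin V.r} {X : Finset (Fin V.r)}

/-- the descended function -/
def dn (h : Dom V U μ s X) (f : V.W → ℂ) : U.W → ℂ :=
  ext (Th μ s X ∪ U.E)ᶜ fun z => f (nu h z)

theorem down (h : Dom V U μ s X) {ι : Type} {O : ι → Set U.W} {g : ι → U.W → ℂ} {f : V.W → ℂ}
    {f' : ι → V.W → ℂ} {m : Fin U.r → ℤ} {z : U.W} {ζ} (hζ : U.Eq z ζ) (hO : ∀ j, IsOpen (O j))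
    (hg : ∀ᶠ x in 𝓝 z, ∀ j, x ∈ O j → ContinuousAt (g j) x ∧ g j x ≠ 0)
    (hf : ∀ w, μ w = z → ∀ᶠ v in 𝓝 w, (∃ (ξ : Fin V.r → V.W → ℂ) (K : ℕ) (C : ℝ), V.Eq v ξ ∧
      ∀ᶠ x in 𝓝 v, x ∉ ⋃ l ∈ X, V.G l → ‖f x‖ * ∏ l ∈ X, ‖ξ l x‖ ^ K ≤ C) ∧
      (v ∉ ⋃ l ∈ X, V.G l → (HolF 4 f v ∧ f v ≠ 0) ∧
        ∀ j, μ v ∈ O j → f v = g j (μ v) * f' j v) ∧
      ∀ k, v ∈ V.G (s k) → ∃ᶠ x in 𝓝[V.G (s k)] v, ∃ η, IsLEq (V.G (s k)) x η ∧
        Cpb (𝓝[(V.G (s k))ᶜ] x) (fun x => ‖f x‖) fun x => ‖η x‖ ^ m k) :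
    ∃ v, HolF 4 v z ∧ v z ≠ 0 ∧ ∀ᶠ x in 𝓝 z, x ∉ U.E → dn h f x = v x * ∏ k, ζ k x ^ m k ∧
      ∀ j, x ∈ O j → dn h f x = g j x * dn h (f' j) x := by
  have : Nonempty U.W := ⟨z⟩
  have hT := closed_Th h
  have hD := dense_off hT (thin_Th h)
  have A := h.hol.1.isClosedMap.eventually_nhds_fiber z fun w hw => (hf w hw).eventually_nhds
  set G := ext (Th μ s X ∪ U.E)ᶜ fun x => f (nu h x) / ∏ k, ζ k x ^ m k
  have B : ∀ᶠ x in 𝓝 z, x ∉ Th μ s X → (HolF 4 G x ∧ G x ≠ 0) ∧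
      (x ∉ U.E → f (nu h x) = G x * ∏ k, ζ k x ^ m k) := by
    filter_upwards [A, hζ.eventually] with x a b c
    have d := a _ (mu_nu h x)
    obtain ⟨ξ, K, C, e1, e2⟩ := d.self_of_nhds.1
    obtain ⟨u, u1, u2, u3⟩ := key h (rg_nu h c) (d.mono fun v e e' => (e.2.1 e').1) e1 e2
      d.self_of_nhds.2.2 (ζ := ζ) (by rwa [mu_nu h])
    rw [mu_nu h] at u1 u2 u3
    have u4 : ∀ᶠ x' in 𝓝 x, u x' = G x' := by
      refine Slc.Dv.ext_eq (n := 4) hD u1 ?_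
      filter_upwards [u3, b.ne] with x' p q r
      have r' : x' ∉ U.E := fun t => r (.inr t)
      rw [p r', mul_div_cancel_right₀ _
        (Finset.prod_ne_zero_iff.2 fun k _ => zpow_ne_zero _ (q r' k))]
    rw [← u4.self_of_nhds]
    exact ⟨⟨u1.congr u4, u2⟩, u3.self_of_nhds⟩
  obtain ⟨v, v1, v2, v3⟩ := hartogs hT (thin_Th h) (B.mono fun x a b => (a b).1)
  have C : ∀ᶠ x in 𝓝 z, x ∈ (Th μ s X ∪ U.E)ᶜ → f (nu h x) = v x * ∏ k, ζ k x ^ m k ∧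
      ∀ j, x ∈ O j → f (nu h x) = g j x * f' j (nu h x) := by
    filter_upwards [A, B, v3] with x a b c d
    have d1 : x ∉ Th μ s X := fun t => d (.inl t)
    have d2 : x ∉ U.E := fun t => d (.inr t)
    have e := ((a _ (mu_nu h x)).self_of_nhds.2.1 fun t =>
      d2 (mu_nu h x ▸ (mem_E h (rg_nu h d1)).2 t)).2
    rw [mu_nu h] at e
    exact ⟨by rw [c d1, (b d1).2 d2], e⟩
  refine ⟨v, v1, v2, ?_⟩
  filter_upwards [C.eventually_nhds, holF_ev v1, hζ.eventually, hζ.ne, hg] with x a b c d e t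
  have k1 : ContinuousAt (fun x => v x * ∏ k, ζ k x ^ m k) x := (holF_cont b).mul
    (tendsto_finsetProd _ fun k _ => (holF_cont (c.hol k)).zpow₀ _ (.inl (d t k)))
  have k2 : dn h f x = v x * ∏ k, ζ k x ^ m k := ext_at hD k1 (a.mono fun _ p q => (p q).1)
  refine ⟨k2, fun j hj => ?_⟩
  have k3 : dn h (f' j) x = (v x * ∏ k, ζ k x ^ m k) / g j x := by
    refine ext_at hD (k1.div₀ (e j hj).1 (e j hj).2) ?_
    filter_upwards [a, (hO j).mem_nhds hj, (e j hj).1.eventually_ne (e j hj).2] with x' p q r o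
    show _ = (v x' * ∏ k, ζ k x' ^ m k) / g j x'
    rw [← (p o).1, (p o).2 j q, mul_div_cancel_left₀ _ r]
  rw [k2, k3, mul_div_cancel₀ _ (e j hj).2]

end Vale.Agent.P277Z.Cls.Dn
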