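import Vale.Agent.P277Z.Cls.Sk
import Vale.Agent.P277Z.Cls.Down1B

/-!
# P277, block CLS, row DOWN1
-/

open scoped Topology
open Vale.Agent.P277 Set Filter
open Vale.Agent.P277Z.Slc (lin)
open Vale.Agent.P277Z.Val (holF_cont)

namespace Vale.Agent.P277Z.Cls

theorem stDown1 : StDown1 := by
  intro X Φ y hy hG b s m hU
  have h : Top.Dom X.V X.U X.μ X.s X.ex := X.hyp.dom
  refine ⟨fun i => Dn.dn h (s i), fun z hz i ζ hi hζ => ?_⟩
  have hp : ∀ᶠ x in 𝓝 z, X.p x ∈ Φ.O :=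
    X.hyp.resU.cont.continuousAt.eventually (Φ.isOpen.mem_nhds (hz ▸ hy))
  have hO : ∀ j, IsOpen ((lin Φ.L b).U j) := fun j => by
    rw [show (lin Φ.L b).U j = ⋂ a, (Φ.L a).U (j a) from ofPred_forall _]
    exact isOpen_iInter_of_finite fun a => (Φ.cls a).1.isOpen (j a)
  refine Dn.down h (O := (lin Φ.L b).U) (g := (lin Φ.L b).g i) (f' := s) hζ hO ?_ fun w hw => ?_
  · filter_upwards [hp, (hO i).mem_nhds hi] with x a c j d
    have e := fun a' => (Φ.cls a').1.ne_zero _ _ x a (c a') (d a')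
    have e' : ContinuousAt (fun v => ∏ a', (Φ.L a').g (i a') (j a') v ^ b a') x :=
      tendsto_finsetProd _ fun a' _ =>
        (holF_cont ((Φ.cls a').1.holo _ _ x a (c a') (d a'))).zpow₀ _ (.inl (e a'))
    exact ⟨e', (Finset.prod_ne_zero_iff (s := Finset.univ)).2 fun a' _ => zpow_ne_zero (b a') (e a')⟩
  · have hF : w ∈ X.F y := (X.hyp.fac w).symm.trans ((congrArg X.p hw).trans hz)
    have hI : ∀ᶠ v in 𝓝 w, In Φ.Lv i v :=
      h.hol.1.continuousAt.eventually ((hO i).mem_nhds (hw ▸ hi))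
    have hN : 𝓝 w ≤ 𝓝ˢ (X.F y) := nhds_le_nhdsSet hF
    refine ((Eventually.filter_mono hN hU.mer).and ((hU.nz.filter_mono hN).and hI)).mp
      (Eventually.mp (eventually_all.2 fun k => ?_) (.of_forall fun v e ⟨a, c, d⟩ =>
        let ⟨⟨ξ, K, p, C, q⟩, r⟩ := a i d
        ⟨⟨ξ, K, C * 1, p, q⟩, fun t => ⟨⟨(r t).1, c t i d⟩, (r t).2⟩, e⟩))
    by_cases e : w ∈ X.V.G (X.s k)
    · refine eventually_nhdsWithin_iff.1 (hU.ord _ (h.mem k) ?_ w ⟨e, hF⟩ i hI.self_of_nhds)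
      rw [← hG.img k ⟨X.μ w, h.img k ▸ mem_image_of_mem _ e, (congrArg X.p hw).trans hz⟩,
        ← h.img k, image_image]
      simp only [X.hyp.fac]
    · exact mem_of_superset ((X.V.closed _).isOpen_compl.mem_nhds e) fun _ a b => (a b).elim

end Vale.Agent.P277Z.Cls
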