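import Vale.Agent.P277Z.Top.Defs
import Vale.Agent.P277Z.Val.CmpS
import Vale.Agent.P277Z.Val.Jz0
import Vale.Agent.P277Z.Hir.Out
import Vale.Agent.P277.H762.CL1

/-!
# P277, block CLS, row DOWN1: descent of units along a modification
-/

open scoped Manifold ContDiff Topology
open Vale.Agent.P272.K Vale.Agent.P285.H281.FD Vale.Agent.P277 Set Filter
open Vale.Agent.P277.PH (HolF at_chartAt)
open Vale.Agent.P277.T2 (IsLEq)
open Vale.Agent.P277.T3 (ThinM thinM_iUnion)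
open Vale.Agent.P277Z.Hir (Cpb)
open Vale.Agent.P277Z.Val
open Vale.Agent.P277Z.Top (Rg Dom)

noncomputable section

namespace Vale.Agent.P277Z.Cls.Dn

variable {V U : Lg} {μ : V.W → U.W} {s : Fin U.r → Fin V.r} {X : Finset (Fin V.r)} {y : V.W}

theorem rg_ev (hy : Rg s X y) : ∀ᶠ y' in 𝓝 y, Rg s X y' := by
  have h : ∀ᶠ y' in 𝓝 y, ∀ l, y' ∈ V.G l → y ∈ V.G l := eventually_all.2 fun l => by
    by_cases e : y ∈ V.G l
    · exact .of_forall fun _ _ => e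
    · exact Filter.mem_of_superset ((V.closed l).isOpen_compl.mem_nhds e) fun _ a b => (a b).elim
  exact h.mono fun _ h k hk e =>
    ⟨(hy k hk (h k e)).1, fun j hj e' => (hy k hk (h k e)).2 j hj (h j e')⟩

variable (μ s X) in
/-- the image of the points which are not regular -/
def Th : Set U.W := μ '' {w | ¬ Rg s X w}

section
variable (h : Dom V U μ s X)
include h

theorem hom0 : Hom0 V U μ :=
  ⟨h.hol.1, h.hol.2, fun y e => let ⟨k, _, hk⟩ := h.pre y e; mem_iUnion.2 ⟨k, hk⟩,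
    fun y hy => h.det y fun k _ e => absurd (mem_iUnion.2 ⟨k, e⟩) hy⟩

theorem holM (y : V.W) : HolM 4 4 μ y := ⟨h.hol.1.continuousAt, fun _ hf => (hom0 h).holF hf⟩

theorem closed_Th : IsClosed (Th μ s X) :=
  ((isOpen_iff_mem_nhds.2 fun _ hy => rg_ev hy : IsOpen {w | Rg s X w}).isClosed_compl.isCompact.image
    h.hol.1).isClosed

theorem thin_Th [Nonempty U.W] : ThinM 4 2 (Th μ s X) := by
  refine Val.U.thinM_mono (thinM_iUnion
    (κ := {k // k ∈ X ∧ k ∉ range s} ⊕ {p : Fin V.r × Fin V.r // p.1 ≠ p.2})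
    (T := Sum.elim (fun k => μ '' V.G k.1) fun p => μ '' (V.G p.1.1 ∩ V.G p.1.2)) ?_) ?_
  · rintro (k | p)
    · exact h.thin k.1 k.2.1 k.2.2
    · exact Val.U.thinM_image (Val.U.thin_inter p.2) (holM h)
  · rintro _ ⟨w, hw, rfl⟩
    by_contra hc
    refine hw fun k hk e => ⟨by_contra fun a => hc ?_, fun j _ e' => by_contra fun a => hc ?_⟩
    · exact mem_iUnion.2 ⟨.inl ⟨k, hk, a⟩, w, e, rfl⟩
    · exact mem_iUnion.2 ⟨.inr ⟨(j, k), a⟩, w, ⟨e', e⟩, rfl⟩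

/-- the inverse map -/
def nu : U.W → V.W := Function.surjInv h.surj

theorem mu_nu (z : U.W) : μ (nu h z) = z := Function.surjInv_eq h.surj z

theorem nu_mu (hy : Rg s X y) : nu h (μ y) = y := h.inj y _ hy (mu_nu h _)

theorem rg_nu {z : U.W} (hz : z ∉ Th μ s X) : Rg s X (nu h z) :=
  by_contra fun a => hz ⟨_, a, mu_nu h z⟩

theorem holM_nu (hy : Rg s X y) : HolM 4 4 (nu h) (μ y) := by
  have h' := crd_chart (at_chartAt (n := 4) y)
  have hc := crd_chart (at_chartAt (n := 4) (μ y))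
  obtain ⟨ξ, h2⟩ := Val.U.crd_pull (holM h y) h' hc
    ⟨h.hol.2 y _ _ (at_chartAt y) (at_chartAt _), h.det y hy _ _ (at_chartAt y) (at_chartAt _)⟩
  have h3 : Tendsto (fun z => ξ (chartAt (Cm 4) (μ y) z)) (𝓝 (μ y)) (𝓝 y) := h2.tend.comp hc.cont
  have h4 : ∀ᶠ z in 𝓝 (μ y), ξ (chartAt (Cm 4) (μ y) z) = nu h z := by
    filter_upwards [hc.cont.eventually h2.right, hc.left, h3.eventually (rg_ev hy),
      (h.hol.1.continuousAt.tendsto.comp h3).eventually hc.left] with z e1 e2 e3 e4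
    have e5 : μ (ξ (chartAt (Cm 4) (μ y) z)) = z := e4.symm.trans ((congrArg _ e1).trans e2)
    exact (nu_mu h e3).symm.trans (congrArg _ e5)
  refine ⟨?_, fun f hf => ?_⟩
  · rw [ContinuousAt, nu_mu h hy]
    exact h3.congr' h4
  · rw [nu_mu h hy] at hf
    refine (hc.holF (g := fun w => f (ξ w)) (h2.an.hol (by rwa [h2.inv]))).congr ?_
    exact h4.mono fun z e => congrArg f e

theorem tend_nu (hy : Rg s X y) : Tendsto (nu h) (𝓝 (μ y)) (𝓝 y) := by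
  have := (holM_nu h hy).1
  rwa [ContinuousAt, nu_mu h hy] at this

theorem mem_G (hy : Rg s X y) {k : Fin U.r} : μ y ∈ U.G k ↔ y ∈ V.G (s k) := by
  rw [← h.img k]
  exact ⟨fun ⟨y', a, b⟩ => h.inj y y' hy b ▸ a, fun a => ⟨y, a, rfl⟩⟩

theorem mem_E (hy : Rg s X y) : μ y ∈ U.E ↔ y ∈ ⋃ l ∈ X, V.G l := by
  refine ⟨fun a => let ⟨k, b, c⟩ := h.pre y a; mem_biUnion b c, fun a => ?_⟩
  obtain ⟨l, b, c⟩ := mem_iUnion₂.1 a
  obtain ⟨k, rfl⟩ := (hy l b c).1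
  exact mem_iUnion.2 ⟨k, (mem_G h hy).2 c⟩

theorem ev_nu (hy : Rg s X y) : ∀ᶠ z in 𝓝 (μ y), HolM 4 4 (nu h) z ∧
    (z ∈ U.E ↔ nu h z ∈ ⋃ l ∈ X, V.G l) ∧ ∀ k, z ∈ U.G k ↔ nu h z ∈ V.G (s k) := by
  filter_upwards [(tend_nu h hy).eventually (rg_ev hy)] with z e
  have a := holM_nu h e
  have b := mem_E h e
  have c := fun k => mem_G h e (k := k)
  rw [mu_nu h] at a b c
  exact ⟨a, b, c⟩

theorem leq_nu (hy : Rg s X y) {k : Fin U.r} {ζ : V.W → ℂ} (hζ : IsLEq (V.G (s k)) y ζ) :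
    IsLEq (U.G k) (μ y) fun z => ζ (nu h z) := by
  have h1 : HolF 4 (fun z => ζ (nu h z)) (μ y) :=
    (holM_nu h hy).2 ζ (by rw [nu_mu h hy]; exact fun e he => (hζ.2 e he).1)
  refine ⟨?_, fun e he => ⟨h1 e he, fun h0 hd => ?_⟩⟩
  · filter_upwards [(tend_nu h hy).eventually hζ.1, ev_nu h hy] with z a b
    rw [a, b.2.2 k]
  · have he' := at_chartAt (n := 4) y
    set e' := chartAt (Cm 4) y
    beta_reduce at h0
    rw [nu_mu h hy] at h0
    refine (hζ.2 e' he').2 h0 ?_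
    have a1 : e (μ (e'.symm (e' y))) = e (μ y) := by rw [e'.left_inv he'.2]
    have a2 : HasFDerivAt (fun w => ζ (nu h (e.symm w))) (0 : Cm 4 →L[ℂ] ℂ)
        (e (μ (e'.symm (e' y)))) := by
      rw [a1, ← hd]
      exact (h1 e he).differentiableAt.hasFDerivAt
    have a3 := a2.comp (e' y) (h.hol.2 y e' e he' he).differentiableAt.hasFDerivAt
    rw [ContinuousLinearMap.zero_comp] at a3
    refine (a3.congr_of_eventuallyEq ?_).fderiv
    filter_upwards [(crd_chart he').tend.eventually ((rg_ev hy).and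
      (h.hol.1.continuousAt.eventually (e.eventually_left_inverse he.2)))] with w b
    show ζ (e'.symm w) = ζ (nu h (e.symm (e (μ (e'.symm w)))))
    rw [b.2, nu_mu h b.1]

/-- the order along a component -/
theorem lb_of (hy : Rg s X y) {k : Fin U.r} {f ξ : V.W → ℂ} {m : ℤ} (hξ : IsLEq (V.G (s k)) y ξ)
    (h1 : ∀ᶠ z in 𝓝 (μ y), z ∉ U.E → f (nu h z) ≠ 0)
    (h2 : Cpb (𝓝[(V.G (s k))ᶜ] y) (fun x => ‖f x‖) fun x => ‖ξ x‖ ^ m) :
    LB U (μ y) (fun z => Real.log ‖f (nu h z)‖) fun l => if l = k then m else 0 := by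
  obtain ⟨ζ, hζ⟩ := U.exEq (μ y)
  have he := at_chartAt (n := 4) (μ y)
  obtain ⟨t, t1, t2, t3⟩ := H884.W.leq_unit (hζ k) (leq_nu h hy hξ) he
  have t4 := holF_cont ((crd_chart he).holF t1)
  obtain ⟨C, hC, h3⟩ := h2
  have h4 : Bdd U (μ y) fun z => Real.log ‖f (nu h z)‖ - m * Real.log ‖ξ (nu h z)‖ := by
    refine ⟨Real.log C, ?_⟩
    filter_upwards [(tend_nu h hy).eventually (eventually_nhdsWithin_iff.1 h3), h1, ev_nu h hy,
      (leq_nu h hy hξ).1] with z a b c d e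
    have e1 : z ∉ U.G k := fun e2 => e (mem_iUnion.2 ⟨k, e2⟩)
    have e2 := a fun e3 => e1 ((c.2.2 k).2 e3)
    have e3 : 0 < ‖f (nu h z)‖ := norm_pos_iff.2 (b e)
    have e4 : 0 < ‖ξ (nu h z)‖ ^ m := zpow_pos (norm_pos_iff.2 fun e5 => e1 (d.1 e5)) m
    have e5 := Real.log_le_log e3 e2.1
    have e6 := Real.log_le_log e4 e2.2
    rw [Real.log_mul hC.ne' e4.ne', Real.log_zpow] at e5
    rw [Real.log_mul hC.ne' e3.ne', Real.log_zpow] at e6
    exact abs_le.2 ⟨by linarith, by linarith⟩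
  refine .of_exists hζ ((h4.add ((bdd_log t4 t2).mul m)).congr ?_)
  filter_upwards [t3, hζ.ne, t4.eventually_ne t2] with z a b c d
  rw [a, norm_mul, Real.log_mul (norm_ne_zero_iff.2 (b d k)) (norm_ne_zero_iff.2 c)]
  simp only [ite_mul, zero_mul, Finset.sum_ite_eq', Finset.mem_univ, if_true]
  ring

/-- the local form at the regular points -/
theorem key (hy : Rg s X y) {f : V.W → ℂ} {m : Fin U.r → ℤ}
    (h1 : ∀ᶠ v in 𝓝 y, v ∉ ⋃ l ∈ X, V.G l → HolF 4 f v ∧ f v ≠ 0)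
    {ξ : Fin V.r → V.W → ℂ} {K : ℕ} {C : ℝ} (hξ : V.Eq y ξ)
    (h2 : ∀ᶠ v in 𝓝 y, v ∉ ⋃ l ∈ X, V.G l → ‖f v‖ * ∏ l ∈ X, ‖ξ l v‖ ^ K ≤ C)
    (h3 : ∀ k, y ∈ V.G (s k) → ∃ᶠ v in 𝓝[V.G (s k)] y, ∃ η, IsLEq (V.G (s k)) v η ∧
      Cpb (𝓝[(V.G (s k))ᶜ] v) (fun x => ‖f x‖) fun x => ‖η x‖ ^ m k) {ζ} (hζ : U.Eq (μ y) ζ) :
    ∃ u, HolF 4 u (μ y) ∧ u (μ y) ≠ 0 ∧
      ∀ᶠ z in 𝓝 (μ y), z ∉ U.E → f (nu h z) = u z * ∏ k, ζ k z ^ m k := by
  have T := tend_nu h hy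
  have a1 : ∀ᶠ z in 𝓝 (μ y), z ∉ U.E → HolF 4 (fun z => f (nu h z)) z ∧ f (nu h z) ≠ 0 := by
    filter_upwards [T.eventually h1, ev_nu h hy] with z a b c
    have d := a fun e => c (b.2.1.2 e)
    exact ⟨b.1.2 f d.1, d.2⟩
  have a2 : HolF 4 (fun z => ∏ l ∈ X, ξ l (nu h z) ^ K) (μ y) :=
    holF_prod (fun l _ => (holM_nu h hy).2 (ξ l) (by rw [nu_mu h hy]; exact hξ.hol l)) fun _ => K
  have a3 : ∀ᶠ z in 𝓝 (μ y), z ∉ U.E → ∏ l ∈ X, ξ l (nu h z) ^ K ≠ 0 := by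
    filter_upwards [T.eventually hξ.iff, ev_nu h hy] with z a b c
    exact Finset.prod_ne_zero_iff.2 fun l hl => pow_ne_zero _ fun e =>
      c (b.2.1.2 (mem_biUnion hl ((a l).1 e)))
  obtain ⟨g, g1, g2⟩ := CmpS.riem (V := U) (y := μ y) (C := C)
    (g := fun z => f (nu h z) * ∏ l ∈ X, ξ l (nu h z) ^ K) (by
      filter_upwards [a1, holF_ev a2, T.eventually h2, ev_nu h hy] with z a b c d e
      refine ⟨(a e).1.mul b, ?_⟩
      rw [norm_mul, norm_prod]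
      simpa only [norm_pow] using c fun e' => e (d.2.1.2 e'))
  obtain ⟨n, hn⟩ := exists_mon g1 (by
    filter_upwards [g2, a1, a3] with z a b c d
    rw [a d]
    exact mul_ne_zero (b d).2 (c d))
  obtain ⟨n', hn'⟩ := exists_mon a2 a3
  have a4 : LB U (μ y) (fun z => Real.log ‖f (nu h z)‖) fun l => n l + -1 * n' l := by
    refine CmpS.lb_congr (hn.lb.add (CmpS.lb_mul hn'.lb (-1))) ?_
    filter_upwards [g2, a1, a3] with z a b c d
    rw [a d, norm_mul, Real.log_mul (norm_ne_zero_iff.2 (b d).2) (norm_ne_zero_iff.2 (c d))]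
    ring
  refine CmpS.mon_of_lb a1 (a4.change fun k hk => ?_) hζ
  obtain ⟨v, ⟨η, b1, b2⟩, b3, b4, b5, b6⟩ := ((h3 k ((mem_G h hy).1 hk)).and_eventually
    ((eventually_mem_nhdsWithin).and (mem_nhdsWithin_of_mem_nhds ((rg_ev hy).and
      (h.hol.1.continuousAt.eventually (a4.eventually.and a1.eventually_nhds)))))).exists
  have b7 := b5.unique (lb_of h b4 b1 (b6.mono fun z a c => (a c).2) b2) ((mem_G h b4).2 b3)
  rwa [if_pos rfl] at b7

end

/-- units extend across closed sets of codimension two -/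
theorem hartogs {T : Set U.W} (hT : IsClosed T) (hT' : ThinM 4 2 T) {z : U.W} {g : U.W → ℂ}
    (hg : ∀ᶠ x in 𝓝 z, x ∉ T → HolF 4 g x ∧ g x ≠ 0) :
    ∃ v, HolF 4 v z ∧ v z ≠ 0 ∧ ∀ᶠ x in 𝓝 z, x ∉ T → v x = g x := by
  have he := at_chartAt (n := 4) z
  set e := chartAt (Cm 4) z
  have hc := crd_chart he
  obtain ⟨S, s1, s2⟩ := Val.U.cv_of_thinM hT' hc
  obtain ⟨O, o1, o2, o3⟩ := eventually_nhds_iff.1 ((hc.tend.eventually (hg.and s2)).and
    (e.open_target.eventually_mem (e.map_source he.2)))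
  obtain ⟨F, f1, f2⟩ := H762.hartogs_unit (n := 2) (V := Cm 4) (by simp) (E := e.symm ⁻¹' T) o2
    (f := fun w => g (e.symm w))
    ((e.continuousOn_symm.mono fun w hw => (o1 w hw).2).isOpen_inter_preimage o2 hT.isOpen_compl)
    (s1.mono fun w hw => by
      have := (o1 w hw.1).1.2 hw.2
      rwa [e.right_inv (o1 w hw.1).2] at this)
    fun w hw => by
      have a := (o1 w hw.1).1.1 hw.2
      have b := a.1 e ⟨he.1, e.map_target (o1 w hw.1).2⟩
      rw [e.right_inv (o1 w hw.1).2] at b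
      exact ⟨b, a.2⟩
  refine ⟨fun x => F (e x), hc.holF (f1 _ o3).1, (f1 _ o3).2, ?_⟩
  filter_upwards [hc.cont.eventually (o2.mem_nhds o3), hc.left] with x a b c
  rw [f2 _ ⟨a, by rwa [mem_preimage, b]⟩, b]

theorem dense_off {T : Set U.W} (hT : IsClosed T) (hT' : ThinM 4 2 T) : Dense (T ∪ U.E)ᶜ := by
  rw [compl_union]
  refine Dense.inter_of_isOpen_left (fun z => ?_) U.dense hT.isOpen_compl
  have hc := crd_chart (at_chartAt (n := 4) z)
  obtain ⟨S, s1, s2⟩ := Val.U.cv_of_thinM hT' hc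
  refine mem_closure_iff_frequently.2 (hc.tend.frequently
    (((mem_closure_iff_frequently.1 (s1.dense_compl (by simp) _)).and_eventually
      ((hc.tend.eventually s2).and hc.right)).mono fun w a b => a.1 ?_))
  exact a.2.2 ▸ a.2.1 b

end Vale.Agent.P277Z.Cls.Dn
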