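import Vale.Agent.P277Z.Cls.Sk
import Vale.Agent.P277Z.Ex.Glp

/-!
# P277, block CLS: a basis in a chamber, faces of pointed cones
-/

open Set
open scoped Matrix

noncomputable section

namespace Vale.Agent.P277Z.Cls

theorem stBasis : StBasis := by
  intro q H
  obtain ⟨N, hN⟩ := Ex.GlpH.side H
  refine ⟨fun i j => ((Ex.GlpH.U q ^ N) i j : ℤ), ?_, fun h hh a b => ?_⟩
  · have := Ex.GlpH.ndg (q := q) N le_rfl
    simp only [Ex.Ndg, one_smul] at this
    exact Matrix.linearIndependent_rows_of_det_ne_zero this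
  · exact (hN h hh).elim (fun c => mul_nonneg (c a) (c b))
      fun c => mul_nonneg_of_nonpos_of_nonpos (c a) (c b)

namespace FacH

variable {q : ℕ} {C : Set (Fin q → ℤ)}

theorem nsmul_mem (h0 : 0 ∈ C) (hadd : ∀ x ∈ C, ∀ y ∈ C, x + y ∈ C) {x} (hx : x ∈ C) :
    ∀ N : ℕ, N • x ∈ C
  | 0 => by simpa using h0
  | N + 1 => succ_nsmul x N ▸ hadd _ (nsmul_mem h0 hadd hx N) _ hx

theorem ray {H : Finset (Fin q → ℤ)} {a v : Fin q → ℤ}
    (hsat : ∀ (N : ℕ) x, 1 ≤ N → N • x ∈ C → x ∈ C)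
    (hH : ∀ x ∈ C, ∀ x', (∀ h ∈ H, 0 ≤ (h ⬝ᵥ x) * (h ⬝ᵥ x') ∧ (h ⬝ᵥ x = 0 → h ⬝ᵥ x' = 0)) → x' ∈ C)
    (ha : -a ∉ C) {N : ℕ} (hN : N • a + v ∈ C)
    (hb : ∀ α β : ℕ, 1 ≤ α → α • a + β • v ∈ C → ∃ p : ℕ, p • (α • a + β • v) - a ∈ C) :
    v ∈ C := by
  classical
  let S : ℚ → Prop := fun r => ∃ α β : ℕ, 1 ≤ β ∧ r * β = α ∧ α • a + β • v ∈ C
  let T : Finset ℚ := insert 0 (H.image fun h => -((h ⬝ᵥ v : ℤ) : ℚ) / (h ⬝ᵥ a : ℤ))
  have hA : ∀ r, S r → ∃ r' ∈ T.filter S, r' ≤ r := by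
    rintro r ⟨α, β, b1, b2, b3⟩
    have b4 : (0 : ℚ) < β := by exact_mod_cast b1
    have b5 : 0 ≤ r := nonneg_of_mul_nonneg_left (b2 ▸ Nat.cast_nonneg α) b4
    obtain ⟨r', c1, c2⟩ := (T.filter (· ≤ r)).exists_max_image id ⟨0, by simp [T, b5]⟩
    have c3 : 0 ≤ r' := c2 0 (by simp [T, b5])
    have c4 := (Finset.mem_filter.1 c1).2
    have c5 : r' * r'.den = r'.num.toNat := by
      rw [Rat.mul_den_eq_num, ← Int.cast_natCast, Int.toNat_of_nonneg (Rat.num_nonneg.2 c3)]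
    have c6 : (0 : ℚ) < r'.den := by exact_mod_cast r'.pos
    refine ⟨r', Finset.mem_filter.2 ⟨(Finset.mem_filter.1 c1).1, _, _, r'.pos, c5,
      hH _ b3 _ fun h hh => ?_⟩, c4⟩
    have e : ∀ (s : ℚ) (α β : ℕ), s * β = α → ((h ⬝ᵥ (α • a + β • v) : ℤ) : ℚ) =
        β * (s * (h ⬝ᵥ a : ℤ) + (h ⬝ᵥ v : ℤ)) := fun s α β d => by
      rw [dotProduct_add, dotProduct_smul, dotProduct_smul, nsmul_eq_mul, nsmul_eq_mul]
      push_cast
      rw [← d]
      ring
    rw [← Int.cast_nonneg_iff (R := ℚ), ← Int.cast_eq_zero (α := ℚ), ← Int.cast_eq_zero (α := ℚ),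
      Int.cast_mul, e r _ _ b2, e r' _ _ c5, mul_mul_mul_comm, mul_eq_zero, or_iff_right b4.ne',
      mul_eq_zero, or_iff_right c6.ne', mul_nonneg_iff_of_pos_left (mul_pos b4 c6)]
    by_cases d : ((h ⬝ᵥ a : ℤ) : ℚ) = 0
    · rw [d, mul_zero, mul_zero]
      exact ⟨mul_self_nonneg _, id⟩
    · have f := fun g => c2 (-((h ⬝ᵥ v : ℤ) : ℚ) / (h ⬝ᵥ a : ℤ)) (Finset.mem_filter.2
        ⟨Finset.mem_insert_of_mem (Finset.mem_image_of_mem _ hh), g⟩)
      generalize ((h ⬝ᵥ a : ℤ) : ℚ) = x at d f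
      obtain ⟨c, hc⟩ : ∃ c, ((h ⬝ᵥ v : ℤ) : ℚ) = -(c * x) := ⟨-(h ⬝ᵥ v : ℤ) / x, by field_simp⟩
      rw [hc, neg_neg, mul_div_cancel_right₀ _ d] at f
      rw [hc, ← sub_eq_add_neg, ← sub_eq_add_neg, ← sub_mul, ← sub_mul, mul_mul_mul_comm,
        mul_eq_zero, or_iff_left d, mul_eq_zero, or_iff_left d]
      refine ⟨mul_nonneg ?_ (mul_self_nonneg _), fun g => ?_⟩
      · rcases le_or_gt c r with g | g
        · exact mul_nonneg (sub_nonneg.2 g) (sub_nonneg.2 (f g))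
        · exact mul_nonneg_of_nonpos_of_nonpos (by linarith) (by linarith)
      · have : c ≤ r' := f (by linarith)
        linarith
  obtain ⟨r₀, h0, -⟩ := hA N ⟨N, 1, le_rfl, by simp, by simpa using hN⟩
  obtain ⟨r, h1, h2⟩ := (T.filter S).exists_min_image id ⟨r₀, h0⟩
  obtain ⟨α, β, b1, b2, b3⟩ := (Finset.mem_filter.1 h1).2
  rcases α.eq_zero_or_pos with rfl | b4
  · exact hsat β v b1 (by simpa using b3)
  obtain ⟨p, hp⟩ := hb α β b4 b3
  rcases p.eq_zero_or_pos with rfl | b5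
  · exact absurd (by simpa using hp) ha
  obtain ⟨γ, b6⟩ := Nat.exists_eq_add_one_of_ne_zero (Nat.mul_pos b5 b4).ne'
  have b7 : (0 : ℚ) < (p * β : ℕ) := by exact_mod_cast Nat.mul_pos b5 b1
  obtain ⟨r', c1, c2⟩ := hA (γ / (p * β : ℕ)) ⟨γ, p * β, Nat.mul_pos b5 b1,
    div_mul_cancel₀ _ b7.ne', by
      rwa [smul_add, smul_smul, smul_smul, b6, succ_nsmul, add_right_comm, add_sub_cancel_right]
        at hp⟩
  have c3 := (le_div_iff₀ b7).1 ((h2 r' c1).trans c2)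
  have c4 : (p : ℚ) * α = γ + 1 := by exact_mod_cast b6
  push_cast at c3
  rw [id, mul_left_comm, b2] at c3
  linarith

end FacH

open FacH

theorem stFac : StFac := by
  intro q C a H ι A K hli ha h0 hadd hsat hH hpt hK hbd
  by_contra hq
  have hC := fun x => nsmul_mem (x := x) h0 hadd
  have hs : ∀ c : Fin q → ℕ, ∑ i, c i • a i ∈ C := fun c =>
    Finset.sum_induction _ (· ∈ C) (fun x y b d => hadd x b y d) h0 fun i _ => hC _ (ha i) _
  have h1 : ∑ i, a i ∈ C := by simpa using hs 1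
  have h2 : ∑ i, a i ≠ 0 := fun e => one_ne_zero
    (Fintype.linearIndependent_iff.1 hli 1 (by simpa using e) ⟨0, by omega⟩)
  let φ : (Fin q → ℤ) →+ Fin q → ℚ := (Int.castAddHom ℚ).compLeft _
  have h3 : ∀ k : A, φ (∑ i, a i) ∉ Submodule.span ℚ (φ '' K k) := by
    intro k hk
    obtain ⟨k1, k2, k3, k4⟩ := hK k k.2
    let M : AddSubmonoid (Fin q → ℤ) := ⟨⟨{y | y ∈ K k ∨ y = 0}, by
      rintro x y (b | rfl) (d | rfl)
      exacts [.inl (k2 x b y d), .inl (by simpa using b), .inl (by simpa using d),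
        .inr (add_zero _)]⟩, .inr rfl⟩
    obtain ⟨N, y, y', b1, b2, b3, b4⟩ : ∃ (N : ℕ) (y y' : _), 1 ≤ N ∧ y ∈ M ∧ y' ∈ M ∧
        N • φ (∑ i, a i) + φ y' = φ y := by
      refine Submodule.span_induction (p := fun z _ => ∃ (N : ℕ) (y y' : _), 1 ≤ N ∧ y ∈ M ∧
        y' ∈ M ∧ N • z + φ y' = φ y) ?_ ⟨1, 0, 0, le_rfl, M.zero_mem, M.zero_mem, by simp⟩ ?_ ?_ hk
      · rintro _ ⟨y, hy, rfl⟩
        exact ⟨1, y, 0, le_rfl, .inl hy, M.zero_mem, by simp⟩
      · rintro z z' - - ⟨N, y, y', b1, b2, b3, b4⟩ ⟨N', w, w', c1, c2, c3, c4⟩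
        refine ⟨N * N', N' • y + N • w, N' • y' + N • w', Nat.mul_pos b1 c1,
          M.add_mem (M.nsmul_mem b2 _) (M.nsmul_mem c2 _),
          M.add_mem (M.nsmul_mem b3 _) (M.nsmul_mem c3 _), ?_⟩
        simp only [map_add, map_nsmul, ← b4, ← c4]
        module
      · rintro r z - ⟨N, y, y', b1, b2, b3, b4⟩
        have e : (r.den : ℚ) * r = r.num := Rat.den_mul_eq_num r
        have e' : (N * r.den) • r • z = r.num • N • z := by
          rw [mul_smul, ← Nat.cast_smul_eq_nsmul ℚ r.den, smul_smul, e, Int.cast_smul_eq_zsmul,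
            smul_comm]
        obtain ⟨n, d | d⟩ := r.num.eq_nat_or_neg
        · refine ⟨N * r.den, n • y, n • y', Nat.mul_pos b1 r.pos, M.nsmul_mem b2 _,
            M.nsmul_mem b3 _, ?_⟩
          rw [e', d, map_nsmul, map_nsmul, ← b4]
          module
        · refine ⟨N * r.den, n • y', n • y, Nat.mul_pos b1 r.pos, M.nsmul_mem b3 _,
            M.nsmul_mem b2 _, ?_⟩
          rw [e', d, map_nsmul, map_nsmul, ← b4]
          module
    rw [← map_nsmul, ← map_add] at b4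
    have b5 : N • ∑ i, a i + y' = y := funext fun i => Int.cast_injective (congrFun b4 i)
    have b6 : y' ∈ C := b3.elim (fun d => k1 d) fun d => d ▸ h0
    obtain ⟨N, rfl⟩ := Nat.exists_eq_add_of_le b1
    rcases b2 with d | rfl
    · have := k3 _ (hC _ h1 _) _ b6 (b5 ▸ d)
      rw [add_smul, one_smul] at this
      exact k4 (k3 _ h1 _ (hC _ h1 _) this)
    · exact smul_ne_zero (by omega) h2
        (hpt _ (hC _ h1 _) (neg_eq_of_add_eq_zero_right b5 ▸ b6))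
  choose f f1 f2 using fun k => Submodule.exists_dual_map_eq_bot_of_notMem (h3 k) inferInstance
  obtain ⟨c, c1, c2⟩ := Submodule.exists_mem_ne_zero_of_ne_bot (LinearMap.ker_ne_bot_of_finrank_lt
    (f := (LinearMap.pi f).comp (Fintype.linearCombination ℚ fun i => φ (a i))) (by simpa using hq))
  obtain ⟨b, hb⟩ := IsLocalization.exist_integer_multiples_of_finite (nonZeroDivisors ℤ) c
  choose z hz using hb
  have h4 : ∀ k, f k (φ (∑ i, z i • a i)) = 0 := fun k => by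
    have : φ (∑ i, z i • a i) = (b : ℤ) • ∑ i, c i • φ (a i) := by
      simp only [map_sum, map_zsmul, Finset.smul_sum, ← smul_assoc, ← hz]
      simp [Int.cast_smul_eq_zsmul]
    rw [this, map_zsmul, show f k (∑ i, c i • φ (a i)) = 0 from congrFun c1 k, smul_zero]
  have h5 : ∀ z : Fin q → ℤ, (∀ k, f k (φ (∑ i, z i • a i)) = 0) → ∑ i, z i • a i ∈ C := by
    intro z hz
    refine ray hsat hH (fun e => h2 (hpt _ h1 e)) (N := ∑ i, (z i).natAbs) ?_ fun α β d e => ?_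
    · have := hs fun i => (∑ i, (z i).natAbs + z i).toNat
      rw [Finset.smul_sum, ← Finset.sum_add_distrib]
      refine cast (congrArg (· ∈ C) (Finset.sum_congr rfl fun i _ => ?_)) this
      have := Finset.single_le_sum (f := fun i => (z i).natAbs) (fun _ _ => Nat.zero_le _)
        (Finset.mem_univ i)
      rw [← natCast_zsmul, Int.toNat_of_nonneg (by omega), add_smul, natCast_zsmul]
    · by_contra g
      obtain ⟨k, g1, g2⟩ := hbd _ e (not_exists.1 g)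
      have g3 := (Submodule.eq_bot_iff _).1 (f2 ⟨k, g1⟩) _
        (Submodule.mem_map_of_mem (Submodule.subset_span ⟨_, g2, rfl⟩))
      rw [map_add, map_nsmul, map_nsmul, map_add, map_nsmul, map_nsmul, hz, smul_zero,
        add_zero] at g3
      exact smul_ne_zero (by omega) (f1 _) g3
  have h6 := hpt _ (h5 z h4) (by
    simpa using h5 (-z) fun k => by simpa using h4 k)
  refine c2 (funext fun i => ?_)
  have := hz i
  rw [Fintype.linearIndependent_iff.1 hli z h6 i, map_zero, eq_comm, smul_eq_zero] at this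
  exact this.resolve_left (nonZeroDivisors.coe_ne_zero b)

end Vale.Agent.P277Z.Cls
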