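import Vale.Agent.P277Z.Cls.Sk
import Vale.Agent.P277Z.Brg.Adj
import Vale.Agent.P277Z.Brg.Opn
import Vale.Agent.P277Z.Brg.Ramp
import Vale.Agent.P277Z.Brg.Divv

/-!
# P277, block CLS: finite generation, the adjoint classes
-/

set_option linter.all false
set_option maxSynthPendingDepth 3

open scoped Manifold ContDiff Topology
open Vale.Agent.P272.K Vale.Agent.P285.H281.FD Vale.Agent.P277 Set Filter
open Vale.Agent.P277Z.Slc (IsDiv lin)
open Vale.Agent.P277Z.Brg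
open Vale.Agent.P277Z.Top

noncomputable section

namespace Vale.Agent.P277Z.Cls

namespace Fgr

/-- the coefficients of the exceptional divisor `A` -/
def al (X : Ctx) (l : Fin X.V.r) : ℤ := if l ∈ X.ex then ⌈X.a l⌉ else 0

/-- the class `A` -/
def cA (X : Ctx) (k : ℕ) : Option (Fin k ⊕ Fin X.V.r) ⊕ Fin X.q → ℤ :=
  Sum.elim (vec 0 0 (al X)) 0

/-- the class of `L j` -/
def cE (X : Ctx) (k : ℕ) (j : Fin X.q) : Option (Fin k ⊕ Fin X.V.r) ⊕ Fin X.q → ℤ :=
  Sum.elim 0 (Pi.single j 1)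

/-- the generators of the monoid -/
def gs (X : Ctx) (k d : ℕ) : Set (Option (Fin k ⊕ Fin X.V.r) ⊕ Fin X.q → ℤ) :=
  insert (cA X k) (range (fun j => d • cA X k + cE X k j) ∪ range fun j => d • cA X k - cE X k j)

theorem mem_ex {X : Ctx} {l : Fin X.V.r} : l ∈ X.ex ↔ 0 < X.a l := by
  simp [Ctx.ex]

theorem al_pos {X : Ctx} {l : Fin X.V.r} (h : l ∈ X.ex) : 1 ≤ al X l := by
  rw [al, if_pos h]
  exact Int.one_le_ceil_iff.2 (mem_ex.1 h)

theorem al_zero {X : Ctx} {l : Fin X.V.r} (h : l ∉ X.ex) : al X l = 0 := if_neg h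

theorem al_bd (X : Ctx) (l : Fin X.V.r) : 0 ≤ al X l - X.a l ∧ al X l - X.a l < 1 := by
  by_cases h : l ∈ X.ex
  · rw [al, if_pos h]
    exact ⟨sub_nonneg.2 (Int.le_ceil _), by linarith [Int.ceil_lt_add_one (X.a l)]⟩
  · have h1 := not_lt.1 (mt mem_ex.2 h)
    have h2 := X.hyp.good.klt l
    rw [al_zero h, Int.cast_zero]
    constructor <;> linarith

theorem adj (hB : FGB 4) (hZ : StZero) (X : Ctx) (L : Fin X.q → Bd X.V.W) (y : X.Y.pt)
    (hL : ∀ j, LBN 4 (X.F y) (L j)) (O : Fin X.V.r → Bd X.V.W) (σ : ∀ l, (O l).ι → X.V.W → ℂ)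
    (hO : ∀ l, IsDiv 4 (X.V.G l) (O l) (σ l)) :
    ∃ (k : ℕ) (M : Fin k → Bd X.V.W) (d N : ℕ) (t : X.V.W → Cm N) (z : Cm N),
      (∀ e, IsLB 4 (M e)) ∧ (∀ w ∈ X.F y, ContinuousAt t w ∧ t w = z) ∧
      FGL 4 (X.F y) t z (Sum.elim (fam X.V M O) L)
        (AddSubmonoid.closure (gs X k d) : Set _) := by
  classical
  have := sct X.V
  obtain ⟨k, m, χ, M, LY, c, n, ρ, hχ, hM, hρ, ha, ht⟩ := X.hyp.pair
  have hp := X.hyp.res
  obtain ⟨P, γ, τ, lb, am, -, hτ⟩ := hp.amp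
  have hol : Pj.HolTo 4 X.Y X.ψ := ⟨hp.cont, hp.hol⟩
  have pos := ramp 4 X.V.W X.Y X.ψ P hol lb am
  obtain ⟨d1, d2, -⟩ := divv X.V O σ hO
  have pγ := d2 X.Y X.ψ P γ τ lb hτ pos
  have lbO : ∀ x l, LBN 4 (X.ψ ⁻¹' {x}) (O l) := fun x l => lbn_of (hO l).lb _
  have lbF : ∀ a, LBN 4 (X.F y) (Sum.elim (fam X.V M O) L a) := by
    rintro (a | j)
    · exact lbn_of (lb_fam (fun e => (hM e).1) (fun l => (hO l).lb) a) _
    · exact hL j
  obtain ⟨δ, δ0, hδ⟩ : ∃ δ : ℝ, 0 < δ ∧ ∀ l, al X l - X.a l + δ * γ l ≤ 1 := by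
    have : ∀ᶠ δ : ℝ in 𝓝 0, ∀ l, al X l - X.a l + δ * γ l < 1 := eventually_all.2 fun l =>
      (show ContinuousAt (fun δ : ℝ => al X l - X.a l + δ * γ l) 0 by fun_prop).eventually_lt
        continuousAt_const (by simpa using (al_bd X l).2)
    obtain ⟨δ, h1, h2⟩ := ((this.filter_mono nhdsWithin_le_nhds).and
      (self_mem_nhdsWithin (s := Ioi (0 : ℝ)))).exists
    exact ⟨δ, h2, fun l => (h1 l).le⟩
  have p1 := adjv calcR opnR divv k m X.V χ M X.Y LY c X.ψ _ n O σ hO (fun e => (hM e).2.2.1)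
    ⟨hχ, fun e => (hM e).1, fun e => (hM e).2.1, hp, ht⟩ (δ • fun l => -(γ l : ℝ))
    (fun x => (pγ x).smul δ0) ρ (fun e => -(ρ e / c e)) (fun e => (hM e).2.2.2.2) y
  have p2 := PosR.push lbF Sum.inl p1
  obtain ⟨c₀, hc₀⟩ : ∃ c₀ : Option (Fin k ⊕ Fin X.V.r) ⊕ Fin X.q → ℝ,
      c₀ = Sum.elim (vec (-1) 0 fun l => X.a l - δ * γ l) 0 := ⟨_, rfl⟩
  have p3 : PosR 4 (X.F y) (Sum.elim (fam X.V M O) L) c₀ := by
    refine (congrArg _ ?_).mp p2
    have c0 : ∀ e, (c e : ℝ) ≠ 0 := fun e => Nat.cast_ne_zero.2 (hM e).2.2.2.1.ne'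
    funext i
    rcases i with (_ | e | l) | j
    · have : ∑ e, -(ρ e / c e) * ((c e : ℝ) * m e) = -1 := by
        rw [← hρ, ← Finset.sum_neg_distrib]
        exact Finset.sum_congr rfl fun e _ => by field_simp [c0 e]
      simpa [hc₀, cA, vec, rel, Finset.sum_apply, Pi.single_apply] using this
    · have : ρ e + -(ρ e / c e) * c e = 0 := by field_simp [c0 e]; ring
      simpa [hc₀, cA, vec, rel, Finset.sum_apply, Pi.single_apply] using this
    · have : δ * -(γ l : ℝ) + ∑ e, -(ρ e / c e) * -(n e l : ℝ) =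
          X.a l - δ * γ l := by
        have : X.a l = ∑ e, -(ρ e / c e) * -(n e l : ℝ) := by
          rw [ha]
          exact Finset.sum_congr rfl fun e _ => by ring
        rw [← this]
        ring
      simpa [hc₀, cA, vec, rel, Finset.sum_apply, Pi.single_apply] using this
    · simp [hc₀, cA, Finset.sum_apply, Pi.single_apply]
  have cF : IsCompact (X.F y) := (isClosed_singleton.preimage hp.cont).isCompact
  have op := (opnR 4 X.V.W _ _ _ cF lbF).2.1 c₀ p3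
  obtain ⟨d, d1', hd⟩ : ∃ d : ℕ, 1 ≤ d ∧ ∀ j, ∀ ε : ℝ, ε = 1 ∨ ε = -1 →
      PosR 4 (X.F y) (Sum.elim (fam X.V M O) L)
        (c₀ + (ε * (d : ℝ)⁻¹) • fun i => (cE X k j i : ℝ)) := by
    have lim : ∀ j (ε : ℝ), Tendsto (fun d : ℕ => c₀ + (ε * (d : ℝ)⁻¹) • fun i => (cE X k j i : ℝ))
        atTop (𝓝 c₀) := fun j ε => by
      simpa using tendsto_const_nhds (x := c₀) |>.add
        (((tendsto_inv_atTop_nhds_zero_nat (𝕜 := ℝ)).const_mul ε).smul_const
          fun i => (cE X k j i : ℝ))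
    obtain ⟨d, h1, h2, h3⟩ := ((eventually_ge_atTop 1).and
      ((eventually_all.2 fun j => (lim j 1).eventually op).and
        (eventually_all.2 fun j => (lim j (-1)).eventually op))).exists
    refine ⟨d, h1, fun j ε hε => ?_⟩
    rcases hε with rfl | rfl
    exacts [h2 j, h3 j]
  obtain ⟨N, k', U, Ω, h, φ, hy, hφ⟩ := X.Y.model y
  have conn := (hZ X L y hL).1
  have fb := (rpo opnR 4 X.V.W X.Y X.ψ hol).2 N k' U Ω h φ hφ y hy
    ((finite_singleton (X.F y)).subset fun C ⟨w, hw, e⟩ =>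
      e.trans (conn.isPreconnected.connectedComponentIn hw))
  have fin : (gs X k d).Finite := ((finite_range _).union (finite_range _)).insert _
  refine ⟨k, M, d, N, _, _, fun e => (hM e).1, fun w hw => ⟨continuousAt_pi.2 fun i =>
    (fb.hol w hw i).continuousAt, congrArg φ hw⟩, ?_⟩
  have b01 : ∀ l, 0 ≤ al X l - X.a l + δ * γ l ∧ al X l - X.a l + δ * γ l ≤ 1 := fun l =>
    ⟨add_nonneg (al_bd X l).1 (by positivity), hδ l⟩
  have d0 : (d : ℝ) ≠ 0 := Nat.cast_ne_zero.2 (by omega)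
  have key := hB X.V.W _ N _ _ fb _ _ (Sum.elim (fam X.V M O) L) (Sum.inl none)
    (fun l => Sum.inl (some (.inr l))) σ lbF
    ⟨rfl, fun l l' e => by simpa using e, fun l => by simp, (d1 k M _).sec, (d1 k M _).snc⟩
    ⟨P, lbn_of lb _, pos y⟩ fin.toFinset fun a ha => by
      rcases fin.mem_toFinset.1 ha with rfl | ⟨j, rfl⟩ | ⟨j, rfl⟩
      · refine ⟨1, _, one_pos, b01, (congrArg _ ?_).mp p3⟩
        funext i
        rcases i with (_ | e | l) | j <;>
          simp [hc₀, cA, vec, Finset.sum_apply, Pi.single_apply]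
        ring
      · refine ⟨d, _, by positivity, b01, (congrArg _ ?_).mp (hd j 1 (.inl rfl))⟩
        funext i
        rcases i with (_ | e | l) | j <;>
          simp [hc₀, cA, cE, vec, Finset.sum_apply, Pi.single_apply]
        field_simp
        ring
      · refine ⟨d, _, by positivity, b01, (congrArg _ ?_).mp (hd j (-1) (.inr rfl))⟩
        funext i
        rcases i with (_ | e | l) | j <;>
          simp [hc₀, cA, cE, vec, Finset.sum_apply, Pi.single_apply]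
        field_simp
        ring
  rwa [Finite.coe_toFinset] at key

end Fgr

end Vale.Agent.P277Z.Cls
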