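import Vale.Agent.P277Z.Cls.Api2

/-!
# P277, block CLS: free families of sections
-/

set_option linter.all false
set_option maxSynthPendingDepth 3

open scoped Manifold ContDiff Topology
open Vale.Agent.P272.K Vale.Agent.P285.H281.FD Vale.Agent.P277 Set Filter Function
open Vale.Agent.P277Z.Slc (LEq lin)
open Vale.Agent.P277Z.Pj (PMap)

noncomputable section

namespace Vale.Agent.P277Z.Cls

namespace F3

open A2

variable {X : Ctx} {L : Fin X.q → Bd X.V.W} {S : X.Sf L} {M : Md S} {y : X.Y.pt}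
  {c : Fin S.b → ℤ}

theorem cross (h1 : StApi1) (hL : StLoc) {s s' : Ix L → X.V.W → ℂ} {w : M.Z.W}
    {m m' : Fin (M.R + 1)} {j j' : Ix L} {u v u' v' : M.Z.W → ℂ} (hs : MerN c s w)
    (hs' : MerN c s' w) (h : w ∈ M.D m) (hj : In L j (M.Z.π w)) (h' : w ∈ M.D m')
    (hj' : In L j' (M.Z.π w)) (a : A2.Loc c s m j u w) (b : A2.Loc c s m' j' v w)
    (a' : A2.Loc c s' m j u' w) (b' : A2.Loc c s' m' j' v' w) : u w * v' w = v w * u' w := by
  refine eq_of h1 hL h (a.1.mul b'.1) (b.1.mul a'.1) ?_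
  filter_upwards [hs, hs', nearD h hj, nearD h' hj', a.2, b.2, a'.2, b'.2]
    with z k k' p p' q1 q2 q3 q4 e
  refine mul_right_cancel₀ (mul_ne_zero (gn_ne (c := c) h1 p.1 p.2 e)
    (gn_ne (c := c) h1 p'.1 p'.2 e)) ?_
  rw [mul_mul_mul_comm, ← q1 e, ← q4 e, mul_comm (v z), mul_mul_mul_comm, ← q3 e, ← q2 e,
    ((k j p.2).2 e).2 j' p'.2, ((k' j p.2).2 e).2 j' p'.2]
  ring

theorem pmap (h1 : StApi1) (hL : StLoc) {R : ℕ} {s : Fin (R + 1) → Ix L → X.V.W → ℂ}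
    {A : Set M.Z.W} (hA : IsOpen A) (hO : ∀ w ∈ A, M.b w ∈ M.O)
    (h : ∀ w ∈ A, (∀ j, MerN c (s j) w ∧ M.Hl c (s j) w) ∧ ∃ j, M.Fr c (s j) w) :
    ∃ ν : Fin (R + 1) → M.Z.W → Cm (R + 1), PMap 4 A (fun j => {w ∈ A | M.Fr c (s j) w}) ν ∧
      ∀ j, ∀ w ∈ A, M.Fr c (s j) w → M.Z.π w ∉ X.E → ∀ l i, In L i (M.Z.π w) →
        s l i (M.Z.π w) = ν j w l * s j i (M.Z.π w) := by
  classical
  choose m i hm hi using fun w (hw : w ∈ A) => ex_D (hO w hw)
  choose V hV using fun w (hw : w ∈ A) l => ((h w hw).1 l).2 _ _ (hm w hw) (hi w hw)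
  have fr : ∀ w (hw : w ∈ A) l, M.Fr c (s l) w ↔ V w hw l w ≠ 0 := fun w hw l =>
    A2.Loc.fr_iff h1 hL ((h w hw).1 l).1 (hm w hw) (hi w hw) (hV w hw l)
  refine ⟨fun j w l => if hw : w ∈ A then V w hw l w / V w hw j w else 0,
    ⟨fun j => isOpen_iff_mem_nhds.2 fun w hw => (hA.eventually_mem hw.1).and (fr_near hw.2),
      fun w => ⟨fun hw => (h w hw).2.imp fun _ k => ⟨hw, k⟩, fun ⟨_, k⟩ => k.1⟩,
      fun j w hw l => ?_, fun j w hw => ?_, fun j l w hw => ?_, fun j l w hw hl => ?_⟩,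
    fun j w hw hj e l i' hi' => ?_⟩
  · refine fun e he => Hol.congr (b := fun w => if hw : w ∈ A then V w hw l w / V w hw j w else 0)
      ((hV w hw.1 l).1.div (hV w hw.1 j).1 ((fr w hw.1 j).1 hw.2)) ?_ e he
    filter_upwards [hA.eventually_mem hw.1, fr_near hw.2, nearD (hm w hw.1) (hi w hw.1),
      A2.Loc.near (hV w hw.1 l), A2.Loc.near (hV w hw.1 j),
      (hV w hw.1 j).1.ne_near ((fr w hw.1 j).1 hw.2)] with z a1 a2 a3 a4 a5 a6
    rw [dif_pos a1, div_eq_div_iff a6 ((fr z a1 j).1 a2)]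
    exact cross h1 hL ((h z a1).1 l).1 ((h z a1).1 j).1 a3.1 a3.2 (hm z a1) (hi z a1) a4
      (hV z a1 l) a5 (hV z a1 j)
  · exact (dif_pos hw.1).trans (div_self ((fr w hw.1 j).1 hw.2))
  · beta_reduce
    rw [dif_pos hw.1, div_ne_zero_iff, and_iff_left ((fr w hw.1 j).1 hw.2), ← fr w hw.1 l]
    exact and_iff_right hw.1
  · funext a
    simp only [dif_pos hw.1, Pi.smul_apply, smul_eq_mul]
    field_simp [(fr w hw.1 j).1 hw.2, (fr w hw.1 l).1 hl.2]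
  · beta_reduce
    rw [dif_pos hw, ((((h w hw).1 l).1.self_of_nhds i' hi').2 e).2 _ (hi w hw),
      ((((h w hw).1 j).1.self_of_nhds i' hi').2 e).2 _ (hi w hw), (hV w hw l).2.self_of_nhds e,
      (hV w hw j).2.self_of_nhds e]
    field_simp [(fr w hw j).1 hj]

end F3

open A2 F3 in
/-- **FRE** -/
theorem stFre3 (hL : StLoc) (hM : StMer) (h1 : StApi1) : StFre := by
  intro X L S M y hy hN x hx N c s hs
  classical
  obtain ⟨hb, -, -, -, -, -, -, hy'⟩ := h1 X L S M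
  obtain ⟨-, -, cpt, -, near, -⟩ := hy' y hy
  choose n c' s' dg fr using hx
  obtain ⟨T, hT⟩ := cpt.elim_nhds_subcover' (fun w hw => {v | M.Fr (c' w hw) (s' w hw) v})
    fun w hw => fr_near (fr w hw w rfl)
  let e := T.equivFin.symm
  let d : ℕ := ∏ j, n (e j).1.1 (e j).1.2
  let k : Fin T.card → ℕ := fun j => N * ∏ i ∈ Finset.univ.erase j, n (e i).1.1 (e i).1.2
  let u : Fin (T.card + 1) → Ix L → X.V.W → ℂ :=
    Fin.cons (fun i w => s i w ^ d) fun j i w => s' (e j).1.1 (e j).1.2 i w ^ k j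
  have d1 : 1 ≤ d := Finset.one_le_prod' fun j _ => (dg _ _).pos
  have e0 : (d * N) • x = ∑ i, (d • c) i • S.a i := by
    rw [mul_smul, hs.eq]
    simp only [Finset.smul_sum, Pi.smul_apply, smul_assoc]
  have e1 : ∀ j, ∑ i, (k j • c' (e j).1.1 (e j).1.2) i • S.a i = ∑ i, (d • c) i • S.a i := fun j => by
    have : d * N = k j * n (e j).1.1 (e j).1.2 := by
      rw [mul_comm, mul_assoc, Finset.prod_erase_mul _ _ (Finset.mem_univ j)]
    rw [← e0, this, mul_smul (k j), (dg _ _).eq]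
    simp only [Finset.smul_sum, Pi.smul_apply, smul_assoc]
  have mer : ∀ j, X.Mer y (lin L (∑ i, (d • c) i • S.a i)) (u j) :=
    Fin.cases (mer_pow h1 hM hy hs.mer d) fun j =>
      mer_cast (e1 j) (mer_pow h1 hM hy (dg _ _).mer (k j))
  have hP : ∀ᶠ w in 𝓝ˢ (M.F y), (∀ j, MerN (d • c) (u j) w ∧ M.Hl (d • c) (u j) w) ∧
      ∃ j, M.Fr (d • c) (u j) w := by
    refine (eventually_all.2 fun j => (merN (mer j)).and (eventually_nhdsSet_iff_forall.2
      fun w hw => hl_near h1 hL ((merN (mer j)).self_of_nhdsSet w hw) (hw ▸ hy)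
        (hN _ _ (mer j) w hw))).and (eventually_nhdsSet_iff_forall.2 fun w hw => ?_)
    obtain ⟨v, hv, a⟩ := mem_iUnion₂.1 (hT hw)
    obtain ⟨j, hj⟩ := e.surjective ⟨v, hv⟩
    have b : M.Fr (c' (e j).1.1 (e j).1.2) (s' (e j).1.1 (e j).1.2) w := by rw [hj]; exact a
    exact (fr_near ((fr_cast h1 hL hM hy hN (e1 j)).self_of_nhdsSet w hw (fr_pow b (k j)))).mono
      fun _ p => ⟨j.succ, p⟩
  have h2 := (continuous_subtype_val.tendsto (⟨y, hy⟩ : M.O)).eventually (near _ hP)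
  rw [M.model.emb.isInducing.nhds_eq_comap, eventually_comap] at h2
  obtain ⟨Ω, k1, k2, k3⟩ := eventually_nhds_iff.1 (h2.and (M.model.isOpen'.eventually_mem
    (M.model.image.le ⟨y, hy, rfl⟩).1))
  have hA : IsOpen (M.b ⁻¹' M.O ∩ M.t ⁻¹' Ω) :=
    ContinuousOn.isOpen_inter_preimage (fun w hw => (continuousAt_pi.2 fun i =>
      Hol.cont (n := 4) fun e he => M.prp.hol w hw i e he).continuousWithinAt) (M.model.isOpen.preimage hb) k2
  have h3 := fun w (hw : w ∈ M.b ⁻¹' M.O ∩ M.t ⁻¹' Ω) => (k1 _ hw.2).1 ⟨M.b w, hw.1⟩ rfl w rfl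
  obtain ⟨ν, n1, n2⟩ := pmap h1 hL hA (fun w hw => hw.1) h3
  exact ⟨⟨d * N, d • c, _, u, fun j => ⟨Nat.mul_pos d1 hs.pos, e0, mer j⟩, Ω, k2, k3,
    fun z hz => (k1 z hz).2, _, ν, n1, fun j w hw => ((h3 w hw).1 j).2,
    fun j w hw => and_iff_right hw, fun j w hw => n2 j w hw.1 hw.2⟩, d, d1, rfl, rfl⟩

end Vale.Agent.P277Z.Cls
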