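import Vale.Agent.P277Z.Cls.Sk

/-!
# P277, block CLS: the assembly
-/

set_option linter.all false
set_option maxSynthPendingDepth 3

open scoped Manifold ContDiff Topology
open Vale.Agent.P272.K Vale.Agent.P285.H281.FD Vale.Agent.P277 Set Filter Module
open Vale.Agent.P277Z.Val (Lg)
open Vale.Agent.P277Z.Slc (lin)
open Vale.Agent.P277Z.Brg (LBN)
open Vale.Agent.P277Z.Top

noncomputable section

namespace Vale.Agent.P277Z.Cls

/-- the rows which are used in the assembly -/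
structure Rows : Prop where
  basis : StBasis
  fac : StFac
  gp : StGp
  six : StSix
  lbv : StLbv
  cox : StCox
  model : StModel
  api1 : StApi1
  api2 : StApi2
  ctr : StCtr
  negs : StNegs
  inv : StInv
  geny : StGeny
  cl : StCl
  invm : StInvm
  bd : StBd
  two : StTwo
  three : StThree
  alv : StAlv
  unit : StUnit
  down1 : StDown1
  down2 : StDown2

namespace Mn

variable {X : Ctx}

theorem frame {L : Fin X.q → Bd X.V.W} {y : X.Y.pt} (h : ∀ j, LBN 4 (X.F y) (L j)) {z : X.V.W}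
    (hz : z ∈ X.F y) : ∃ i, In L i z := by
  choose i hi using fun j => (h j).cover z hz
  exact ⟨i, hi⟩

/-- the negativity property of a model -/
theorem neg (h1 : StApi1) (h2 : StApi2) (hN : StNegs) (Φ : X.Fam) {S : X.Sf Φ.Lv} (M : Md S)
    {y : X.Y.pt} (hy : y ∈ M.O) (hΦ : y ∈ Φ.O) (hg : X.Gp y) (hc : ∃ O' ∈ 𝓝 y, M.Ctr O') :
    M.Neg y := by
  intro c s hs w hw
  have hw' : M.b w = y := hw
  obtain ⟨m, hm⟩ := (M.pm.pm.cover w).1 (show X.ψ (M.Z.π w) ∈ M.O from (show M.b w ∈ M.O from hw' ▸ hy))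
  obtain ⟨j, hj⟩ := frame ((h1 X _ S M).2.2.2.2.2.2.2 y hy).1 (show M.Z.π w ∈ X.F y from hw)
  refine ((h2 X _ S M y hy).2.1 c s hs).2.2 w hw ⟨m, j, hm, hj, ?_⟩
  simpa only [pow_one] using
    hN X Φ S M y hy hΦ hg hc Φ _ 1 c s hΦ (one_smul _ _) hs w hw m j j hm hj hj

/-- the families of a chamber -/
def fam {L : Fin X.q → Bd X.V.W} {y : X.Y.pt} (c : X.Cox L y) (e : Fin X.q → Fin X.q → ℤ) :
    X.Sf L :=
  ⟨X.q, fun i => c.n • e i, fun i => c.r (e i), fun i => c.u (e i)⟩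

theorem fam_ok {L : Fin X.q → Bd X.V.W} {y : X.Y.pt} (c : X.Cox L y) (e : Fin X.q → Fin X.q → ℤ) :
    (fam c e).Ok y := ⟨fun i m => c.mer (e i) m, fun i => c.big (e i)⟩

theorem fam_gen {L : Fin X.q → Bd X.V.W} {y : X.Y.pt} (c : X.Cox L y) {e : Fin X.q → Fin X.q → ℤ}
    (he : ∀ h ∈ c.H, ∀ a b, 0 ≤ (h ⬝ᵥ e a) * (h ⬝ᵥ e b)) : (fam c e).Gen y := by
  intro d s hs w hw j hj
  refine c.mul (Fin X.q) e (fun _ => d) he s ?_ w hw j hj
  have : c.n • ∑ a, d • e a = d • ∑ i : Fin X.q, c.n • e i := by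
    rw [← Finset.smul_sum, ← Finset.smul_sum, smul_comm]
  rw [this]
  exact hs

theorem fam_ind {L : Fin X.q → Bd X.V.W} {y : X.Y.pt} (c : X.Cox L y) {e : Fin X.q → Fin X.q → ℤ}
    (he : LinearIndependent ℤ e) : LinearIndependent ℤ (fam c e).a := by
  rw [Fintype.linearIndependent_iff] at he ⊢
  intro g hg i
  have h0 : (c.n : ℤ) ≠ 0 := by have := c.npos; omega
  have := he (fun i => g i * c.n) (by
    rw [← hg]
    refine Finset.sum_congr rfl fun i _ => ?_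
    rw [mul_smul]
    exact congrArg _ (natCast_zsmul _ _)) i
  exact (mul_eq_zero.1 this).resolve_right h0

/-- a general model -/
theorem model (R : Rows) (X : Ctx) : ∃ (Φ : X.Fam) (S : X.Sf Φ.Lv) (M : Md S) (y : X.Y.pt)
    (O : Set X.Y.pt) (τ : X.Y.pt → ℂ) (g : ℂ → X.Y.pt) (Δ : Set ℂ), S.b = X.q ∧
    LinearIndependent ℤ S.a ∧ y ∈ Φ.O ∧ M.Gen y O τ g Δ := by
  obtain ⟨h1, h2⟩ := R.gp X
  obtain ⟨y₀, hσ, hg, Φ, hΦ⟩ : ∃ y₀ ∈ X.σ, X.Gp y₀ ∧ ∃ Φ : X.Fam, y₀ ∈ Φ.O := by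
    by_contra hc
    refine h1 ((h2.union (R.six X)).mono fun y hy => ?_)
    by_cases hg : X.Gp y
    · exact Or.inr ⟨hy, fun h => hc ⟨y, hy, hg, h⟩⟩
    · exact Or.inl ⟨hy, hg⟩
  obtain ⟨O, τ, g, Δ, hD⟩ := hg.dsc
  have hL := (R.lbv X Φ).2.1 y₀ hΦ
  obtain ⟨c⟩ := R.cox X _ y₀ hL
  obtain ⟨e, he1, he2⟩ := R.basis X.q c.H
  obtain ⟨M, hM, hO⟩ := R.model X _ y₀ hL (fam c e) (fam_ok c e) (Φ.O ∩ O)
    (inter_mem (Φ.isOpen.mem_nhds hΦ) (hD.disc.isOpen.mem_nhds hD.mem))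
  obtain ⟨O', h3, h4⟩ := R.ctr X _ _ M y₀ hM (fam_gen c he2)
  have hMo : IsOpen M.O := M.model.isOpen
  obtain ⟨y, h5, -, h6⟩ := R.geny X _ _ M O τ g Δ hD.disc (fun z hz => (hO hz).2) y₀ hM hσ _ h2
    (interior O' ∩ M.O) (inter_mem (interior_mem_nhds.2 h3) (hMo.mem_nhds hM)) fun y hy hs hb => by
      have hg : X.Gp y := by_contra fun h => hb ⟨hs, h⟩
      have hc : ∃ O'' ∈ 𝓝 y, M.Ctr O'' := ⟨O', mem_interior_iff_mem_nhds.1 hy.1, h4⟩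
      exact ⟨hg, hc, neg R.api1 R.api2 R.negs Φ M hy.2 (hO hy.2).1 hg hc⟩
  exact ⟨Φ, _, M, y, O, τ, g, Δ, rfl, fam_ind c he1, (hO h5.2).1, h6⟩

theorem card_le (R : Rows) (X : Ctx) (A : Finset (Fin X.V.r)) (hA : ∀ k, k ∈ A ↔ X.Alive k)
    (hi : ∀ μ : Fin X.q → ℝ, (∃ m : Fin X.U.r → ℝ, ∀ k, X.p '' X.U.G k = X.σ → ∀ z ∈ X.C.D k,
      X.C.T k z (X.C.o k) ((∑ j, μ j • X.x j - ∑ i, m i • X.C.Em i) k) = 0) → μ = 0) :
    X.q ≤ A.card := by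
  classical
  obtain ⟨Φ, S, M, y, O, τ, g, Δ, hb, hl, hΦ, hG⟩ := model R X
  have hy := hG.mem
  obtain ⟨c⟩ := R.cox X _ y ((R.lbv X Φ).2.1 y hΦ)
  have hI := R.inv X Φ y hΦ hG.gp c
  obtain ⟨-, -, -, hT, ha, hF, -⟩ := R.api2 X _ S M y hy
  have h0 : (0 : Fin X.q → ℤ) ∈ M.Cn y := fun w hw => (hT {w} (singleton_subset_iff.2 hw)).1
  have hadd : ∀ x ∈ M.Cn y, ∀ x' ∈ M.Cn y, x + x' ∈ M.Cn y := fun x hx x' hx' w hw =>
    (hT {w} (singleton_subset_iff.2 hw)).2.1 x x' (hx w hw) (hx' w hw)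
  have hsm : ∀ x ∈ M.Cn y, ∀ p : ℕ, p • x ∈ M.Cn y := fun x hx p => by
    induction p with
    | zero => rw [zero_smul]; exact h0
    | succ p ih => rw [succ_nsmul]; exact hadd _ ih _ hx
  have hsub : ∀ l w, M.T y l w ⊆ M.F y := fun l w v hv => (connectedComponentIn_subset _ _ hv).2
  let a : Fin X.q → Fin X.q → ℤ := fun i => S.a (Fin.cast hb.symm i)
  have hs : ∑ i, a i = ∑ i, S.a i := Fintype.sum_equiv (finCongr hb.symm) _ _ fun _ => rfl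
  refine R.fac X.q (M.Cn y) a c.H _ A (fun k => {x | x ∈ M.Cn y ∧ ∃ w m i, M.TyA y (.inl k) w ∧
    M.NC τ m i (.inl k) w ∧ M.Tr y x (M.T y (.inl k) w)})
    (hl.comp _ (Fin.cast_injective _)) (fun i => ha _) h0 hadd
    (fun N x hN hx w hw => (hT {w} (singleton_subset_iff.2 hw)).2.2 N x hN (hx w hw))
    (R.cl X _ S M hl hb y hy hG.neg c) ?_ ?_ ?_
  · intro x hx hx'
    obtain ⟨N, s, m, hN, hu⟩ := R.unit X _ S M y hy hG.neg c hI x hx hx'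
    obtain ⟨s', hs'⟩ := R.down1 X Φ y hΦ hG.gp _ s m hu
    have := hi (fun j => ((Φ.n • N • x) j : ℝ)) ⟨_, R.down2 X _ Φ.O _ y s' _
      (Φ.isOpen.mem_nhds hΦ) hG.gp ((R.lbv X Φ).2.2 _) hs'⟩
    funext j
    have h1 : (((Φ.n • N • x) j : ℤ) : ℝ) = 0 := congrFun this j
    have h2 : (Φ.n : ℤ) * (N * x j) = 0 := by
      have h3 : (Φ.n • N • x) j = 0 := by exact_mod_cast h1
      rw [Pi.smul_apply, Pi.smul_apply, nsmul_eq_mul, nsmul_eq_mul] at h3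
      exact h3
    have h4 := Φ.npos
    rcases mul_eq_zero.1 h2 with h | h
    · omega
    · rcases mul_eq_zero.1 h with h | h
      · omega
      · exact h
  · intro k hk
    obtain ⟨k1, k2, k3⟩ := (hA k).1 hk
    have kx : k ∈ X.ex := by simp [Ctx.ex, k1]
    refine ⟨fun x hx => hx.1, ?_, ?_, ?_⟩
    · rintro x ⟨hx, w, m, i, h1, h2, h3⟩ x' ⟨hx', w', m', i', h1', h2', h3'⟩
      refine ⟨hadd _ hx _ hx', w, m, i, h1, h2, (hT _ (hsub _ _)).2.1 _ _ h3 ?_⟩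
      by_contra hc
      obtain ⟨p, hp⟩ := R.three X _ S M y O τ g Δ hG _ w h1 x' hx' hc
      exact R.two X _ S M y O τ g Δ hG _ w' m' i' x' h1' h2' h3' p
        (R.invm X _ S M y hy hG.neg c hI k kx k3 w h1.fib w' h1'.fib h1.mem h1'.mem _ hp)
    · rintro x hx x' hx' ⟨-, w, m, i, h1, h2, h3⟩
      refine ⟨hx, w, m, i, h1, h2, ?_⟩
      by_contra hc
      obtain ⟨p, hp⟩ := R.three X _ S M y O τ g Δ hG _ w h1 x hx hc
      refine R.two X _ S M y O τ g Δ hG _ w m i _ h1 h2 h3 p ?_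
      have := (hF _ w h1.fib h1.mem).2 _ _ hp (hsm x' hx' p w h1.fib)
      rwa [show p • x - ∑ i, S.a i + p • x' = p • (x + x') - ∑ i, S.a i by
        rw [smul_add]; abel] at this
    · rintro ⟨-, w, m, i, h1, h2, h3⟩
      refine R.two X _ S M y O τ g Δ hG _ w m i _ h1 h2 h3 1 ?_
      rw [one_smul, hs, sub_self]
      exact (hF _ w h1.fib h1.mem).1
  · intro x hx hp
    rw [hs] at hp
    obtain ⟨l, -, w, m, i, h1, h2, h3⟩ := R.bd X _ S M y O τ g Δ hG x hx hp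
    obtain ⟨k, w', k1, k2, k3, k4⟩ := R.alv X _ S M y O τ g Δ hG l w m i h1 h2 x hx h3
    exact ⟨k, (hA k).2 k1, hx, w', m, i, k2, k3, k4⟩

end Mn

theorem stCls_of (R : Rows) : StCls := by
  intro V U a Y ψ α μ s p Q P C hH hC k₀ l h1 h2 h3 q x hx h0 hd hi
  exact Mn.card_le R ⟨V, U, a, Y, ψ, α, μ, s, p, Q, P, C, hH, hC, _, k₀, rfl, h1, l, h2, h3, q, x,
    hx, h0, hd⟩ _ (fun k => by simp [Ctx.Alive]) hi

end Vale.Agent.P277Z.Cls
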