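import Vale.Agent.P277Z.Cls.Sk
import Vale.Agent.P277Z.Brg.Calc
import Vale.Agent.P277Z.Slc.Div
import Vale.Agent.P277Z.Pj.Api

/-!
# P277, block CLS: the local model
-/

set_option linter.all false
set_option maxSynthPendingDepth 3

open scoped Manifold ContDiff Topology
open Vale.Agent.P272.K Vale.Agent.P285.H281.FD Vale.Agent.P277 Set Filter
open Vale.Agent.P277Z.Slc (LEq Snc IsDiv Ind lin)
open Vale.Agent.P277Z.Brg (PosX PosR PrjN LBN)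
open Vale.Agent.P277Z.Pj (Prp Prj PMap)

noncomputable section

namespace Vale.Agent.P277Z.Cls

namespace Model

theorem res {Y : CSp} {N k : ℕ} {V : Set Y.pt} {Ω : Set (Cm N)} {h : Fin k → Cm N → ℂ}
    {φ : Y.pt → Cm N} (hM : IsModel Y.Hol V Ω h φ) {Ω' : Set (Cm N)} (hΩ : IsOpen Ω') :
    IsModel Y.Hol (V ∩ φ ⁻¹' Ω') (Ω ∩ Ω') h φ where
  isOpen := hM.continuousOn.isOpen_inter_preimage hM.isOpen hΩ
  isOpen' := hM.isOpen'.inter hΩ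
  holo i z hz := hM.holo i z hz.1
  image := by
    rw [image_inter_preimage, hM.image]
    ext z
    exact ⟨fun h => ⟨⟨h.1.1, h.2⟩, h.1.2⟩, fun h => ⟨⟨h.1.1, h.2⟩, h.1.2⟩⟩
  emb := hM.emb.comp (Topology.IsEmbedding.inclusion inter_subset_left)
  hol x hx := hM.hol x hx.1

variable {X : Ctx} {D : Hl.Dat 4 X.V.W} {F : Set X.V.W} (Z : Rz X.V D F)

/-- the map to the chart is proper -/
theorem prp {N k : ℕ} {V : Set X.Y.pt} {Ω : Set (Cm N)} {h : Fin k → Cm N → ℂ}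
    {φ : X.Y.pt → Cm N} (hM : IsModel X.Y.Hol V Ω h φ) (hV : X.ψ ⁻¹' V ⊆ Z.O₂) :
    Prp 4 (Z.π ⁻¹' (X.ψ ⁻¹' V)) (fun w => φ (X.ψ (Z.π w))) Ω where
  isOpen := (hM.isOpen.preimage X.hyp.res.cont).preimage Z.bl.cont
  isOpen' := hM.isOpen'
  hol w hw i := Z.bl.hol w (fun v => φ (X.ψ v) i)
    (X.hyp.res.hol (Z.π w) (fun y => φ y i) (Pj.model_crd hM hw i))
  maps _ hw := (Pj.model_mem hM hw).1
  proper K hs hK := Z.bl.proper (X.ψ ⁻¹' (V ∩ φ ⁻¹' K)) (fun _ hv => Z.le₂ (hV hv.1))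
    ((Pj.model_proper hM hK hs).isClosed.preimage X.hyp.res.cont).isCompact

/-- a property which holds near the fibre holds over a neighbourhood -/
theorem tube {A B : Type} [TopologicalSpace A] [TopologicalSpace B] [T2Space B] {f : A → B}
    (hf : Continuous f) {y : B} {K : Set B} (hK : K ∈ 𝓝 y) (hc : IsCompact (f ⁻¹' K))
    {p : A → Prop} (hp : ∀ w, f w = y → ∀ᶠ v in 𝓝 w, p v) :
    ∀ᶠ y' in 𝓝 y, ∀ v, f v = y' → p v := by
  have h1 := ((hc.diff (isOpen_interior (s := {v | p v}))).image hf).isClosed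
  filter_upwards [hK, h1.isOpen_compl.mem_nhds fun ⟨w, a, b⟩ =>
    a.2 (mem_interior_iff_mem_nhds.2 (hp w b))] with y' a b v d
  exact by_contra fun k => b ⟨v, ⟨show f v ∈ K from d.symm ▸ a, fun e => k (interior_subset e)⟩, d⟩

/-- forget the compact set -/
def forget : Rz X.V D ∅ := { Z with sub := empty_subset _ }

theorem pm_restrict {L : Fin X.q → Bd X.V.W} {S : X.Sf L} {W : Type} [TopologicalSpace W]
    [ChartedSpace (Cm 4) W] {r : ℕ} {π : W → X.V.W} {G : Fin X.V.r ⊕ Fin r → Set W} {O : Set W}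
    {R : ℕ} {eqv : Fin (R + 1) ≃ ∀ i, Fin (S.r i + 1)} {D' : Fin (R + 1) → Set W}
    {ν : Fin (R + 1) → W → Cm (R + 1)} (h : Pm S π G univ eqv D' ν) (hO : IsOpen O) :
    Pm S π G O eqv (fun m => D' m ∩ O) ν where
  pm := h.pm.restrict hO (subset_univ _)
  rel m w hw := h.rel m w hw.1
  mon m w hw := h.mon m w hw.1

end Model

open Model in
/-- **MODEL** -/
theorem Model.stModel54 (hMov : StMov) (hRzl : StRzl) (hPmd : StPmd) (hPosm : StPosm) (hPrjl : StPrjl) :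
    StModel := by
  intro X L y hL S hS O₀ hO₀
  have hψ : Continuous X.ψ := X.hyp.res.cont
  obtain ⟨D, e, hF, mov⟩ := hMov X L y hL S hS
  obtain ⟨Z⟩ := hRzl X.V D (X.F y) (isClosed_singleton.preimage hψ).isCompact hF
  choose B τ hB using fun l => Slc.stDiv 4 Z.W (Z.G l) fun x => (Z.snc x).elim fun ζ h =>
    ⟨ζ l, h.1 l⟩
  obtain ⟨c, hc, Λ, hΛ⟩ := hPosm X D y Z B τ hB
  have hlb : ∀ (A : Set Z.W) l, LBN 4 A (B l) := fun A l => Brg.lbn_of_isLB (hB l).lb A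
  -- the neighbourhood of `y`
  have h1 : ∀ᶠ y' in 𝓝 y, ∀ v, X.ψ v = y' → v ∈ Z.O₂ :=
    tube hψ univ_mem isCompact_univ fun w hw => Z.isOpen.mem_nhds (Z.sub hw)
  obtain ⟨K, hK, hKs, hKc⟩ := local_compact_nhds h1
  have h2 : ∀ᶠ y' in 𝓝 y, ∀ w, X.ψ (Z.π w) = y' → PosX 4 B (fun l => -(c l : ℝ)) Λ w :=
    tube (hψ.comp Z.bl.cont) hK
      (Z.bl.proper (X.ψ ⁻¹' K) (fun v hv => Z.le₂ (hKs hv v rfl))
        (hKc.isClosed.preimage hψ).isCompact)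
      fun w hw => (hΛ w hw).near (hlb univ)
  obtain ⟨V₁, k1, k2, k3⟩ := eventually_nhds_iff.1 (h1.and (h2.and hO₀))
  obtain ⟨N, k, V, Ω, h, φ, hy, hV, hM⟩ := Pj.model_small X.Y y k2 k3
  have hV2 : X.ψ ⁻¹' V ⊆ Z.O₂ := fun v hv => (k1 _ (hV hv)).1 v rfl
  have hP := prp Z hM hV2
  have hN : PrjN 4 (Z.π ⁻¹' (X.ψ ⁻¹' V) ∩ (fun w => φ (X.ψ (Z.π w))) ⁻¹' {φ y}) := by
    refine ⟨lin B fun l => -(c l : ℤ), Brg.lbn_lin (hlb _) _, (Brg.posR_lin (hlb _) _).1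
      ⟨Λ, fun w hw => ?_⟩⟩
    have := (k1 _ (hV hw.1)).2.1 w rfl
    simpa only [Int.cast_neg, Int.cast_natCast] using this
  obtain ⟨Ω', o1, o2, -, o4⟩ := hPrjl Z.W N _ _ Ω hP (φ y) (Pj.model_mem hM hy).1 hN
  have hM' := res hM o1
  have hV3 : X.ψ ⁻¹' (V ∩ φ ⁻¹' Ω') ⊆ Z.O₂ := fun v hv => hV2 hv.1
  have hP' := prp Z hM' hV3
  obtain ⟨R, hR⟩ : ∃ R, Fintype.card (∀ i, Fin (S.r i + 1)) = R + 1 :=
    ⟨_, (Nat.succ_pred_eq_of_pos Fintype.card_pos).symm⟩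
  let eqv : Fin (R + 1) ≃ ∀ i, Fin (S.r i + 1) := (Fintype.equivFinOfCardEq hR).symm
  obtain ⟨D', ν, hm⟩ := hPmd X L S D e (X.F y) Z R eqv mov
  exact ⟨⟨D, e, mov, forget Z, V ∩ φ ⁻¹' Ω', N, k, Ω ∩ Ω', h, φ, hM', hV3, hP', o4, B, τ, hB,
    fun l => (c l : ℝ), fun l => Nat.cast_nonneg _, fun l => Nat.cast_pos.trans (hc l), Λ,
    fun w hw => (k1 _ (hV hw.1)).2.1 w rfl, R, eqv, _, ν, pm_restrict hm hP'.isOpen⟩, ⟨hy, o2⟩,
    fun y' hy' => (k1 _ (hV hy'.1)).2.2⟩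

end Vale.Agent.P277Z.Cls
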