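import Vale.Agent.P277Z.Cls.Sk
import Vale.Agent.P277Z.Brg.Calc
import Vale.Agent.P277Z.Neg.Max
import Vale.Agent.P277Z.Slc.Basic

/-!
# P277, block CLS: the negativity lemma
-/

open scoped Manifold ContDiff Topology
open Vale.Agent.P272.K Vale.Agent.P285.H281.FD Vale.Agent.P277 Set Filter Real
open Vale.Agent.P277.PH (SmR)
open Vale.Agent.P284Z (levi)
open Vale.Agent.P277Z.Slc (LEq Snc IsDiv dd at_chartAt)
open Vale.Agent.P277Z.Pj (Prp)
open Vale.Agent.P277Z.Neg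

noncomputable section

namespace Vale.Agent.P277Z.Cls

namespace Ng

theorem maxq {W ι : Type} [TopologicalSpace W] [Fintype ι] {S O : Set W} {t : W → ι → ℂ}
    {V : Set (ι → ℂ)} {P : W → ℝ} {z₁ : W} (hO : IsOpen O) (hV : IsOpen V)
    (ht : ContinuousOn t O) (hp : ∀ L ⊆ V, IsCompact L → IsCompact (O ∩ t ⁻¹' L ∩ S))
    (hP : ∀ z ∈ S, z ∈ O → t z ∈ V → ContinuousWithinAt P S z) (h1 : z₁ ∈ S) (h2 : z₁ ∈ O)
    (h3 : t z₁ ∈ V) (h4 : 0 < P z₁)
    (h : ∀ z ∈ S, z ∈ O → t z ∈ V → 0 < P z → ∃ γ, Disc S t P z γ) : False := by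
  classical
  refine maxp (W := O) (S := Subtype.val ⁻¹' S) (ψ := fun w => t w) (φ := id) (P := fun w => P w)
    (z₁ := ⟨z₁, h2⟩) hV (continuousOn_iff_continuous_domRestrict.1 ht) (fun L a b => ?_)
    continuousOn_id (fun _ _ e => e) (fun z a => ((hP z a.1 z.2 a.2).comp
      continuous_subtype_val.continuousWithinAt fun _ b => b.1)) h1 h3 h4 fun z a b c => ?_
  · rw [Subtype.isCompact_iff]
    refine (congrArg IsCompact (Set.ext fun w => ?_)).mp (hp L a b)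
    exact ⟨fun k => ⟨⟨w, k.1.1⟩, ⟨k.2, k.1.2⟩, rfl⟩, by rintro ⟨v, k, rfl⟩; exact ⟨⟨v.2, k.2⟩, k.1⟩⟩
  obtain ⟨γ, g⟩ := h z a z.2 b c
  have e : ∀ᶠ s in 𝓝 (0 : ℂ), ((if k : γ s ∈ O then ⟨γ s, k⟩ else z : O) : W) = γ s :=
    (g.cont.eventually (hO.mem_nhds (g.zero ▸ z.2))).mono fun s (k : γ s ∈ O) => by rw [dif_pos k]
  have e' : (fun s => t (if k : γ s ∈ O then ⟨γ s, k⟩ else z : O)) =ᶠ[𝓝 0] fun s => t (γ s) :=
    e.mono fun _ k => congrArg t k
  obtain ⟨c, c0, hc⟩ := g.up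
  exact ⟨_, Subtype.ext (e.self_of_nhds.trans g.zero), Topology.IsInducing.subtypeVal.continuousAt_iff.2
    (g.cont.congr (EventuallyEq.symm e)), (e.and g.mem).mono fun s k => mem_of_eq_of_mem (s := S) k.1 k.2,
    g.an.congr e'.symm, e'.deriv_eq.trans g.der, c, c0, hc.congr (e.mono fun _ k => by rw [k])⟩

variable {n : ℕ} {W : Type} [TopologicalSpace W] [ChartedSpace (Cm n) W]

/-- a disc in a hypersurface with a given tangent vector -/
theorem disc {G : Set W} {z : W} {ζ : W → ℂ} (h : LEq n G z ζ) (hz : z ∈ G) {e : Chart n W}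
    (he : At e z) {ξ : Cm n} (hξ : dd ζ e z ξ = 0) : ∃ γ : ℂ → W, γ 0 = z ∧ ContinuousAt γ 0 ∧
      (∀ᶠ s in 𝓝 0, γ s ∈ G) ∧ AnalyticAt ℂ (fun s => e (γ s)) 0 ∧
      HasDerivAt (fun s => e (γ s)) ξ 0 := by
  obtain ⟨h1, h2⟩ := h.2 e he
  have h0 := h.mem.2 hz
  set f : Cm n → ℂ := fun y => ζ (e.symm y) with hf
  set A := fderiv ℂ f (e z) with hA
  obtain ⟨η, hη⟩ : ∃ η, A η = 1 := by
    obtain ⟨η, k⟩ := DFunLike.ne_iff.1 (h2 h0)
    exact ⟨(A η)⁻¹ • η, by rw [map_smul]; exact inv_mul_cancel₀ k⟩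
  set F : Cm n → Cm n := fun y => y + (f y - A (y - e z)) • η with hF
  have a1 : AnalyticAt ℂ F (e z) := analyticAt_id.add
    ((h1.sub ((A.analyticAt _).comp (analyticAt_id.sub analyticAt_const))).smul analyticAt_const)
  have a2 : HasFDerivAt F (ContinuousLinearEquiv.refl ℂ (Cm n) : Cm n →L[ℂ] Cm n) (e z) := by
    have := (hasFDerivAt_id (e z)).add ((h1.differentiableAt.hasFDerivAt.sub
      (A.hasFDerivAt.comp (e z) ((hasFDerivAt_id (e z)).sub_const (e z)))).smul_const η)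
    rw [← hA] at this
    exact this.congr_fderiv (by ext; simp)
  have a3 : ContDiffAt ℂ ω F (e z) := a1.contDiffAt
  have a4 := a3.hasStrictFDerivAt' a2 (by simp)
  have a5 : F (e z) = e z := by simp [hF, hf, e.left_inv he.2, h0]
  set I := a4.localInverse F _ _ with hI
  have i0 : I (e z) = e z := (congrArg I a5).symm.trans a4.localInverse_apply_image
  have i1 : AnalyticAt ℂ I (e z) := a5 ▸ (a3.to_localInverse a2 (by simp)).analyticAt
  have i2 := a4.to_localInverse.hasFDerivAt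
  have i3 := a4.eventually_right_inverse
  rw [a5] at i2 i3
  have l1 : HasDerivAt (fun s : ℂ => e z + s • ξ) ξ 0 := by
    simpa using ((hasDerivAt_id (0 : ℂ)).smul_const ξ).const_add (e z)
  have l0 : e z + (0 : ℂ) • ξ = e z := by simp
  have l2 : AnalyticAt ℂ (fun s : ℂ => I (e z + s • ξ)) 0 :=
    i1.comp_of_eq (analyticAt_const.add (analyticAt_id.smul analyticAt_const)) l0
  have l3 : Tendsto (fun s : ℂ => I (e z + s • ξ)) (𝓝 0) (𝓝 (e z)) := by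
    simpa [ContinuousAt, i0] using l2.continuousAt
  have l4 := (Slc.tendsto_symm he).comp l3
  have l5 : (fun s : ℂ => I (e z + s • ξ)) =ᶠ[𝓝 0] fun s => e (e.symm (I (e z + s • ξ))) :=
    (l3.eventually (e.open_target.mem_nhds (e.map_source he.2))).mono fun s k => (e.right_inv k).symm
  have l6 : e.symm (I (e z + (0 : ℂ) • ξ)) = z := by rw [l0, i0, e.left_inv he.2]
  refine ⟨fun s => e.symm (I (e z + s • ξ)), l6, by rwa [ContinuousAt, l6], ?_, l2.congr l5,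
    (HasFDerivAt.comp_hasDerivAt_of_eq 0 i2 l1 l0.symm).congr_of_eventuallyEq l5.symm⟩
  filter_upwards [l4.eventually h.1, (l0 ▸ l1.continuousAt.tendsto).eventually i3] with s k1 k2
  have k3 := congrArg (fun y => A (y - e z)) k2
  simp only [hF, add_sub_cancel_left, map_smul, show A ξ = 0 from hξ, add_sub_right_comm, map_add, hη,
    smul_eq_mul, mul_one, mul_zero, add_sub_cancel] at k3
  exact k1.1 k3

theorem sm_cont {φ : W → ℝ} {y : W} (h : SmR n φ y) : ContinuousAt φ y := by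
  have he := at_chartAt (n := n) y
  refine ((h _ he).continuousAt.comp ((chartAt (Cm n) y).continuousAt he.2)).congr ?_
  filter_upwards [(chartAt (Cm n) y).open_source.mem_nhds he.2] with x hx
  exact congrArg φ ((chartAt (Cm n) y).left_inv hx)

theorem fib_ev [T2Space W] {N : ℕ} {O : Set W} {t : W → Cm N} {Ω : Set (Cm N)} (h : Prp n O t Ω)
    {z : Cm N} (hz : z ∈ Ω) {p : W → Prop} (hp : ∀ w ∈ O, t w = z → ∀ᶠ v in 𝓝 w, p v) :
    ∀ᶠ y in 𝓝 z, ∀ v ∈ O, t v = y → p v := by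
  obtain ⟨L, L1, L2, L3⟩ := exists_compact_subset h.isOpen' hz
  have c : ∀ w ∈ O, ContinuousAt t w := fun w a =>
    continuousAt_pi.2 fun i => Hol.continuousAt' (h.hol w a i)
  have k : IsCompact (t '' ((O ∩ t ⁻¹' L) \ interior {v | p v})) :=
    ((h.proper L L3 L1).diff isOpen_interior).image_of_continuousOn
      fun w a => (c w a.1.1).continuousWithinAt
  filter_upwards [isOpen_interior.mem_nhds L2, k.isClosed.isOpen_compl.mem_nhds
    (show z ∉ _ from fun ⟨w, a, b⟩ => a.2 (mem_interior_iff_mem_nhds.2 (hp w a.1.1 b)))]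
    with y a b v v1 v2
  by_contra e
  exact b ⟨v, ⟨⟨v1, show t v ∈ L from v2 ▸ interior_subset a⟩, fun k => e (interior_subset k)⟩, v2⟩

theorem fac {x y : ℝ} (hx : 0 < x) (hy : 0 < y) (o : ℤ) (r c : ℝ) :
    (x ^ o) ^ 2 * exp (r * (-c * log (y ^ 2))) * (y * x) ^ (2 * (r * c)) =
      x ^ (2 * (o + r * c)) := by
  rw [← rpow_intCast, ← rpow_natCast, ← rpow_mul hx.le, rpow_def_of_pos hx, rpow_def_of_pos hx,
    rpow_def_of_pos (mul_pos hy hx), ← exp_add, ← exp_add, log_mul hy.ne' hx.ne', log_pow]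
  congr 1
  push_cast
  ring

/-- the negativity lemma, with one chart and one equation -/
def Core : Prop := For4 fun W _ _ => ∀ (κ : Type) [Fintype κ] (G : κ → Set W) (ex : Finset κ)
  (B : κ → Bd W) (τ : ∀ l, (B l).ι → W → ℂ) (c : κ → ℝ) (Λ : (∀ l, (B l).ι) → W → ℝ) (N : ℕ)
  (O : Set W) (t : W → Cm N) (Ω : Set (Cm N)) (z₀ : Cm N) (A : W → ℝ) (ι : Type)
  (typ : κ → W → ι) (u : ι → W → ℝ), Snc 4 G → (∀ l, IsDiv 4 (G l) (B l) (τ l)) →
  (∀ l, 0 ≤ c l) → (∀ l, 0 < c l ↔ l ∈ ex) → (∀ w ∈ O, Brg.PosX 4 B (-c) Λ w) → Prp 4 O t Ω →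
  z₀ ∈ Ω → (∀ l ∈ ex, ∀ w ∈ O, w ∈ G l → t w = z₀ → ∀ᶠ v in 𝓝[G l] w, typ l v = typ l w) →
  (∀ w ∈ O, t w = z₀ → ∃ (f : W → ℂ) (lam : W → ℝ), MerF G ex f w ∧
    (∀ᶠ v in 𝓝 w, SmR 4 lam v ∧ (v ∉ Ex G ex → A v = ‖f v‖ ^ 2 * exp (lam v))) ∧
    ∀ l ∈ ex, w ∈ G l → ∀ r : ℝ, 0 < r → ∀ k, (∀ a, w ∈ (B a).U (k a)) →
      ∀ᶠ v in 𝓝[G l] w, SmR 4 (u (typ l w)) v ∧ ∃ (ζ : W → ℂ) (e : Chart 4 W) (ξ : Cm 4),
        LEq 4 (G l) v ζ ∧ At e v ∧ dd ζ e v ξ = 0 ∧ (∀ i, dd (fun x => t x i) e v ξ = 0) ∧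
          0 < levi (fun z => lam (e.symm z) + u (typ l w) (e.symm z) + r * Λ k (e.symm z)) (e v) ξ) →
  ∀ w ∈ O, t w = z₀ → OLe (Ex G ex) A (fun _ => 1) w

theorem core (hL : StLoc) : Core := by
  intro W _ _ _ _ _ κ _ G ex B τ c Λ N O t Ω z₀ A ι typ u hG hB c0 cp hΛ ht hz h1 h2
  classical
  obtain ⟨L1, L2, -, L4, -⟩ := hL W κ G ex hG
  have nb : ∀ x, (𝓝[(Ex G ex)ᶜ] x).NeBot := fun x => by
    obtain ⟨U, -, a, b⟩ := L1 x
    exact mem_closure_iff_nhdsWithin_neBot.1 (closure_mono (interior_subset.trans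
      fun v k e => by obtain ⟨l, -, e⟩ := mem_iUnion₂.1 e; exact k l e) (b (a rfl)))
  have cz : ∀ l ∉ ex, c l = 0 := fun l a => (c0 l).eq_or_lt.elim Eq.symm fun b => absurd ((cp l).1 b) a
  choose k hk using fun y a => (hB a).lb.cover y
  have lq : ∀ w l, LEq 4 (G l) w (τ l (k w l)) := fun w l => (hB l).leq _ _ (hk w l)
  choose! f lam f1 f2 f3 using h2
  have key : ∀ w ∈ O, t w = z₀ → ∃ (o : κ → ℤ) (g : W → ℂ), (∀ l ∉ ex, o l = 0) ∧ Hol 4 g w ∧
      (∀ᶠ v in 𝓝 w, v ∉ Ex G ex → f w v = g v * ∏ l, τ l (k w l) v ^ o l) ∧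
      ∀ l ∈ ex, w ∈ G l → o l < 0 → ∃ᶠ v in 𝓝[G l] w, g v ≠ 0 ∧ ∀ m, m ≠ l → v ∉ G m := by
    intro w a b
    by_cases e : ∃ᶠ v in 𝓝 w, v ∉ Ex G ex ∧ f w v ≠ 0
    · obtain ⟨o, g, g1, g2, g3, g4, -⟩ := L4 _ w _ (f1 w a b) (lq w) e
      refine ⟨o, g, g1, g2, g3, fun l l1 l2 _ e => ?_⟩
      obtain ⟨v, v1, v2, v3, v4⟩ := ((((g4 l l1).self_of_nhdsWithin l2).and_eventually
        ((eventually_eventually_nhdsWithin.2 e).and (eventually_mem_nhdsWithin.and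
          (g2.near.filter_mono nhdsWithin_le_nhds)))).exists)
      obtain ⟨x, x1, x2, x3⟩ := ((L2 l v v3).and_eventually (v2.and
        ((v4.continuousAt'.eventually_ne v1).filter_mono nhdsWithin_le_nhds))).exists
      exact x2 ⟨x3, x1⟩
    · exact ⟨0, fun _ => 0, fun _ _ => rfl, fun _ _ => analyticAt_const,
        (not_frequently.1 e).mono fun v a b => by simpa [b] using a, fun _ _ _ k => absurd k (by simp)⟩
  choose! o g o0 g1 g2 g3 using key
  set P : ℝ → W → ℝ := fun r v =>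
    A v * exp (r * Λ (k v) v) * ∏ l, ‖τ l (k v l) v‖ ^ (2 * (r * c l)) with hP
  set R : W → ℝ → W → ℝ := fun w r v => ‖g w v‖ ^ 2 * exp (lam w v + r * Λ (k w) v) with hR
  set Q : W → ℝ → W → ℝ := fun w r v =>
    R w r v * ∏ l, ‖τ l (k w l) v‖ ^ (2 * (o w l + r * c l)) with hQ
  have hA : ∀ w ∈ O, t w = z₀ → ∀ r, ∀ᶠ v in 𝓝 w, v ∉ Ex G ex → P r v = Q w r v := by
    intro w a b r
    filter_upwards [f2 w a b, g2 w a b, (hΛ w a).chg,
      eventually_all.2 fun l => ((hB l).lb.isOpen _).mem_nhds (hk w l)] with v a1 a2 a3 a4 a5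
    have e : ∀ l ∈ Finset.univ, (‖τ l (k w l) v‖ ^ o w l) ^ 2 *
        exp (r * (-c l * log (‖(B l).g (k v l) (k w l) v‖ ^ 2))) *
        ‖τ l (k v l) v‖ ^ (2 * (r * c l)) = ‖τ l (k w l) v‖ ^ (2 * (o w l + r * c l)) := by
      intro l _
      by_cases e : l ∈ ex
      · rw [(hB l).sec.change _ _ v (hk v l) (a4 l), norm_mul]
        exact fac (norm_pos_iff.2 fun e' => a5 (mem_iUnion₂.2 ⟨l, e, ((hB l).leq _ _ (a4 l)).mem.1 e'⟩))
          (norm_pos_iff.2 ((hB l).lb.ne_zero _ _ v (hk v l) (a4 l))) _ _ _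
      · simp [cz l e, o0 w a b l e]
    simp only [hP, hQ, hR]
    rw [a1.2 a5, a2 a5, a3 _ _ (hk v) a4, ← Finset.prod_congr rfl e, Finset.prod_mul_distrib,
      Finset.prod_mul_distrib, ← exp_sum, ← Finset.mul_sum, Finset.prod_pow, norm_mul, norm_prod,
      mul_add, exp_add, exp_add]
    simp only [norm_zpow, Pi.neg_apply]
    ring
  have hS : ∀ w ∈ O, t w = z₀ → ∀ᶠ v in 𝓝 w, Hol 4 (g w) v ∧ SmR 4 (lam w) v ∧
      SmR 4 (Λ (k w)) v ∧ ∀ l, LEq 4 (G l) v (τ l (k w l)) := by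
    intro w a b
    filter_upwards [(g1 w a b).near, f2 w a b, (hΛ w a).all (fun l => Brg.lbn_of_isLB (hB l).lb univ)
      (mem_univ w) (hk w), eventually_all.2 fun l => (lq w l).near] with v a1 a2 a3 a4
    exact ⟨a1, a2.1, fun e he => (a3 e he).1, a4⟩
  have hRc : ∀ w r v, Hol 4 (g w) v → SmR 4 (lam w) v → SmR 4 (Λ (k w)) v → ContinuousAt (R w r) v :=
    fun w r v a1 a2 a3 => (a1.continuousAt'.norm.pow 2).mul
      ((sm_cont a2).add (continuousAt_const.mul (sm_cont a3))).rexp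
  have hC : ∀ w ∈ O, t w = z₀ → ∀ r, (∀ l, w ∈ G l → 0 ≤ o w l + r * c l) →
      ∀ᶠ v in 𝓝 w, ContinuousAt (Q w r) v := by
    intro w a b r h
    filter_upwards [hS w a b, eventually_all.2 fun l => show ∀ᶠ v in 𝓝 w, v ∈ G l → w ∈ G l from
      (em (w ∈ G l)).elim (fun e => .of_forall fun _ _ => e)
        fun e => ((lq w l).not_mem_near e).mono fun _ x y => absurd y x] with v a1 a2
    exact (hRc w r v a1.1 a1.2.1 a1.2.2.1).mul (tendsto_finsetProd _ fun l _ =>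
      (a1.2.2.2 l).hol.continuousAt'.norm.rpow_const ((em (v ∈ G l)).elim
        (fun e => .inr (by linarith [h l (a2 l e)]))
        fun e => .inl (norm_ne_zero_iff.2 (mt (a1.2.2.2 l).mem.1 e))))
  have hD : ∀ w ∈ O, t w = z₀ → ∀ r, (∀ l, w ∈ G l → 0 ≤ o w l + r * c l) →
      OLe (Ex G ex) (P r) (fun _ => 1) w := fun w a b r h => ⟨Q w r w + 1, by
    filter_upwards [hA w a b r, (hC w a b r h).self_of_nhds.eventually (gt_mem_nhds (lt_add_one _))]
      with v a1 a2 a3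
    rw [a1 a3, mul_one]
    exact a2.le⟩
  have hE : ∀ w ∈ O, t w = z₀ → ∀ r, 0 ≤ r → OLe (Ex G ex) (P r) (fun _ => 1) w →
      ∀ l, w ∈ G l → 0 ≤ o w l + r * c l := by
    intro w a b r r0 ⟨C, h⟩ l hl
    by_contra! e
    have e1 : o w l < 0 := by
      have := mul_nonneg r0 (c0 l)
      exact_mod_cast (by linarith : (o w l : ℝ) < 0)
    have e2 : l ∈ ex := by_contra fun k => e1.ne (o0 w a b l k)
    obtain ⟨v, ⟨⟨v1, v2⟩, v3⟩, v4, v5⟩ := (((g3 w a b l e2 hl e1).and_eventually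
      self_mem_nhdsWithin).and_eventually (((h.and (hA w a b r)).eventually_nhds.and
        (hS w a b)).filter_mono nhdsWithin_le_nhds)).exists
    have k1 : ContinuousAt (fun x => R w r x *
        ∏ m ∈ Finset.univ.erase l, ‖τ m (k w m) x‖ ^ (2 * (o w m + r * c m))) v :=
      (hRc w r v v5.1 v5.2.1 v5.2.2.1).mul (tendsto_finsetProd _ fun m hm =>
        (v5.2.2.2 m).hol.continuousAt'.norm.rpow_const (.inl (norm_ne_zero_iff.2
          (mt (v5.2.2.2 m).mem.1 (v2 m (Finset.ne_of_mem_erase hm))))))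
    have k2 : Tendsto (fun x => ‖τ l (k w l) x‖) (𝓝[(Ex G ex)ᶜ] v) (𝓝[>] 0) := by
      refine tendsto_nhdsWithin_iff.2 ⟨?_, ?_⟩
      · have := (v5.2.2.2 l).hol.continuousAt'.norm
        rw [ContinuousAt, (v5.2.2.2 l).mem.2 v3, norm_zero] at this
        exact this.mono_left nhdsWithin_le_nhds
      · filter_upwards [self_mem_nhdsWithin, nhdsWithin_le_nhds (v5.2.2.2 l).1] with x x1 x2
        exact norm_pos_iff.2 fun e => x1 (mem_iUnion₂.2 ⟨l, e2, x2.1 e⟩)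
    have k3 := (k1.tendsto.mono_left nhdsWithin_le_nhds).pos_mul_atTop
      (mul_pos (mul_pos (pow_pos (norm_pos_iff.2 v1) 2) (exp_pos _)) (Finset.prod_pos fun m hm =>
        rpow_pos_of_pos (norm_pos_iff.2 (mt (v5.2.2.2 m).mem.1 (v2 m (Finset.ne_of_mem_erase hm)))) _))
      ((tendsto_rpow_neg_nhdsGT_zero (by linarith : 2 * (o w l + r * c l) < 0)).comp k2)
    have := nb v
    obtain ⟨x, x1, x2, x3⟩ := ((k3.eventually (eventually_gt_atTop C)).and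
      (eventually_mem_nhdsWithin.and (v4.filter_mono nhdsWithin_le_nhds))).exists
    have x4 := x3.1 x2
    rw [x3.2 x2, mul_one, hQ] at x4
    simp only [← Finset.prod_erase_mul _ _ (Finset.mem_univ l), ← mul_assoc] at x4
    exact x1.not_ge x4
  set s : W → ℝ := fun w => ⨆ l, if w ∈ G l then -o w l / c l else 0 with hs
  have s1 : ∀ w ∈ O, t w = z₀ → ∀ r, s w ≤ r → ∀ l, w ∈ G l → 0 ≤ o w l + r * c l := by
    intro w a b r h l hl
    have := (le_ciSup (f := fun l => if w ∈ G l then -(o w l : ℝ) / c l else 0)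
      (Finite.bddAbove_range _) l).trans h
    rw [if_pos hl] at this
    by_cases e : l ∈ ex
    · rw [div_le_iff₀ ((cp l).2 e)] at this
      linarith
    · simp [cz l e, o0 w a b l e]
  have s2 : ∀ w ∈ O, t w = z₀ → ∀ r, 0 ≤ r → OLe (Ex G ex) (P r) (fun _ => 1) w → s w ≤ r := by
    intro w a b r r0 h
    refine Real.iSup_le (fun l => ?_) r0
    split_ifs with hl
    · have := hE w a b r r0 h l hl
      by_cases e : l ∈ ex
      · rw [div_le_iff₀ ((cp l).2 e)]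
        linarith
      · simpa [cz l e] using r0
    · exact r0
  intro w₁ w1 w2
  by_contra w3
  have w4 : 0 < s w₁ := not_le.1 fun h => w3 (by simpa [hP] using hD w₁ w1 w2 0 (s1 w₁ w1 w2 0 h))
  obtain ⟨w₀, ⟨p1, p2⟩, p3⟩ := UpperSemicontinuousOn.exists_isMaxOn (f := fun w => max (s w) 0)
    (s := O ∩ t ⁻¹' {z₀}) ⟨w₁, w1, w2⟩ (ht.proper {z₀} (singleton_subset_iff.2 hz) isCompact_singleton) fun w a y b => by
      obtain ⟨C, h⟩ := hD w a.1 a.2 _ (s1 w a.1 a.2 _ (le_max_left _ 0))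
      filter_upwards [self_mem_nhdsWithin, nhdsWithin_le_nhds h.eventually_nhds] with v a1 a2
      exact (max_le (s2 v a1.1 a1.2 _ (le_max_right _ _) ⟨C, a2⟩) (le_max_right _ _)).trans_lt b
  have r0 : 0 < s w₀ := (lt_max_iff.1 (w4.trans_le ((le_max_left _ _).trans
    (p3 (show w₁ ∈ O ∩ t ⁻¹' {z₀} from ⟨w1, w2⟩))))).resolve_right (lt_irrefl _)
  set r := s w₀ with hr
  have r1 : ∀ w ∈ O, t w = z₀ → ∀ l, w ∈ G l → 0 ≤ o w l + r * c l := fun w a b =>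
    s1 w a b r ((le_max_left _ _).trans ((p3 (show w ∈ O ∩ t ⁻¹' {z₀} from ⟨a, b⟩)).trans
      (max_le le_rfl r0.le)))
  obtain ⟨l, l1, l2, l3⟩ : ∃ l ∈ ex, w₀ ∈ G l ∧ o w₀ l + r * c l = 0 := by
    rcases isEmpty_or_nonempty κ with _ | _
    · simp [hr, hs] at r0
    obtain ⟨l, hl⟩ := exists_eq_ciSup_of_finite
      (f := fun l => if w₀ ∈ G l then -(o w₀ l : ℝ) / c l else 0)
    have e : (if w₀ ∈ G l then -(o w₀ l : ℝ) / c l else 0) = r := hl
    split_ifs at e with e1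
    · have e2 : l ∈ ex := by_contra fun k => r0.ne (by rw [← e, cz l k, div_zero])
      exact ⟨l, e2, e1, by rw [← e, div_mul_cancel₀ _ ((cp l).2 e2).ne', add_neg_cancel]⟩
    · exact absurd e r0.ne
  have l4 : o w₀ l < 0 := by
    have := mul_pos r0 ((cp l).2 l1)
    exact_mod_cast (by linarith : (o w₀ l : ℝ) < 0)
  set T : W → ℝ := fun x => limUnder (𝓝[(Ex G ex)ᶜ] x) (P r) * exp (u (typ l x) x) with hT
  have hgd : ∀ w ∈ O, t w = z₀ → ∀ᶠ v in 𝓝 w, v ∈ G l → ContinuousAt (Q w r) v ∧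
      (Hol 4 (g w) v ∧ SmR 4 (lam w) v ∧ SmR 4 (Λ (k w)) v ∧ ∀ l, LEq 4 (G l) v (τ l (k w l))) ∧
      (∀ᶠ x in 𝓝[G l] v, T x = Q w r x * exp (u (typ l w) x)) ∧ SmR 4 (u (typ l w)) v ∧
      ∃ (ζ : W → ℂ) (e : Chart 4 W) (ξ : Cm 4), LEq 4 (G l) v ζ ∧ At e v ∧
        dd ζ e v ξ = 0 ∧ (∀ i, dd (fun x => t x i) e v ξ = 0) ∧ 0 < levi (fun z =>
          lam w (e.symm z) + u (typ l w) (e.symm z) + r * Λ (k w) (e.symm z)) (e v) ξ := by
    intro w a b
    by_cases e : w ∈ G l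
    swap
    · exact ((lq w l).not_mem_near e).mono fun _ x y => absurd y x
    have e1 : ∀ᶠ x in 𝓝[G l] w, T x = Q w r x * exp (u (typ l w) x) := by
      filter_upwards [h1 l l1 w a e b, nhdsWithin_le_nhds
        ((hA w a b r).eventually_nhds.and (hC w a b r (r1 w a b)))] with x x1 x2
      have := nb x
      rw [hT, ← x1]
      exact congrArg (· * _) (Tendsto.limUnder_eq (f := 𝓝[(Ex G ex)ᶜ] x)
        ((x2.2.tendsto.mono_left nhdsWithin_le_nhds).congr'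
          (eventually_nhdsWithin_iff.2 (x2.1.mono fun _ y1 y2 => (y1 y2).symm))))
    filter_upwards [hC w a b r (r1 w a b), hS w a b, eventually_nhdsWithin_iff.1
      ((eventually_eventually_nhdsWithin.2 e1).and (f3 w a b l l1 e r r0 _ (hk w)))]
      with v v1 v2 v3 v4
    exact ⟨v1, v2, (v3 v4).1, (v3 v4).2⟩
  obtain ⟨V, V1, V2, V3⟩ := eventually_nhds_iff.1 ((fib_ev ht hz fun w a b =>
    (hgd w a b).mono fun v h => Exists.intro w h).and (ht.isOpen'.mem_nhds hz))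
  have tc : ∀ w ∈ O, ContinuousAt t w := fun w a =>
    continuousAt_pi.2 fun i => Hol.continuousAt' (ht.hol w a i)
  obtain ⟨z₁, ⟨⟨z1, z2⟩, z3⟩, z4, z5, z6⟩ := (((g3 w₀ p1 p2 l l1 l2 l4).and_eventually
    self_mem_nhdsWithin).and_eventually (((hgd w₀ p1 p2).and (Eventually.and
      (ht.isOpen.mem_nhds p1) ((tc w₀ p1).eventually (V2.mem_nhds (p2.symm ▸ V3))))).filter_mono
        nhdsWithin_le_nhds)).exists
  refine maxq (S := G l) (P := T) ht.isOpen V2 (fun w a => (tc w a).continuousWithinAt)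
    (fun K a b => (ht.proper K (fun y e => (V1 y (a e)).2) b).inter_right (hB l).closed)
    (fun z a1 a2 a3 => ?_) z3 z5 z6 ?_ fun z a1 a2 a3 a4 => ?_
  · obtain ⟨w, h⟩ := (V1 _ a3).1 z a2 rfl
    obtain ⟨b1, -, b3, b4, -⟩ := h a1
    exact (b1.mul (sm_cont b4).rexp).continuousWithinAt.congr_of_eventuallyEq_of_mem b3 a1
  · rw [(z4 z3).2.2.1.self_of_nhdsWithin z3]
    refine mul_pos (mul_pos (mul_pos (pow_pos (norm_pos_iff.2 z1) 2) (exp_pos _))
      (Finset.prod_pos fun m _ => ?_)) (exp_pos _)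
    by_cases e : m = l
    · simp [e, l3]
    · exact rpow_pos_of_pos (norm_pos_iff.2 (mt ((z4 z3).2.1.2.2.2 m).mem.1 (z2 m e))) _
  obtain ⟨w, h⟩ := (V1 _ a3).1 z a2 rfl
  obtain ⟨-, ⟨b1, b2, b3, b4⟩, b5, b6, ζ, e, ξ, b7, he, x1, x2, x3⟩ := h a1
  obtain ⟨γ, rfl, y2, y3, y4, y5⟩ := disc b7 a1 he x1
  have y6 : ∀ᶠ s in 𝓝 (0 : ℂ), e.symm (e (γ s)) = γ s :=
    (y2.eventually (e.open_source.mem_nhds he.2)).mono fun _ => e.left_inv
  have y7 : ∀ h, Hol 4 h (γ 0) → AnalyticAt ℂ (fun s => h (γ s)) 0 := fun h a =>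
    ((a e he).comp (f := fun s => e (γ s)) y4).congr (y6.mono fun _ => congrArg h)
  rw [b5.self_of_nhdsWithin a1] at a4
  have d0 : Q w r (γ 0) ≠ 0 := left_ne_zero_of_mul a4.ne'
  have d1 : g w (γ 0) ≠ 0 := fun e => d0 (by simp [hQ, hR, e])
  have d2 : ∀ m, 2 * (o w m + r * c m) = 0 ∨ τ m (k w m) (γ 0) ≠ 0 := fun m =>
    or_iff_not_imp_left.2 fun e e' => d0 (mul_eq_zero_of_right _
      (Finset.prod_eq_zero (Finset.mem_univ m) (by rw [e', norm_zero, zero_rpow e])))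
  refine ⟨γ, rfl, y2, y3, AnalyticAt.pi fun i => y7 (fun w => t w i) (ht.hol _ a2 i), ?_, _, div_pos x3 four_pos, ?_⟩
  · refine (hasDerivAt_pi.2 fun i => ?_).deriv
    have := ((ht.hol _ a2 i e he).differentiableAt.hasFDerivAt.comp_hasDerivAt 0
      y5).congr_of_eventuallyEq (f₁ := fun s => t (γ s) i) (y6.mono fun _ k => by simp [k])
    rwa [show fderiv ℂ (fun z => t (e.symm z) i) (e (γ 0)) ξ = 0 from x2 i] at this
  have u1 := up_comp (f := fun z => lam w (e.symm z) + u (typ l w) (e.symm z) + r * Λ (k w) (e.symm z))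
    y4 ((((b2 e he).add (b6 e he)).add (contDiffAt_const.mul (b3 e he))).of_le (by norm_cast))
  rw [y5.deriv] at u1
  have u2 := (u1.add (up_log (y7 _ b1) d1 2)).add (up_sum Finset.univ (b := fun _ => 0)
    (f := fun m s => 2 * (o w m + r * c m) * log ‖τ m (k w m) (γ s)‖) fun m _ => (d2 m).elim
      (fun e => by simpa [e] using up_const 0) fun e => up_log (y7 _ (b4 m).hol) e _)
  rw [Finset.sum_const_zero, add_zero, add_zero] at u2
  refine u2.congr ?_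
  filter_upwards [y6, (tendsto_nhdsWithin_iff.2 ⟨y2, y3⟩).eventually b5,
    y2.eventually (b1.continuousAt'.eventually_ne d1), y2.eventually (eventually_all.2 fun m =>
    show ∀ᶠ x in 𝓝 (γ 0), 2 * (o w m + r * c m) = 0 ∨ τ m (k w m) x ≠ 0 from (d2 m).elim
      (fun e => .of_forall fun _ => .inl e)
      fun e => ((b4 m).hol.continuousAt'.eventually_ne e).mono fun _ => .inr)] with x e0 e1 e2 e3
  have e4 : ∀ m ∈ Finset.univ, ‖τ m (k w m) (γ x)‖ ^ (2 * (o w m + r * c m)) ≠ 0 := fun m _ =>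
    (e3 m).elim (fun e => by simp [e]) fun e => (rpow_pos_of_pos (norm_pos_iff.2 e) _).ne'
  have e5 := pow_ne_zero 2 (norm_ne_zero_iff.2 e2)
  have e6 : ∀ m ∈ Finset.univ, log (‖τ m (k w m) (γ x)‖ ^ (2 * (o w m + r * c m))) =
      2 * (o w m + r * c m) * log ‖τ m (k w m) (γ x)‖ := fun m _ =>
    (e3 m).elim (fun e => by simp [e]) fun e => log_rpow (norm_pos_iff.2 e) _
  simp only [e1, e0, hQ, hR]
  rw [log_mul (mul_ne_zero (mul_ne_zero e5 (exp_pos _).ne') (Finset.prod_ne_zero_iff.2 e4))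
    (exp_pos _).ne', log_mul (mul_ne_zero e5 (exp_pos _).ne') (Finset.prod_ne_zero_iff.2 e4),
    log_mul e5 (exp_pos _).ne', log_exp, log_exp, log_prod e4, Finset.sum_congr rfl e6, log_pow]
  push_cast
  ring

end Ng

theorem neg_of (hL : StLoc) : StNeg := by
  intro W _ _ _ _ _ κ _ G ex B τ c Λ N O t Ω z₀ A ι typ u hG hB c0 cp hΛ ht hz h1 h2
  refine Ng.core hL W κ G ex B τ c Λ N O t Ω z₀ A ι typ u hG hB c0 cp hΛ ht hz
    (fun l a w b c d => (h1 l a w b c d).self_of_nhdsWithin c) fun w a b => ?_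
  obtain ⟨f, lam, f1, f2, f3⟩ := h2 w a b
  refine ⟨f, lam, f1, f2, fun l l1 l2 r r0 k hk => (f3 l l1 l2 r r0 k hk).mono fun v h => ⟨h.1, ?_⟩⟩
  obtain ⟨ζ, hζ⟩ := (hB l).ex v
  obtain ⟨ξ, -, x⟩ := h.2 ζ _ hζ (at_chartAt v)
  exact ⟨ζ, _, ξ, hζ, at_chartAt v, x⟩

end Vale.Agent.P277Z.Cls
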