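import Vale.Agent.P277Z.Cls.Neg
import Vale.Agent.P277Z.Slc.Bridge
import Vale.Agent.P277.A.Emb
import Vale.Agent.P284Y.Lib.GlC

/-!
# P277, block CLS: the positivity in the comparison of bundles of the same class
-/

open scoped Manifold ContDiff Topology ComplexOrder
open Vale.Agent.P272.K Vale.Agent.P285.H281.FD Vale.Agent.P277 Set Filter
open Vale.Agent.P277.PH (SmR)
open Vale.Agent.P284Z (levi cHess_quad)
open Vale.Agent.P284Y.Lib (levi_hol levi_add levi_contAt levi_congr levi_smul levi_const_mul)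
open Vale.Agent.P277Z.Tr (HolM)
open Vale.Agent.P277Z.Slc (LEq dd at_chartAt tendsto_symm)
open Vale.Agent.P277Z.Brg (MetN)

noncomputable section

namespace Vale.Agent.P277Z.Cls.Ngp

section loc

variable {m n : ℕ} {H W : Type} [TopologicalSpace H] [TopologicalSpace W] [ChartedSpace (Cm m) H]
  [ChartedSpace (Cm n) W] {f : H → W} {x : H} {c : Chart m H} {e : Chart n W}

theorem c2 {u : W → ℝ} {w : W} (h : SmR n u w) (he : At e w) :
    ContDiffAt ℝ 2 (fun z => u (e.symm z)) (e w) := (h e he).of_le (by norm_cast)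

theorem ev_comp (hf : HolM m n f) (hc : At c x) (he : At e (f x)) {α : Type} (u : W → α) :
    (fun z => u (f (c.symm z))) =ᶠ[𝓝 (c x)] fun z => u (e.symm (e (f (c.symm z)))) :=
  ((tendsto_symm hc).eventually (hf.1.continuousAt.eventually
    (e.open_source.mem_nhds he.2))).mono fun _ k => congrArg u (e.left_inv k).symm

theorem levi_comp (hf : HolM m n f) (hc : At c x) (he : At e (f x)) {u : W → ℝ}
    (hu : ContDiffAt ℝ 2 (fun z => u (e.symm z)) (e (f x))) (w : Cm m) :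
    levi (fun z => u (f (c.symm z))) (c x) w =
      levi (fun z => u (e.symm z)) (e (f x)) (fderiv ℂ (fun z => e (f (c.symm z))) (c x) w) := by
  have := levi_hol (u := fun z => u (e.symm z)) (w := w) (hf.2 x c e hc he)
    (by rwa [c.left_inv hc.2])
  rw [c.left_inv hc.2] at this
  exact (levi_congr (ev_comp hf hc he u)).trans this

theorem c2_comp (hf : HolM m n f) (hc : At c x) (he : At e (f x)) {u : W → ℝ}
    (hu : ContDiffAt ℝ 2 (fun z => u (e.symm z)) (e (f x))) :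
    ContDiffAt ℝ 2 (fun z => u (f (c.symm z))) (c x) :=
  (ContDiffAt.comp (g := fun z => u (e.symm z)) _ (by rwa [c.left_inv hc.2])
    ((hf.2 x c e hc he).contDiffAt.restrict_scalars ℝ)).congr_of_eventuallyEq (ev_comp hf hc he u)

theorem dd_comp (hf : HolM m n f) (hc : At c x) (he : At e (f x)) {g : W → ℂ}
    (hg : Hol n g (f x)) (w : Cm m) : dd (fun y => g (f y)) c x w =
      dd g e (f x) (fderiv ℂ (fun z => e (f (c.symm z))) (c x) w) := by
  have := (HasFDerivAt.comp (g := fun z => g (e.symm z)) (c x)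
    (by rw [c.left_inv hc.2]; exact (hg e he).differentiableAt.hasFDerivAt)
    (hf.2 x c e hc he).differentiableAt.hasFDerivAt).fderiv
  rw [dd, (ev_comp hf hc he g).fderiv_eq]
  exact congrArg (fun A : Cm m →L[ℂ] ℂ => A w) this

theorem hol_comp (hf : HolM m n f) {g : W → ℂ} (hg : Hol n g (f x)) : Hol m (fun y => g (f y)) x :=
  fun c hc => (AnalyticAt.comp (g := fun z => g ((chartAt (Cm n) (f x)).symm z))
    (by rw [c.left_inv hc.2]; exact hg _ (at_chartAt _)) (hf.2 x c _ hc (at_chartAt _))).congr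
      (ev_comp hf hc (at_chartAt _) g).symm

theorem sm_comp (hf : HolM m n f) {u : W → ℝ} (hu : SmR n u (f x)) : SmR m (fun y => u (f y)) x :=
  fun c hc => (ContDiffAt.comp (g := fun z => u ((chartAt (Cm n) (f x)).symm z)) _
    (by rw [c.left_inv hc.2]; exact hu _ (at_chartAt _))
    ((hf.2 x c _ hc (at_chartAt _)).contDiffAt.restrict_scalars ℝ)).congr_of_eventuallyEq
      (ev_comp hf hc (at_chartAt _) u)

theorem der_zero {N : ℕ} {t : H → Cm N} (ht : ∀ i, Hol m (fun y => t y i) x) (hc : At c x) {ξ : Cm m}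
    (h0 : ∀ i, dd (fun y => t y i) c x ξ = 0) : fderiv ℂ (fun z => t (c.symm z)) (c x) ξ = 0 := by
  rw [fderiv_pi fun i => (ht i c hc).differentiableAt]
  exact funext h0

theorem dd_fac {N : ℕ} {t : H → Cm N} (ht : ∀ i, Hol m (fun y => t y i) x) (hc : At c x) {ξ : Cm m}
    (h0 : ∀ i, dd (fun y => t y i) c x ξ = 0) {F : H → ℂ} {g : Cm N → ℂ}
    (hg : AnalyticAt ℂ g (t x)) (hF : ∀ᶠ y in 𝓝 x, F y = g (t y)) : dd F c x ξ = 0 := by
  have := fderiv_comp (g := g) (f := fun z => t (c.symm z)) (c x)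
    (by rw [c.left_inv hc.2]; exact hg.differentiableAt)
    (differentiableAt_pi.2 fun i => (ht i c hc).differentiableAt)
  rw [Slc.dd_congr hF hc, dd]
  exact (congrArg (fun A : Cm m →L[ℂ] ℂ => A ξ) this).trans
    (by rw [ContinuousLinearMap.comp_apply, der_zero ht hc h0, map_zero])

theorem dd_tan {G : Set W} {w : W} {ζ h : W → ℂ} (hζ : LEq n G w ζ) (hw : w ∈ G) (he : At e w)
    (hh : Hol n h w) (h0 : ∀ᶠ v in 𝓝[G] w, h v = 0) {ξ : Cm n} (hξ : dd ζ e w ξ = 0) :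
    dd h e w ξ = 0 := by
  obtain ⟨γ, rfl, y2, y3, -, y5⟩ := Ng.disc hζ hw he hξ
  refine ((hh e he).differentiableAt.hasFDerivAt.comp_hasDerivAt 0 y5).unique
    ((hasDerivAt_const (0 : ℂ) (0 : ℂ)).congr_of_eventuallyEq ?_)
  filter_upwards [(tendsto_nhdsWithin_iff.2 ⟨y2, y3⟩).eventually h0,
    y2.eventually (e.open_source.mem_nhds he.2)] with s a b
  exact (congrArg h (e.left_inv b)).trans a

variable [IsManifold 𝓘(ℂ, Cm n) ω W]

/-- positivity on the kernel is an open condition -/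
theorem opn {β : Type} [Finite β] {g : β → W → ℂ} {w : W} (hg : ∀ b, Hol n (g b) w) (he : At e w)
    {φ : Cm n → ℝ} (hφ : ContDiffAt ℝ 2 φ (e w))
    (h : ∀ ξ, ξ ≠ 0 → (∀ b, dd (g b) e w ξ = 0) → 0 < levi φ (e w) ξ) :
    ∀ᶠ v in 𝓝 w, ∀ ξ, ξ ≠ 0 → (∀ b, dd (g b) e v ξ = 0) → 0 < levi φ (e v) ξ := by
  have k := (isCompact_sphere (0 : Cm n) 1).eventually_forall_of_forall_eventually (x₀ := w)
    (P := fun v ξ => (∀ b, dd (g b) e v ξ = 0) → 0 < levi φ (e v) ξ) fun ξ hξ => by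
      by_cases a : ∀ b, dd (g b) e w ξ = 0
      · have k1 : ContinuousAt (fun q : W × Cm n => (e q.1, q.2)) (w, ξ) :=
          (ContinuousAt.comp (f := Prod.fst) (e.continuousAt he.2) continuousAt_fst).prodMk
            continuousAt_snd
        exact (((levi_contAt hφ).comp_of_eq k1 rfl).eventually (lt_mem_nhds
          (h ξ (Metric.ne_of_mem_sphere hξ one_ne_zero) a))).mono fun _ b _ => b
      · obtain ⟨b, a⟩ := not_forall.1 a
        have k1 : ContinuousAt (fun q : W × Cm n => dd (g b) e q.1 q.2) (w, ξ) :=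
          (ContinuousAt.comp (g := fun v => dd (g b) e v) (f := Prod.fst) (Slc.dd_cont (hg b) he)
            continuousAt_fst).clm_apply continuousAt_snd
        exact (k1.eventually_ne a).mono fun _ k k' => absurd (k' b) k
  filter_upwards [k] with v hv ξ a b
  have a1 : 0 < ‖ξ‖ := norm_pos_iff.2 a
  have := hv (‖ξ‖⁻¹ • ξ) (by simp [norm_smul, a1.ne']) fun i => by
    rw [ContinuousLinearMap.map_smul_of_tower, b i, smul_zero]
  rw [levi_smul] at this
  exact pos_of_mul_pos_right this (sq_nonneg _)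

/-- having a kernel is a closed condition -/
theorem cls {β : Type} [Finite β] {g : β → W → ℂ} {w : W} (hg : ∀ b, Hol n (g b) w) (he : At e w)
    (h : ∃ᶠ v in 𝓝 w, ∃ ξ, ξ ≠ 0 ∧ ∀ b, dd (g b) e v ξ = 0) :
    ∃ ξ, ξ ≠ 0 ∧ ∀ b, dd (g b) e w ξ = 0 := by
  by_contra k
  obtain ⟨v, ⟨ξ, a, b⟩, d⟩ := (h.and_eventually (opn hg he (φ := fun _ => 0) contDiffAt_const
    fun ξ a b => absurd ⟨ξ, a, b⟩ k)).exists
  simpa [levi] using d ξ a b

end loc

theorem dense_fin {W ι : Type} [TopologicalSpace W] {Z : Set W} {C : ι → Set W}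
    (hC : ∀ k, IsClosed (C k)) {w : W} (h : ∀ k, ∀ᶠ v in 𝓝[Z] w, ∃ᶠ x in 𝓝[Z] v, x ∉ C k)
    (s : Finset ι) : ∀ᶠ v in 𝓝[Z] w, ∃ᶠ x in 𝓝[Z] v, ∀ k ∈ s, x ∉ C k := by
  classical
  induction s using Finset.induction_on with
  | empty =>
    filter_upwards [self_mem_nhdsWithin] with v hv
    have := nhdsWithin_neBot_of_mem hv
    exact .of_forall (by simp)
  | insert a s _ ih =>
    filter_upwards [ih, eventually_eventually_nhdsWithin.2 (h a)] with v h1 h2 e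
    obtain ⟨x, x1, x2, x3⟩ := (h1.and_eventually
      (h2.and (eventually_eventually_nhdsWithin.2 e))).exists
    obtain ⟨y, y1, y2, y3⟩ := (x2.and_eventually (x3.and (((eventually_all_finset s).2 fun k a =>
      (hC k).isOpen_compl.mem_nhds (x1 k a)).filter_mono nhdsWithin_le_nhds))).exists
    exact y2 (Finset.forall_mem_insert .. |>.2 ⟨y1, y3⟩)

end Vale.Agent.P277Z.Cls.Ngp

namespace Vale.Agent.P277Z.Cls.Nk

open Ngp

theorem ker (hL : StLoc) {X : Ctx} {L : Fin X.q → Bd X.V.W} {S : X.Sf L} (M : Md S)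
    {y : X.Y.pt} (hy : y ∈ M.O) (hc : ∃ O' ∈ 𝓝 y, M.Ctr O') {Λ : Bd X.U.W} {t : X.Y.pt → ℂ}
    (ht : X.Y.Hol t y) (hV : X.VT Λ y t) :
    ∃ (χ : Λ.ι → X.U.W → ℝ) (ι : Type) (typ : Fin X.V.r ⊕ Fin M.Z.r → M.Z.W → ι)
      (u : ι → M.Z.W → ℝ), MetN 4 (X.p ⁻¹' {y}) Λ χ ∧
      (∀ l, ∀ w ∈ M.Z.G l, ∀ᶠ v in 𝓝[M.Z.G l] w, typ l v = typ l w) ∧
      ∀ m, ∀ w ∈ M.D m, M.b w = y → ∀ i, X.μ (M.Z.π w) ∈ Λ.U i → ∀ l ∈ exU X.ex, w ∈ M.Z.G l →
      ∀ r : ℝ, 0 < r → ∀ k, (∀ a, w ∈ (M.B a).U (k a)) → ∀ᶠ v in 𝓝[M.Z.G l] w,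
        SmR 4 (u (typ l w)) v ∧ ∃ (ζ : M.Z.W → ℂ) (e : Chart 4 M.Z.W) (ξ : Cm 4),
          LEq 4 (M.Z.G l) v ζ ∧ At e v ∧ dd ζ e v ξ = 0 ∧
          (∀ j, dd (fun x => Fin.append (M.t x) (M.ν m x) j) e v ξ = 0) ∧
          0 < levi (fun z => -χ i (X.μ (M.Z.π (e.symm z))) + u (typ l w) (e.symm z) +
            r * M.Λ k (e.symm z)) (e v) ξ := by
  obtain ⟨χ, u, hχ, hu⟩ := hV
  classical
  obtain ⟨-, -, -, -, L5⟩ := hL M.Z.W _ M.Z.G (exU X.ex) M.Z.snc
  obtain ⟨O', o1, o2⟩ := hc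
  have bc : Continuous M.b := X.hyp.res.cont.comp M.Z.bl.cont
  set f : M.Z.W → X.U.W := fun w => X.μ (M.Z.π w) with hf
  have f0 : ∀ x g, Hol 4 g (f x) → Hol 4 (fun y => g (f y)) x := fun x g h =>
    M.Z.bl.hol x _ (Ngp.hol_comp X.hyp.hol h)
  have f1 : HolM 4 4 f := ⟨X.hyp.hol.1.comp M.Z.bl.cont, fun x e e' a b =>
    AnalyticAt.pi fun i => f0 x (fun y => e' y i) (Val.holF_chart b i) e a⟩
  have f2 : ∀ x, X.p (f x) = M.b x := fun x => X.hyp.fac _
  choose η hη using fun z => (Slc.snc_of_isSnc X.U.snc z).imp fun _ h => h.1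
  have f3 : ∀ l k, ∀ w ∈ M.Z.G l, (∀ᶠ v in 𝓝[M.Z.G l] w, f v ∈ X.U.G k) ∨
      ∀ᶠ v in 𝓝[M.Z.G l] w, ∃ᶠ x in 𝓝[M.Z.G l] v, f x ∉ X.U.G k := by
    intro l k w a
    have e : ∀ᶠ v in 𝓝[M.Z.G l] w, η (f w) k (f v) = 0 ↔ f v ∈ X.U.G k :=
      nhdsWithin_le_nhds (f1.1.continuousAt.eventually (hη (f w) k).1)
    refine or_iff_not_imp_right.2 fun h => (e.and (L5 l _ w a (f0 w _ (hη _ k).hol)
      (((not_eventually.1 h).and_eventually (eventually_eventually_nhdsWithin.2 e)).mono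
        fun v b => ?_))).mono fun v b => b.1.1 b.2
    exact ((not_frequently.1 b.1).and b.2).mono fun x c => c.2.2 (not_not.1 c.1)
  refine ⟨χ, _, fun l v => {k | ∀ᶠ x in 𝓝[M.Z.G l] v, f x ∈ X.U.G k},
    fun K v => if h : K.Nonempty then u h.some (f v) else 0, hχ, fun l w hw => ?_, ?_⟩
  · refine (eventually_all.2 fun k => ?_).mono fun v h => Set.ext h
    by_cases a : ∀ᶠ x in 𝓝[M.Z.G l] w, f x ∈ X.U.G k
    · exact (eventually_eventually_nhdsWithin.2 a).mono fun v b => iff_of_true b a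
    · exact ((f3 l k w hw).resolve_left a).mono fun v b => iff_of_false
        (fun c => let ⟨_, d⟩ := (b.and_eventually c).exists; d.1 d.2) a
  intro m w hm hb i hi l hl hw r r0 k hk
  have he := at_chartAt (n := 4) w
  have he' := at_chartAt (n := 4) (f w)
  set e := chartAt (Cm 4) w
  set e' := chartAt (Cm 4) (f w)
  obtain ⟨ζ, hζ⟩ := (M.div l).ex w
  have pf : X.p (f w) = y := (f2 w).trans hb
  have wO : M.b w ∈ M.O := hb ▸ hy
  have c1 : SmR 4 (χ i) (f w) :=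
    ((eventually_nhdsSet_iff_forall.1 hχ _ pf).self_of_nhds i hi).1
  have n1 : ∀ᶠ v in 𝓝 w, LEq 4 (M.Z.G l) v ζ ∧ At e v ∧ At e' (f v) ∧
      ContDiffAt ℝ 2 (fun z => χ i (e'.symm z)) (e' (f v)) ∧ Spsh 4 (M.Λ k) v ∧ v ∈ M.D m ∧ M.b v ∈ O' ∧ M.b v ∈ M.O := by
    filter_upwards [hζ.near, Slc.At.near he, f1.1.continuousAt.eventually ((Slc.At.near he').and
      ((e'.continuousAt he'.2).eventually ((c2 c1 he').eventually (by simp)))),
      (M.pos w wO).all (fun l => Brg.lbn_of_isLB (M.div l).lb univ) (mem_univ w) hk,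
      (M.pm.pm.isOpen m).mem_nhds hm, bc.continuousAt.eventually (hb ▸ inter_mem o1
        (M.model.isOpen.mem_nhds hy))] with v a1 a2 a3 a4 a5 a6
    exact ⟨a1, a2, a3.1, a3.2, a4, a5, a6⟩
  have tH : ∀ v, M.b v ∈ M.O → ∀ j, Hol 4 (fun x => M.t x j) v := fun v a => M.prp.hol v a
  have aH : ∀ v ∈ M.D m, M.b v ∈ M.O → ∀ j, Hol 4 (fun x => Fin.append (M.t x) (M.ν m x) j) v :=
    fun v a b j => by
      refine Fin.addCases (fun j => ?_) (fun j => ?_) j
      · simpa only [Fin.append_left] using tH v b j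
      · simp only [Fin.append_right]
        exact M.pm.pm.hol m v a j
  have ctr : ∀ v ∈ M.Z.G l, LEq 4 (M.Z.G l) v ζ → At e v → v ∈ M.D m → M.b v ∈ O' → ∃ ξ, ξ ≠ 0 ∧
      dd ζ e v ξ = 0 ∧ (∀ j, dd (fun x => M.t x j) e v ξ = 0) ∧
      ∀ j, dd (fun x => Fin.append (M.t x) (M.ν m x) j) e v ξ = 0 := fun v a1 a2 a3 a4 a5 => by
    obtain ⟨ξ, x1, x2, x3, x4⟩ := o2 l hl m v a4 a1 a5 ζ e a2 a3
    refine ⟨ξ, x1, x2, x3, Fin.addCases (fun j => ?_) fun j => ?_⟩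
    · simpa only [Fin.append_left] using x3 j
    · simpa only [Fin.append_right] using x4 j
  have fac : ∀ v, M.b v ∈ M.O → At e v → ∀ ξ, (∀ j, dd (fun x => M.t x j) e v ξ = 0) →
      ∀ h, X.Y.Hol h (M.b v) → dd (fun x => h (M.b x)) e v ξ = 0 := fun v a1 a2 ξ a3 h a4 => by
    obtain ⟨g, g1, g2⟩ := (M.model.hol _ a1 h).1 a4
    exact dd_fac (tH v a1) a2 a3 g1 (bc.continuousAt.eventually g2)
  have lev : ∀ v (ψ : X.U.W → ℝ) ξ, At e v → At e' (f v) →
      ContDiffAt ℝ 2 (fun z => ψ (e'.symm z)) (e' (f v)) → Spsh 4 (M.Λ k) v → ξ ≠ 0 → levi (fun z => ψ (e'.symm z)) (e' (f v))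
        (fderiv ℂ (fun z => e' (f (e.symm z))) (e v) ξ) = 0 →
      0 < levi (fun z => ψ (f (e.symm z)) + r * M.Λ k (e.symm z)) (e v) ξ := by
    intro v ψ ξ a1 a2 a3 a4 a5 a6
    have b1 : ContDiffAt ℝ 2 (fun z => M.Λ k (e.symm z)) (e v) := (a4 e a1).1.of_le (by norm_cast)
    have b2 := (a4 e a1).2.dotProduct_mulVec_pos (star_ne_zero.2 a5)
    rw [cHess_quad b1, star_star, Complex.zero_lt_real] at b2
    rw [levi_add (c2_comp f1 a1 a2 a3) (contDiffAt_const.mul b1), levi_comp f1 a1 a2 a3, a6,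
      levi_const_mul b1, zero_add]
    exact mul_pos r0 (by linarith)
  by_cases hK : {k | ∀ᶠ x in 𝓝[M.Z.G l] w, f x ∈ X.U.G k}.Nonempty
  · simp only [dif_pos hK]
    have k1 : ∀ᶠ x in 𝓝[M.Z.G l] w, f x ∈ X.U.G hK.some := hK.some_mem
    set j := hK.some
    obtain ⟨u1, u2⟩ := hu j _ (k1.self_of_nhdsWithin hw) pf
    obtain ⟨-, -, -, -, c3, -⟩ := n1.self_of_nhds
    have s1 : SmR 4 (fun z => u j z - χ i z) (f w) := fun e a => (u1.self_of_nhds e a).sub (c1 e a)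
    have tb : Hol 4 (fun x => t (X.p x)) (f w) := X.hyp.resU.hol _ t (pf ▸ ht)
    have tb' : (fun x => t (X.p (f x))) = fun x => t (M.b x) := funext fun x => congrArg t (f2 x)
    have k2 := opn (g := fun b : Bool => cond b ζ fun x => t (M.b x))
      (fun b => Bool.casesOn b (tb' ▸ f0 w _ tb) hζ.hol) he
      (φ := fun z => (u j (f (e.symm z)) - χ i (f (e.symm z))) + r * M.Λ k (e.symm z))
      ((c2 (sm_comp f1 s1) he).add (contDiffAt_const.mul ((c3 e he).1.of_le (by norm_cast))))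
      fun ξ a b => lev w _ ξ he he' (c2 s1 he') c3 a (u2 i _ e' _ hi (hη _ j) he'
        ((dd_comp f1 he he' (hη _ j).hol ξ).symm.trans (dd_tan hζ hw he (f0 w _ (hη _ j).hol)
          ((k1.and (nhdsWithin_le_nhds (f1.1.continuousAt.eventually (hη (f w) j).1))).mono
            fun _ c => c.2.2 c.1) (b true)))
        ((dd_comp f1 he he' tb ξ).symm.trans (tb' ▸ b false)))
    obtain ⟨g, g1, g2⟩ := (M.model.hol _ hy t).1 ht
    filter_upwards [self_mem_nhdsWithin, nhdsWithin_le_nhds (n1.and (k2.and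
      (f1.1.continuousAt.eventually u1))), nhdsWithin_le_nhds (bc.continuousAt.eventually
        (hb ▸ g2.eventually_nhds.and ((M.model.continuousAt hy).eventually
          g1.eventually_analyticAt)))] with v v1 ⟨⟨a1, a2, _, _, _, a6, a7, a8⟩, v2, v3⟩ v4
    obtain ⟨ξ, x1, x2, x3, x4⟩ := ctr v v1 a1 a2 a6 a7
    refine ⟨sm_comp f1 v3, ζ, e, ξ, a1, a2, x2, x4, ?_⟩
    simpa only [neg_add_eq_sub] using v2 ξ x1 fun b => Bool.casesOn b
      (fac v a8 a2 ξ x3 t ((M.model.hol _ a8 t).2 ⟨g, v4.2, v4.1⟩)) x2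
  simp only [dif_neg hK, add_zero]
  filter_upwards [self_mem_nhdsWithin, nhdsWithin_le_nhds n1.eventually_nhds, dense_fin
    (C := fun k => f ⁻¹' X.U.G k) (fun k => (Slc.isClosed_of_leq fun z => ⟨_, hη z k⟩).preimage f1.1)
    (fun k => (f3 l k w hw).resolve_left fun a => hK ⟨k, a⟩) Finset.univ] with v v1 v2 v3
  obtain ⟨a1, a2, a3, a4, a5, a6, -, a8⟩ := v2.self_of_nhds
  have cH : ∀ j, Hol 4 (fun x => e' (f x) j) v := fun j => f0 v (fun y => e' y j) (Val.holF_chart a3 j)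
  obtain ⟨ξ, x1, x2⟩ := cls (g := fun b : Option (Fin _ ⊕ Fin 4) => b.elim ζ (Sum.elim
    (fun j x => Fin.append (M.t x) (M.ν m x) j) fun j x => e' (f x) j))
    (fun b => Option.casesOn b a1.hol fun b => Sum.casesOn b (aH v a6 a8) cH) a2 (by
      refine (((v3.and_eventually self_mem_nhdsWithin).filter_mono
        nhdsWithin_le_nhds).and_eventually v2).mono ?_
      rintro x ⟨⟨b1, b2⟩, c1, c2, c3, -, -, c6, c7, c8⟩
      obtain ⟨ξ, x1, x2, x3, x4⟩ := ctr x b2 c1 c2 c6 c7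
      refine ⟨ξ, x1, fun b => Option.casesOn b x2 fun b => Sum.casesOn b x4 fun j => ?_⟩
      have d1 : f x ∈ (⋃ l ∈ Finset.univ, X.U.G l)ᶜ := by simpa using b1
      have d2 := X.hyp.resU.emb.hol_of_analyticAt (f x) d1 c3 (g := fun y => e' y j)
        (Val.holF_chart c3 j _ c3)
      refine (congrArg (fun A : Cm 4 →L[ℂ] ℂ => A ξ) (Slc.dd_congr ?_ c2)).trans
        (fac x c8 c2 ξ x3 _ (f2 x ▸ d2))
      filter_upwards [f1.1.continuousAt.eventually (X.hyp.resU.emb.isOpen.mem_nhds d1)] with z hz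
      rw [← f2, X.hyp.resU.emb.inv_apply _ hz]
      rfl)
  refine ⟨fun _ _ => contDiffAt_const, ζ, e, ξ, a1, a2, x2 none, fun j => x2 (some (.inl j)),
    lev v (fun z => -χ i z) ξ a2 a3 a4.neg a5 x1 ?_⟩
  rw [der_zero (t := fun x => e' (f x)) cH a2 fun j => x2 (some (.inr j))]
  simp [levi]

end Vale.Agent.P277Z.Cls.Nk
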