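import Vale.Agent.P277Z.Cls.Sk
import Vale.Agent.P277Z.Hl.Posb
import Vale.Agent.P277Z.Brg.Calc
import Vale.Agent.P277Z.Brg.Ramp
import Vale.Agent.P277Z.Brg.Divv

/-!
# P277, block CLS: an exceptional divisor on the local model whose negative is positive
-/

set_option linter.all false
set_option maxSynthPendingDepth 3

open scoped Manifold ContDiff Topology
open Vale.Agent.P272.K Vale.Agent.P285.H281.FD Vale.Agent.P277 Set Filter
open Vale.Agent.P284Z (psh_of_levi)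
open Vale.Agent.P277Z.Slc (IsDiv)
open Vale.Agent.P277Z.Brg (PosR)
open Vale.Agent.P277Z.Pos (SPshAt FlatAt nsq rb)
open Vale.Agent.P277Z.Ps (flat_sum flat_smul flat_add flat_psd flatAt_log spsh_add)

noncomputable section

namespace Vale.Agent.P277Z.Cls

namespace PosmH

variable {n : ℕ} {Y W : Type} [TopologicalSpace Y] [ChartedSpace (Cm n) Y] [TopologicalSpace W]
  [ChartedSpace (Cm n) W] {α : Type} [Fintype α]

theorem flat_congr {u v : W → ℝ} {x : W} (h : FlatAt n u x) (k : ∀ᶠ y in 𝓝 x, v y = u y) :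
    FlatAt n v x := fun e he =>
  have k' : (fun z => v (e.symm z)) =ᶠ[𝓝 (e x)] fun z => u (e.symm z) :=
    (e.tendsto_symm he.2).eventually k
  ⟨(h e he).1.congr_of_eventuallyEq k', by rw [cHess_congr k']; exact (h e he).2⟩

theorem flat_cont {u : W → ℝ} {x : W} (h : FlatAt n u x) : ContinuousAt u x := by
  have he := Slc.at_chartAt (n := n) x
  refine ((h _ he).1.continuousAt.comp ((chartAt (Cm n) x).continuousAt he.2)).congr ?_
  filter_upwards [Slc.At.near he] with y hy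
  simp [(chartAt (Cm n) x).left_inv hy.2]

theorem lg_mul {a b : ℂ} (h : a * b ≠ 0) :
    Real.log (‖a * b‖ ^ 2) = Real.log (‖a‖ ^ 2) + Real.log (‖b‖ ^ 2) := by
  rw [norm_mul, mul_pow, Real.log_mul (pow_ne_zero _ (norm_ne_zero_iff.2 (left_ne_zero_of_mul h)))
    (pow_ne_zero _ (norm_ne_zero_iff.2 (right_ne_zero_of_mul h)))]

theorem alg {r s : ℕ} (c η : Fin s → ℝ) (γ ν S G : Fin r → ℝ) (mo : Fin r → Fin s → ℝ)
    (T : Fin r ⊕ Fin s → ℝ) (C v q L : ℝ)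
    (h : ∀ a, G a + S a = ν a + (T (.inl a) + ∑ l, mo a l * T (.inr l))) :
    v + q - ∑ l, c l * (η l + T (.inr l)) + (C * (L + ∑ a, -γ a * G a) - 1 * q) +
      (∑ l, c l * η l + C * ∑ a, γ a * ν a) = v + C * (L + ∑ a, γ a * S a) -
        ∑ l, Sum.elim (fun a => C * γ a) (fun l => c l + C * ∑ a, γ a * mo a l) l * T l := by
  have h1 : ∑ l, (∑ a, γ a * mo a l) * T (.inr l) = ∑ a, γ a * ∑ l, mo a l * T (.inr l) := by
    simp only [Finset.sum_mul, Finset.mul_sum, mul_assoc]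
    exact Finset.sum_comm
  have h2 := Finset.sum_congr (s₁ := Finset.univ) rfl fun a _ => congrArg (γ a * ·) (h a)
  simp only [Fintype.sum_sum_type, Sum.elim_inl, Sum.elim_inr, mul_add, add_mul, neg_mul,
    Finset.sum_add_distrib, Finset.sum_neg_distrib, mul_assoc C, ← Finset.mul_sum _ _ C, h1] at h2 ⊢
  linear_combination (-C) * h2

variable (n) in
/-- `Ψ - ∑ a, c a * log |τ a|²` is near `x` strictly plurisubharmonic -/
def Lc (G : α → Set W) (B : α → Bd W) (τ : ∀ a, (B a).ι → W → ℂ) (c : α → ℝ) (Ψ : W → ℝ)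
    (x : W) : Prop :=
  ∃ (k : ∀ a, (B a).ι) (u f : W → ℝ), ∀ᶠ y in 𝓝 x, (∀ a, y ∈ (B a).U (k a)) ∧ SPshAt n u y ∧
    FlatAt n f y ∧ ((∀ a, y ∉ G a) → u y + f y = Ψ y - ∑ a, c a * Real.log (‖τ a (k a) y‖ ^ 2))

variable [IsManifold 𝓘(ℂ, Cm n) ω W]

theorem glue [T2Space W] {G : α → Set W} {B : α → Bd W} {τ : ∀ a, (B a).ι → W → ℂ}
    (hB : ∀ a, IsDiv n (G a) (B a) (τ a)) {c : α → ℝ} {Ψ : W → ℝ} {K : Set W} (hK : IsCompact K)
    (h : ∀ x ∈ K, Lc n G B τ c Ψ x) : PosR n K B (-c) := by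
  choose k u f h using fun x : K => h x x.2
  choose V h hV hx using fun x : K => mem_nhds_iff.1 (h x)
  let t (i j : ∀ a, (B a).ι) (y : W) : ℝ := ∑ a, c a * Real.log (‖(B a).g (i a) (j a) y‖ ^ 2)
  have tf : ∀ i j y, (∀ a, y ∈ (B a).U (i a)) → (∀ a, y ∈ (B a).U (j a)) → FlatAt n (t i j) y :=
    fun i j y h1 h2 => flat_sum _ fun a _ => flat_smul _ (flatAt_log
      (fun e he => ((hB a).lb.holo _ _ e y he (h1 a) (h2 a)).analyticAt)
      ((hB a).lb.ne_zero _ _ y (h1 a) (h2 a)))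
  have tc : ∀ i j l y, (∀ a, y ∈ (B a).U (i a)) → (∀ a, y ∈ (B a).U (j a)) →
      (∀ a, y ∈ (B a).U (l a)) → t i l y = t i j y + t j l y := fun i j l y h1 h2 h3 => by
    simp only [t, ← Finset.sum_add_distrib, ← mul_add]
    refine Finset.sum_congr rfl fun a _ => ?_
    rw [← (hB a).lb.cocycle _ _ _ y (h1 a) (h2 a) (h3 a), lg_mul (mul_ne_zero
      ((hB a).lb.ne_zero _ _ y (h1 a) (h2 a)) ((hB a).lb.ne_zero _ _ y (h2 a) (h3 a)))]
  have g : ∀ a b y, y ∈ V a → y ∈ V b → u a y + f a y + t (k a) (k b) y = u b y + f b y :=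
    fun a b y ha hb => by
    refine tendsto_nhds_unique_of_frequently_eq (((Hl.PosbH.sp_cont (h a ha).2.1).add
      (flat_cont (h a ha).2.2.1)).add (flat_cont (tf _ _ y (h a ha).1 (h b hb).1)))
      ((Hl.PosbH.sp_cont (h b hb).2.1).add (flat_cont (h b hb).2.2.1))
      (((mem_closure_iff_frequently.1 (Slc.Cp.dense_iUnion (fun l => (hB l).ex) y)).and_eventually
        (((hV a).inter (hV b)).mem_nhds ⟨ha, hb⟩)).mono fun z ⟨h0, h1, h2⟩ => ?_)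
    have h3 : ∀ l, z ∉ G l := fun l hl => h0 (mem_iUnion.2 ⟨l, hl⟩)
    have h4 : ∀ l, Real.log (‖τ l (k a l) z‖ ^ 2) = Real.log (‖(B l).g (k a l) (k b l) z‖ ^ 2) +
        Real.log (‖τ l (k b l) z‖ ^ 2) := fun l => by
      have h5 := (hB l).sec.change _ _ z ((h a h1).1 l) ((h b h2).1 l)
      rw [← lg_mul (h5 ▸ mt ((hB l).leq _ z ((h a h1).1 l)).mem.1 (h3 l)), ← h5]
    simp only [Pi.add_apply, (h a h1).2.2.2 h3, (h b h2).2.2.2 h3, h4, t, mul_add,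
      Finset.sum_add_distrib]
    ring
  obtain ⟨γ, O, o1, o2, o3⟩ := rb n W K V u K hK hV (fun y hy => mem_iUnion.2 ⟨⟨y, hy⟩, hx _⟩)
    (fun a y hy => (h a hy).2.1) fun a b y ha hb => flat_congr (flat_add (h b hb).2.2.1
      (flat_smul (-1) (flat_add (h a ha).2.2.1 (tf _ _ y (h a ha).1 (h b hb).1)))) (by
        filter_upwards [(hV a).mem_nhds ha, (hV b).mem_nhds hb] with z h1 h2
        linear_combination g a b z h1 h2)
  have ex : ∀ y, ∃ Λ : (∀ a, (B a).ι) → ℝ, ∀ a, y ∈ V a → ∀ i, (∀ l, y ∈ (B l).U (i l)) →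
      Λ i = u a y + γ y + (f a y + -1 * t i (k a) y) := fun y => by
    by_cases h0 : ∃ b, y ∈ V b
    · obtain ⟨b, hb⟩ := h0
      exact ⟨fun i => u b y + γ y + (f b y + -1 * t i (k b) y), fun a ha i hi => by
        linear_combination g b a y hb ha + tc i _ _ y hi (h b hb).1 (h a ha).1⟩
    · exact ⟨0, fun a ha => (h0 ⟨a, ha⟩).elim⟩
  choose Λ hΛ using ex
  refine ⟨fun i y => Λ y i, fun x hx' => ⟨⟨k ⟨x, hx'⟩, (h _ (hx _)).1, ?_⟩, ?_⟩⟩
  · filter_upwards [(hV _).mem_nhds (hx ⟨x, hx'⟩), o1.mem_nhds (o2 hx')] with y h1 h2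
    refine Brg.Cl.spsh_congr (spsh_add (u := fun z => u _ z + γ z) (o3 _ y h2 h1) (flat_psd
      (flat_add (h _ h1).2.2.1 (flat_smul (-1) (tf _ _ y (h _ h1).1 (h _ h1).1))))) ?_
    filter_upwards [(hV _).mem_nhds h1] with z hz using hΛ z _ hz _ (h _ hz).1
  · filter_upwards [(hV _).mem_nhds (hx ⟨x, hx'⟩)] with y h1 i j hi hj
    simp only [hΛ y _ h1 i hi, hΛ y _ h1 j hj, tc i j _ y hi hj (h _ h1).1, Pi.neg_apply, neg_mul,
      Finset.sum_neg_distrib]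
    ring

theorem sp_big {π : Y → W} (hπ : Continuous π)
    (hh : ∀ y g, Hol n g (π y) → Hol n (fun z => g (π z)) y) {y : Y} {φ : Y → ℝ}
    (hφ : SPshAt n φ y) {ψ : W → ℝ} (hψ : ∀ᶠ x in 𝓝 (π y), Spsh n ψ x) {m : ℕ}
    {g : Fin m → W → ℂ} (hg : ∀ j, Hol n (g j) (π y)) : ∃ k₀ : ℕ, ∀ᶠ z in 𝓝 y, ∀ k : ℕ, k₀ ≤ k →
      SPshAt n (fun x => φ x + (k * ψ (π x) - 1 * ∑ j, ‖g j (π x)‖ ^ 2)) z := by
  obtain ⟨e, he, δ, hδ, N, hN, h1, h2⟩ := hφ
  obtain ⟨k₀, hk⟩ := Hl.PosbH.big hπ hh he hψ hg zero_le_one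
  refine ⟨k₀, ?_⟩
  filter_upwards [(e.continuousAt he.2).eventually (hk.and hN).eventually_nhds, Slc.At.near he]
    with z a1 a2 k hk'
  refine ⟨e, a2, δ, hδ, _, a1, (h1.mono fun t ht => ht.2).add fun t ht =>
    (ht.1 k hk').1.continuousAt.continuousWithinAt, ((h2.mono fun t ht => ht.2).add
      (psh_of_levi fun t ht => ht.1 k hk') (.of_cont ((h1.mono fun t ht => ht.2).sub ?_))
      (.of_cont fun t ht => (ht.1 k hk').1.continuousAt.continuousWithinAt)).congr fun t _ => ?_⟩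
  · unfold nsq
    fun_prop
  · ring

end PosmH

open PosmH in
theorem stPosm : StPosm := by
  intro X D y Z B τ hB
  obtain ⟨O, σ, hσ⟩ := Slc.exists_div X.V
  obtain ⟨P, γ, τ₀, lb, am, hc, hτ⟩ := X.hyp.res.amp
  obtain ⟨Λ, hΛ⟩ := (Brg.divv X.V O σ hσ).2.1 X.Y X.ψ P γ τ₀ lb hτ
    (Brg.ramp 4 X.V.W X.Y X.ψ P ⟨X.hyp.res.cont, X.hyp.res.hol⟩ lb am) y
  have hK : IsCompact (Z.π ⁻¹' X.F y) := Z.bl.proper _ (Z.sub.trans Z.le₂)
    (isClosed_singleton.preimage X.hyp.res.cont).isCompact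
  choose i hi using fun l => (hσ l).lb.cover
  let P (C : ℕ) (w : Z.W) : Prop := Lc 4 Z.G B τ
    (Sum.elim (fun a => C * γ a) fun l => Z.c l + C * ∑ a, (γ a : ℝ) * Z.mo a l) (fun w => Z.v w +
      C * (Λ (fun l => i l (Z.π w)) (Z.π w) +
        ∑ l, γ l * Real.log (‖σ l (i l (Z.π w)) (Z.π w)‖ ^ 2))) w
  have key : ∀ w ∈ Z.π ⁻¹' X.F y, ∃ k₀ : ℕ, ∀ᶠ z in 𝓝 w, ∀ C, k₀ ≤ C → P C z := fun w hw => by
    obtain ⟨m, g, ζ, φ, a1, a2, a3, a4⟩ := Z.pos w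
    obtain ⟨⟨j, hj, hs⟩, hg⟩ := hΛ _ hw
    choose κ hκ using fun l => (hB l).lb.cover w
    choose η η1 η2 η3 using fun l => Slc.stUnit 4 Z.W _ w _ _ ((hB _).leq _ w (hκ (.inr l))) (a2 l)
    choose ν ν1 ν2 ν3 using Z.tot w (fun a => σ a (j a)) (fun l => τ l (κ l))
      (fun a => (hσ a).leq _ _ (hj a)) fun l => (hB l).leq _ w (hκ l)
    obtain ⟨k₀, hk⟩ := sp_big Z.bl.cont Z.bl.hol a3 hs a1
    refine ⟨k₀, (?_ : ∀ᶠ z in 𝓝 w, ∀ C : ℕ, k₀ ≤ C → _).eventually_nhds.mono fun z hz C hC =>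
      ⟨κ, fun x => φ x + (C * Λ j (Z.π x) - 1 * ∑ j, ‖g j (Z.π x)‖ ^ 2), fun x =>
        ∑ l, Z.c l * Real.log (‖η l x‖ ^ 2) + C * ∑ a, γ a * Real.log (‖ν a x‖ ^ 2),
        hz.mono fun x hx => hx C hC⟩⟩
    filter_upwards [hk, a4, Z.bl.cont.continuousAt.eventually (hg.and (eventually_all.2 fun a =>
      ((hσ a).lb.isOpen _).mem_nhds (hj a))), eventually_all.2 fun l =>
      ((hB l).lb.isOpen _).mem_nhds (hκ l), eventually_all.2 fun l =>
      ((η1 l).near.and ((η1 l).ne_near (η2 l))).and (η3 l), eventually_all.2 fun a =>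
      ((ν1 a).near.and ((ν1 a).ne_near (ν2 a))).and (ν3 a)] with z b1 b2 b3 b4 b5 b6 C hC
    refine ⟨b4, b1 C hC, flat_add (flat_sum _ fun l _ => flat_smul _
      (flatAt_log (b5 l).1.1 (b5 l).1.2)) (flat_smul _ (flat_sum _ fun a _ => flat_smul _
        (flatAt_log (b6 a).1.1 (b6 a).1.2))), fun hz => ?_⟩
    have d1 : ∀ l, τ l (κ l) z ≠ 0 := fun l => mt ((hB l).leq _ z (b4 l)).mem.1 (hz l)
    have d2 : ∀ a, ∏ l, τ (.inr l) (κ (.inr l)) z ^ Z.mo a l ≠ 0 := fun a =>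
      Finset.prod_ne_zero_iff.2 fun l _ => pow_ne_zero _ (d1 _)
    rw [b2 fun l => hz _, b3.1 j _ b3.2 fun a => hi a _]
    simp only [fun l => (b5 l).2, fun l => lg_mul (mul_ne_zero (b5 l).1.2 (d1 (.inr l)))]
    refine alg _ _ _ _ _ _ (fun a l => Z.mo a l) (fun l => Real.log (‖τ l (κ l) z‖ ^ 2)) _ _ _ _
      fun a => ?_
    have d3 := mul_ne_zero (b6 a).1.2 (mul_ne_zero (d1 (.inl a)) (d2 a))
    have d4 := (hσ a).sec.change _ _ _ (b3.2 a) (hi a _)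
    have d5 := Brg.Cl.log_prod (fun l => d1 (.inr l)) fun l => Z.mo a l
    simp only [zpow_natCast, Int.cast_natCast] at d5
    rw [← lg_mul (d4 ▸ (b6 a).2 ▸ d3), ← d4, (b6 a).2, lg_mul d3,
      lg_mul (right_ne_zero_of_mul d3), d5]
  obtain ⟨C, hC, h1⟩ := ((hK.induction_on (p := fun t => ∀ᶠ C in atTop, ∀ w ∈ t, P C w)
    (.of_forall fun _ _ h => h.elim) (fun _ _ h ht => ht.mono fun _ a w hw => a w (h hw))
    (fun _ _ hs ht => (hs.and ht).mono fun _ a w hw => hw.elim (a.1 w) (a.2 w)) fun w hw =>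
      let ⟨k₀, hk⟩ := key w hw
      ⟨_, mem_nhdsWithin_of_mem_nhds hk, (eventually_ge_atTop k₀).mono fun C hC z hz =>
        hz C hC⟩).and (eventually_gt_atTop 0)).exists
  obtain ⟨q, hq, m, hm⟩ := Hl.PosbH.exists_q Z.c Z.c0
  have h2 := (glue hB hK hC).smul (Nat.cast_pos.2 hq : (0 : ℝ) < q)
  refine ⟨Sum.elim (fun a => q * (C * γ a)) fun l => m l + q * (C * ∑ a, γ a * Z.mo a l), ?_,
    (congrArg _ (funext ?_)).mp h2⟩
  · rintro (a | l)
    · exact (by simp [hq, h1] : _ ↔ 0 < γ a).trans ((hc a).trans Finset.inl_mem_disjSum.symm)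
    · have : (0 : ℝ) < m l := hm l ▸ mul_pos (Nat.cast_pos.2 hq) (Rat.cast_pos.2 (Z.c0 l))
      exact iff_of_true (Nat.add_pos_left (Nat.cast_pos.1 this) _)
        (Finset.inr_mem_disjSum.2 (Finset.mem_univ _))
  · rintro (a | l) <;> simp [hm, mul_add]

end Vale.Agent.P277Z.Cls
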