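import Vale.Agent.P277Z.Cls.Rk1A

/-!
# P277, block CLS: level sets of a free family in a surface (RK1)
-/

open scoped Manifold ContDiff Topology
open Vale.Agent.P272.K Vale.Agent.P277 Set Filter
open Vale.Agent.P277Z.Slc (LEq Ind)

noncomputable section

namespace Vale.Agent.P277Z.Cls

open Rk1H in
/-- **RK1** -/
theorem stRk1 (hG : StGpl) (h1 : StApi1) (h2 : StApi2) (h3 : StApi3) : StRk1 := by
  intro X L S M y O τ g Δ G x Ψ l hl w j η m hw hne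
  obtain ⟨cb, -, hE, -⟩ := h1 X L S M
  obtain ⟨-, hT, h3⟩ := (h3 X L S M y O τ g Δ G).2.2 l w hw
  have hs : ∀ v ∈ M.T y l w, v ∈ M.Z.G l ∧ M.b v = y := fun v hv =>
    connectedComponentIn_subset (M.Z.G l ∩ M.F y) w hv
  generalize M.T y l w = T at *
  have hΩ : ∀ v, M.b v = y → v ∈ M.b ⁻¹' M.O ∩ M.t ⁻¹' Ψ.Ω := fun v hv =>
    ⟨by rw [mem_preimage, hv]; exact G.mem, by rw [mem_preimage, Md.t, hv]; exact Ψ.mem⟩
  have ha : (∃ v ∈ T, ∃ m' i, M.NC τ m' i l v) → ∀ v ∈ T,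
      ¬ ∀ᶠ x in 𝓝[T] v, x ∈ Ψ.D j ∧ Ψ.ν j x = η := by
    refine fun h0 v hv hI => hne h0 fun v' hv' => ((hT.isPreconnected.induction₂
      (fun a b => (∀ᶠ x in 𝓝[T] a, x ∈ Ψ.D j ∧ Ψ.ν j x = η) ↔
        ∀ᶠ x in 𝓝[T] b, x ∈ Ψ.D j ∧ Ψ.ν j x = η) (fun a ha => ?_) (fun _ _ _ _ _ _ => Iff.trans)
      (fun _ _ _ _ => Iff.symm) hv hv').1 hI).self_of_nhdsWithin hv'
    by_cases hc : ∀ᶠ x in 𝓝[T] a, x ∈ Ψ.D j ∧ Ψ.ν j x = η
    · exact (eventually_eventually_nhdsWithin.2 hc).mono fun b hb => iff_of_true hc hb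
    refine (not_frequently.1 fun hf => hc ?_).mono fun b hb => iff_of_false hc hb
    obtain ⟨j', hj'⟩ := (Ψ.pm.cover a).1 (hΩ a (hs a ha).2)
    have f1 : ∃ᶠ b in 𝓝[T] a, b ∈ Ψ.D j ∧ Ψ.ν j b = η :=
      (hf.and_eventually self_mem_nhdsWithin).mono fun b hb => hb.1.self_of_nhdsWithin hb.2
    have f2 : Ψ.ν j' a j * η j' = 1 := tendsto_nhds_unique_of_frequently_eq
      ((Hol.continuousAt (show Hol 4 (fun w => Ψ.ν j' w j) a from
        Ψ.pm.hol j' a hj' j)).tendsto.mul_const (η j')) tendsto_const_nhds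
      (((f1.filter_mono nhdsWithin_le_nhds).and_eventually ((Ψ.pm.isOpen j').mem_nhds hj')).mono
        fun b ⟨⟨b1, b2⟩, b3⟩ => by
          have := congrFun (Ψ.pm.chg j' j b b3 b1) j'
          rw [Ψ.pm.one j' b b3, b2] at this
          exact this.symm)
    have f3 : a ∈ Ψ.D j := (Ψ.pm.mem j' j a hj').2 (left_ne_zero_of_mul_eq_one f2)
    have f4 := fun k => (h3 a ha).2.2.2.2.2 (fun x => Ψ.ν j x k - η k)
      (fun e he => (Ψ.pm.hol j a f3 k e he).sub analyticAt_const)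
      (hf.mono fun b hb => hb.mono fun x hx => by rw [hx.2, sub_self])
    filter_upwards [eventually_all.2 f4, mem_nhdsWithin_of_mem_nhds ((Ψ.pm.isOpen j).mem_nhds f3)]
      with x c d using ⟨d, funext fun k => sub_eq_zero.1 (c k)⟩
  choose V hV using fun k => val M cb hE G.mem (Ψ.dg k).mer m
  have hVh : ∀ k, ∀ z ∈ M.D m, M.b z = y → Hol 4 (V k) z := fun k z hz e => by
    obtain ⟨j₀, hj₀⟩ := exists_in M z
    obtain ⟨u, u1, u2⟩ := Ψ.hl k z (hΩ z e) m j₀ hz hj₀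
    exact u1.congr (hV k z hz e j₀ u hj₀ u1 u2)
  have hVν : ∀ z ∈ M.D m, M.b z = y → z ∈ Ψ.D j → ∀ k, Ψ.ν j z k = V k z / V j z := by
    intro z hz e hj k
    obtain ⟨j₀, hj₀⟩ := exists_in M z
    obtain ⟨u, u1, u2, u3⟩ := ((h2 X L S M y G.mem).2.1 _ _ (Ψ.dg j).mer).1.self_of_nhdsSet z e
      ((Ψ.fr j z (hΩ z e)).1 hj) m j₀ hz hj₀
    have a := (hV j z hz e j₀ u hj₀ u1 u3).self_of_nhds
    have b := (hV k z hz e j₀ (fun x => Ψ.ν j x k * u x) hj₀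
      (fun e he => (Ψ.pm.hol j z hj k e he).mul (u1 e he)) (by
        filter_upwards [u3, (Ψ.pm.isOpen j).mem_nhds hj, ev_in M hj₀] with x c d f q
        rw [Ψ.rel j x d q k j₀ f, c q, mul_assoc])).self_of_nhds
    rw [← a, ← b, mul_div_cancel_right₀ _ u2]
  have hO : ∀ z ∈ M.D m, M.b z ∈ M.O := fun z hz => (M.pm.pm.cover z).2 ⟨m, hz⟩
  have hcl : ∀ i, ∀ v ∈ T, M.NC τ m i l v → v ∈ Ψ.D j → ∀ᶠ x in 𝓝 v, x ∈ T →
      M.ν m x i = M.ν m v i → M.ν m x = M.ν m v ∧ Ψ.ν j x = Ψ.ν j v := by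
    rintro i v hv ⟨hm, ζ, z1, z2⟩ hj
    obtain ⟨O', o1, o2⟩ := G.ctr
    obtain ⟨Gτ, g1, g2⟩ := (M.model.hol y G.mem τ).1 (G.disc.hol y (G.le G.mem))
    have hN : {x | x ∈ M.D m ∧ LEq 4 (M.Z.G l) x ζ ∧ (x ∈ T ↔ x ∈ M.Z.G l ∧ τ (M.b x) = τ y)} ∈
        𝓝 v := Eventually.and ((M.pm.pm.isOpen m).mem_nhds hm) (z1.near.and (h3 v hv).2.2.2.1)
    have hin : ∀ x, LEq 4 (M.Z.G l) x ζ ∧ (x ∈ T ↔ x ∈ M.Z.G l ∧ τ (M.b x) = τ y) →
        ζ x = ζ v → τ (M.b x) = τ (M.b v) → x ∈ T := fun x hx e0 e1 =>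
      hx.2.2 ⟨hx.1.mem.1 (e0.trans (z1.mem.2 (hs v hv).1)), e1.trans (congrArg τ (hs v hv).2)⟩
    have key := loc_cst z2 (g := fun k x => M.ν m x k) hN fun x hx e => by
      obtain ⟨k1, k2⟩ := hs x (hin x hx.2 (e 0) (e 1))
      obtain ⟨ξ, c1, c2, c3, c4⟩ := o2 l hl m x hx.1 k1 (k2 ▸ mem_of_mem_nhds o1) ζ _ hx.2.1
        (Slc.at_chartAt x)
      refine ⟨M.pm.pm.hol m x hx.1, ξ, c1, fun a => ?_, c4⟩
      fin_cases a
      exacts [c2, dd_zero (t := M.t) (G := Gτ) (by rwa [Md.t, k2])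
        (cb.continuousAt.eventually (k2 ▸ g2)) (M.prp.hol x (hO x hx.1)) (Slc.at_chartAt x) c3, c4 i]
    filter_upwards [key, hN, (Ψ.pm.isOpen j).mem_nhds hj] with x a b c hx e
    have hZ := connectedComponentIn_mono v
      (G := {v' ∈ M.D m | M.t v' = M.t v ∧ M.ν m v' = M.ν m v}) (fun z hz => ⟨hz.1.1, by
        rw [Md.t, Md.t, (hs z (hin z hz.1.2 (hz.2.1 0) (hz.2.1 1))).2, (hs v hv).2],
        funext hz.2.2⟩) (a fun q => by
      fin_cases q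
      exacts [(b.2.1.mem.2 (hs x hx).1).trans (z1.mem.2 (hs v hv).1).symm,
        congrArg τ ((hs x hx).2.trans (hs v hv).2.symm), e])
    have k := fun k => (hG _ _ _ _ _ _ _ _ M.prp M.prj M.pm.pm m v hm _ rfl).1 (V k)
      (fun z hz => by
        have q := connectedComponentIn_subset _ _ hz
        exact hVh k z q.1 ((injOn_iff_injective.2 M.model.emb.injective (hO z q.1) (hO v hm)
          q.2.1).trans (hs v hv).2)) x hZ
    exact ⟨(connectedComponentIn_subset _ _ hZ).2.2, funext fun q => by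
      rw [hVν x b.1 (hs x hx).2 c, hVν v hm (hs v hv).2 hj, k, k]⟩
  refine ((countable_pi fun i => (stLev M.Z.W 2 T fun v => M.ν m v i).2).union
    (countable_iUnion fun i => ((stLev M.Z.W 2 T fun v => M.ν m v i).1 _
      fun k x => Ψ.ν j x k - η k).biUnion fun s _ => cnt (f := M.ν m)
      (S := {v ∈ T | M.NC τ m i l v ∧ v ∈ Ψ.D j ∧ M.ν m v i = s}) fun v hv =>
        (hcl i v hv.1 hv.2.1 hv.2.2.1).mono fun x a b =>
          (a b.1 (b.2.2.2.trans hv.2.2.2.symm)).1)).mono ?_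
  rintro _ ⟨v, ⟨⟨hv, hm⟩, hj, hη⟩, rfl⟩
  obtain ⟨-, -, ⟨ζ, z1, z2⟩, z3, -⟩ := h3 v hv
  have hz : ∀ ζ, LEq 4 (M.Z.G l) v ζ →
      ∀ᶠ x in 𝓝 v, x ∈ T ↔ ∀ a, ![ζ, fun x => τ (M.b x) - τ y] a x = 0 := fun ζ z1 => by
    filter_upwards [z3, z1.1] with x a b
    simp [Fin.forall_fin_two, a, b, sub_eq_zero]
  by_cases hc : ∃ i, M.NC τ m i l v
  · obtain ⟨i, hi⟩ := hc
    refine Or.inr (mem_iUnion.2 ⟨i, mem_biUnion (x := M.ν m v i) ⟨v, hv, rfl,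
      fun k e he => (Ψ.pm.hol j v hj k e he).sub analyticAt_const, ?_,
      (hcl i v hv hi hj).mono fun x a b c k => by rw [(a b c).2, hη, sub_self], fun q => ?_⟩
      ⟨v, ⟨hv, hi, hj, rfl⟩, rfl⟩⟩)
    · obtain ⟨-, ζ', a, b⟩ := hi
      exact ⟨_, (ind_opt (τ y)).1 b, hz ζ' a⟩
    · refine ha ⟨v, hv, m, i, hi⟩ v hv (eventually_nhdsWithin_iff.2 ?_)
      filter_upwards [q, (Ψ.pm.isOpen j).mem_nhds hj] with x a b c
        using ⟨b, funext fun k => sub_eq_zero.1 (a c k)⟩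
  · exact Or.inl fun i => ⟨v, ⟨hv, M.pm.pm.hol m v hm i, _, ind_two z2 (τ y), hz ζ z1,
      fun q => hc ⟨i, hm, ζ, z1, (ind_opt _).2 q.1⟩⟩, rfl⟩

end Vale.Agent.P277Z.Cls
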