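import Vale.Agent.P277Z.Cls.Rig
import Vale.Agent.P277Z.Cls.Snc
import Vale.Agent.P277Z.Val.Fin

/-!
# P277, block CLS: tools for RK1
-/

open scoped Manifold ContDiff Topology
open Vale.Agent.P272.K Vale.Agent.P277 Set Filter Metric
open Vale.Agent.P277Z.Slc (LEq Ind dd lin)

noncomputable section

namespace Vale.Agent.P277Z.Cls

namespace Rk1H

theorem cnt {X Y : Type} [TopologicalSpace X] [SecondCountableTopology X] {S : Set X} {f : X → Y}
    (h : ∀ x ∈ S, ∀ᶠ x' in 𝓝 x, x' ∈ S → f x' = f x) : (f '' S).Countable := by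
  obtain ⟨t, ht, hc, hS⟩ := TopologicalSpace.countable_cover_nhdsWithin (s := S)
    (f := fun x => {x' | x' ∈ S → f x' = f x}) fun x hx => mem_nhdsWithin_of_mem_nhds (h x hx)
  refine (hc.image f).mono ?_
  rintro _ ⟨y, hy, rfl⟩
  obtain ⟨x, hx, h3⟩ := mem_iUnion₂.1 (hS hy)
  exact ⟨x, hx, (h3 hy).symm⟩

theorem ker1 {f : Fin 3 → Cm 4 →L[ℂ] ℂ} (hf : LinearIndependent ℂ f) {ξ u : Cm 4} (h0 : ξ ≠ 0)
    (h1 : ∀ a, f a ξ = 0) (h2 : ∀ a, f a u = 0) : ∃ c : ℂ, c • ξ = u := by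
  let A := (ContinuousLinearMap.pi f).toLinearMap
  have hk : Module.finrank ℂ A.ker = 1 := by
    have := A.finrank_range_add_finrank_ker
    rw [LinearMap.range_eq_top.2 ((Slc.ind_iff_surj f).1 hf), finrank_top] at this
    simp only [Module.finrank_fin_fun] at this
    omega
  obtain ⟨c, hc⟩ := (finrank_eq_one_iff_of_nonzero' (⟨ξ, funext h1⟩ : A.ker)
    fun e => h0 (congrArg Subtype.val e)).1 hk ⟨u, funext h2⟩
  exact ⟨c, congrArg Subtype.val hc⟩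

theorem zp {α ι : Type} [Fintype α] [Fintype ι] {g : α → ℂ} (hg : ∀ a, g a ≠ 0) (A : ι → α → ℤ)
    (c : ι → ℤ) : ∏ i, (∏ a, g a ^ A i a) ^ c i = ∏ a, g a ^ (∑ i, c i • A i) a := by
  classical
  have : ∀ s : Finset ι, ∏ i ∈ s, (∏ a, g a ^ A i a) ^ c i = ∏ a, g a ^ (∑ i ∈ s, c i • A i) a := by
    intro s
    induction s using Finset.induction_on with
    | empty => simp
    | insert i s hi ih =>
      rw [Finset.prod_insert hi, Finset.sum_insert hi, ih, ← Finset.prod_zpow,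
        ← Finset.prod_mul_distrib]
      exact Finset.prod_congr rfl fun a _ => by
        rw [Pi.add_apply, zpow_add₀ (hg a), ← zpow_mul, Pi.smul_apply, smul_eq_mul, mul_comm (c i)]
  exact this _

variable {W : Type} [TopologicalSpace W] [ChartedSpace (Cm 4) W] [IsManifold 𝓘(ℂ, Cm 4) ω W]
  {x : W}

omit [IsManifold 𝓘(ℂ, Cm 4) ω W] in
theorem ind_sub {α : Type} {h : α → W → ℂ} (hi : Ind 4 h x) (c : α → ℂ) :
    Ind 4 (fun a y => h a y - c a) x :=
  ⟨fun a e he => (hi.1 a e he).sub analyticAt_const, fun e he => by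
    simpa only [Slc.dd_sub_const] using hi.2 e he⟩

omit [IsManifold 𝓘(ℂ, Cm 4) ω W] in
theorem ind_two {ζ h : W → ℂ} (hi : Ind 4 ![ζ, h] x) (c : ℂ) :
    Ind 4 ![ζ, fun y => h y - c] x := by
  have e : ![ζ, fun y => h y - c] = fun a y => ![ζ, h] a y - ![0, c] a := by
    funext a
    fin_cases a <;> simp
  exact e ▸ ind_sub hi _

omit [IsManifold 𝓘(ℂ, Cm 4) ω W] in
theorem ind_opt {ζ h f : W → ℂ} (c : ℂ) : Ind 4 ![ζ, h, f] x ↔
    Ind 4 (fun o : Option (Fin 2) => o.elim f ![ζ, fun y => h y - c]) x := by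
  refine ⟨fun hi => ?_, fun hi => ?_⟩
  · have e : (fun o : Option (Fin 2) => o.elim f ![ζ, fun y => h y - c]) = fun o y =>
        ![ζ, h, f] (o.elim 2 Fin.castSucc) y - ![0, c, 0] (o.elim 2 Fin.castSucc) := by
      funext o
      rcases o with _ | a
      · simp
      · fin_cases a <;> simp
    exact e ▸ (ind_sub hi ![0, c, 0]).comp (fun o : Option (Fin 2) => o.elim 2 Fin.castSucc)
      (by decide)
  · have e : ![ζ, h, f] = fun a y => (![some 0, some 1, none] a : Option (Fin 2)).elim f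
        ![ζ, fun y => h y - c] y - (![some 0, some 1, none] a : Option (Fin 2)).elim 0 ![0, -c] := by
      funext a
      fin_cases a <;> simp
    exact e ▸ (ind_sub hi fun o => o.elim 0 ![0, -c]).comp ![some 0, some 1, none] (by decide)

omit [IsManifold 𝓘(ℂ, Cm 4) ω W] in
theorem dd_zero {N : ℕ} {t : W → Cm N} {f : W → ℂ} {G : Cm N → ℂ} (hG : AnalyticAt ℂ G (t x))
    (hf : ∀ᶠ y in 𝓝 x, f y = G (t y)) (ht : ∀ i, Hol 4 (fun y => t y i) x) {e : Chart 4 W}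
    (he : At e x) {ξ : Cm 4} (h : ∀ i, dd (fun y => t y i) e x ξ = 0) : dd f e x ξ = 0 := by
  have h1 : fderiv ℂ (fun z => t (e.symm z)) (e x) ξ = 0 := by
    rw [fderiv_pi fun i => (ht i e he).differentiableAt]
    exact funext h
  rw [Slc.dd_congr hf he, dd, fderiv_fun_comp (f := fun z => t (e.symm z)) (e x)
    (by rw [e.left_inv he.2]; exact hG.differentiableAt)
    (differentiableAt_pi.2 fun i => (ht i e he).differentiableAt),
    ContinuousLinearMap.comp_apply, h1, map_zero]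

/-- functions whose differentials vanish along the level curves of `β` -/
theorem loc_cst {β : Fin 3 → W → ℂ} (h : Ind 4 β x) {ι : Type} {g : ι → W → ℂ} {N : Set W}
    (hN : N ∈ 𝓝 x) (H : ∀ x' ∈ N, (∀ a, β a x' = β a x) → (∀ k, Hol 4 (g k) x') ∧ ∃ ξ, ξ ≠ 0 ∧
      (∀ a, dd (β a) (chartAt (Cm 4) x') x' ξ = 0) ∧ ∀ k, dd (g k) (chartAt (Cm 4) x') x' ξ = 0) :
    ∀ᶠ x' in 𝓝 x, (∀ a, β a x' = β a x) → x' ∈ connectedComponentIn
      {x' ∈ N | (∀ a, β a x' = β a x) ∧ ∀ k, g k x' = g k x} x := by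
  obtain ⟨d, γ, v₀, rfl, h4⟩ :=
    RigH.slice (T := {y | ∀ a, β a y = β a x}) h (.of_forall fun _ => Iff.rfl)
  have h5 := h4.self_of_nhds.1
  have t0 : Tendsto γ (𝓝 v₀) (𝓝[{y | ∀ a, β a y = β a (γ v₀)}] (γ v₀)) := h5.le
  have hN' : ∀ᶠ y in 𝓝 (γ v₀), y ∈ N := hN
  obtain ⟨r, hr, hb⟩ := Metric.eventually_nhds_iff_ball.1 (h4.and (t0.eventually
    (((h.near.and hN').filter_mono nhdsWithin_le_nhds).and eventually_mem_nhdsWithin)))
  have hc : ∀ k, ∀ u ∈ ball v₀ r, g k (γ u) = g k (γ v₀) := fun k u hu => by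
    refine isOpen_ball.is_const_of_fderiv_eq_zero (𝕜 := ℂ) (f := fun u => g k (γ u))
      (convex_ball v₀ r).isPreconnected (fun q hq => ((hb q hq).1.2 _ ((H _ (hb q hq).2.1.2
        (hb q hq).2.2).1 k)).differentiableAt.differentiableWithinAt) (fun v hv => ?_) hu
      (mem_ball_self hr)
    obtain ⟨⟨b1, b2⟩, ⟨b5, b6⟩, b7⟩ := hb v hv
    obtain ⟨c1, ξ, c2, c3, c4⟩ := H _ b6 b7
    have he := Slc.at_chartAt (n := 4) (γ v)
    set e := chartAt (Cm 4) (γ v)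
    have b3 : Tendsto γ (𝓝 v) (𝓝[{y | ∀ a, β a y = β a (γ v₀)}] (γ v)) := b1.le
    have b4 : ∀ g, Hol 4 g (γ v) →
        fderiv ℂ (fun v => g (γ v)) v = (dd g e (γ v)).comp (fderiv ℂ (fun v => e (γ v)) v) := by
      intro g hg
      rw [dd, ← fderiv_fun_comp (f := fun v => e (γ v)) v (hg e he).differentiableAt
        (analyticAt_pi_iff.2 fun i =>
          b2 (fun y => e y i) ((Val.crd_chart he).hol i)).differentiableAt]
      refine EventuallyEq.fderiv_eq ?_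
      filter_upwards [(b3.mono_right nhdsWithin_le_nhds).eventually (e.open_source.mem_nhds he.2)]
        with w a using by rw [e.left_inv a]
    ext1 η
    obtain ⟨c, hc⟩ := ker1 (u := fderiv ℂ (fun v => e (γ v)) v η) (b5.2 e he) c2 c3 fun a => by
      rw [← ContinuousLinearMap.comp_apply, ← b4 _ (b5.1 a), EventuallyEq.fderiv_eq
        (f := fun _ => β a (γ v₀)) ((b3.eventually self_mem_nhdsWithin).mono fun w q => q a),
        fderiv_fun_const]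
      rfl
    rw [b4 _ (c1 k), ContinuousLinearMap.comp_apply, ← hc, map_smul, c4, smul_zero]
    rfl
  have hp : IsPreconnected (γ '' ball v₀ r) := (convex_ball v₀ r).isPreconnected.image γ
    fun u hu => ContinuousAt.continuousWithinAt ((hb u hu).1.1.le.trans nhdsWithin_le_nhds)
  refine eventually_nhdsWithin_iff.1 (h5 ▸ mem_of_superset (image_mem_map (ball_mem_nhds v₀ hr))
    (hp.subset_connectedComponentIn ⟨v₀, mem_ball_self hr, rfl⟩ ?_))
  rintro _ ⟨u, hu, rfl⟩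
  exact ⟨(hb u hu).2.1.2, (hb u hu).2.2, fun k => hc k u hu⟩

variable {X : Ctx} {L : Fin X.q → P285.H281.FD.Bd X.V.W} {S : X.Sf L} (M : Md S)

theorem quo {c : Fin S.b → ℤ} {s : Ix L → X.V.W → ℂ} {m : Fin (M.R + 1)} {w : M.Z.W}
    {j j' : Ix L} (hm : w ∈ M.D m) (h0 : ∀ l, w ∉ M.Z.G l) (hE : M.Z.π w ∉ X.E)
    (hs : MerAt X.V.G X.ex (lin L (∑ i, c i • S.a i)) s (M.Z.π w)) (hj : In L j (M.Z.π w))
    (hj' : In L j' (M.Z.π w)) : ∏ i, S.u i (M.eqv m i) j' (M.Z.π w) ^ c i ≠ 0 ∧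
      s j (M.Z.π w) / ∏ i, S.u i (M.eqv m i) j (M.Z.π w) ^ c i =
        s j' (M.Z.π w) / ∏ i, S.u i (M.eqv m i) j' (M.Z.π w) ^ c i := by
  have hO : M.Z.π w ∈ M.Dt.O := M.Z.le (M.Z.bl.maps w)
  have hg : ∀ a, (L a).g (j a) (j' a) (M.Z.π w) ≠ 0 := fun a =>
    (M.mov.lb a).ne_zero _ _ _ hO (hj a) (hj' a)
  refine ⟨Finset.prod_ne_zero_iff.2 fun i _ => zpow_ne_zero _ ?_, ?_⟩
  · obtain ⟨ζ, h1, -⟩ := M.Z.snc w
    obtain ⟨o, v, -, -, h2, h3⟩ := M.pm.mon m w hm i j' ζ hj' h1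
    rw [h3.self_of_nhds hE]
    exact mul_ne_zero h2 (Finset.prod_ne_zero_iff.2 fun l _ =>
      zpow_ne_zero _ fun e => h0 l ((h1 l).mem.1 e))
  · rw [((hs j hj).2 hE).2 j' hj', Finset.prod_congr rfl fun i _ => congrArg (· ^ c i)
      (((M.mov.mer i (M.eqv m i) _ hO j hj).2 hE).2 j' hj')]
    simp only [mul_zpow, Finset.prod_mul_distrib, Slc.lin, zp hg]
    exact mul_div_mul_left _ _ (Finset.prod_ne_zero_iff.2 fun a _ => zpow_ne_zero _ (hg a))

theorem exists_in (w : M.Z.W) : ∃ j, In L j (M.Z.π w) := by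
  choose j hj using fun a => (M.mov.lb a).cover _ (M.Z.le (M.Z.bl.maps w))
  exact ⟨j, hj⟩

theorem ev_in {w : M.Z.W} {j : Ix L} (hj : In L j (M.Z.π w)) : ∀ᶠ x in 𝓝 w, In L j (M.Z.π x) :=
  M.Z.bl.cont.continuousAt.eventually (eventually_all.2 fun a =>
    ((M.mov.lb a).isOpen _).mem_nhds (hj a))

/-- the coefficient of a section with respect to the generator of the moving part -/
theorem val (hb : Continuous M.b)
    (hE : ∀ w, M.b w ∈ M.O → (M.Z.π w ∈ X.E ↔ w ∈ Ex M.Z.G (exU X.ex))) {y : X.Y.pt} (hy : y ∈ M.O)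
    {c : Fin S.b → ℤ} {s : Ix L → X.V.W → ℂ} (hs : X.Mer y (lin L (∑ i, c i • S.a i)) s)
    (m : Fin (M.R + 1)) : ∃ V : M.Z.W → ℂ, ∀ w ∈ M.D m, M.b w = y → ∀ j u, In L j (M.Z.π w) →
      Hol 4 u w → (∀ᶠ w' in 𝓝 w, M.Z.π w' ∉ X.E →
        s j (M.Z.π w') = u w' * ∏ i, S.u i (M.eqv m i) j (M.Z.π w') ^ c i) →
      ∀ᶠ w' in 𝓝 w, u w' = V w' := by
  choose fr hfr using exists_in M
  refine ⟨fun w => limUnder (𝓝[{x | ∀ l, x ∉ M.Z.G l}] w) fun x =>
    s (fr x) (M.Z.π x) / ∏ i, S.u i (M.eqv m i) (fr x) (M.Z.π x) ^ c i,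
    fun w hw e j u hj hu H => ?_⟩
  have h1 : ∀ᶠ x in 𝓝 w, (∀ l, x ∉ M.Z.G l) → u x =
      s (fr x) (M.Z.π x) / ∏ i, S.u i (M.eqv m i) (fr x) (M.Z.π x) ^ c i := by
    filter_upwards [H, (M.pm.pm.isOpen m).mem_nhds hw,
      hb.continuousAt.eventually (M.model.isOpen.mem_nhds (e ▸ hy)),
      M.Z.bl.cont.continuousAt.eventually (hs.filter_mono (nhds_le_nhdsSet (s := X.F y) e)), ev_in M hj]
      with x a1 a2 a3 a4 a5 a6
    have a7 : M.Z.π x ∉ X.E := fun k => by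
      obtain ⟨l, -, q⟩ := mem_iUnion₂.1 ((hE x a3).1 k)
      exact a6 l q
    obtain ⟨b1, b2⟩ := quo M a2 a6 a7 a4 (hfr x) a5
    rw [b2, a1 a7, mul_div_cancel_right₀ _ b1]
  filter_upwards [h1.eventually_nhds, hu.near] with x a b
  have : (𝓝[{x | ∀ l, x ∉ M.Z.G l}] x).NeBot := frequently_mem_iff_neBot.1
    (((isSnc_of M.Z.snc).freq (y := x) ∅ fun _ q => q.elim).mono fun z q l k => (q l).1 k)
  have a' : ∀ᶠ z in 𝓝[{x | ∀ l, x ∉ M.Z.G l}] x, u z =
      s (fr z) (M.Z.π z) / ∏ i, S.u i (M.eqv m i) (fr z) (M.Z.π z) ^ c i :=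
    eventually_nhdsWithin_iff.2 a
  exact (Tendsto.limUnder_eq
    ((b.continuousAt.tendsto.mono_left nhdsWithin_le_nhds).congr' a')).symm

end Rk1H

end Vale.Agent.P277Z.Cls
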