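import Vale.Agent.P277Z.Cls.Defs
import Vale.Agent.P277Z.Hir.OutL
import Vale.Agent.P277Z.Hl.Prin
import Vale.Agent.P277Z.Top.Tb
import Vale.Agent.P277Z.Slc.Unit
import Vale.Agent.P277Z.Val.Fin

/-!
# P277, block CLS: the principalization with the strict transforms, first step
-/

set_option linter.all false

open scoped Manifold ContDiff Topology
open Vale.Agent.P272.K Set Filter
open Vale.Agent.P277Z.Val (Lg eqn)
open Vale.Agent.P277Z.Slc (LEq Snc Ind)
open Vale.Agent.P277Z.Hir (Bdy)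

noncomputable section

namespace Vale.Agent.P277Z.Cls.Rzl

open Lo Hl

section lab

variable {n : ℕ} {Y κ : Type} [TopologicalSpace Y] [ChartedSpace (Cm n) Y]
  [IsManifold 𝓘(ℂ, Cm n) ω Y] {G : κ → Set Y} {y : Y}

theorem leq_lab {D : Set Y} {e : Chart n Y} (he : At e y) {o : Option (Fin n)}
    (h : ∀ z ∈ e.source, z ∈ D ↔ ∃ i, o = some i ∧ e z i = 0) :
    LEq n D y fun z => o.elim 1 (e z) := by
  refine ⟨mem_of_superset (e.open_source.mem_nhds he.2) fun z hz => Iff.trans ?_ (h z hz).symm,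
    fun c hc => ?_⟩
  · cases o <;> simp
  · rcases o with _ | i
    · exact ⟨analyticAt_const, fun k => (one_ne_zero k).elim⟩
    · exact ⟨Top.Tb.hol_chart he i c hc, fun _ => ((Top.Tb.ind_chart he).2 c hc).ne_zero i⟩

theorem snc_lab {lab : Y → κ → Option (Fin n)}
    (h1 : ∀ y l l' i, lab y l = some i → lab y l' = some i → l = l')
    (h2 : ∀ y l, ∀ z ∈ (chartAt (Cm n) y).source,
      z ∈ G l ↔ ∃ i, lab y l = some i ∧ chartAt (Cm n) y z i = 0) : Snc n G := fun y => by
  refine ⟨_, fun l => leq_lab (at_chartAt y) (h2 y l), ?_⟩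
  choose i hi _ using fun l : {l // y ∈ G l} => (h2 y l y (mem_chart_source _ y)).1 l.2
  have := (Top.Tb.ind_chart (at_chartAt (n := n) y)).comp i fun l l' e =>
    Subtype.ext (h1 y l l' _ (hi l) (e ▸ hi l'))
  refine (congrArg (Ind n · y) (funext fun l => funext fun z => ?_)).mp this
  rw [hi l]
  rfl

end lab

theorem exists_bdy (V : Lg) (D : Dat 4 V.W) : ∃ B : Bdy D.base 4 V.r,
    (∀ l (x : D.O), x ∈ B.D l ↔ (x : V.W) ∈ V.G l) ∧
      ∀ x : D.O, ∃ ζ, V.Eq x ζ ∧ ∀ l (y : D.O), B.ζ x l y = ζ l y := by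
  choose Φ ρ lab hΦ _ using fun y => V.snc.nch y (Eventually.of_forall fun _ => trivial)
  refine ⟨⟨fun l => Subtype.val ⁻¹' V.G l, fun x : D.O => Subtype.val ⁻¹' (Φ x).source,
    fun x : D.O => (Φ x).target ∩ (Φ x).symm ⁻¹' D.O, fun x y : D.O => Φ x y, fun x : D.O => lab x,
    fun x => (hΦ _).src, fun x : D.O => ⟨(Φ x).open_source.preimage continuous_subtype_val,
      (Φ x).isOpen_inter_preimage_symm D.isOpen, fun i => i.elim0, ?_, ?_, fun y hy f => ?_⟩,
    fun x => (hΦ _).inj, fun x l y hy => (hΦ _).iff _ hy l⟩, fun _ _ => Iff.rfl,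
    fun x => ⟨_, (hΦ x).eq (hΦ x).src, fun _ _ => rfl⟩⟩
  · generalize Φ x = e
    ext z
    refine ⟨?_, fun ⟨⟨h1, h2⟩, _⟩ => ⟨⟨_, h2⟩, e.map_target h1, e.right_inv h1⟩⟩
    rintro ⟨y, hy, rfl⟩
    exact ⟨⟨e.map_source hy, by simpa [e.left_inv hy] using y.2⟩, fun i => i.elim0⟩
  · generalize Φ x = e
    have h2 : Topology.IsEmbedding fun y : (Subtype.val ⁻¹' e.source : Set D.O) =>
        (⟨y.1.1, y.2⟩ : e.source) :=
      Topology.IsEmbedding.of_comp (g := Subtype.val) (by fun_prop) continuous_subtype_val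
        ((Topology.IsEmbedding.subtypeVal (p := (· ∈ D.O))).comp
          (Topology.IsEmbedding.subtypeVal (p := (· ∈ (Subtype.val ⁻¹' e.source : Set D.O)))))
    exact e.isOpenEmbedding_restrict.isEmbedding.comp h2
  · change D.O at y
    have c := (hΦ x).crd y hy
    refine ⟨fun ⟨g, h1, h2⟩ => ⟨fun z => g ((Φ x).symm z), c.an.hol (c.inv.symm ▸ h1), ?_⟩,
      fun ⟨g, h1, h2⟩ => ⟨fun w => g (Φ x w), c.holF h1, h2⟩⟩
    filter_upwards [h2, continuousAt_subtype_val.eventually c.left] with w k1 k2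
    exact k1.trans (congrArg g k2.symm)

theorem exists_rz0 (hH : Hir.StMainL) (V : Lg) (D : Dat 4 V.W) {F : Set V.W} (hF : IsCompact F)
    (hO : F ⊆ D.O) : ∃ Z : Cls.Rz V D ∅, F ⊆ Z.O₁ := by
  have hK : IsCompact (Subtype.val ⁻¹' F : Set D.O) :=
    Topology.IsEmbedding.subtypeVal.isInducing.isCompact_preimage' hF (by simpa using hO)
  obtain ⟨B, hD, hB⟩ := exists_bdy V D
  obtain ⟨o⟩ := hH D.base 4 _ V.r B (by norm_num) D.sp.dense hK
  let := o.top
  let := o.t2
  let := o.sc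
  let := o.cs
  let := o.mf
  let π : o.Y → V.W := fun y => Subtype.val (p := (· ∈ D.O)) (o.π y)
  have hπ : Continuous π := continuous_subtype_val.comp o.cont
  have hh : ∀ y g, Hol 4 g (π y) → Hol 4 (fun z => g (π z)) y := fun y g h =>
    hol_chart.2 (o.hol y (fun w : D.O => g w) ⟨g, h, .of_forall fun _ => rfl⟩)
  let G : Fin V.r ⊕ Fin o.r → Set o.Y := Sum.elim o.old o.G
  let lab : o.Y → Fin V.r ⊕ Fin o.r → Option (Fin 4) := fun y => Sum.elim (o.labo y) (o.lab y)
  have s1 : ∀ y l, ∀ x ∈ (chartAt (Cm 4) y).source,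
      x ∈ G l ↔ ∃ i, lab y l = some i ∧ chartAt (Cm 4) y x i = 0 := fun y l => by
    cases l
    exacts [o.snco y _, o.snc y _]
  have s2 : Snc 4 G := snc_lab (fun y => by
    rintro (l | l) (k | k) i a b
    exacts [congrArg _ (o.injo y l k i a b), absurd b (o.disj y l k i a),
      absurd a (o.disj y k l i b), congrArg _ (o.inj y l k i a b)]) s1
  refine ⟨⟨o.Y, π, Subtype.val '' o.O, ∅, isOpen_empty, Subset.rfl, empty_subset _,
    by rintro _ ⟨x, -, rfl⟩; exact x.2, ⟨hπ, D.isOpen.isOpenMap_subtype_val _ o.isOpen, D.closed,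
    fun y => ⟨_, o.maps y, rfl⟩, fun L h1 h2 => ?_, ?_, o.dense, hh, fun y y' h1 h2 =>
    o.one y y' h1 (Subtype.ext h2), fun y hy => ?_⟩, o.r, G, s2,
    fun k w h => (hD k _).1 (o.subo k w h), fun k w a b => o.off k w a ((hD k _).2 b), o.bad, o.mo,
    fun y ζ ζ' a b k => ?_, 0, fun _ _ _ _ h => h.elim, fun y γ hy => ?_, o.c, o.c0, o.v,
    fun y => ?_⟩, fun x hx => ⟨⟨x, hO hx⟩, o.sub hx, rfl⟩⟩
  · refine o.proper (Subtype.val ⁻¹' L) (fun x hx => ?_)
      (Topology.IsEmbedding.subtypeVal.isInducing.isCompact_preimage' h2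
        (h1.trans (image_subset_range _ _)))
    obtain ⟨x', k1, k2⟩ := h1 hx
    rwa [← Subtype.ext k2]
  · rintro _ ⟨x, h1, rfl⟩ h2
    obtain ⟨y, rfl⟩ := o.surj x h1 h2
    exact ⟨y, rfl⟩
  · classical
    obtain ⟨σ, h1, h2, h3, h4⟩ := o.sec y hy
    let σ' : V.W → o.Y := fun w => if h : w ∈ D.O then σ ⟨w, h⟩ else y
    have e : ∀ w : D.O, σ' w = σ w := fun w => dif_pos w.2
    have c : ContinuousAt σ' (π y) := by
      rw [← D.isOpen.isOpenEmbedding_subtypeVal.continuousAt_iff (x := o.π y)]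
      exact h1.congr (.of_forall fun w => (e w).symm)
    have e2 : σ' (π y) = y := (e _).trans h2
    refine ⟨σ', c, e2, (ev_val D.isOpen (x := o.π y)).1 (h3.mono fun w h => ?_), fun a ha => ?_⟩
    · exact (congrArg π (e w)).trans (congrArg Subtype.val h)
    · obtain ⟨g, k1, k2⟩ := D.base.comp (o.π y) (Fin 4) (fun w => chartAt (Cm 4) y (σ w))
        (fun z => a ((chartAt (Cm 4) y).symm z)) (fun w => a (σ w)) h4
        (by rw [h2]; exact hol_chart.1 ha) (by
          have k := h1.eventually (by rw [h2]; exact chart_source_mem_nhds (Cm 4) y)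
          filter_upwards [k] with w hw
          rw [(chartAt (Cm 4) y).left_inv hw])
      exact k1.congr ((ev_val D.isOpen (x := o.π y)).1 (k2.mono fun w h => by rw [e w, ← h]))
  · obtain ⟨ζ₀, a0, a1⟩ := hB (o.π y)
    obtain ⟨u, u1, u2⟩ := a0.unit a
    obtain ⟨e, e1, e2, e3⟩ := o.tot y (o.π y) k (B.mem _)
    choose t t1 t2 t3 using fun l => Slc.stUnit 4 o.Y (G l) y _ _ (b l)
      (leq_lab (at_chartAt y) (s1 y l))
    refine ⟨fun x => u k (π x) * e (chartAt (Cm 4) y x) * (t (.inl k) x * ∏ l, t (.inr l) x ^ o.mo k l),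
      hol_mul (hol_mul (hh y _ (u1 k).1) ((Val.crd_chart (at_chartAt y)).holF e1))
        (hol_mul (t1 _) (hol_prod _ fun l _ => hol_pow (t1 _) _)),
      mul_ne_zero (mul_ne_zero (u1 k).2 e2) (mul_ne_zero (t2 _)
        (Finset.prod_ne_zero_iff.2 fun l _ => pow_ne_zero _ (t2 _))), ?_⟩
    filter_upwards [hπ.continuousAt.eventually u2, e3, eventually_all.2 t3] with x p1 p2 p3
    have q1 : (o.labo y k).elim 1 (chartAt (Cm 4) y x) = _ := p3 (.inl k)
    have q2 : ∀ l, (o.lab y l).elim 1 (chartAt (Cm 4) y x) = _ := fun l => p3 (.inr l)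
    rw [p1 k, ← a1 k (o.π x), p2, q1]
    simp only [q2, mul_pow, Finset.prod_mul_distrib]
    ring
  · obtain ⟨e, -, C, h1, h2⟩ := o.prin y γ hy
    have he := at_chartAt (n := 4) y
    obtain ⟨k₀, hk⟩ := Hl.prin 4 4 D.κ (fun k z => D.f γ k (π ((chartAt (Cm 4) y).symm z)))
      (chartAt (Cm 4) y y) some (fun i => e i) (fun l l' i a b => by simp_all)
      (fun _ => Nat.cast_nonneg _)
      (fun k => hol_chart.1 (hh y _ (D.hol γ k _ (o.π y).2 hy))) ⟨C, h1, by
        filter_upwards [(tendsto_symm he).eventually h2,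
          (chartAt (Cm 4) y).open_target.mem_nhds (mem_chart_target _ y)] with z p1 p2
        rw [(chartAt (Cm 4) y).right_inv p2] at p1
        have q := (Fintype.equivFin D.κ).symm.sum_comp
          fun k => ‖D.f γ k (π ((chartAt (Cm 4) y).symm z))‖
        simp only [Option.elim, Real.rpow_natCast, ← q]
        simp only [norm_prod, norm_pow] at p1
        exact p1⟩
    refine ⟨k₀, fun k => ?_⟩
    obtain ⟨c, p1, p2⟩ := hk k
    refine ⟨fun w => c (chartAt (Cm 4) y w), (Val.crd_chart he).holF p1, (ev_chart he).1 ?_⟩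
    filter_upwards [p2, (chartAt (Cm 4) y).open_target.mem_nhds (mem_chart_target _ y)]
      with z h hz
    rw [(chartAt (Cm 4) y).right_inv hz, h]
  · obtain ⟨m, g, ε, U, h, k1, k2, k3, k4, k5, k6, k7⟩ := o.pos y
    choose a ha hb using k1
    have he := at_chartAt (n := 4) y
    refine ⟨m, a, _, fun x => h (chartAt (Cm 4) y x), ha, fun l => leq_lab he (o.snc y l),
      ⟨_, he, ε, k2, _, inter_mem (k3.mem_nhds k4) (chart_target_mem_nhds (Cm 4) y), ?_, ?_⟩, ?_⟩
    · exact (k5.mono inter_subset_left).congr fun t ht => by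
        simp only [(chartAt (Cm 4) y).right_inv ht.2]
    · exact (k6.mono inter_subset_left).congr fun t ht => by
        simp only [(chartAt (Cm 4) y).right_inv ht.2, Pos.nsq]
    · filter_upwards [k7, o.cont.continuousAt.eventually (eventually_all.2 hb)] with x p1 p2 p3
      rw [p1 p3, Finset.mul_sum]
      simp only [p2]
      refine congrArg₂ _ rfl (Finset.sum_congr rfl fun l _ => ?_)
      cases o.lab y l <;> simp
      ring

end Vale.Agent.P277Z.Cls.Rzl
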