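import Vale.Agent.P277Z.Cls.Defs
import Vale.Agent.P277Z.Cls.Snc
import Vale.Agent.P277Z.Slc.Unit
import Vale.Agent.P277Z.Val.Mon

/-!
# P277, block CLS: monomials, and the splitting of a family of hypersurfaces
-/

set_option linter.all false

open scoped Manifold ContDiff Topology
open Vale.Agent.P272.K Set Filter Metric
open Vale.Agent.P277Z.Val (Lg eqn jac Nch crd_chart)
open Vale.Agent.P277Z.Slc (LEq Snc Ind)

noncomputable section

namespace Vale.Agent.P277Z.Cls.Rzl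

open Lo Hl

theorem prod_sec {M α β : Type} [CommMonoid M] [Fintype α] [Fintype β] [DecidableEq β] {p : β → α}
    {s : α → β} (h : ∀ l, p (s l) = l) (g : β → M) :
    ∏ k, (if s (p k) = k then g k else 1) = ∏ l, g (s l) := by
  rw [← Finset.prod_filter]
  exact Finset.prod_nbij' p s (by simp) (by simp [h]) (by simp) (by simp [h])
    fun k hk => by rw [(Finset.mem_filter.1 hk).2]

theorem sum_sec {M α β : Type} [AddCommMonoid M] [Fintype α] [Fintype β] [DecidableEq β]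
    {p : β → α} {s : α → β} (h : ∀ l, p (s l) = l) (g : β → M) :
    ∑ k, (if s (p k) = k then g k else 0) = ∑ l, g (s l) :=
  prod_sec (M := Multiplicative M) h g

theorem pow_le {W : Type} [TopologicalSpace W] {a b ζ : W → ℂ} {x : W} {p q : ℕ}
    (ha : ContinuousAt a x) (hb : ContinuousAt b x) (hζ : ContinuousAt ζ x) (a0 : a x ≠ 0)
    (h0 : ζ x = 0) (hf : ∃ᶠ y in 𝓝 x, ζ y ≠ 0)
    (e : ∀ᶠ y in 𝓝 x, a y * ζ y ^ p = b y * ζ y ^ q) : q ≤ p := by
  by_contra h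
  obtain ⟨d, rfl⟩ := Nat.exists_eq_add_of_lt (not_le.1 h)
  refine a0 ((tendsto_nhds_unique_of_frequently_eq ha (hb.mul (hζ.pow (d + 1)))
    ((hf.and_eventually e).mono fun y k => mul_right_cancel₀ (pow_ne_zero p k.1) ?_)).trans ?_)
  · rw [k.2]
    simp only [Pi.mul_apply, Pi.pow_apply]
    ring
  · simp [h0]

variable {W : Type} [TopologicalSpace W] [ChartedSpace (Cm 4) W] {w : W} {a b c d : W → ℂ}

/-- `a` and `b` differ by a unit near `w` -/
def Un (a b : W → ℂ) (w : W) : Prop :=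
  ∃ v, Hol 4 v w ∧ v w ≠ 0 ∧ ∀ᶠ x in 𝓝 w, a x = v x * b x

theorem Un.of_eq (h : ∀ᶠ x in 𝓝 w, a x = b x) : Un a b w :=
  ⟨fun _ => 1, hol_const 1, one_ne_zero, h.mono fun _ e => e.trans (one_mul _).symm⟩

theorem Un.rfl : Un a a w := .of_eq (.of_forall fun _ => Eq.refl _)

theorem Un.of_ne (ha : Hol 4 a w) (hb : Hol 4 b w) (a0 : a w ≠ 0) (b0 : b w ≠ 0) : Un a b w :=
  ⟨_, hol_div ha hb b0, div_ne_zero a0 b0,
    (hol_ne hb b0).mono fun _ e => (div_mul_cancel₀ _ e).symm⟩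

theorem Un.trans (h : Un a b w) (h' : Un b c w) : Un a c w := by
  obtain ⟨u, h1, h2, h3⟩ := h
  obtain ⟨v, k1, k2, k3⟩ := h'
  refine ⟨_, hol_mul h1 k1, mul_ne_zero h2 k2, ?_⟩
  filter_upwards [h3, k3] with x p q
  rw [p, q, mul_assoc]

theorem Un.symm (h : Un a b w) : Un b a w := by
  obtain ⟨u, h1, h2, h3⟩ := h
  refine ⟨_, hol_inv h1 h2, inv_ne_zero h2, ?_⟩
  filter_upwards [h3, hol_ne h1 h2] with x p q
  rw [p, inv_mul_cancel_left₀ q]

theorem Un.mul (h : Un a b w) (h' : Un c d w) :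
    Un (fun x => a x * c x) (fun x => b x * d x) w := by
  obtain ⟨u, h1, h2, h3⟩ := h
  obtain ⟨v, k1, k2, k3⟩ := h'
  refine ⟨_, hol_mul h1 k1, mul_ne_zero h2 k2, ?_⟩
  filter_upwards [h3, k3] with x p q
  rw [p, q, mul_mul_mul_comm]

theorem Un.prod {ι : Type} [Fintype ι] {a b : ι → W → ℂ} (h : ∀ l, Un (a l) (b l) w) :
    Un (fun x => ∏ l, a l x) (fun x => ∏ l, b l x) w := by
  choose u h1 h2 h3 using h
  refine ⟨_, hol_prod Finset.univ fun l _ => h1 l, Finset.prod_ne_zero_iff.2 fun l _ => h2 l, ?_⟩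
  filter_upwards [eventually_all.2 h3] with x p
  simp only [p, Finset.prod_mul_distrib]

theorem Un.pow (h : Un a b w) (m : ℕ) : Un (fun x => a x ^ m) (fun x => b x ^ m) w := by
  obtain ⟨u, h1, h2, h3⟩ := h
  exact ⟨_, hol_pow h1 m, pow_ne_zero _ h2, h3.mono fun x p => by simp only [p, mul_pow]⟩

theorem leq_congr {A B : Set W} (h : LEq 4 A w a) (e : ∀ᶠ x in 𝓝 w, x ∈ A ↔ x ∈ B) :
    LEq 4 B w a :=
  ⟨(h.1.and e).mono fun _ k => k.1.trans k.2, h.2⟩

/-- the sets `G' k` are the pieces of the sets `G l` -/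
structure Spl {κ κ' : Type} (G : κ → Set W) (G' : κ' → Set W) (p : κ' → κ) (s : W → κ → κ') :
    Prop where
  ps : ∀ w l, p (s w l) = l
  near : ∀ w k, ∀ᶠ x in 𝓝 w, x ∈ G' k ↔ x ∈ G (p k) ∧ s w (p k) = k

section spl

variable {κ κ' : Type} {G : κ → Set W} {G' : κ' → Set W} {p : κ' → κ} {s : W → κ → κ'}

theorem spl_of (hG : Snc 4 G) (ps : ∀ w l, p (s w l) = l)
    (h : ∀ w l, w ∈ G l → ∀ᶠ x in 𝓝 w, x ∈ G l → s x l = s w l) :
    Spl G (fun k => {w ∈ G (p k) | s w (p k) = k}) p s := by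
  refine ⟨ps, fun w k => ?_⟩
  by_cases hw : w ∈ G (p k)
  · exact (h w _ hw).mono fun x e => and_congr_right fun a => by rw [e a]
  · exact (((hG w).choose_spec.1 _).not_mem_near hw).mono fun x e =>
      iff_of_false (fun a => e a.1) fun a => e a.1

theorem Spl.sum (h : Spl G G' p s) {α : Type} (A : α → Set W) :
    Spl (Sum.elim A G) (Sum.elim A G') (Sum.map id p) fun w => Sum.map id (s w) := by
  refine ⟨fun w l => by cases l <;> simp [h.ps], fun w k => ?_⟩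
  cases k
  · simp
  · simpa using h.near w _

theorem Spl.iff (h : Spl G G' p s) (w : W) (l : κ) : ∀ᶠ x in 𝓝 w, x ∈ G' (s w l) ↔ x ∈ G l := by
  simpa [h.ps] using h.near w (s w l)

theorem Spl.down (h : Spl G G' p s) {ζ : κ' → W → ℂ} (hζ : ∀ k, LEq 4 (G' k) w (ζ k)) (l : κ) :
    LEq 4 (G l) w (ζ (s w l)) :=
  leq_congr (hζ _) (h.iff w l)

variable [DecidableEq κ']

theorem Spl.up (h : Spl G G' p s) {ζ : κ → W → ℂ} (hζ : ∀ l, LEq 4 (G l) w (ζ l)) (k : κ') :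
    LEq 4 (G' k) w fun x => if s w (p k) = k then ζ (p k) x else 1 := by
  split_ifs with e
  · exact leq_congr (hζ _) ((h.near w k).mono fun x a => by simp [a, e])
  · exact ⟨(h.near w k).mono fun x a => by simp [a, e],
      fun _ _ => ⟨analyticAt_const, fun a => absurd a one_ne_zero⟩⟩

theorem Spl.snc (h : Spl G G' p s) (hG : Snc 4 G) : Snc 4 G' := fun w => by
  obtain ⟨ζ, h1, h2⟩ := hG w
  have e := fun k => (h.near w k).self_of_nhds.1
  refine ⟨_, h.up h1, (congrArg (Ind 4 · w) (funext fun k => funext fun x => ?_)).mp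
    (h2.comp (fun k : {k // w ∈ G' k} => ⟨p k, (e k k.2).1⟩) fun k k' a => Subtype.ext ?_)⟩
  · exact (if_pos (e k k.2).2).symm
  · rw [← (e k k.2).2, ← (e k' k'.2).2, show p k = p k' from congrArg Subtype.val a]

theorem Spl.mon [Fintype κ] [Fintype κ'] (h : Spl G G' p s) {ζ : κ' → W → ℂ}
    (hζ : ∀ k, LEq 4 (G' k) w (ζ k)) (m : κ' → ℕ) :
    Un (fun x => ∏ l, ζ (s w l) x ^ m (s w l)) (fun x => ∏ k, ζ k x ^ m k) w := by
  refine (Un.of_eq (.of_forall fun x => (prod_sec (h.ps w) fun k => ζ k x ^ m k).symm)).trans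
    (.prod fun k => ?_)
  split_ifs with e
  · exact .rfl
  · exact .of_ne (hol_const 1) (hol_pow (hζ k).hol _) one_ne_zero
      (pow_ne_zero _ fun a => e ((h.near w k).self_of_nhds.1 ((hζ k).mem.1 a)).2)

end spl

variable [IsManifold 𝓘(ℂ, Cm 4) ω W]

theorem Un.near (h : Un a b w) : ∀ᶠ x in 𝓝 w, Un a b x := by
  obtain ⟨u, h1, h2, h3⟩ := h
  filter_upwards [h1.near, hol_ne h1 h2, h3.eventually_nhds] with x p q r using ⟨u, p, q, r⟩

variable {ι : Type} [Fintype ι] {G : ι → Set W} {ζ : ι → W → ℂ}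

theorem mon_uniq (hG : Snc 4 G) (hζ : ∀ l, LEq 4 (G l) w (ζ l)) {m m' : ι → ℕ}
    (h : Un (fun x => ∏ l, ζ l x ^ m l) (fun x => ∏ l, ζ l x ^ m' l) w) {l : ι} (hl : w ∈ G l) :
    m l = m' l := by
  classical
  obtain ⟨x, h1, ⟨u, u1, u2, u3⟩, h3⟩ := (((isSnc_of hG).freq {l} fun _ e => e ▸ hl).and_eventually
    (h.near.and (eventually_all.2 fun k => (hζ k).near))).exists
  have c : ∀ m : ι → ℕ, ContinuousAt (fun y => ∏ k ∈ Finset.univ.erase l, ζ k y ^ m k) x ∧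
      ∏ k ∈ Finset.univ.erase l, ζ k x ^ m k ≠ 0 := fun m =>
    ⟨hol_cont (hol_prod _ fun k _ => hol_pow (h3 k).hol _), Finset.prod_ne_zero_iff.2 fun k a =>
      pow_ne_zero _ fun e => (Finset.mem_erase.1 a).1 ((h1 k).1 ((h3 k).mem.1 e))⟩
  have f : ∃ᶠ y in 𝓝 x, ζ l y ≠ 0 := (((isSnc_of hG).freq ∅ (by simp)).and_eventually
    (h3 l).1).mono fun y a e => (a.1 l).1 (a.2.1 e)
  have e : ∀ᶠ y in 𝓝 x, (∏ k ∈ Finset.univ.erase l, ζ k y ^ m k) * ζ l y ^ m l =
      (u y * ∏ k ∈ Finset.univ.erase l, ζ k y ^ m' k) * ζ l y ^ m' l := u3.mono fun y a => by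
    rwa [mul_assoc, Finset.prod_erase_mul _ (fun k => ζ k y ^ m k) (Finset.mem_univ l),
      Finset.prod_erase_mul _ (fun k => ζ k y ^ m' k) (Finset.mem_univ l)]
  have z := (h3 l).mem.2 ((h1 l).2 rfl)
  exact le_antisymm (pow_le ((hol_cont u1).mul (c m').1) (c m).1 (hol_cont (h3 l).hol)
    (mul_ne_zero u2 (c m').2) z f (e.mono fun _ => Eq.symm))
    (pow_le (c m).1 ((hol_cont u1).mul (c m').1) (hol_cont (h3 l).hol) (c m).2 z f e)

theorem nch_leq {Φ : Chart 4 W} {ρ : ℝ} {lab : ι → Option (Fin 4)} (h : Nch G w Φ ρ lab) (l : ι) :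
    LEq 4 (G l) w (eqn Φ lab l) := by
  refine ⟨?_, fun e he => ?_⟩
  · filter_upwards [h.nhds] with z hz
    rw [h.iff z hz]
    unfold eqn
    cases lab l <;> simp
  · unfold eqn
    cases lab l with
    | none => exact ⟨analyticAt_const, fun h => absurd h one_ne_zero⟩
    | some i =>
      have h1 := (crd_chart he).chg (h.crd w h.src)
      refine ⟨analyticAt_pi_iff.1 h1.1 i, fun _ h0 => ?_⟩
      obtain ⟨v, hv⟩ := (LinearMap.equivOfDetNeZero (fderiv ℂ (fun w => Φ (e.symm w)) (e w) :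
        Cm 4 →ₗ[ℂ] Cm 4) h1.2).surjective (Pi.single i 1)
      have h2 := congrArg (fun L : Cm 4 →L[ℂ] ℂ => L v)
        (hasFDerivAt_pi'.1 h1.1.differentiableAt.hasFDerivAt i).fderiv
      have h3 : fderiv ℂ (fun w => Φ (e.symm w)) (e w) v = Pi.single i 1 := hv
      simp only [Option.elim_some] at h0
      simp [h0, h3] at h2

theorem mon_ex [T2Space W] [SecondCountableTopology W] (hG : Snc 4 G) (ha : Hol 4 a w)
    (hne : ∀ᶠ x in 𝓝 w, (∀ l, x ∉ G l) → a x ≠ 0) : ∃ m : ι → ℕ, ∀ ζ : ι → W → ℂ,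
      (∀ l, LEq 4 (G l) w (ζ l)) → Un a (fun x => ∏ l, ζ l x ^ m l) w := by
  obtain ⟨Φ, ρ, lab, h, hp⟩ := (isSnc_of hG).nch w hne
  have hc := h.crd w h.src
  obtain ⟨g, u, h1, h2, h3⟩ := Val.exists_mon0 lab (f := fun w => a (Φ.symm w))
    (h.zero ▸ hc.an.hol (by rwa [hc.inv])) (by
      filter_upwards [ball_mem_nhds _ h.pos] with w hw e
      refine hp _ (h.symm_mem hw).1 fun l hl => ?_
      obtain ⟨i, a, b⟩ := (h.iff _ (h.symm_mem hw).1 l).1 hl
      exact e l i a ((h.symm_mem hw).2 ▸ b))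
  rw [← h.zero] at h1 h2 h3
  refine ⟨g, fun ζ hζ => Un.trans ⟨fun y => u (Φ y), hc.holF h1, h2, ?_⟩
    (.prod fun l => .pow (Slc.stUnit 4 W _ w _ _ (hζ l) (nch_leq h l)) (g l))⟩
  filter_upwards [hc.cont.eventually h3, hc.left] with x e1 e2
  rwa [e2] at e1

section jac

variable {Y : Type} [TopologicalSpace Y] [ChartedSpace (Cm 4) Y] [IsManifold 𝓘(ℂ, Cm 4) ω Y]
  {π : W → Y} {O Z : Set Y} {e' e₁' : Chart 4 W} {e e₁ : Chart 4 Y}

theorem bl_an (h : Bl 4 π O Z) (he' : At e' w) (he : At e (π w)) :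
    AnalyticAt ℂ (fun z => e (π (e'.symm z))) (e' w) :=
  analyticAt_pi_iff.2 fun i => h.hol w (fun y => e y i) (Val.holF_chart he i) e' he'

theorem jac_chg (h : Bl 4 π O Z) (he' : At e' w) (he : At e (π w)) (he₁' : At e₁' w)
    (he₁ : At e₁ (π w)) : Un (jac π e₁' e₁) (jac π e' e) w := by
  refine ⟨fun x => jac (fun y => y) e e₁ (π x) * jac (fun y => y) e₁' e' x,
    hol_mul (h.hol w _ (Val.jac_id he he₁).1) (Val.jac_id he₁' he').1,
    mul_ne_zero (Val.jac_id he he₁).2 (Val.jac_id he₁' he').2, ?_⟩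
  filter_upwards [Val.ev_at he', Val.ev_at he₁', h.cont.continuousAt.eventually (Val.ev_at he),
    h.cont.continuousAt.eventually (Val.ev_at he₁)] with x a b c d
  rw [Val.jac_comp (π := π) (σ := fun y => y) continuousAt_id b.2 a.2 (bl_an h a d)
    (trans_an a b), Val.jac_comp (π := fun y => y) (σ := π) h.cont.continuousAt a.2 c.2
    (trans_an d c) (bl_an h a c)]
  ring

theorem jac_ne (h : Bl 4 π O Z) (hw : π w ∉ Z) (he' : At e' w) (he : At e (π w)) :
    jac π e' e w ≠ 0 := by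
  obtain ⟨σ, h1, h2, h3, h4⟩ := h.sec w hw
  have k := Val.jac_comp (π := π) (σ := σ) (e := e) h1 he.2 (h2.symm ▸ he'.2)
    (h2.symm ▸ bl_an h he' he) (analyticAt_pi_iff.2 fun i =>
      h4 (fun y => e' y i) (Val.holF_chart he' i) e he)
  rw [h2] at k
  refine left_ne_zero_of_mul (ne_of_eq_of_ne k.symm ?_)
  refine ne_of_eq_of_ne (congrArg ContinuousLinearMap.det (EventuallyEq.fderiv_eq ?_))
    (Val.jac_id he he).2
  exact ((tendsto_symm he).eventually h3).mono fun z a => congrArg e a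

end jac

end Vale.Agent.P277Z.Cls.Rzl
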