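import Vale.Agent.P277Z.Cls.Sk
import Vale.Agent.P277Z.Cls.RzlA
import Vale.Agent.P277Z.Cls.RzlB

/-!
# P277, block CLS: the principalization with the strict transforms
-/

set_option linter.all false

open scoped Manifold ContDiff Topology
open Vale.Agent.P272.K Set Filter
open Vale.Agent.P277Z.Val (Lg jac)
open Vale.Agent.P277Z.Slc (LEq Snc Ind)

noncomputable section

namespace Vale.Agent.P277Z.Cls

open Lo Rzl

namespace Rzl

variable {V : Lg} {D : Hl.Dat 4 V.W} (Z : Rz V D ∅)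

theorem snc_new : Snc 4 fun l => Z.G (.inr l) := fun w =>
  let ⟨ζ, h1, h2⟩ := Z.snc w
  ⟨_, fun l => h1 (.inr l), h2.comp (fun l : {l // w ∈ Z.G (.inr l)} => ⟨.inr l, l.2⟩)
    fun _ _ e => Subtype.ext (Sum.inr_injective (congrArg Subtype.val e))⟩

/-- the orders of the Jacobian -/
theorem exists_ord : ∃ N : Z.W → Fin Z.r → ℕ,
    (∀ w (e' : Chart 4 Z.W) (e : Chart 4 V.W) (ζ : Fin Z.r → Z.W → ℂ), At e' w → At e (Z.π w) →
      (∀ l, LEq 4 (Z.G (.inr l)) w (ζ l)) → Un (jac Z.π e' e) (fun x => ∏ l, ζ l x ^ N w l) w) ∧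
    ∀ w l, w ∈ Z.G (.inr l) → ∀ᶠ x in 𝓝 w, x ∈ Z.G (.inr l) → N x l = N w l := by
  choose N hN using fun w => mon_ex (w := w) (snc_new Z)
    (a := jac Z.π (chartAt (Cm 4) w) (chartAt (Cm 4) (Z.π w)))
    (Val.holF_jac (at_chartAt w) (bl_an Z.bl (at_chartAt w) (at_chartAt _))) (by
      filter_upwards [Val.ev_at (at_chartAt (n := 4) w), Z.bl.cont.continuousAt.eventually
        (Val.ev_at (at_chartAt (n := 4) (Z.π w)))] with x a b c
        using jac_ne Z.bl (fun d => ((Z.new x).1 d).elim c) a b)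
  have h := fun w (e' : Chart 4 Z.W) (e : Chart 4 V.W) ζ (a : At e' w) (b : At e (Z.π w)) c =>
    (jac_chg Z.bl (at_chartAt w) (at_chartAt _) a b).trans (hN w ζ c)
  refine ⟨N, h, fun w l _ => ?_⟩
  obtain ⟨ζ, hζ, -⟩ := snc_new Z w
  filter_upwards [Val.ev_at (at_chartAt (n := 4) w), Z.bl.cont.continuousAt.eventually
    (Val.ev_at (at_chartAt (n := 4) (Z.π w))), eventually_all.2 fun l => (hζ l).near,
    (hN w ζ hζ).near] with x a b c d e
    using mon_uniq (snc_new Z) c ((h x _ _ ζ a b c).symm.trans d) e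

theorem refine {F : Set V.W} (hF : IsCompact F) (hO : F ⊆ Z.O₁) : Nonempty (Rz V D F) := by
  classical
  obtain ⟨L, L1, L2, L3⟩ := exists_compact_between hF Z.bl.isOpen hO
  obtain ⟨N, h1, h2⟩ := exists_ord Z
  obtain ⟨J, hJ⟩ : ∃ J, ∀ w ∈ Z.π ⁻¹' L, ∀ l, w ∈ Z.G (.inr l) → N w l ≤ J := by
    refine (Z.bl.proper L L3 L1).induction_on
      (p := fun S => ∃ J, ∀ w ∈ S, ∀ l, w ∈ Z.G (.inr l) → N w l ≤ J) ⟨0, by simp⟩
      (fun s t a b => b.imp fun _ c w d => c w (a d))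
      (fun s t ⟨a, b⟩ ⟨c, d⟩ => ⟨max a c, fun w e l f => e.elim
        (fun e => le_max_of_le_left (b w e l f)) fun e => le_max_of_le_right (d w e l f)⟩)
      fun w _ => ⟨_, mem_nhdsWithin_of_mem_nhds (eventually_all.2 fun l => ?_ :
        ∀ᶠ x in 𝓝 w, ∀ l, x ∈ Z.G (.inr l) → N x l ≤ ∑ l, N w l), _, fun _ a => a⟩
    by_cases a : w ∈ Z.G (.inr l)
    · exact (h2 w l a).mono fun x b c => (b c).trans_le
        (Finset.single_le_sum (fun _ _ => Nat.zero_le _) (Finset.mem_univ l))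
    · exact (((Z.snc w).choose_spec.1 _).not_mem_near a).mono fun x b c => absurd c b
  let p : Fin (Z.r * (J + 1)) → Fin Z.r := fun k => (finProdFinEquiv.symm k).1
  let s : Z.W → Fin Z.r → Fin (Z.r * (J + 1)) := fun w l =>
    finProdFinEquiv (l, ⟨min (N w l) J, Nat.lt_succ_of_le (min_le_right _ _)⟩)
  have S := spl_of (p := p) (s := s) (snc_new Z) (fun w l => by
    simp only [p, s, Equiv.symm_apply_apply]) fun w l a => (h2 w l a).mono fun x b c => by
      simp only [s, b c]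
  have e0 : Sum.elim (fun k => Z.G (.inl k)) (fun l => Z.G (.inr l)) = Z.G := Sum.elim_comp_inl_inr _
  have T := S.sum fun k => Z.G (.inl k)
  rw [e0] at T
  refine ⟨⟨Z.W, Z.π, Z.O₁, interior L, isOpen_interior, L2, interior_subset.trans L3, Z.le, Z.bl, _,
    _, T.snc Z.snc, Z.old, Z.off, fun w => (Z.new w).trans
      ⟨fun ⟨l, a⟩ => ⟨s w l, (S.iff w l).self_of_nhds.2 a⟩, fun ⟨k, a⟩ => ⟨_, a.1⟩⟩,
    fun k j => Z.mo k (p j), fun w ζ ζ' a b k => ?_, fun k => (finProdFinEquiv.symm k).2,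
    fun w ζ e' e a b c d => ?_, Z.prin, fun k => Z.c (p k), fun _ => Z.c0 _, Z.v, fun w => ?_⟩⟩
  · have k1 := S.mon (fun l => b (.inr l)) fun j => Z.mo k (p j)
    simp only [S.ps] at k1
    exact Un.trans (Z.tot w ζ _ a (T.down b) k) (Un.rfl.mul k1)
  · refine ((h1 w e' e _ c d (S.down b)).trans (.prod fun l => ?_)).trans
      (S.mon b fun k => (finProdFinEquiv.symm k).2)
    by_cases f : w ∈ Z.G (.inr l)
    · refine .of_eq (.of_forall fun x => congrArg _ ?_)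
      simp only [s, Equiv.symm_apply_apply,
        min_eq_left (hJ w (interior_subset (s := L) a) l f)]
    · have g := mt (S.down b l).mem.1 f
      exact .of_ne (hol_pow (b _).hol _) (hol_pow (b _).hol _) (pow_ne_zero _ g) (pow_ne_zero _ g)
  · obtain ⟨m, g, ζ, φ, k1, k2, k3, k4⟩ := Z.pos w
    refine ⟨m, g, _, φ, k1, S.up k2, k3, k4.mono fun x a b => ?_⟩
    rw [a fun l c => b (s x l) ((S.iff x l).self_of_nhds.2 c)]
    have k5 := sum_sec (S.ps w) fun k => (Z.c (p k) : ℝ) * Real.log (‖ζ (p k) x‖ ^ 2)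
    simp only [S.ps] at k5
    rw [← k5]
    refine congrArg _ (Finset.sum_congr rfl fun k _ => ?_)
    split_ifs <;> simp

end Rzl

/-- **RZL** -/
theorem rzl_of (hH : Hir.StMainL) : StRzl := fun V D _ hF hO =>
  let ⟨Z, h⟩ := exists_rz0 hH V D hF hO
  refine Z hF h

end Vale.Agent.P277Z.Cls
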