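import Vale.Agent.P277Z.Cls.Defs

/-!
# P277, block CLS: the class group step (statements)
-/

set_option linter.all false
set_option maxSynthPendingDepth 3

open scoped Manifold ContDiff Topology
open Vale.Agent.P272.K Vale.Agent.P285.H281.FD Vale.Agent.P277 Set Filter Module
open Vale.Agent.P277.PH (SmR)
open Vale.Agent.P277.HD (pull)
open Vale.Agent.P284Z (levi)
open Vale.Agent.P277Z.Val (Lg)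
open Vale.Agent.P277Z.Slc (LEq Snc IsDiv Ind lin dd)
open Vale.Agent.P277Z.Brg (PosX PosR PrjN LBN)
open Vale.Agent.P277Z.Pj (Prp Prj PMap SecD cyl)
open Vale.Agent.P277Z.Coh (LBOn ScAt)
open Vale.Agent.P277Z.Top

noncomputable section

namespace Vale.Agent.P277Z.Cls

/-! ### Algebra -/

/-- **CH**: chambers -/
def StCh : Prop :=
  ∀ (q g : ℕ) (d : Fin g → Fin q → ℤ), ∃ (n : ℕ) (H : Finset (Fin q → ℤ)) (Z : Finset (Fin g → ℕ))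
    (T : (Fin q → ℤ) → Finset (Fin g → ℕ)), 1 ≤ n ∧ (∀ m ∈ Z, m ≠ 0 ∧ ∑ a, m a • d a = 0) ∧
    (∀ e, ∀ m ∈ T e, ∑ a, m a • d a = n • e) ∧
    ∀ (ι : Type) [Fintype ι] (e : ι → Fin q → ℤ) (c : ι → ℕ),
      (∀ h ∈ H, ∀ a b, 0 ≤ (h ⬝ᵥ e a) * (h ⬝ᵥ e b)) → ∀ m : Fin g → ℕ,
      ∑ a, m a • d a = n • ∑ i, c i • e i → ∀ ρ : Fin g → ℝ, (∀ a, 0 ≤ ρ a) →
      (∀ z ∈ Z, ∏ a, ρ a ^ z a ≤ 1) →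
      ∏ a, ρ a ^ m a ≤ ∏ i, (∑ m' ∈ T (e i), ∏ a, ρ a ^ m' a) ^ c i

/-- **BASIS**: a basis in a chamber -/
def StBasis : Prop :=
  ∀ (q : ℕ) (H : Finset (Fin q → ℤ)), ∃ e : Fin q → Fin q → ℤ, LinearIndependent ℤ e ∧
    ∀ h ∈ H, ∀ a b, 0 ≤ (h ⬝ᵥ e a) * (h ⬝ᵥ e b)

/-- **FAC**: the boundary of a pointed cone is not covered by few faces -/
def StFac : Prop :=
  ∀ (q : ℕ) (C : Set (Fin q → ℤ)) (a : Fin q → Fin q → ℤ) (H : Finset (Fin q → ℤ)) (ι : Type)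
    (A : Finset ι) (K : ι → Set (Fin q → ℤ)), LinearIndependent ℤ a → (∀ i, a i ∈ C) → 0 ∈ C →
    (∀ x ∈ C, ∀ y ∈ C, x + y ∈ C) → (∀ (N : ℕ) x, 1 ≤ N → N • x ∈ C → x ∈ C) →
    (∀ x ∈ C, ∀ x', (∀ h ∈ H, 0 ≤ (h ⬝ᵥ x) * (h ⬝ᵥ x') ∧ (h ⬝ᵥ x = 0 → h ⬝ᵥ x' = 0)) → x' ∈ C) →
    (∀ x ∈ C, -x ∈ C → x = 0) →
    (∀ k ∈ A, K k ⊆ C ∧ (∀ x ∈ K k, ∀ y ∈ K k, x + y ∈ K k) ∧
      (∀ x ∈ C, ∀ y ∈ C, x + y ∈ K k → x ∈ K k) ∧ ∑ i, a i ∉ K k) →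
    (∀ x ∈ C, (∀ p : ℕ, p • x - ∑ i, a i ∉ C) → ∃ k ∈ A, x ∈ K k) → q ≤ A.card

/-! ### Fourfolds -/

/-- A statement for all fourfolds. -/
def For4 (P : ∀ (W : Type) [TopologicalSpace W] [ChartedSpace (Cm 4) W], Prop) : Prop :=
  ∀ (W : Type) [TopologicalSpace W] [T2Space W] [SecondCountableTopology W]
    [ChartedSpace (Cm 4) W] [IsManifold 𝓘(ℂ, Cm 4) ω W], P W

/-- **LOC**: local algebra -/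
def StLoc : Prop := For4 fun W _ _ => ∀ (κ : Type) [Fintype κ] (G : κ → Set W) (ex : Finset κ),
  Snc 4 G →
  (∀ w, ∀ᶠ v in gen {w}, ∀ l, v ∉ G l) ∧
  (∀ k, ∀ w ∈ G k, ∃ᶠ v in 𝓝[G k] w, ∀ l, l ≠ k → v ∉ G l) ∧
  (∀ (f : W → ℂ) w, (∀ᶠ v in 𝓝 w, v ∉ Ex G ex → Hol 4 f v) →
    OLe (Ex G ex) (fun v => ‖f v‖) (fun _ => 1) w →
    ∃ g, Hol 4 g w ∧ ∀ᶠ v in 𝓝 w, v ∉ Ex G ex → f v = g v) ∧
  (∀ f w (ζ : κ → W → ℂ), MerF G ex f w → (∀ l, LEq 4 (G l) w (ζ l)) →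
    (∃ᶠ v in 𝓝 w, v ∉ Ex G ex ∧ f v ≠ 0) → ∃ (o : κ → ℤ) (g : W → ℂ), (∀ l ∉ ex, o l = 0) ∧
      Hol 4 g w ∧ (∀ᶠ v in 𝓝 w, v ∉ Ex G ex → f v = g v * ∏ l, ζ l v ^ o l) ∧
      (∀ l ∈ ex, ∀ᶠ v in 𝓝[G l] w, ∃ᶠ v' in 𝓝[G l] v, g v' ≠ 0) ∧
      ((∀ᶠ v in 𝓝 w, v ∉ Ex G ex → f v ≠ 0) → g w ≠ 0)) ∧
  ∀ (k : κ) (h : W → ℂ), ∀ w ∈ G k, Hol 4 h w →
    (∃ᶠ v in 𝓝[G k] w, ∀ᶠ v' in 𝓝[G k] v, h v' = 0) → ∀ᶠ v in 𝓝[G k] w, h v = 0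

/-- **ORD**: orders along a component -/
def StOrd : Prop := For4 fun W _ _ => ∀ (κ : Type) [Fintype κ] (G : κ → Set W) (ex : Finset κ)
  (k : κ), Snc 4 G → k ∈ ex → ∀ z ∈ G k,
  (∀ f g o o', Ord (G k) f z o → Ord (G k) g z o' → OLe (Ex G ex) f g z → o' ≤ o) ∧
  (∀ f o, Ord (G k) f z o → ∀ᶠ z' in 𝓝[G k] z, Ord (G k) f z' o) ∧
  (∀ f g o, Ord (G k) f z o → (∀ v, 0 ≤ g v) → OLe (Ex G ex) f g z → OLe (Ex G ex) g f z →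
    Ord (G k) g z o) ∧
  (∀ f g o o', Ord (G k) f z o → Ord (G k) g z o' → Ord (G k) (fun v => f v * g v) z (o + o')) ∧
  (∀ f o (c : ℤ), Ord (G k) f z o → Ord (G k) (fun v => f v ^ c) z (c * o)) ∧
  Ord (G k) (fun _ => 1) z 0 ∧
  ∀ (r : ℕ) (f : Fin r → W → ℂ), (∀ m, MerF G ex (f m) z) →
    (∃ᶠ v in 𝓝 z, v ∉ Ex G ex ∧ ∃ m, f m v ≠ 0) → ∃ o, Ord (G k) (fun v => ∑ m, ‖f m v‖) z o ∧
      ∃ m, Ord (G k) (fun v => ‖f m v‖) z o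

/-- **NEG**: the negativity lemma -/
def StNeg : Prop := For4 fun W _ _ => ∀ (κ : Type) [Fintype κ] (G : κ → Set W) (ex : Finset κ)
  (B : κ → Bd W) (τ : ∀ l, (B l).ι → W → ℂ) (c : κ → ℝ) (Λ : (∀ l, (B l).ι) → W → ℝ) (N : ℕ)
  (O : Set W) (t : W → Cm N) (Ω : Set (Cm N)) (z₀ : Cm N) (A : W → ℝ) (ι : Type)
  (typ : κ → W → ι) (u : ι → W → ℝ), Snc 4 G → (∀ l, IsDiv 4 (G l) (B l) (τ l)) →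
  (∀ l, 0 ≤ c l) → (∀ l, 0 < c l ↔ l ∈ ex) → (∀ w ∈ O, PosX 4 B (-c) Λ w) → Prp 4 O t Ω → z₀ ∈ Ω →
  (∀ l ∈ ex, ∀ w ∈ O, w ∈ G l → t w = z₀ →
    ∀ᶠ v in 𝓝[G l] w, ∀ᶠ v' in 𝓝[G l] v, typ l v' = typ l v) →
  (∀ w ∈ O, t w = z₀ → ∃ (f : W → ℂ) (lam : W → ℝ), MerF G ex f w ∧
    (∀ᶠ v in 𝓝 w, SmR 4 lam v ∧ (v ∉ Ex G ex → A v = ‖f v‖ ^ 2 * Real.exp (lam v))) ∧
    ∀ l ∈ ex, w ∈ G l → ∀ r : ℝ, 0 < r → ∀ k, (∀ a, w ∈ (B a).U (k a)) →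
      ∀ᶠ v in 𝓝[G l] w, SmR 4 (u (typ l w)) v ∧ ∀ ζ (e : Chart 4 W), LEq 4 (G l) v ζ → At e v →
        ∃ ξ, ξ ≠ 0 ∧ dd ζ e v ξ = 0 ∧ (∀ i, dd (fun x => t x i) e v ξ = 0) ∧
          0 < levi (fun z => lam (e.symm z) + u (typ l w) (e.symm z) + r * Λ k (e.symm z)) (e v) ξ) →
  ∀ w ∈ O, t w = z₀ → OLe (Ex G ex) A (fun _ => 1) w

/-- **RIG**: rigidity -/
def StRig : Prop := For4 fun W _ _ => ∀ (Z K : Set W) (f h : W → ℂ) (s : ℂ), IsCompact K →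
  (∀ x ∈ K, Hol 4 h x ∧ (∃ ζ, LEq 4 Z x ζ ∧ Ind 4 ![ζ, f] x) ∧
    ∀ᶠ y in 𝓝 x, y ∈ K ↔ y ∈ Z ∧ f y = s) →
  ∀ᶠ x in 𝓝ˢ K, x ∈ Z → VC Z f h x

/-- **LEV**: level sets; critical values -/
def StLev : Prop := For4 fun W _ _ => ∀ (d : ℕ) (Z : Set W) (f : W → ℂ),
  (∀ (ι : Type) [Fintype ι] (h : ι → W → ℂ), {s | ∃ x ∈ Z, f x = s ∧ (∀ i, Hol 4 (h i) x) ∧
    (∃ β : Fin d → W → ℂ, Lev Z β f x) ∧ (∀ᶠ y in 𝓝 x, y ∈ Z → f y = s → ∀ i, h i y = 0) ∧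
    ¬ ∀ᶠ y in 𝓝 x, y ∈ Z → ∀ i, h i y = 0}.Countable) ∧
  (f '' {x ∈ Z | Hol 4 f x ∧ ∃ β : Fin d → W → ℂ, Ind 4 β x ∧
    (∀ᶠ y in 𝓝 x, y ∈ Z ↔ ∀ i, β i y = 0) ∧ ¬ Lev Z β f x}).Countable

/-- **GPL**: constancy on the components of fibres; sections which do not vanish at a point -/
def StGpl : Prop := For4 fun W _ _ => ∀ (N : ℕ) (O : Set W) (t : W → Cm N) (Ω : Set (Cm N)) (r : ℕ)
  (D : Fin (r + 1) → Set W) (ν : Fin (r + 1) → W → Cm (r + 1)), Prp 4 O t Ω → Prj 4 O t →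
  PMap 4 O D ν → ∀ m, ∀ w ∈ D m, ∀ Z,
  Z = connectedComponentIn {v ∈ D m | t v = t w ∧ ν m v = ν m w} w →
  (∀ h : W → ℂ, (∀ v ∈ Z, Hol 4 h v) → ∀ v ∈ Z, h v = h w) ∧
  ∀ (L : Bd W) (s : L.ι → W → ℂ), LBOn 4 O L → NZ L s w →
    (∀ v ∈ Z, ∀ᶠ v' in 𝓝 v, ScAt (Hol 4) L s v') →
    ∃ (d : ℕ) (g : Fin (r + 1) → L.ι → W → ℂ), NZ L (g m) w ∧
      ∀ᶠ z in 𝓝 (t w), ∀ v ∈ O, t v = z → SecD 4 L D ν d g v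

/-- **PRJL**: the embedding theorem near a fibre -/
def StPrjl : Prop := For4 fun W _ _ => ∀ (N : ℕ) (O : Set W) (t : W → Cm N) (Ω : Set (Cm N)),
  Prp 4 O t Ω → ∀ z ∈ Ω, PrjN 4 (O ∩ t ⁻¹' {z}) →
  ∃ Ω', IsOpen Ω' ∧ z ∈ Ω' ∧ Ω' ⊆ Ω ∧ Prj 4 (O ∩ t ⁻¹' Ω') t

/-! ### The base -/

/-- **GP** -/
def StGp : Prop := ∀ X : Ctx, ¬ X.σ.Countable ∧ {y ∈ X.σ | ¬ X.Gp y}.Countable

/-- **SIX**: the line bundles -/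
def StSix : Prop := ∀ X : Ctx, {y ∈ X.σ | ¬ ∃ Φ : X.Fam, y ∈ Φ.O}.Countable

/-- **VT** -/
def StVt : Prop := ∀ (X : Ctx) (ι : Type) [Fintype ι] (Λ : ι → Bd X.U.W)
  (ξ : ι → ∀ k, Fr 3 2 (X.Q.H k).M) (b : ι → ℤ) (O₁ : Set X.Y.pt) y O t g Δ, O₁ ∈ 𝓝 y →
  (∀ a, X.ClsOn O₁ (Λ a) (ξ a)) → (∀ a k, ξ a k ∈ C11 (X.Q.H k)) →
  (∀ k, ∑ a, (b a : ℝ) • ξ a k = 0) → X.Dsc y O t g Δ →
  (∀ k, y ∈ X.p '' X.U.G k → X.p '' X.U.G k = X.σ) → X.VT (lin Λ b) y t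

/-- **LBV** -/
def StLbv : Prop := ∀ (X : Ctx) (Φ : X.Fam),
  (∀ j, LBOn 4 (X.ψ ⁻¹' Φ.O) (Φ.Lv j)) ∧ (∀ y ∈ Φ.O, ∀ j, LBN 4 (X.F y) (Φ.Lv j)) ∧
  ∀ b : Fin X.q → ℤ, X.ClsOn Φ.O (lin Φ.L b) (X.ξ (Φ.n • b))

/-- A statement for all families of line bundles near a fibre. -/
def ForL (P : ∀ X : Ctx, (Fin X.q → Bd X.V.W) → X.Y.pt → Prop) : Prop :=
  ∀ (X : Ctx) (L : Fin X.q → Bd X.V.W) (y : X.Y.pt), (∀ j, LBN 4 (X.F y) (L j)) → P X L y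

/-- **ZERO**: functions descend -/
def StZero : Prop := ForL fun X L y => IsConnected (X.F y) ∧ ∀ s, X.Mer y (lin L 0) s →
  ∃ g, X.Y.Hol g y ∧ ∀ᶠ w in 𝓝ˢ (X.F y), w ∉ X.E → ∀ i, In L i w → s i w = g (X.ψ w)

/-- **MER**: the ring structure -/
def StMer : Prop := ForL fun X L y => X.Mer y (lin L 0) (fun _ _ => 1) ∧
  (∀ b, X.Mer y (lin L b) fun _ _ => 0) ∧
  (∀ b b' s s', X.Mer y (lin L b) s → X.Mer y (lin L b') s' →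
    X.Mer y (lin L (b + b')) fun i w => s i w * s' i w) ∧
  (∀ (ι : Type) [Fintype ι] (b : ι → Fin X.q → ℤ) (s : ι → Ix L → X.V.W → ℂ) (c : ι → ℕ),
    (∀ a, X.Mer y (lin L (b a)) (s a)) →
    X.Mer y (lin L (∑ a, c a • b a)) fun i w => ∏ a, s a i w ^ c a) ∧
  (∀ b s, X.Mer y (lin L b) s → (∀ᶠ y' in 𝓝 y, X.Mer y' (lin L b) s) ∧
    ∀ w ∈ X.F y, ∀ i, In L i w → MerF X.V.G X.ex (s i) w ∧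
      ∀ j, In L j w → OLe X.E (fun v => ‖s i v‖) (fun v => ‖s j v‖) w) ∧
  ∀ (r : ℕ) (u : Fin (r + 1) → Ix L → X.V.W → ℂ) b, (∀ m, X.Mer y (lin L b) (u m)) →
    X.Big L y u → (∀ᶠ y' in 𝓝 y, X.Big L y' u) ∧
      ∀ w ∈ X.F y, ∀ i, In L i w → ∃ᶠ v in 𝓝 w, v ∉ X.E ∧ ∃ m, u m i v ≠ 0

/-- **FGR**: finite generation -/
def StFgr : Prop := ForL fun X L y => Nonempty (X.Gens L y)

/-- **BIG** -/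
def StBig : Prop := ForL fun X L y => ∀ b, ∀ w ∈ X.F y, ∀ i, In L i w →
  ∃ (s : Ix L → X.V.W → ℂ) (ζ : Fin X.V.r → X.V.W → ℂ) (K : ℕ), X.Mer y (lin L b) s ∧
    X.V.Eq w ζ ∧ OLe X.E (fun v => ∏ l ∈ X.ex, ‖ζ l v‖ ^ K) (fun v => ‖s i v‖) w

/-- **COX** -/
def StCox : Prop := ForL fun X L y => Nonempty (X.Cox L y)

/-! ### The construction of the local model -/

/-- **RZL** -/
def StRzl : Prop := ∀ (V : Lg) (D : Hl.Dat 4 V.W) (F : Set V.W), IsCompact F → F ⊆ D.O →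
  Nonempty (Rz V D F)

/-- **MOV** -/
def StMov : Prop := ForL fun X L y => ∀ S : X.Sf L, S.Ok y →
  ∃ (D : Hl.Dat 4 X.V.W) (e : (∀ i, Fin (S.r i + 1)) ≃ D.κ), X.F y ⊆ D.O ∧ Mov S D e

/-- **PMD** -/
def StPmd : Prop := ∀ (X : Ctx) (L : Fin X.q → Bd X.V.W) (S : X.Sf L) D e F (Z : Rz X.V D F)
  (R : ℕ) (eqv : Fin (R + 1) ≃ ∀ i, Fin (S.r i + 1)), Mov S D e →
  ∃ D' ν, Pm S Z.π Z.G univ eqv D' ν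

/-- **POSM** -/
def StPosm : Prop := ∀ (X : Ctx) (D : Hl.Dat 4 X.V.W) (y : X.Y.pt) (Z : Rz X.V D (X.F y))
  (B : Fin X.V.r ⊕ Fin Z.r → Bd Z.W) (τ : ∀ l, (B l).ι → Z.W → ℂ),
  (∀ l, IsDiv 4 (Z.G l) (B l) (τ l)) → ∃ c : Fin X.V.r ⊕ Fin Z.r → ℕ,
    (∀ l, 0 < c l ↔ l ∈ exU X.ex) ∧ PosR 4 (Z.π ⁻¹' X.F y) B fun l => -(c l : ℝ)

/-- **MODEL** -/
def StModel : Prop := ForL fun X L y => ∀ S : X.Sf L, S.Ok y → ∀ O₀ ∈ 𝓝 y,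
  ∃ M : Md S, y ∈ M.O ∧ M.O ⊆ O₀

/-- A statement for all local models. -/
def ForD (P : ∀ (X : Ctx) (L : Fin X.q → Bd X.V.W) (S : X.Sf L), Md S → Prop) : Prop :=
  ∀ (X : Ctx) (L : Fin X.q → Bd X.V.W) (S : X.Sf L) (M : Md S), P X L S M

/-- **API1**: the modification -/
def StApi1 : Prop := ForD fun X L S M => Continuous M.b ∧
  (∀ w g, X.Y.Hol g (M.b w) → Hol 4 (fun v => g (M.b v)) w) ∧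
  (∀ w, M.b w ∈ M.O → (M.Z.π w ∈ X.E ↔ w ∈ Ex M.Z.G (exU X.ex))) ∧
  (∀ m, Prp 4 (M.D m) (fun w => Fin.append (M.t w) (M.ν m w)) (cyl M.Ω (M.R + 1))) ∧
  (∀ w f, M.b w ∈ M.O → Pole X.V.G X.ex f (M.Z.π w) →
    Pole M.Z.G (exU X.ex) (fun v => f (M.Z.π v)) w) ∧
  (∀ k, ∀ w ∈ M.Z.G (.inl k), M.b w ∈ M.O → ∀ f o, Ord (X.V.G k) f (M.Z.π w) o →
    Ord (M.Z.G (.inl k)) (fun v => f (M.Z.π v)) w o) ∧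
  (∀ k, ∀ z ∈ X.V.G k, X.ψ z ∈ M.O → ∃ w ∈ M.Z.G (.inl k), M.Z.π w = z) ∧
  ∀ y ∈ M.O, (∀ j, LBN 4 (X.F y) (L j)) ∧ (∀ i m, X.Mer y (lin L (S.a i)) (S.u i m)) ∧
    IsCompact (M.F y) ∧ (M.F y).Nonempty ∧
    (∀ P : M.Z.W → Prop, (∀ᶠ w in 𝓝ˢ (M.F y), P w) → ∀ᶠ y' in 𝓝 y, ∀ w, M.b w = y' → P w) ∧
    (∀ z ∈ X.F y, ∀ f g, (∀ w, M.Z.π w = z → OLe (M.Z.π ⁻¹' X.E) (fun v => f (M.Z.π v))
      (fun v => g (M.Z.π v)) w) → (∀ v, 0 ≤ g v) → OLe X.E f g z) ∧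
    ∀ b (s : Ix L → M.Z.W → ℂ), (∀ᶠ w in 𝓝ˢ (M.F y),
      MerAt M.Z.G (exU X.ex) (pull M.Z.π (lin L b)) s w) → ∃ s', X.Mer y (lin L b) s' ∧
        ∀ w i, M.b w ∈ M.O → M.Z.π w ∉ X.E → s' i (M.Z.π w) = s i w

/-- **API2**: generators of the moving parts -/
def StApi2 : Prop := ForD fun X L S M => ∀ y ∈ M.O,
  (∀ c s w, M.Fr c s w → ∀ᶠ w' in 𝓝 w, M.Fr c s w') ∧
  (∀ c s, X.Mer y (lin L (∑ i, c i • S.a i)) s → (∀ᶠ w in 𝓝ˢ (M.F y), M.Fr c s w →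
      ∀ m j, w ∈ M.D m → In L j (M.Z.π w) → ∃ v, Hol 4 v w ∧ v w ≠ 0 ∧ ∀ᶠ w' in 𝓝 w,
        M.Z.π w' ∉ X.E → s j (M.Z.π w') = v w' * ∏ i, S.u i (M.eqv m i) j (M.Z.π w') ^ c i) ∧
    ((∀ w ∈ M.F y, M.Hl c s w) → ∀ᶠ w in 𝓝ˢ (M.F y), M.Hl c s w) ∧
    ∀ w ∈ M.F y, (∃ m j, w ∈ M.D m ∧ In L j (M.Z.π w) ∧ OLe (M.Z.π ⁻¹' X.E)
      (fun v => ‖s j (M.Z.π v)‖) (fun v => ∏ i, ‖S.u i (M.eqv m i) j (M.Z.π v)‖ ^ c i) w) →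
      M.Hl c s w) ∧
  (∀ m, ∀ w ∈ M.D m, ∀ i j, In L j (M.Z.π w) → OLe (M.Z.π ⁻¹' X.E)
    (fun v => nrm (S.u i) j (M.Z.π v)) (fun v => ‖S.u i (M.eqv m i) j (M.Z.π v)‖) w) ∧
  (∀ A ⊆ M.F y, M.Tr y 0 A ∧ (∀ x x', M.Tr y x A → M.Tr y x' A → M.Tr y (x + x') A) ∧
    ∀ (N : ℕ) x, 1 ≤ N → M.Tr y (N • x) A → M.Tr y x A) ∧
  (∀ i, S.a i ∈ M.Cn y) ∧
  (∀ l, ∀ w ∈ M.F y, w ∈ M.Z.G l → M.GFr y 0 l w ∧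
    (∀ x x', M.GFr y x l w → M.Tr y x' {w} → M.GFr y (x + x') l w)) ∧
  (M.Neg y → ∀ l, ∀ w ∈ M.F y, w ∈ M.Z.G l → ∀ w' ∈ M.T y l w, ∀ x,
    M.Tr y x {w'} → M.GFr y x l w)

/-- **API3**: the surfaces in the fibre -/
def StApi3 : Prop := ForD fun X L S M => ∀ y O τ g Δ, M.Gen y O τ g Δ →
  (∀ w ∈ M.F y, ∃ l ∈ exU X.ex, M.TyA y l w) ∧
  {T | ∃ l w, M.TyA y l w ∧ T = M.T y l w}.Countable ∧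
  ∀ l w, M.TyA y l w → IsCompact (M.T y l w) ∧ IsConnected (M.T y l w) ∧ ∀ v ∈ M.T y l w,
    M.TyA y l v ∧ M.T y l v = M.T y l w ∧
    (∃ ζ, LEq 4 (M.Z.G l) v ζ ∧ Ind 4 ![ζ, fun x => τ (M.b x)] v) ∧
    (∀ᶠ x in 𝓝 v, x ∈ M.T y l w ↔ x ∈ M.Z.G l ∧ τ (M.b x) = τ y) ∧
    (∀ᶠ x in 𝓝 v, ∀ᶠ x' in 𝓝 x, x ∈ M.Z.G l → x' ∈ M.Z.G l → τ (M.b x') = τ (M.b x) →
      M.b x' = M.b x) ∧
    ∀ h : M.Z.W → ℂ, Hol 4 h v → (∃ᶠ x in 𝓝[M.T y l w] v, ∀ᶠ x' in 𝓝[M.T y l w] x, h x' = 0) →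
      ∀ᶠ x in 𝓝[M.T y l w] v, h x = 0

/-- **CTR**: the exceptional components are contracted -/
def StCtr : Prop := ForD fun X L S M => ∀ y ∈ M.O, S.Gen y → ∃ O' ∈ 𝓝 y, M.Ctr O'

/-- **NEGS**: comparison with all bundles of the same class -/
def StNegs : Prop := ∀ (X : Ctx) (Φ : X.Fam) (S : X.Sf Φ.Lv) (M : Md S), ∀ y ∈ M.O, y ∈ Φ.O →
  X.Gp y → (∃ O' ∈ 𝓝 y, M.Ctr O') → ∀ (Φ' : X.Fam) (b : Fin X.q → ℤ) (n : ℕ) (c : Fin S.b → ℤ) s,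
  y ∈ Φ'.O → n • Φ'.n • b = Φ.n • ∑ i, c i • S.a i → X.Mer y (lin Φ'.Lv b) s →
  ∀ w ∈ M.F y, ∀ m j j', w ∈ M.D m → In Φ.Lv j (M.Z.π w) → In Φ'.Lv j' (M.Z.π w) →
    OLe (M.Z.π ⁻¹' X.E) (fun v => ‖s j' (M.Z.π v)‖ ^ n)
      (fun v => ∏ i, ‖S.u i (M.eqv m i) j (M.Z.π v)‖ ^ c i) w

/-- **INV**: the orders do not depend on the component of the fibre -/
def StInv : Prop := ∀ (X : Ctx) (Φ : X.Fam), ∀ y ∈ Φ.O, X.Gp y → ∀ c : X.Cox Φ.Lv y, X.Inv Φ.Lv c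

/-- **GENY**: general points -/
def StGeny : Prop := ForD fun X L S M => ∀ O τ g Δ, IsDisc X.Y X.σ O τ g Δ → M.O ⊆ O →
  ∀ y₀ ∈ M.O, y₀ ∈ X.σ → ∀ B : Set X.Y.pt, B.Countable → ∀ O' ∈ 𝓝 y₀,
  (∀ y ∈ O', y ∈ X.σ → y ∉ B → X.Gp y ∧ (∃ O'' ∈ 𝓝 y, M.Ctr O'') ∧ M.Neg y) →
  ∃ y ∈ O', y ∉ B ∧ M.Gen y O τ g Δ

/-! ### The cone -/

/-- **CL**: the cone is a union of faces -/
def StCl : Prop := ForD fun X L S M => LinearIndependent ℤ S.a → S.b = X.q → ∀ y ∈ M.O, M.Neg y →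
  ∀ c : X.Cox L y, ∀ x ∈ M.Cn y, ∀ x',
  (∀ h ∈ c.H, 0 ≤ (h ⬝ᵥ x) * (h ⬝ᵥ x') ∧ (h ⬝ᵥ x = 0 → h ⬝ᵥ x' = 0)) → x' ∈ M.Cn y

/-- **INVM** -/
def StInvm : Prop := ForD fun X L S M => ∀ y ∈ M.O, M.Neg y → ∀ c : X.Cox L y, X.Inv L c →
  ∀ k ∈ X.ex, X.ψ '' X.V.G k = X.σ → ∀ w ∈ M.F y, ∀ w' ∈ M.F y, w ∈ M.Z.G (.inl k) →
  w' ∈ M.Z.G (.inl k) → ∀ x, M.GFr y x (.inl k) w → M.GFr y x (.inl k) w'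

/-- **FRE** -/
def StFre : Prop := ForD fun X L S M => ∀ y ∈ M.O, M.Neg y → ∀ x ∈ M.Cn y, ∀ N c s,
  M.Dg y x N c s → ∃ (Ψ : M.Fre y x) (d : ℕ), 1 ≤ d ∧ Ψ.c = d • c ∧ Ψ.s 0 = fun i w => s i w ^ d

/-- A statement for all general points. -/
def ForG (P : ∀ (X : Ctx) (L : Fin X.q → Bd X.V.W) (S : X.Sf L), Md S → X.Y.pt →
    (X.Y.pt → ℂ) → Prop) : Prop :=
  ForD fun X L S M => ∀ y O τ g Δ, M.Gen y O τ g Δ → P X L S M y τ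

/-- **RK1** -/
def StRk1 : Prop := ForG fun X L S M y τ => ∀ x (Ψ : M.Fre y x), ∀ l ∈ exU X.ex, ∀ w j η m,
  M.TyA y l w → ((∃ v ∈ M.T y l w, ∃ m' i, M.NC τ m' i l v) →
    ¬ M.T y l w ⊆ {v ∈ Ψ.D j | Ψ.ν j v = η}) →
  (M.ν m '' (M.T y l w ∩ M.D m ∩ {v ∈ Ψ.D j | Ψ.ν j v = η})).Countable

/-- **ZC** -/
def StZc : Prop := ForG fun X L S M y τ => ∀ x (Ψ : M.Fre y x) j, ∀ w ∈ M.F y, w ∈ Ψ.D j →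
  (∀ l ∈ exU X.ex, ∀ v m i, M.TyA y l v → M.NC τ m i l v →
    ¬ M.T y l v ⊆ {v ∈ Ψ.D j | Ψ.ν j v = Ψ.ν j w}) →
  ∃ p : ℕ, M.Tr y (p • x - ∑ i, S.a i) {w}

/-- **BD**: the boundary of the cone -/
def StBd : Prop := ForG fun X L S M y τ => ∀ x ∈ M.Cn y, (∀ p : ℕ, p • x - ∑ i, S.a i ∉ M.Cn y) →
  ∃ l ∈ exU X.ex, ∃ w m i, M.TyA y l w ∧ M.NC τ m i l w ∧ M.Tr y x (M.T y l w)

/-- **II** -/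
def StTwo : Prop := ForG fun X L S M y τ => ∀ l w m i x, M.TyA y l w → M.NC τ m i l w →
  M.Tr y x (M.T y l w) → ∀ p : ℕ, ¬ M.GFr y (p • x - ∑ i, S.a i) l w

/-- **III** -/
def StThree : Prop := ForG fun X L S M y τ => ∀ l w, M.TyA y l w → ∀ x ∈ M.Cn y,
  ¬ M.Tr y x (M.T y l w) → ∃ p : ℕ, M.GFr y (p • x - ∑ i, S.a i) l w

/-- **ECHO**: the new divisors -/
def StEcho : Prop := ForD fun X L S M => ∀ l, ∀ w ∈ M.Z.G (.inr l), M.b w ∈ M.O →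
  0 < M.disc (.inr l) ∧
    ((∀ᶠ w' in 𝓝[M.Z.G (.inr l)] w, M.b w' ∈ X.σ) → X.α ≤ M.disc (.inr l))

/-- **OLD**: the old divisors -/
def StOld : Prop := ForG fun X L S M y τ => ∀ k w, M.TyA y (.inl k) w → X.ψ '' X.V.G k = X.σ

/-- **CARB**: the boundary meets every component of a fibre -/
def StCarb : Prop := ForG fun X L S M y τ => ∀ m, ∀ w ∈ M.F y, w ∈ M.D m →
  (connectedComponentIn {v ∈ M.D m | M.b v = y ∧ M.ν m v = M.ν m w} w ∩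
    M.Z.G (.inl X.l)).Nonempty

/-- **SLI**: the slice -/
def StSli : Prop := ForG fun X L S M y τ => ∀ m i, ∀ w ∈ M.F y, w ∈ M.D m →
  Slc.Reg 4 M.Z.G (M.D m) (fun w => ![τ (M.b w), M.ν m w i]) ![τ y, M.ν m w i] →
  ∃ l ∈ exU X.ex, M.disc l < X.α ∧
    ∃ w' ∈ connectedComponentIn {v ∈ M.D m | M.b v = y ∧ M.ν m v = M.ν m w} w, w' ∈ M.Z.G l ∧
      ∀ᶠ v in 𝓝 w', v ∈ M.Z.G l → τ (M.b v) = τ y → M.ν m v i = M.ν m w i →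
        v ∈ connectedComponentIn {v ∈ M.D m | M.b v = y ∧ M.ν m v = M.ν m w} w

/-- **ALV**: the alive divisor -/
def StAlv : Prop := ForG fun X L S M y τ => ∀ l w m i, M.TyA y l w → M.NC τ m i l w →
  ∀ x ∈ M.Cn y, M.Tr y x (M.T y l w) → ∃ k w', X.Alive k ∧ M.TyA y (.inl k) w' ∧
    M.NC τ m i (.inl k) w' ∧ M.Tr y x (M.T y (.inl k) w')

/-! ### The cone is pointed -/

/-- `s` is a section without zeros outside the exceptional set, with the orders `m` -/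
structure Unt (X : Ctx) (L : Fin X.q → Bd X.V.W) (y : X.Y.pt) (b : Fin X.q → ℤ)
    (s : Ix L → X.V.W → ℂ) (m : Fin X.V.r → ℤ) : Prop where
  mer : X.Mer y (lin L b) s
  nz : ∀ᶠ w in 𝓝ˢ (X.F y), w ∉ X.E → ∀ i, In L i w → s i w ≠ 0
  ord : ∀ k ∈ X.ex, X.ψ '' X.V.G k = X.σ → ∀ z ∈ X.V.G k ∩ X.F y, ∀ i, In L i z →
    Ord (X.V.G k) (fun v => ‖s i v‖) z (m k)

/-- **UNIT** -/
def StUnit : Prop := ForD fun X L S M => ∀ y ∈ M.O, M.Neg y → ∀ c : X.Cox L y, X.Inv L c →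
  ∀ x ∈ M.Cn y, -x ∈ M.Cn y → ∃ (N : ℕ) (s : _) (m : _), 1 ≤ N ∧ Unt X L y (N • x) s m

/-- `s` is a section near the fibre of `U` with the divisor `∑ m k • E k` -/
def DivU (X : Ctx) (Λ : Bd X.U.W) (y : X.Y.pt) (s : Λ.ι → X.U.W → ℂ) (m : Fin X.U.r → ℤ) : Prop :=
  ∀ z, X.p z = y → ∀ i ζ, z ∈ Λ.U i → X.U.Eq z ζ → ∃ v, Hol 4 v z ∧ v z ≠ 0 ∧
    ∀ᶠ z' in 𝓝 z, z' ∉ X.U.E → s i z' = v z' * ∏ k, ζ k z' ^ m k ∧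
      ∀ j, z' ∈ Λ.U j → s i z' = Λ.g i j z' * s j z'

/-- **DOWN1** -/
def StDown1 : Prop := ∀ (X : Ctx) (Φ : X.Fam), ∀ y ∈ Φ.O, X.Gp y → ∀ b s m,
  Unt X Φ.Lv y b s m → ∃ s', DivU X (lin Φ.L b) y s' fun k => m (X.s k)

/-- **DOWN2** -/
def StDown2 : Prop := ∀ (X : Ctx) (Λ : Bd X.U.W) (O : Set X.Y.pt) (b : Fin X.q → ℤ) y s m,
  O ∈ 𝓝 y → X.Gp y → X.ClsOn O Λ (X.ξ b) → DivU X Λ y s m →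
  ∀ k, X.p '' X.U.G k = X.σ → ∀ z ∈ X.C.D k,
    X.C.T k z (X.C.o k) ((∑ j, (b j : ℝ) • X.x j - ∑ i, (m i : ℝ) • X.C.Em i) k) = 0

end Vale.Agent.P277Z.Cls
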