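import Vale.Agent.P277Z.Cls.Defs
import Vale.Agent.P277Z.Val.Slc
import Vale.Agent.P277Z.Val.Pull
import Vale.Agent.P277Z.Luf.Hol

/-!
# P277, block CLS: degrees on the curves of a local model
-/

set_option linter.all false
set_option maxSynthPendingDepth 3

open scoped Manifold ContDiff Topology ComplexOrder
open Vale.Agent.P272.K Vale.Agent.P285.H281.FD Vale.Agent.P277 Set Filter
open Vale.Agent.P272.K.QN (jm pb pb_apply isSemi_pb posSemidefR loc loc_apply)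
open Vale.Agent.P277.HD (pull)
open Vale.Agent.P277.T2 (IsCmpV)
open Vale.Agent.P277Z.Val (Lg jac disc)
open Vale.Agent.P277Z.Slc

noncomputable section

namespace Vale.Agent.P277Z.Cls.Sli

section pull

variable {n : ℕ} {W W' : Type} [TopologicalSpace W] [ChartedSpace (Cm n) W] [TopologicalSpace W']
  [ChartedSpace (Cm n) W'] [IsManifold 𝓘(ℂ, Cm n) ω W] {π : W' → W} (hc : Continuous π)
  (hh : ∀ y g, Hol n g (π y) → Hol n (fun z => g (π z)) y)
include hc hh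

theorem lb_pull {L : Bd W} (hL : IsLB n L) : IsLB n (pull π L) where
  isOpen i := (hL.isOpen i).preimage hc
  cover y := hL.cover (π y)
  holo i j e y he hi hj :=
    (hh y _ (fun e' he' => (hL.holo i j e' _ he' hi hj).analyticAt) e he).contDiffAt
  ne_zero i j y := hL.ne_zero i j (π y)
  cocycle i j k y := hL.cocycle i j k (π y)

omit hc hh in
theorem hol_chart {e : Chart n W} {x : W} (he : At e x) (i : Fin n) : Hol n (fun y => e y i) x :=
  fun _ he' => analyticAt_pi_iff.1 (PH.chg_analyticAt he he') i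

theorem nef_pull (c : Crv n W') {w : Chart n W → Cm n → Matrix (Fin n) (Fin n) ℂ}
    (hw : IsHermitian w) {M : Bd W} (hM : IsLB n M) (hn : Nef w M) :
    0 ≤ dg dZ c (pull π M) := by
  let f : c.C → W := fun p => π (c.ι p)
  have hf : Continuous f := hc.comp c.cont
  have han : ∀ p (k : Chart 1 c.C) (e : Chart n W), At k p → At e (f p) →
      AnalyticAt ℂ (loc f k e) (k p) := fun p k e hk he =>
    analyticAt_pi_iff.2 fun i => c.hol (hh _ _ (hol_chart he i)) k hk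
  have hmd : ContMDiff 𝓘(ℂ, Cm 1) 𝓘(ℂ, Cm n) ω f := fun p => by
    rw [contMDiffAt_iff]
    refine ⟨hf.continuousAt, ?_⟩
    have := (han p _ _ (at_chartAt p) (at_chartAt _)).contDiffAt (n := ω)
    unfold loc at this
    simpa [Function.comp_def, contDiffWithinAt_univ] using this
  have hH : ∀ {g : W → ℝ} {p : c.C} {k : Chart 1 c.C} {e : Chart n W}, At k p → At e (f p) →
      ContDiffAt ℝ ∞ (fun z => g (e.symm z)) (e (f p)) →
      ContDiffAt ℝ ∞ (fun z => g (f (k.symm z))) (k p) ∧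
        cHess (fun z => g (f (k.symm z))) (k p) = (jm (loc f k e) (k p)).transpose *
          cHess (fun z => g (e.symm z)) (e (f p)) *
            (jm (loc f k e) (k p)).map (starRingEnd ℂ) := by
    intro g p k e hk he hg
    have h0 : (fun z => g (f (k.symm z))) =ᶠ[𝓝 (k p)] fun z => g (e.symm (loc f k e z)) := by
      filter_upwards [((hf.tendsto p).comp (tendsto_symm hk)).eventually (At.near he)] with z hz
      exact congrArg g (e.left_inv hz.2).symm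
    have h1 : ContDiffAt ℂ ω (loc f k e) (k p) := (han p k e hk he).contDiffAt
    rw [← show loc f k e (k p) = e (f p) from congrArg (fun x => e (f x)) hk.left_inv] at hg ⊢
    exact ⟨(hg.comp _ ((h1.restrict_scalars ℝ).of_le le_top)).congr_of_eventuallyEq h0, by
      rw [cHess_congr h0, cHess_comp_F (g := fun z => g (e.symm z)) (hg.of_le INT.two_le_inf) h1]⟩
  have hL : IsLB 1 (pull f M) := isLB_pull c (lb_pull hc hh hM)
  have hs := isSemi_pb hmd hw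
  have hD' : INT.IsDensity (dn (pb f w)) :=
    dn_det (pb f w) ▸ INT.isDensity_det hs.change hs.smooth
  have key : ∀ δ : ℝ, 0 < δ → 0 ≤ c₀ * deg (pull f M) + δ * INT.intX (dn (pb f w)) := by
    intro δ hδ
    obtain ⟨ψ, hψ, hp⟩ := hn δ hδ
    obtain ⟨D, hD, hI, hE⟩ := deg_dens hL (ψ := fun i p => ψ i (f p))
      ⟨fun i k p hk hi => (hH hk (at_chartAt _) (hψ.smooth i _ _ (at_chartAt _) hi)).1,
        fun i j p => hψ.change i j _⟩
    rw [← hI, ← INT.intX_const_mul, ← INT.intX_add hD (hD'.const_mul δ)]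
    refine INT.intX_nonneg fun k p hk => ?_
    obtain ⟨i, hi⟩ := hM.cover (f p)
    have he := at_chartAt (n := n) (f p)
    have h1 := re_nonneg (posSemidefR (hp i _ _ he hi)
      (jm (loc f k (chartAt (Cm n) (f p))) (k p)))
    rw [Matrix.mul_add, Matrix.add_mul, ← (hH hk he (hψ.smooth i _ _ he hi)).2,
      Matrix.mul_smul, Matrix.smul_mul, Matrix.add_apply, Complex.add_re, Matrix.smul_apply,
      smul_eq_mul, Complex.re_ofReal_mul] at h1
    rw [hE i k p hk hi, dn, pb_apply hmd hw hk he, QN.pl, loc_apply hk]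
    exact h1
  have h1 : Tendsto (fun δ : ℝ => c₀ * deg (pull f M) + δ * INT.intX (dn (pb f w))) (𝓝[>] 0)
      (𝓝 (c₀ * deg (pull f M) + 0 * INT.intX (dn (pb f w)))) :=
    (Continuous.tendsto (by fun_prop) 0).mono_left nhdsWithin_le_nhds
  have h2 := ge_of_tendsto h1 (eventually_nhdsWithin_of_forall key)
  rw [zero_mul, add_zero, mul_nonneg_iff_of_pos_left c₀_pos, ← degZ_cast hL] at h2
  exact_mod_cast h2

end pull

variable {V : Lg} {D : Hl.Dat 4 V.W} {F : Set V.W} (Z : Rz V D F)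
  {B : Fin V.r ⊕ Fin Z.r → Bd Z.W} {τ : ∀ l, (B l).ι → Z.W → ℂ}

theorem an_pi {w : Z.W} {e' : Chart 4 Z.W} {e : Chart 4 V.W} (he' : At e' w) (he : At e (Z.π w)) :
    AnalyticAt ℂ (fun z => e (Z.π (e'.symm z))) (e' w) :=
  analyticAt_pi_iff.2 fun i => Z.bl.hol w _ (hol_chart he i) e' he'

theorem not_mem {w : Z.W} (h : w ∉ ⋃ l, Z.G l) : Z.π w ∉ ⋃ k, V.G k := fun h1 => by
  obtain ⟨k, hk⟩ := mem_iUnion.1 h1
  by_cases h2 : Z.π w ∈ D.Z
  · obtain ⟨l, hl⟩ := (Z.new w).1 h2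
    exact h (mem_iUnion.2 ⟨_, hl⟩)
  · exact h (mem_iUnion.2 ⟨_, Z.off k w h2 hk⟩)

/-- the canonical class -/
theorem dg_can (hB : ∀ l, IsDiv 4 (Z.G l) (B l) (τ l)) (c : Crv 4 Z.W)
    (hc : ∀ p, Z.π (c.ι p) ∈ Z.O₂) : dg dZ c (Bd.can 4 Z.W) =
      dg dZ c (pull Z.π (Bd.can 4 V.W)) + ∑ l, Z.J l * dg dZ c (B (.inr l)) := by
  have h := stCmp dZ isDeg 4 Z.W _ Z.G B τ (Z.π ⁻¹' Z.O₂) (pull Z.π (Bd.can 4 V.W))
    (Bd.can 4 Z.W) (Sum.elim 0 fun l => Z.J l) (fun e e' => jac Z.π e' e) hB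
    (Z.isOpen.preimage Z.bl.cont) (lb_pull Z.bl.cont Z.bl.hol isLB_can) isLB_can
    (fun y hy => ?_) (fun y _ e e₁ e' e₁' _ h1 h2 h3 h4 => ?_) c (range_subset_iff.2 hc)
  · simpa [Fintype.sum_sum_type] using h
  · obtain ⟨ζ, hζ, -⟩ := Z.snc y
    refine ⟨ζ, hζ, fun e e' he he' => ?_⟩
    obtain ⟨v, h1, h2, h3⟩ := Z.jac y (fun l => ζ (.inr l)) e' e hy (fun l => hζ _) he' he
    refine ⟨v, h2, h1, h3.mono fun w hw _ => ?_⟩
    simpa [Fintype.prod_sum_type] using hw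
  · change jac Z.π e₁' e₁ y = (jacM e e₁ (Z.π y)).det * jac Z.π e' e y * (jacM e₁' e' y).det
    rw [Val.Pull.det_jacM h1 h2, Val.Pull.det_jacM h4 h3,
      Val.jac_comp (π := Z.π) (σ := fun y => y) continuousAt_id h4.2 h3.2 (an_pi Z h3 h2)
        (PH.chg_analyticAt h3 h4), Val.jac_comp (π := fun y => y) (σ := Z.π)
        Z.bl.cont.continuousAt h3.2 h1.2 (PH.chg_analyticAt h2 h1) (an_pi Z h3 h1)]

/-- the pair -/
theorem dg_cmp (hB : ∀ l, IsDiv 4 (Z.G l) (B l) (τ l)) {Y : CSp} {ψ : V.W → Y.pt}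
    (hψ : Val.HolTo V Y ψ) {k : ℕ} {L : Fin k → Bd Y.pt} {N : Fin k → Bd V.W}
    {n : Fin k → Fin V.r → ℤ} {t} (hL : ∀ e, IsLBx Y (L e)) (hN : ∀ e, IsLB 4 (N e))
    (ht : IsCmpV ψ L N V.G n t) (c : Crv 4 Z.W)
    (hc : ∀ p q, ψ (Z.π (c.ι p)) = ψ (Z.π (c.ι q))) (e : Fin k) :
    dg dZ c (pull Z.π (N e)) = ∑ k, n e k * dg dZ c (B (.inl k)) +
      ∑ l, (∑ k, n e k * Z.mo k l) * dg dZ c (B (.inr l)) := by
  have h := stCmp dZ isDeg 4 Z.W _ Z.G B τ univ (pull (fun w => ψ (Z.π w)) (L e))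
    (pull Z.π (N e)) (Sum.elim (n e) fun l => ∑ k, n e k * Z.mo k l)
    (fun i j w => t e i j (Z.π w)) hB isOpen_univ
    (lb_pull Z.bl.cont Z.bl.hol (Val.L44.lb_pull hψ (hL e))) (lb_pull Z.bl.cont Z.bl.hol (hN e))
    (fun y _ => ?_) (fun y _ i i₁ j j₁ h => ht.change _ e i i₁ j j₁ (not_mem Z h)) c
    (subset_univ _)
  · rw [(dg_const c (hL e) hc).2, zero_add, Fintype.sum_sum_type] at h
    exact h
  · obtain ⟨ζ', hζ', -⟩ := Z.snc y
    obtain ⟨ζ, hζ, h1⟩ := ht.div (Z.π y)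
    choose v h2 h3 h4 using Z.tot y ζ ζ' hζ hζ'
    refine ⟨ζ', hζ', fun i j hi hj => ?_⟩
    obtain ⟨u, h5, h6, h7⟩ := h1 e i j hi hj
    refine ⟨fun w => u (Z.π w) * ∏ k, v k w ^ n e k, mul_ne_zero h5
      (Finset.prod_ne_zero_iff.2 fun k _ => zpow_ne_zero _ (h3 k)),
      (Z.bl.hol y _ h6).mul (Cp.hol_prod h2 h3 _), ?_⟩
    filter_upwards [Z.bl.cont.continuousAt.eventually h7, eventually_all.2 h4,
      eventually_all.2 fun l => (hζ' l).1] with w a1 a2 a3 a4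
    have a5 : ∀ l, ζ' l w ≠ 0 := fun l h => a4 (mem_iUnion.2 ⟨l, (a3 l).1 h⟩)
    have a6 := Val.Pull.prod_mon (fun l => a5 (.inr l)) 0 (fun _ => 0) Z.mo (n e)
    simp only [pow_zero, mul_one, Nat.cast_zero, zero_add, mul_zero] at a6
    rw [a1 (not_mem Z a4), Fintype.prod_sum_type, mul_assoc]
    simp only [a2, mul_zpow, Finset.prod_mul_distrib, Sum.elim_inl, Sum.elim_inr, a6]

/-- the equation of the discrepancies -/
theorem dg_pair (hB : ∀ l, IsDiv 4 (Z.G l) (B l) (τ l)) {Y : CSp} {ψ : V.W → Y.pt}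
    (hψ : Val.HolTo V Y ψ) {a : Fin V.r → ℝ} (h : Top.Pair V Y ψ a) :
    ∃ (k : ℕ) (ρ : Fin k → ℝ) (μ : Fin k → Crv 4 Z.W → ℕ), (∀ e, 0 ≤ ρ e) ∧ ∀ c : Crv 4 Z.W,
      (∀ p, Z.π (c.ι p) ∈ Z.O₂) → (∀ p q, ψ (Z.π (c.ι p)) = ψ (Z.π (c.ι q))) →
      (dg dZ c (Bd.can 4 Z.W) : ℝ) + ∑ e, ρ e * μ e c = ∑ k, a k * dg dZ c (B (.inl k)) +
        ∑ l, (Z.J l + ∑ k, a k * Z.mo k l) * dg dZ c (B (.inr l)) := by
  obtain ⟨k, m, χ, M, L, c, n, ρ, hχ, h1, h2, rfl, t, ht⟩ := h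
  refine ⟨k, ρ, fun e C => (dg dZ C (pull Z.π (M e))).toNat, fun e => (h1 e).2.2.2.2,
    fun C h3 h4 => ?_⟩
  have hp := fun {L : Bd V.W} (h : IsLB 4 L) => isLB_pull C (lb_pull Z.bl.cont Z.bl.hol h)
  have k1 : ∀ e, ((m e : ℝ) * dg dZ C (pull Z.π (Bd.can 4 V.W)) +
      (dg dZ C (pull Z.π (M e))).toNat) = ∑ l, (n e l : ℝ) / c e * (dg dZ C (B (.inl l)) +
        ∑ j, (Z.mo l j : ℝ) * dg dZ C (B (.inr j))) := fun e => by
    have k2 : (c e : ℝ) ≠ 0 := by exact_mod_cast (h1 e).2.2.2.1.ne'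
    have j1 := Val.L44.lb_pow (V := V) isLB_can (m e)
    have j2 := fun e => Val.L44.lb_mul (Val.L44.lb_pow (V := V) isLB_can (m e)) (h1 e).1
    have k3 := dg_cmp Z hB hψ (fun e => (h1 e).2.2.1) (fun e => Val.L44.lb_pow (j2 e) (c e)) ht C
      h4 e
    have k4 : dg dZ C (pull Z.π ((((Bd.can 4 V.W).pow (m e)).mul (M e)).pow (c e))) =
        c e * (m e * dg dZ C (pull Z.π (Bd.can 4 V.W)) + dg dZ C (pull Z.π (M e))) := by
      rw [← dg_pow C (hp isLB_can), ← dg_mul C (L := (pull Z.π (Bd.can 4 V.W)).pow (m e))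
        (hp j1) (hp (h1 e).1), ← dg_pow C (L := ((pull Z.π (Bd.can 4 V.W)).pow (m e)).mul
          (pull Z.π (M e))) (hp (j2 e))]
      rfl
    have k5 := congrArg (Int.cast (R := ℝ)) (k4.symm.trans k3)
    rw [← Int.cast_natCast (dg dZ C (pull Z.π (M e))).toNat, Int.toNat_of_nonneg
      (nef_pull Z.bl.cont Z.bl.hol C hχ.toIsHermitian (h1 e).1 (h1 e).2.1)]
    push_cast at k5
    simp only [div_mul_eq_mul_div, ← Finset.sum_div]
    rw [eq_div_iff k2, mul_comm, k5]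
    simp only [mul_add, Finset.sum_add_distrib, Finset.sum_mul, Finset.mul_sum, mul_assoc]
    rw [Finset.sum_comm]
  have k4 : ∑ l, disc ρ c n l * (dg dZ C (B (.inl l)) +
      ∑ j, (Z.mo l j : ℝ) * dg dZ C (B (.inr j))) =
      dg dZ C (pull Z.π (Bd.can 4 V.W)) + ∑ e, ρ e * (dg dZ C (pull Z.π (M e))).toNat := by
    simp only [disc, Finset.sum_mul, mul_div_assoc, mul_assoc]
    rw [Finset.sum_comm]
    simp only [← Finset.mul_sum, ← k1]
    simp only [mul_add, Finset.sum_add_distrib, ← mul_assoc, ← Finset.sum_mul, h2, one_mul]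
  rw [dg_can Z hB C h3]
  push_cast
  rw [add_right_comm, ← k4]
  simp only [mul_add, add_mul, Finset.sum_add_distrib, Finset.sum_mul, Finset.mul_sum, mul_assoc]
  rw [Finset.sum_comm (f := fun l k => disc ρ c n k * (Z.mo k l * (dg dZ C (B (.inr l)) : ℝ)))]
  ring

end Vale.Agent.P277Z.Cls.Sli
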