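import Vale.Agent.P277Z.Cls.Sk
import Vale.Agent.P277Z.Luf.Hol

/-!
# P277, block CLS: lemmas for the row ZC
-/

set_option linter.all false
set_option maxSynthPendingDepth 3

open scoped Manifold ContDiff Topology
open Vale.Agent.P272.K Vale.Agent.P285.H281.FD Vale.Agent.P277 Set Filter
open Vale.Agent.P277Z.Slc (LEq lin)
open Vale.Agent.P277Z.Pj (Prp Prj PMap SecD)
open Vale.Agent.P277Z.Coh (LBOn ScAt)

noncomputable section

namespace Vale.Agent.P277Z.Cls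

namespace ZcH

theorem zsum {ι : Type} (s : Finset ι) {a : ℂ} (h : a ≠ 0) (e : ι → ℤ) :
    a ^ (∑ i ∈ s, e i) = ∏ i ∈ s, a ^ e i := by
  classical
  induction s using Finset.induction_on with
  | empty => simp
  | insert i s hi ih => rw [Finset.sum_insert hi, Finset.prod_insert hi, zpow_add₀ h, ih]

theorem chi {α ι : Type} [Fintype α] [Fintype ι] {A : α → ℂ} (hA : ∀ a, A a ≠ 0) (d : ℕ)
    (c : ι → ℤ) (a : ι → α → ℤ) :
    ∏ k, A k ^ (∑ i, ((d : ℤ) * c i - 1) • a i) k =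
      (∏ k, A k ^ (∑ i, c i • a i) k) ^ d / ∏ i, ∏ k, A k ^ a i k := by
  rw [Finset.prod_comm, ← Finset.prod_pow, ← Finset.prod_div_distrib]
  refine Finset.prod_congr rfl fun k _ => ?_
  rw [← zsum _ (hA k), ← zpow_natCast, ← zpow_mul, ← zpow_sub₀ (hA k)]
  congr 1
  simp only [Finset.sum_apply, Pi.smul_apply, smul_eq_mul, Finset.sum_mul, ← Finset.sum_sub_distrib]
  exact Finset.sum_congr rfl fun i _ => by ring

theorem quo {ι : Type} [Fintype ι] {u : ι → ℂ} (hu : ∀ i, u i ≠ 0) (d : ℕ) (c : ι → ℤ) (g v : ℂ) :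
    g * (v * ∏ i, u i ^ c i) ^ d / ∏ i, u i = g * v ^ d * ∏ i, u i ^ ((d : ℤ) * c i - 1) := by
  rw [mul_pow, ← mul_assoc, mul_div_assoc, ← Finset.prod_pow, ← Finset.prod_div_distrib]
  congr 1
  refine Finset.prod_congr rfl fun i _ => ?_
  rw [zpow_sub₀ (hu i), zpow_one, ← zpow_natCast, ← zpow_mul, mul_comm]

theorem mon {ι κ : Type} [Fintype ι] (ex : Finset κ) {ζ : κ → ℂ} (hζ : ∀ l ∈ ex, ζ l ≠ 0)
    (v : ι → ℂ) (o : ι → κ → ℤ) (c : ι → ℤ) :
    ∏ i, (v i * ∏ l ∈ ex, ζ l ^ o i l) ^ c i =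
      (∏ i, v i ^ c i) * ∏ l ∈ ex, ζ l ^ ∑ i, o i l * c i := by
  simp only [mul_zpow, Finset.prod_mul_distrib]
  congr 1
  simp only [← Finset.prod_zpow]
  rw [Finset.prod_comm]
  refine Finset.prod_congr rfl fun l hl => ?_
  rw [zsum _ (hζ l hl)]
  exact Finset.prod_congr rfl fun i _ => (zpow_mul _ _ _).symm

variable {W : Type} [TopologicalSpace W] [ChartedSpace (Cm 4) W]

theorem leq_hol {G : Set W} {w : W} {ζ : W → ℂ} (h : LEq 4 G w ζ) : Hol 4 ζ w :=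
  fun e he => (h.2 e he).1

theorem ne_ex {κ : Type} {G : κ → Set W} (ex : Finset κ) {ζ : κ → W → ℂ} {w : W}
    (hζ : ∀ l, LEq 4 (G l) w (ζ l)) : ∀ᶠ v in 𝓝 w, v ∉ Ex G ex ↔ ∀ l ∈ ex, ζ l v ≠ 0 := by
  filter_upwards [(eventually_all_finset ex).2 fun l _ => (hζ l).1] with v h
  refine ⟨fun hv l hl h0 => hv (mem_biUnion hl ((h l hl).1 h0)), fun h' hv => ?_⟩
  obtain ⟨l, hl, hv⟩ := mem_iUnion₂.1 hv
  exact h' l hl ((h l hl).2 hv)

theorem ex_near {κ : Type} {G : κ → Set W} {ex : Finset κ} {ζ : κ → W → ℂ} {w : W}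
    (hζ : ∀ l, LEq 4 (G l) w (ζ l)) (hw : w ∉ Ex G ex) : ∀ᶠ v in 𝓝 w, v ∉ Ex G ex := by
  have hne := (ne_ex ex hζ).self_of_nhds.1 hw
  filter_upwards [ne_ex ex hζ, (eventually_all_finset ex).2 fun l hl =>
    (leq_hol (hζ l)).ne_near (hne l hl)] with v h1 h2 using h1.2 h2

/-- monomials times holomorphic functions -/
theorem mono {κ : Type} {G : κ → Set W} {ex : Finset κ} {ζ : κ → W → ℂ} {w : W}
    (hζ : ∀ l, LEq 4 (G l) w (ζ l)) {f h : W → ℂ} {e : κ → ℤ} (hh : Hol 4 h w)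
    (hf : ∀ᶠ v in 𝓝 w, v ∉ Ex G ex → f v = h v * ∏ l ∈ ex, ζ l v ^ e l) :
    Pole G ex f w ∧ (w ∉ Ex G ex → Hol 4 f w) := by
  constructor
  · obtain ⟨K, hK⟩ : ∃ K : ℕ, ∀ l ∈ ex, (e l).natAbs ≤ K := ⟨∑ l ∈ ex, (e l).natAbs, fun l hl =>
      Finset.single_le_sum (f := fun l => (e l).natAbs) (fun _ _ => Nat.zero_le _) hl⟩
    have hc : ContinuousAt (fun v => ‖h v * ∏ l ∈ ex, ζ l v ^ (e l + K).toNat‖) w :=
      (hh.mul (Hol.prod _ fun l _ => (leq_hol (hζ l)).pow _)).cont.norm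
    refine ⟨ζ, K, hζ, ‖h w * ∏ l ∈ ex, ζ l w ^ (e l + K).toNat‖ + 1, ?_⟩
    filter_upwards [hf, ne_ex ex hζ, hc.eventually (gt_mem_nhds (lt_add_one _))] with v h1 h2 h3 hv
    rw [mul_one]
    refine le_of_eq_of_le ?_ h3.le
    rw [h1 hv, norm_mul, norm_mul, mul_assoc, norm_prod, norm_prod, ← Finset.prod_mul_distrib]
    congr 1
    refine Finset.prod_congr rfl fun l hl => ?_
    have := hK l hl
    rw [← norm_pow, ← norm_mul, ← zpow_natCast, ← zpow_add₀ (h2.1 hv l hl), ← zpow_natCast,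
      Int.toNat_of_nonneg (by omega)]
  · intro hw
    have hne := (ne_ex ex hζ).self_of_nhds.1 hw
    refine (hh.mul (Hol.prod ex fun l hl => (leq_hol (hζ l)).zpow (hne l hl) (e l))).congr ?_
    filter_upwards [hf, ex_near hζ hw] with v h1 h2 using (h1 h2).symm

variable {O : Set W} {r : ℕ} {D : Fin (r + 1) → Set W} {ν : Fin (r + 1) → W → Cm (r + 1)}

/-- a connected set with countable images lies in a chart -/
theorem sub_chart (h : PMap 4 O D ν) {Z : Set W} (hZ : IsPreconnected Z) (hO : Z ⊆ O)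
    (hc : ∀ m, (ν m '' (Z ∩ D m)).Countable) {m : Fin (r + 1)} {w : W} (hw : w ∈ Z)
    (hm : w ∈ D m) : Z ⊆ D m := by
  classical
  have key : ∀ a b v, v ∈ D a → v ∈ D b → ‖ν a v m‖ / ‖ν a v‖ = ‖ν b v m‖ / ‖ν b v‖ := by
    intro a b v ha hb
    have h0 : ‖ν a v b‖ ≠ 0 := norm_ne_zero_iff.2 ((h.mem a b v ha).1 hb)
    have e := h.chg a b v ha hb
    generalize ν a v b = c at h0 e
    rw [e, Pi.smul_apply, norm_smul, norm_smul, mul_div_mul_left _ _ h0]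
  have hn : ∀ a v, v ∈ D a → ‖ν a v‖ ≠ 0 := fun a v ha => norm_ne_zero_iff.2 fun h0 => by
    have := h.one a v ha
    rw [h0] at this
    exact zero_ne_one this
  let ρ : W → ℝ := fun v => if h : ∃ a, v ∈ D a then ‖ν h.choose v m‖ / ‖ν h.choose v‖ else 0
  have hρ : ∀ a, ∀ v ∈ D a, ρ v = ‖ν a v m‖ / ‖ν a v‖ := fun a v hv => by
    have e : ∃ a, v ∈ D a := ⟨a, hv⟩
    exact (dif_pos e).trans (key _ _ v e.choose_spec hv)
  have hcont : ContinuousOn ρ Z := fun v hv => by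
    obtain ⟨a, ha⟩ := (h.cover v).1 (hO hv)
    have c1 : ContinuousAt (ν a) v := continuousAt_pi.2 fun l => Pj.holF_cont (h.hol a v ha l)
    refine (((Pj.holF_cont (h.hol a v ha m)).norm.div c1.norm (hn a v ha)).congr ?_).continuousWithinAt
    filter_upwards [(h.isOpen a).mem_nhds ha] with x hx using (hρ a x hx).symm
  have hcn : (ρ '' Z).Countable := by
    refine (countable_iUnion fun a => (hc a).image fun η => ‖η m‖ / ‖η‖).mono ?_
    rintro _ ⟨v, hv, rfl⟩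
    obtain ⟨a, ha⟩ := (h.cover v).1 (hO hv)
    exact mem_iUnion.2 ⟨a, _, ⟨v, ⟨hv, ha⟩, rfl⟩, (hρ a v ha).symm⟩
  have hs := hcn.isTotallyDisconnected _ subset_rfl (hZ.image ρ hcont)
  intro v hv
  obtain ⟨a, ha⟩ := (h.cover v).1 (hO hv)
  have e := hs (mem_image_of_mem ρ hv) (mem_image_of_mem ρ hw)
  rw [hρ a v ha, hρ m w hm, h.one m w hm, norm_one] at e
  refine (h.mem a m v ha).2 fun h0 => ?_
  rw [h0, norm_zero, zero_div] at e
  exact one_div_ne_zero (hn m w hm) e.symm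

theorem prp_cont {N : ℕ} {t : W → Cm N} {Ω : Set (Cm N)} (h : Prp 4 O t Ω) {w : W} (hw : w ∈ O) :
    ContinuousAt t w := continuousAt_pi.2 fun i => Pj.holF_cont (h.hol w hw i)

theorem prp_res {N : ℕ} {t : W → Cm N} {Ω Ω' : Set (Cm N)} (h : Prp 4 O t Ω) (ho : IsOpen Ω')
    (hs : Ω' ⊆ Ω) : Prp 4 (O ∩ t ⁻¹' Ω') t Ω' where
  isOpen := ContinuousOn.isOpen_inter_preimage
    (fun w hw => (prp_cont h hw).continuousWithinAt) h.isOpen ho
  isOpen' := ho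
  hol w hw := h.hol w hw.1
  maps w hw := hw.2
  proper K hK hc := by
    have : O ∩ t ⁻¹' Ω' ∩ t ⁻¹' K = O ∩ t ⁻¹' K :=
      Set.ext fun w => ⟨fun hw => ⟨hw.1.1, hw.2⟩, fun hw => ⟨⟨hw.1, hK hw.2⟩, hw.2⟩⟩
    rw [this]
    exact h.proper K (hK.trans hs) hc

theorem prj_res {N : ℕ} {t : W → Cm N} (h : Prj 4 O t) {O' : Set W} (ho : IsOpen O')
    (hs : O' ⊆ O) : Prj 4 O' t := by
  obtain ⟨r, D, ν, h⟩ := h
  exact ⟨r, fun m => D m ∩ O', ν, ⟨fun m => (h.isOpen m).inter ho,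
    fun w => ⟨fun hw => ((h.cover w).1 (hs hw)).imp fun _ hm => ⟨hm, hw⟩, fun ⟨_, hm⟩ => hm.2⟩,
    fun m w hw => h.hol m w hw.1, fun m w hw => h.one m w hw.1,
    fun m l w hw => (and_iff_left hw.2).trans (h.mem m l w hw.1),
    fun m l w hw hl => h.chg m l w hw.1 hl.1⟩,
    fun m w hw w' hw' => h.inj m w hw.1 w' hw'.1, fun m w hw => h.imm m w hw.1⟩

/-- the pull back of the tautological bundle -/
abbrev om (D : Fin (r + 1) → Set W) (ν : Fin (r + 1) → W → Cm (r + 1)) : Bd W :=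
  ⟨Fin (r + 1), D, fun m l v => ν l v m⟩

theorem om_lb (h : PMap 4 O D ν) {O' : Set W} (hs : O' ⊆ O) : LBOn 4 O' (om D ν) where
  isOpen := h.isOpen
  cover x hx := (h.cover x).1 (hs hx)
  holo i j x _ _ hj := h.hol j x hj i
  ne_zero i j x _ hi hj := (h.mem j i x hj).1 hi
  cocycle i j k x _ _ hj hk := (mul_comm _ _).trans (congrFun (h.chg k j x hk hj) i).symm

theorem om_sc (h : PMap 4 O D ν) {m : Fin (r + 1)} {v : W} (hv : v ∈ D m) :
    ScAt (Hol 4) (om D ν) (fun l x => ν m x l) v :=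
  fun i _ => ⟨h.hol m v hv i, fun j hj => (congrFun (h.chg m j v hv hj) i).trans (mul_comm _ _)⟩

end ZcH

end Vale.Agent.P277Z.Cls
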